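import Vale.Agent.P040.MathlibUsed
import Vale.Agent.P040.Drawing

set_option linter.all false

section

/-!
# Continuous angles of the difference of two disjoint paths
-/

namespace Vale.Agent.P040.Page

open Set Complex

/-- Two disjoint paths have a continuous angle of their difference. -/
theorem exists_angle {α β : ℝ → ℂ} (hα : ContinuousOn α (Icc 0 1)) (hβ : ContinuousOn β (Icc 0 1))
    (hne : ∀ s ∈ Icc (0 : ℝ) 1, ∀ t ∈ Icc (0 : ℝ) 1, α s ≠ β t) :
    ∃ θ : ℝ × ℝ → ℝ, Continuous θ ∧ ∀ s ∈ Icc (0 : ℝ) 1, ∀ t ∈ Icc (0 : ℝ) 1,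
      ∃ r : ℝ, 0 < r ∧ (α s - β t).re = r * Real.cos (θ (s, t)) ∧
        (α s - β t).im = r * Real.sin (θ (s, t)) := by
  let c : ℝ → ℝ := fun t => (projIcc (0 : ℝ) 1 zero_le_one t : ℝ)
  have hc : Continuous c := continuous_subtype_val.comp continuous_projIcc
  have hcm : ∀ t, c t ∈ Icc (0 : ℝ) 1 := fun t => (projIcc (0 : ℝ) 1 zero_le_one t).2
  have hceq : ∀ t ∈ Icc (0 : ℝ) 1, c t = t := by
    intro t ht
    simp only [c]
    rw [projIcc_of_mem zero_le_one ht]
  have hα' : Continuous (fun t => α (c t)) := hα.comp_continuous hc hcm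
  have hβ' : Continuous (fun t => β (c t)) := hβ.comp_continuous hc hcm
  let F : ℝ × ℝ → ℂ := fun p => α (c p.1) - β (c p.2)
  have hF : Continuous F := (hα'.comp continuous_fst).sub (hβ'.comp continuous_snd)
  have hF0 : ∀ p, F p ≠ 0 := fun p => sub_ne_zero.2 (hne _ (hcm _) _ (hcm _))
  have hsc : IsSimplyConnected (univ : Set (ℝ × ℝ)) := by
    have := (convex_univ : Convex ℝ (univ : Set (ℝ × ℝ))).contractibleSpace univ_nonempty
    unfold IsSimplyConnected
    infer_instance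
  obtain ⟨L, hL, hLe⟩ := exists_continuousOn_eqOn_exp_comp hsc isOpen_univ hF.continuousOn
    (by rintro ⟨p, -, hp⟩; exact hF0 p hp)
  have hL' : Continuous L := by rwa [← continuousOn_univ]
  refine ⟨fun p => (L p).im, continuous_im.comp hL', ?_⟩
  intro s hs t ht
  refine ⟨Real.exp (L (s, t)).re, Real.exp_pos _, ?_⟩
  have h1 : exp (L (s, t)) = α s - β t := by
    have := hLe (mem_univ (s, t))
    simp only [Function.comp_apply, F, hceq s hs, hceq t ht] at this
    exact this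
  rw [← h1, exp_re, exp_im]
  exact ⟨rfl, rfl⟩

/-- A path in a closed half-plane does not turn by more than a half-turn. -/
theorem half_turn {θ : ℝ → ℝ} {a b c : ℝ} (hθ : ContinuousOn θ (uIcc a b))
    (hs : ∀ s ∈ uIcc a b, 0 ≤ Real.sin (θ s - c)) (ha : c ≤ θ a) (ha' : θ a ≤ c + Real.pi) :
    c ≤ θ b ∧ θ b ≤ c + Real.pi := by
  have hpi := Real.pi_pos
  have hiv := intermediate_value_uIcc hθ
  constructor
  · by_contra h
    push Not at h
    have hm : max (θ b) (c - Real.pi / 2) ∈ uIcc (θ a) (θ b) := by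
      rw [uIcc_of_ge (h.le.trans ha)]
      exact ⟨le_max_left _ _, max_le (h.le.trans ha) (by linarith only [ha, hpi])⟩
    obtain ⟨s, hs1, hs2⟩ := hiv hm
    have h1 := hs s hs1
    rw [hs2] at h1
    have h2 : Real.sin (max (θ b) (c - Real.pi / 2) - c) < 0 := by
      apply Real.sin_neg_of_neg_of_neg_pi_lt
      · have : max (θ b) (c - Real.pi / 2) < c := max_lt h (by linarith only [hpi])
        linarith only [this]
      · have := le_max_right (θ b) (c - Real.pi / 2)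
        linarith only [hpi, this]
    linarith only [h1, h2]
  · by_contra h
    push Not at h
    have hm : min (θ b) (c + 3 * Real.pi / 2) ∈ uIcc (θ a) (θ b) := by
      rw [uIcc_of_le (by linarith only [ha', h])]
      refine ⟨le_min (by linarith) (by linarith only [ha', hpi]), min_le_left _ _⟩
    obtain ⟨s, hs1, hs2⟩ := hiv hm
    have h1 := hs s hs1
    rw [hs2] at h1
    have h2 : Real.sin (min (θ b) (c + 3 * Real.pi / 2) - c) < 0 := by
      rw [← Real.sin_sub_two_pi]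
      apply Real.sin_neg_of_neg_of_neg_pi_lt
      · have := min_le_right (θ b) (c + 3 * Real.pi / 2)
        linarith only [hpi, this]
      · have : c + Real.pi < min (θ b) (c + 3 * Real.pi / 2) := lt_min h (by linarith only [hpi])
        linarith only [this]
    linarith

end Vale.Agent.P040.Page
end

section

/-!
# Arcs in a half-plane with interleaved ends meet
-/

namespace Vale.Agent.P040

theorem IsArc.symm {S : Set Plane} {p q : Plane} (h : IsArc S p q) : IsArc S q p := by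
  obtain ⟨γ, h1, h2, h3, h4, h5⟩ := h
  have hm : Set.MapsTo (fun t : ℝ => 1 - t) (Set.Icc 0 1) (Set.Icc 0 1) := by
    intro t ht
    exact ⟨by linarith only [ht.2], by linarith only [ht.1]⟩
  refine ⟨fun t => γ (1 - t), h1.comp (by fun_prop) hm, ?_, by simp [h4], by simp [h3], ?_⟩
  · intro s hs t ht hst
    have := h2 (hm hs) (hm ht) hst
    linarith only [this]
  · rw [← h5]
    ext x
    constructor
    · rintro ⟨t, ht, rfl⟩
      exact ⟨1 - t, hm ht, rfl⟩
    · rintro ⟨t, ht, rfl⟩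
      exact ⟨1 - t, hm ht, by simp⟩

namespace Page

open Set Complex

theorem half_cross {α β : ℝ → ℂ} (hα : ContinuousOn α (Icc 0 1)) (hβ : ContinuousOn β (Icc 0 1))
    {x1 x2 x3 x4 : ℝ} (h12 : x1 < x2) (h23 : x2 < x3) (h34 : x3 < x4)
    (ha0 : α 0 = x1) (ha1 : α 1 = x3) (hb0 : β 0 = x2) (hb1 : β 1 = x4)
    (ha : ∀ s ∈ Icc (0 : ℝ) 1, 0 ≤ (α s).im) (hb : ∀ s ∈ Icc (0 : ℝ) 1, 0 ≤ (β s).im) :
    ∃ s ∈ Icc (0 : ℝ) 1, ∃ t ∈ Icc (0 : ℝ) 1, α s = β t := by
  by_contra hne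
  push Not at hne
  obtain ⟨θ, hθc, hθ⟩ := exists_angle hα hβ hne
  have hpi := Real.pi_pos
  have h0 : (0 : ℝ) ∈ Icc (0 : ℝ) 1 := by simp only [mem_Icc, Std.le_refl, zero_le_one, and_self]
  have h1 : (1 : ℝ) ∈ Icc (0 : ℝ) 1 := by simp only [mem_Icc, zero_le_one, Std.le_refl, and_self]
  -- the four corners
  have c10 : Real.sin (θ (1, 0)) = 0 ∧ 0 < Real.cos (θ (1, 0)) := by
    obtain ⟨r, hr, e1, e2⟩ := hθ 1 h1 0 h0
    rw [ha1, hb0] at e1 e2
    simp only [sub_re, ofReal_re, sub_im, ofReal_im, sub_zero] at e1 e2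
    constructor
    · rcases mul_eq_zero.1 e2.symm with h | h
      · exact absurd h hr.ne'
      · exact h
    · by_contra h
      push Not at h
      nlinarith only [h23, e1, hr, h]
  have c00 : Real.sin (θ (0, 0)) = 0 ∧ Real.cos (θ (0, 0)) < 0 := by
    obtain ⟨r, hr, e1, e2⟩ := hθ 0 h0 0 h0
    rw [ha0, hb0] at e1 e2
    simp only [sub_re, ofReal_re, sub_im, ofReal_im, sub_zero] at e1 e2
    constructor
    · rcases mul_eq_zero.1 e2.symm with h | h
      · exact absurd h hr.ne'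
      · exact h
    · by_contra h
      push Not at h
      nlinarith only [h12, e1, hr, h]
  have c11 : Real.sin (θ (1, 1)) = 0 ∧ Real.cos (θ (1, 1)) < 0 := by
    obtain ⟨r, hr, e1, e2⟩ := hθ 1 h1 1 h1
    rw [ha1, hb1] at e1 e2
    simp only [sub_re, ofReal_re, sub_im, ofReal_im, sub_zero] at e1 e2
    constructor
    · rcases mul_eq_zero.1 e2.symm with h | h
      · exact absurd h hr.ne'
      · exact h
    · by_contra h
      push Not at h
      nlinarith only [h34, e1, hr, h]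
  have c01 : Real.sin (θ (0, 1)) = 0 ∧ Real.cos (θ (0, 1)) < 0 := by
    obtain ⟨r, hr, e1, e2⟩ := hθ 0 h0 1 h1
    rw [ha0, hb1] at e1 e2
    simp only [sub_re, ofReal_re, sub_im, ofReal_im, sub_zero] at e1 e2
    constructor
    · rcases mul_eq_zero.1 e2.symm with h | h
      · exact absurd h hr.ne'
      · exact h
    · by_contra h
      push Not at h
      nlinarith only [h12, h23, h34, e1, hr, h]
  -- the four sides
  have s0 : ∀ s ∈ Icc (0 : ℝ) 1, 0 ≤ Real.sin (θ (s, 0)) := by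
    intro s hs
    obtain ⟨r, hr, e1, e2⟩ := hθ s hs 0 h0
    rw [hb0] at e2
    simp only [sub_im, ofReal_im, sub_zero] at e2
    have := ha s hs
    rw [e2] at this
    exact (mul_nonneg_iff_of_pos_left hr).1 this
  have s1 : ∀ s ∈ Icc (0 : ℝ) 1, 0 ≤ Real.sin (θ (s, 1)) := by
    intro s hs
    obtain ⟨r, hr, e1, e2⟩ := hθ s hs 1 h1
    rw [hb1] at e2
    simp only [sub_im, ofReal_im, sub_zero] at e2
    have := ha s hs
    rw [e2] at this
    exact (mul_nonneg_iff_of_pos_left hr).1 this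
  have t0 : ∀ t ∈ Icc (0 : ℝ) 1, Real.sin (θ (0, t)) ≤ 0 := by
    intro t ht
    obtain ⟨r, hr, e1, e2⟩ := hθ 0 h0 t ht
    rw [ha0] at e2
    simp only [sub_im, ofReal_im, zero_sub] at e2
    have := hb t ht
    by_contra h
    push Not at h
    nlinarith only [e2, this, hr, h]
  have t1 : ∀ t ∈ Icc (0 : ℝ) 1, Real.sin (θ (1, t)) ≤ 0 := by
    intro t ht
    obtain ⟨r, hr, e1, e2⟩ := hθ 1 h1 t ht
    rw [ha1] at e2
    simp only [sub_im, ofReal_im, zero_sub] at e2
    have := hb t ht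
    by_contra h
    push Not at h
    nlinarith only [e2, this, hr, h]
  -- normalise
  set c := θ (1, 0) with hc
  have hcos : Real.cos c = 1 := by
    have := Real.sin_sq_add_cos_sq c
    rw [c10.1] at this
    have h2 : (Real.cos c - 1) * (Real.cos c + 1) = 0 := by linarith only [this]
    rcases mul_eq_zero.1 h2 with h | h
    · linarith only [h]
    · linarith [c10.2]
  have hsub : ∀ x, Real.sin (x - c) = Real.sin x := by
    intro x; rw [Real.sin_sub, hcos, c10.1]; ring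
  have hcsub : ∀ x, Real.cos (x - c) = Real.cos x := by
    intro x; rw [Real.cos_sub, hcos, c10.1]; ring
  have hu10 : uIcc (1 : ℝ) 0 = Icc 0 1 := by rw [uIcc_of_ge zero_le_one]
  have hu01 : uIcc (0 : ℝ) 1 = Icc 0 1 := by rw [uIcc_of_le zero_le_one]
  have B := half_turn (θ := fun s => θ (s, 0)) (a := 1) (b := 0) (c := c)
    (hθc.comp (by fun_prop)).continuousOn
    (by intro s hs; rw [hu10] at hs; rw [hsub]; exact s0 s hs) le_rfl (by
      show c ≤ c + Real.pi
      linarith only [hpi])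
  have R := half_turn (θ := fun t => θ (1, t)) (a := 0) (b := 1) (c := c - Real.pi)
    (hθc.comp (by fun_prop)).continuousOn
    (by
      intro s hs; rw [hu01] at hs
      rw [show θ (1, s) - (c - Real.pi) = (θ (1, s) - c) + Real.pi by ring, Real.sin_add_pi, hsub]
      linarith only [t1 s hs]) (by show c - Real.pi ≤ c; linarith only [hpi]) (by
      show c ≤ c - Real.pi + Real.pi
      linarith only [])
  have k11 : θ (1, 1) = c - Real.pi := by
    by_contra hne'
    have h3 : -Real.pi < θ (1, 1) - c := by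
      rcases lt_or_eq_of_le R.1 with h | h
      · linarith only [h]
      · exact absurd h.symm hne'
    have h4 : θ (1, 1) - c ≤ 0 := by linarith only [R]
    rcases lt_or_eq_of_le h4 with h | h
    · have := Real.sin_neg_of_neg_of_neg_pi_lt h h3
      rw [hsub, c11.1] at this
      exact lt_irrefl _ this
    · have h5 := hcsub (θ (1, 1))
      rw [h, Real.cos_zero] at h5
      linarith only [c11, h5]
  have T := half_turn (θ := fun s => θ (s, 1)) (a := 1) (b := 0) (c := c - 2 * Real.pi)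
    (hθc.comp (by fun_prop)).continuousOn
    (by
      intro s hs; rw [hu10] at hs
      rw [show θ (s, 1) - (c - 2 * Real.pi) = (θ (s, 1) - c) + 2 * Real.pi by ring,
        Real.sin_add_two_pi, hsub]
      exact s1 s hs) (by show c - 2 * Real.pi ≤ θ (1, 1); rw [k11]; linarith only [hpi]) (by
      show θ (1, 1) ≤ c - 2 * Real.pi + Real.pi
      rw [k11]; linarith only [])
  have k01 : c - Real.pi ≤ θ (0, 1) ∧ θ (0, 1) ≤ c - Real.pi + Real.pi := by
    refine ⟨?_, by linarith only [T]⟩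
    by_contra h
    push Not at h
    have h3 : 0 ≤ θ (0, 1) - c + 2 * Real.pi := by linarith only [T]
    rcases lt_or_eq_of_le h3 with h4 | h4
    · have := Real.sin_pos_of_pos_of_lt_pi h4 (by linarith only [h])
      rw [Real.sin_add_two_pi, hsub, c01.1] at this
      exact lt_irrefl _ this
    · have h5 := hcsub (θ (0, 1))
      rw [← Real.cos_add_two_pi, ← h4, Real.cos_zero] at h5
      linarith only [c01, h5]
  have Lf := half_turn (θ := fun t => θ (0, t)) (a := 1) (b := 0) (c := c - Real.pi)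
    (hθc.comp (by fun_prop)).continuousOn
    (by
      intro s hs; rw [hu10] at hs
      rw [show θ (0, s) - (c - Real.pi) = (θ (0, s) - c) + Real.pi by ring, Real.sin_add_pi, hsub]
      linarith [t0 s hs]) k01.1 k01.2
  have h6 : θ (0, 0) - c = 0 := by linarith [Lf.2, B.1]
  have h7 := hcsub (θ (0, 0))
  rw [h6, Real.cos_zero] at h7
  linarith only [c00, h7]

/-- Two arcs in the closed upper (or lower) half-plane with interleaved ends on the axis meet. -/
theorem arcs_meet {S T : Set Plane} {p q p' q' : Plane} (hS : IsArc S p q) (hT : IsArc T p' q')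
    (hp : p.2 = 0) (hq : q.2 = 0) (hp' : p'.2 = 0) (hq' : q'.2 = 0)
    (h12 : p.1 < p'.1) (h23 : p'.1 < q.1) (h34 : q.1 < q'.1)
    (hs : (∀ z ∈ S, 0 ≤ z.2) ∧ (∀ z ∈ T, 0 ≤ z.2) ∨ (∀ z ∈ S, z.2 ≤ 0) ∧ (∀ z ∈ T, z.2 ≤ 0)) :
    (S ∩ T).Nonempty := by
  obtain ⟨γ, a1, a2, a3, a4, a5⟩ := hS
  obtain ⟨δ, b1, b2, b3, b4, b5⟩ := hT
  have hmS : ∀ s ∈ Icc (0 : ℝ) 1, γ s ∈ S := fun s hs => a5 ▸ mem_image_of_mem γ hs
  have hmT : ∀ s ∈ Icc (0 : ℝ) 1, δ s ∈ T := fun s hs => b5 ▸ mem_image_of_mem δ hs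
  have key : ∀ ε : ℝ, (ε = 1 ∨ ε = -1) → (∀ z ∈ S, 0 ≤ ε * z.2) → (∀ z ∈ T, 0 ≤ ε * z.2) →
      (S ∩ T).Nonempty := by
    intro ε hε hS' hT'
    have hε0 : ε ≠ 0 := by rcases hε with h | h <;> rw [h] <;> norm_num
    obtain ⟨s, hs, t, ht, hst⟩ := half_cross (α := fun s => ((γ s).1 : ℂ) + (ε * (γ s).2 : ℝ) * I)
      (β := fun s => ((δ s).1 : ℂ) + (ε * (δ s).2 : ℝ) * I)
      (by (clear * - a1; fun_prop)) (by fun_prop) h12 h23 h34
      (by simp [a3, hp]) (by simp [a4, hq]) (by simp [b3, hp']) (by simp [b4, hq'])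
      (by intro s hs; simpa only [ofReal_mul, add_im, ofReal_im, mul_im, mul_re, ofReal_re, mul_zero, sub_zero, I_im, mul_one,     zero_mul, add_zero, I_re, zero_add] using hS' _ (hmS s hs)) (by intro s hs; simpa only [ofReal_mul, add_im, ofReal_im, mul_im, mul_re, ofReal_re, mul_zero, sub_zero, I_im, mul_one,     zero_mul, add_zero, I_re, zero_add] using hT' _ (hmT s hs))
    refine ⟨γ s, hmS s hs, ?_⟩
    have e1 : (γ s).1 = (δ t).1 := by simpa using congrArg Complex.re hst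
    have e2 : (γ s).2 = (δ t).2 := by
      have : ε * (γ s).2 = ε * (δ t).2 := by simpa only [mul_eq_mul_left_iff, ofReal_mul, add_im, ofReal_im, mul_im, mul_re, ofReal_re, mul_zero, sub_zero,     I_im, mul_one, zero_mul, add_zero, I_re, zero_add] using congrArg Complex.im hst
      exact mul_left_cancel₀ hε0 this
    rw [Prod.ext e1 e2]
    exact hmT t ht
  rcases hs with ⟨h1, h2⟩ | ⟨h1, h2⟩
  · exact key 1 (Or.inl rfl) (by simpa only [one_mul, Prod.forall] using h1) (by simpa only [one_mul, Prod.forall] using h2)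
  · exact key (-1) (Or.inr rfl) (by intro z hz; linarith only [h1 z hz]) (by
      intro z hz; linarith only [h2 z hz])

end Page

end Vale.Agent.P040
end

section

/-!
# Lifting curves through the parametrisation of an arc, and oriented charts at a crossing
-/

namespace Vale.Agent.P040.Unc

open Set Filter Topology

/-- A curve inside an arc lifts continuously to the parameter interval. -/
theorem exists_lift {γ : ℝ → Plane} (hc : ContinuousOn γ (Icc 0 1)) (hi : InjOn γ (Icc 0 1))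
    {κ : ℝ → Plane} {c d : ℝ} (hκ : ContinuousOn κ (Icc c d))
    (hmem : ∀ u ∈ Icc c d, κ u ∈ γ '' Icc 0 1) :
    ∃ h : ℝ → ℝ, ContinuousOn h (Icc c d) ∧ ∀ u ∈ Icc c d, h u ∈ Icc (0 : ℝ) 1 ∧ γ (h u) = κ u := by
  have hcont : Continuous ((Icc (0 : ℝ) 1).domRestrict γ) := continuousOn_iff_continuous_domRestrict.1 hc
  have hinj : Function.Injective ((Icc (0 : ℝ) 1).domRestrict γ) := injOn_iff_injective.1 hi
  have hemb := hcont.isClosedEmbedding hinj
  choose! h' h1 h2 using hmem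
  let g : Icc c d → Icc (0 : ℝ) 1 := fun u => ⟨h' u, h1 u u.2⟩
  have hg : Continuous g := by
    rw [hemb.isInducing.continuous_iff]
    have : (Icc (0 : ℝ) 1).domRestrict γ ∘ g = (Icc c d).domRestrict κ := by
      funext u
      exact h2 u u.2
    rw [this]
    exact continuousOn_iff_continuous_domRestrict.1 hκ
  refine ⟨h', ?_, fun u hu => ⟨h1 u hu, h2 u hu⟩⟩
  rw [continuousOn_iff_continuous_domRestrict]
  exact continuous_subtype_val.comp hg

/-- Data of a proper crossing with both arcs traversed in the positive direction of the axes. -/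
theorem oriented_chart {γ δ : ℝ → Plane} (hγ : ContinuousOn γ (Icc 0 1)) (hγi : InjOn γ (Icc 0 1))
    (hδ : ContinuousOn δ (Icc 0 1)) (hδi : InjOn δ (Icc 0 1)) {p : Plane}
    (hX : CrossAt (γ '' Icc 0 1) (δ '' Icc 0 1) p) {O : Set Plane} (hO : IsOpen O) (hp : p ∈ O) :
    ∃ ε : ℝ, 0 < ε ∧ ∃ H : Plane → Plane, ∃ h k : ℝ → ℝ,
      ContinuousOn H (Metric.closedBall 0 ε) ∧ InjOn H (Metric.closedBall 0 ε) ∧
      H '' Metric.closedBall 0 ε ⊆ O ∧ H (0, 0) = p ∧
      (∀ z ∈ Metric.closedBall (0 : Plane) ε, (H z ∈ γ '' Icc 0 1 ↔ z.2 = 0)) ∧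
      (∀ z ∈ Metric.closedBall (0 : Plane) ε, (H z ∈ δ '' Icc 0 1 ↔ z.1 = 0)) ∧
      StrictMonoOn h (Icc (-ε) ε) ∧ StrictMonoOn k (Icc (-ε) ε) ∧
      (∀ u ∈ Icc (-ε) ε, h u ∈ Icc (0 : ℝ) 1 ∧ γ (h u) = H (u, 0)) ∧
      (∀ u ∈ Icc (-ε) ε, k u ∈ Icc (0 : ℝ) 1 ∧ δ (k u) = H (0, u)) := by
  obtain ⟨φ, hps, hp0, hS, hT⟩ := hX
  have ht : ((0 : ℝ), (0 : ℝ)) ∈ φ.target := by rw [← hp0]; exact φ.map_source hps
  have hsymm0 : φ.symm (0, 0) = p := by rw [← hp0]; exact φ.left_inv hps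
  have hn1 : φ.target ∈ 𝓝 ((0 : ℝ), (0 : ℝ)) := φ.open_target.mem_nhds ht
  have hn2 : φ.symm ⁻¹' O ∈ 𝓝 ((0 : ℝ), (0 : ℝ)) := by
    apply (φ.continuousAt_symm ht).preimage_mem_nhds
    rw [hsymm0]
    exact hO.mem_nhds hp
  obtain ⟨ε, hε, hball⟩ := Metric.nhds_basis_closedBall.mem_iff.1 (inter_mem hn1 hn2)
  have hball' : Metric.closedBall (0 : Plane) ε ⊆ φ.target ∩ φ.symm ⁻¹' O := hball
  have hcH : ContinuousOn φ.symm (Metric.closedBall (0 : Plane) ε) :=
    φ.continuousOn_symm.mono fun z hz => (hball' hz).1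
  have hiH : InjOn φ.symm (Metric.closedBall (0 : Plane) ε) :=
    φ.symm.injOn.mono fun z hz => (hball' hz).1
  have hS' : ∀ z ∈ Metric.closedBall (0 : Plane) ε, (φ.symm z ∈ γ '' Icc 0 1 ↔ z.2 = 0) := by
    intro z hz
    have := hS (φ.symm z) (φ.map_target (hball' hz).1)
    rwa [φ.right_inv (hball' hz).1] at this
  have hT' : ∀ z ∈ Metric.closedBall (0 : Plane) ε, (φ.symm z ∈ δ '' Icc 0 1 ↔ z.1 = 0) := by
    intro z hz
    have := hT (φ.symm z) (φ.map_target (hball' hz).1)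
    rwa [φ.right_inv (hball' hz).1] at this
  have hmem1 : ∀ u ∈ Icc (-ε) ε, ((u, 0) : Plane) ∈ Metric.closedBall (0 : Plane) ε := by
    intro u hu
    simp only [mem_closedBall_zero_iff, Prod.norm_mk, norm_zero, Real.norm_eq_abs]
    exact max_le (abs_le.2 hu) hε.le
  have hmem2 : ∀ u ∈ Icc (-ε) ε, ((0, u) : Plane) ∈ Metric.closedBall (0 : Plane) ε := by
    intro u hu
    simp only [mem_closedBall_zero_iff, Prod.norm_mk, norm_zero, Real.norm_eq_abs]
    exact max_le hε.le (abs_le.2 hu)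
  obtain ⟨h, hhc, hh⟩ := exists_lift hγ hγi (κ := fun u => φ.symm (u, 0)) (c := -ε) (d := ε)
    (hcH.comp (by fun_prop) hmem1) (fun u hu => (hS' _ (hmem1 u hu)).2 rfl)
  obtain ⟨k, hkc, hk⟩ := exists_lift hδ hδi (κ := fun u => φ.symm (0, u)) (c := -ε) (d := ε)
    (hcH.comp (by fun_prop) hmem2) (fun u hu => (hT' _ (hmem2 u hu)).2 rfl)
  have hhi : InjOn h (Icc (-ε) ε) := by
    intro u hu v hv huv
    have h1 := (hh u hu).2
    have h2 := (hh v hv).2
    rw [huv, h2] at h1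
    have h3 := hiH (hmem1 v hv) (hmem1 u hu) h1
    exact (congrArg Prod.fst h3).symm
  have hki : InjOn k (Icc (-ε) ε) := by
    intro u hu v hv huv
    have h1 := (hk u hu).2
    have h2 := (hk v hv).2
    rw [huv, h2] at h1
    have h3 := hiH (hmem2 v hv) (hmem2 u hu) h1
    exact (congrArg Prod.snd h3).symm
  have hle : -ε ≤ ε := by linarith only [hε]
  -- signs
  have sgn : ∀ {f : ℝ → ℝ}, ContinuousOn f (Icc (-ε) ε) → InjOn f (Icc (-ε) ε) →
      ∃ σ : ℝ, (σ = 1 ∨ σ = -1) ∧ StrictMonoOn (fun u => f (σ * u)) (Icc (-ε) ε) := by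
    intro f hf hfi
    rcases hf.strictMonoOn_of_injOn_Icc' hle hfi with hm | hm
    · exact ⟨1, Or.inl rfl, by simpa only [one_mul] using hm⟩
    · refine ⟨-1, Or.inr rfl, ?_⟩
      intro u hu v hv huv
      simp only
      apply hm
      · exact ⟨by linarith only [hv.2], by linarith only [hv.1]⟩
      · exact ⟨by linarith [hu.2], by linarith [hu.1]⟩
      · linarith
  obtain ⟨σ, hσ, hσm⟩ := sgn hhc hhi
  obtain ⟨τ, hτ, hτm⟩ := sgn hkc hki
  have hσI : ∀ u ∈ Icc (-ε) ε, σ * u ∈ Icc (-ε) ε := by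
    intro u hu
    rcases hσ with rfl | rfl
    · simpa only [one_mul, mem_Icc] using hu
    · exact ⟨by linarith [hu.2], by linarith [hu.1]⟩
  have hτI : ∀ u ∈ Icc (-ε) ε, τ * u ∈ Icc (-ε) ε := by
    intro u hu
    rcases hτ with rfl | rfl
    · simpa only [one_mul, mem_Icc] using hu
    · exact ⟨by linarith only [hu.2], by linarith only [hu.1]⟩
  have hσ0 : ∀ u : ℝ, σ * u = 0 ↔ u = 0 := by
    intro u; rcases hσ with rfl | rfl <;> simp
  have hτ0 : ∀ u : ℝ, τ * u = 0 ↔ u = 0 := by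
    intro u; rcases hτ with rfl | rfl <;> simp
  have hmaps : MapsTo (fun z : Plane => ((σ * z.1, τ * z.2) : Plane))
      (Metric.closedBall (0 : Plane) ε) (Metric.closedBall (0 : Plane) ε) := by
    intro z hz
    simp only [mem_closedBall_zero_iff, Prod.norm_def, Real.norm_eq_abs] at hz ⊢
    have h1 : |σ| = 1 := by rcases hσ with rfl | rfl <;> simp
    have h2 : |τ| = 1 := by rcases hτ with rfl | rfl <;> simp
    rwa [abs_mul, abs_mul, h1, h2, one_mul, one_mul]
  refine ⟨ε, hε, fun z => φ.symm (σ * z.1, τ * z.2), fun u => h (σ * u), fun u => k (τ * u),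
    hcH.comp (by fun_prop) hmaps, ?_, ?_, ?_, ?_, ?_, hσm, hτm, ?_, ?_⟩
  · intro z hz w hw hzw
    have h1 := hiH (hmaps hz) (hmaps hw) hzw
    have h2 := congrArg Prod.fst h1
    have h3 := congrArg Prod.snd h1
    simp only at h2 h3
    have h4 : σ * (z.1 - w.1) = 0 := by linarith only [h2]
    have h5 : τ * (z.2 - w.2) = 0 := by linarith
    rw [hσ0] at h4
    rw [hτ0] at h5
    ext <;> linarith
  · rintro y ⟨z, hz, rfl⟩
    exact (hball' (hmaps hz)).2
  · simpa using hsymm0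
  · intro z hz
    rw [hS' _ (hmaps hz)]
    exact hτ0 _
  · intro z hz
    rw [hT' _ (hmaps hz)]
    exact hσ0 _
  · intro u hu
    have := hh _ (hσI u hu)
    simpa only [mem_Icc, mul_zero] using this
  · intro u hu
    have := hk _ (hτI u hu)
    simpa only [mem_Icc, mul_zero] using this

end Vale.Agent.P040.Unc
end

section

/-!
# Paths passing above points
-/

namespace Vale.Agent.P040.Page

open Set Complex

/-- `θ` is a continuous angle of the path `γ` on `[0, 1]` seen from `v`. -/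
def IsAngle (γ : ℝ → ℂ) (v : ℂ) (θ : ℝ → ℝ) : Prop :=
  ContinuousOn θ (Icc 0 1) ∧ ∀ s ∈ Icc (0 : ℝ) 1, ∃ r : ℝ, 0 < r ∧
    (γ s - v).re = r * Real.cos (θ s) ∧ (γ s - v).im = r * Real.sin (θ s)

/-- The path `γ`, running from left to right, passes above the point `v`. -/
def Above (γ : ℝ → ℂ) (v : ℂ) : Prop := ∃ θ, IsAngle γ v θ ∧ θ 1 < θ 0

theorem same_dir {r r' x x' : ℝ} (hr : 0 < r) (hr' : 0 < r')
    (h1 : r * Real.cos x = r' * Real.cos x') (h2 : r * Real.sin x = r' * Real.sin x') :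
    Real.cos x = Real.cos x' ∧ Real.sin x = Real.sin x' := by
  have e1 := Real.sin_sq_add_cos_sq x
  have e2 := Real.sin_sq_add_cos_sq x'
  have h3 : r ^ 2 = r' ^ 2 := by
    have : r ^ 2 * (Real.sin x ^ 2 + Real.cos x ^ 2) =
        r' ^ 2 * (Real.sin x' ^ 2 + Real.cos x' ^ 2) := by
      have a1 : (r * Real.cos x) ^ 2 = (r' * Real.cos x') ^ 2 := by rw [h1]
      have a2 : (r * Real.sin x) ^ 2 = (r' * Real.sin x') ^ 2 := by rw [h2]
      linarith
    rwa [e1, e2, mul_one, mul_one] at this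
  have h4 : r = r' := by
    rw [← Real.sqrt_sq hr.le, ← Real.sqrt_sq hr'.le, h3]
  subst h4
  exact ⟨mul_left_cancel₀ hr.ne' h1, mul_left_cancel₀ hr.ne' h2⟩

theorem cos_sub_eq_one {x x' : ℝ} (h1 : Real.cos x = Real.cos x') (h2 : Real.sin x = Real.sin x') :
    Real.cos (x - x') = 1 ∧ Real.sin (x - x') = 0 := by
  rw [Real.cos_sub, Real.sin_sub, h1, h2]
  refine ⟨?_, by ring⟩
  have := Real.sin_sq_add_cos_sq x'
  linarith

theorem IsAngle.unique {γ : ℝ → ℂ} {v : ℂ} {θ θ' : ℝ → ℝ} (h : IsAngle γ v θ)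
    (h' : IsAngle γ v θ') : θ 1 - θ 0 = θ' 1 - θ' 0 := by
  have hg : ∀ s ∈ Icc (0 : ℝ) 1, Real.cos (θ s - θ' s) = 1 ∧ Real.sin (θ s - θ' s) = 0 := by
    intro s hs
    obtain ⟨r, hr, e1, e2⟩ := h.2 s hs
    obtain ⟨r', hr', e1', e2'⟩ := h'.2 s hs
    obtain ⟨a, b⟩ := same_dir hr hr' (e1.symm.trans e1') (e2.symm.trans e2')
    exact cos_sub_eq_one a b
  have hc : ContinuousOn (fun s => θ s - θ' s) (uIcc 0 1) := by
    rw [uIcc_of_le zero_le_one]
    exact h.1.sub h'.1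
  have h0 : (0 : ℝ) ∈ Icc (0 : ℝ) 1 := by simp only [mem_Icc, Std.le_refl, zero_le_one, and_self]
  have hs : ∀ s ∈ Icc (0 : ℝ) 1, Real.sin ((θ s - θ' s) - (θ 0 - θ' 0)) = 0 := by
    intro s hs
    rw [Real.sin_sub, (hg s hs).2, (hg 0 h0).2]
    ring
  have hpi := Real.pi_pos
  have A := half_turn (c := θ 0 - θ' 0) hc (by
    intro s hs'
    rw [uIcc_of_le zero_le_one] at hs'
    rw [hs s hs']) le_rfl (by show θ 0 - θ' 0 ≤ θ 0 - θ' 0 + Real.pi; linarith)
  have B := half_turn (c := θ 0 - θ' 0 - Real.pi) hc (by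
    intro s hs'
    rw [uIcc_of_le zero_le_one] at hs'
    rw [show (θ s - θ' s) - (θ 0 - θ' 0 - Real.pi) = ((θ s - θ' s) - (θ 0 - θ' 0)) + Real.pi by
      ring, Real.sin_add_pi, hs s hs', neg_zero])
    (by show θ 0 - θ' 0 - Real.pi ≤ θ 0 - θ' 0; linarith)
    (by show θ 0 - θ' 0 ≤ θ 0 - θ' 0 - Real.pi + Real.pi; linarith)
  linarith [A.1, B.2]

theorem above_iff {γ : ℝ → ℂ} {v : ℂ} {θ : ℝ → ℝ} (h : IsAngle γ v θ) :
    Above γ v ↔ θ 1 < θ 0 := by
  constructor
  · rintro ⟨θ', h', hlt⟩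
    have := h.unique h'
    linarith
  · intro hlt
    exact ⟨θ, h, hlt⟩

/-- A direction in the closed left half-plane. -/
theorem exists_left {x : ℝ} (h : Real.cos x ≤ 0) :
    ∃ c, Real.cos c = 0 ∧ Real.sin c = 1 ∧ c ≤ x ∧ x ≤ c + Real.pi := by
  have hpi := Real.pi_pos
  -- reduce to `y` in `(-π, π]`
  obtain ⟨k, hk⟩ : ∃ k : ℤ, 0 ≤ x - k * (2 * Real.pi) ∧ x - k * (2 * Real.pi) < 2 * Real.pi := by
    refine ⟨⌊x / (2 * Real.pi)⌋, ?_, ?_⟩
    · have := Int.floor_le (x / (2 * Real.pi))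
      rw [le_div_iff₀ (by positivity)] at this
      linarith only [this]
    · have := Int.lt_floor_add_one (x / (2 * Real.pi))
      rw [div_lt_iff₀ (by positivity)] at this
      linarith only [this]
  refine ⟨Real.pi / 2 + k * (2 * Real.pi), ?_, ?_, ?_, ?_⟩
  · rw [Real.cos_add_int_mul_two_pi, Real.cos_pi_div_two]
  · rw [Real.sin_add_int_mul_two_pi, Real.sin_pi_div_two]
  · by_contra hc
    push Not at hc
    have h1 : 0 < Real.cos (x - k * (2 * Real.pi)) := by
      apply Real.cos_pos_of_mem_Ioo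
      constructor <;> linarith only [hc, hk]
    rw [Real.cos_sub_int_mul_two_pi] at h1
    linarith
  · by_contra hc
    push Not at hc
    have h1 : 0 < Real.cos (x - k * (2 * Real.pi) - 2 * Real.pi) := by
      apply Real.cos_pos_of_mem_Ioo
      constructor <;> linarith only [hc, hk]
    rw [Real.cos_sub_two_pi, Real.cos_sub_int_mul_two_pi] at h1
    linarith only [h, h1]

/-- A direction in the closed right half-plane. -/
theorem exists_right {x : ℝ} (h : 0 ≤ Real.cos x) :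
    ∃ c, Real.cos c = 0 ∧ Real.sin c = -1 ∧ c ≤ x ∧ x ≤ c + Real.pi := by
  obtain ⟨c, h1, h2, h3, h4⟩ := exists_left (x := x + Real.pi) (by rw [Real.cos_add_pi]; linarith)
  refine ⟨c - Real.pi, ?_, ?_, by linarith only [h3], by linarith⟩
  · rw [Real.cos_sub_pi, h1, neg_zero]
  · rw [Real.sin_sub_pi, h2]

theorem left_right {c c' : ℝ} (h1 : Real.cos c = 0) (h2 : Real.sin c = 1) (h3 : Real.cos c' = 0)
    (h4 : Real.sin c' = -1) : c' + Real.pi ≤ c ∨ c + Real.pi ≤ c' := by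
  by_contra h
  push Not at h
  have hpi := Real.pi_pos
  have h5 : Real.cos (c - c' - Real.pi) = 1 := by
    rw [Real.cos_sub_pi, Real.cos_sub, h1, h2, h3, h4]; ring
  have h6 := (Real.cos_eq_one_iff_of_lt_of_lt (by linarith [h.2]) (by linarith [h.1])).1 h5
  linarith [h.1]

/-- Turning in the closed left half-plane. -/
theorem left_turn {θ : ℝ → ℝ} {a b c : ℝ} (hθ : ContinuousOn θ (uIcc a b))
    (hs : ∀ s ∈ uIcc a b, Real.cos (θ s) ≤ 0) (h1 : Real.cos c = 0) (h2 : Real.sin c = 1)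
    (ha : c ≤ θ a) (ha' : θ a ≤ c + Real.pi) : c ≤ θ b ∧ θ b ≤ c + Real.pi := by
  apply half_turn hθ _ ha ha'
  intro s hs'
  rw [Real.sin_sub, h1, h2]
  linarith [hs s hs']

/-- Turning in the closed right half-plane. -/
theorem right_turn {θ : ℝ → ℝ} {a b c : ℝ} (hθ : ContinuousOn θ (uIcc a b))
    (hs : ∀ s ∈ uIcc a b, 0 ≤ Real.cos (θ s)) (h1 : Real.cos c = 0) (h2 : Real.sin c = -1)
    (ha : c ≤ θ a) (ha' : θ a ≤ c + Real.pi) : c ≤ θ b ∧ θ b ≤ c + Real.pi := by
  apply half_turn hθ _ ha ha'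
  intro s hs'
  rw [Real.sin_sub, h1, h2]
  linarith [hs s hs']

theorem cos_nonpos_of {r x y : ℝ} (hr : 0 < r) (h : y = r * Real.cos x) (hy : y ≤ 0) :
    Real.cos x ≤ 0 := by
  by_contra h'
  push Not at h'
  nlinarith [mul_pos hr h']

theorem cos_nonneg_of {r x y : ℝ} (hr : 0 < r) (h : y = r * Real.cos x) (hy : 0 ≤ y) :
    0 ≤ Real.cos x := by
  rw [h] at hy
  exact (mul_nonneg_iff_of_pos_left hr).1 hy

/-- The angle of one path seen from a point of the other. -/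
theorem isAngle_fst {α β : ℝ → ℂ} {θ : ℝ × ℝ → ℝ} (hc : Continuous θ)
    (hθ : ∀ s ∈ Icc (0 : ℝ) 1, ∀ t ∈ Icc (0 : ℝ) 1,
      ∃ r : ℝ, 0 < r ∧ (α s - β t).re = r * Real.cos (θ (s, t)) ∧
        (α s - β t).im = r * Real.sin (θ (s, t))) {t : ℝ} (ht : t ∈ Icc (0 : ℝ) 1) :
    IsAngle α (β t) (fun s => θ (s, t)) :=
  ⟨(hc.comp (by fun_prop)).continuousOn, fun s hs => hθ s hs t ht⟩

theorem isAngle_snd {α β : ℝ → ℂ} {θ : ℝ × ℝ → ℝ} (hc : Continuous θ)
    (hθ : ∀ s ∈ Icc (0 : ℝ) 1, ∀ t ∈ Icc (0 : ℝ) 1,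
      ∃ r : ℝ, 0 < r ∧ (α s - β t).re = r * Real.cos (θ (s, t)) ∧
        (α s - β t).im = r * Real.sin (θ (s, t))) {s : ℝ} (hs : s ∈ Icc (0 : ℝ) 1) :
    IsAngle β (α s) (fun t => θ (s, t) + Real.pi) := by
  refine ⟨((hc.comp (by fun_prop)).add continuous_const).continuousOn, ?_⟩
  intro t ht
  obtain ⟨r, hr, e1, e2⟩ := hθ s hs t ht
  refine ⟨r, hr, ?_, ?_⟩
  · rw [Real.cos_add_pi, mul_neg, ← e1]; simp
  · rw [Real.sin_add_pi, mul_neg, ← e2]; simp

/-- A path which starts left of and ends right of another one passes above both of its ends or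
above none, unless the paths meet. -/
theorem nested {α β : ℝ → ℂ} (hα : ContinuousOn α (Icc 0 1)) (hβ : ContinuousOn β (Icc 0 1))
    (hne : ∀ s ∈ Icc (0 : ℝ) 1, ∀ t ∈ Icc (0 : ℝ) 1, α s ≠ β t)
    (hl : ∀ t ∈ Icc (0 : ℝ) 1, (α 0).re ≤ (β t).re) (hr : ∀ t ∈ Icc (0 : ℝ) 1, (β t).re ≤ (α 1).re)
    (hlr : (α 0).re < (α 1).re) : Above α (β 0) ↔ Above α (β 1) := by
  obtain ⟨θ, hc, hθ⟩ := exists_angle hα hβ hne
  have h0 : (0 : ℝ) ∈ Icc (0 : ℝ) 1 := by simp only [mem_Icc, Std.le_refl, zero_le_one, and_self]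
  have h1 : (1 : ℝ) ∈ Icc (0 : ℝ) 1 := by simp only [mem_Icc, zero_le_one, Std.le_refl, and_self]
  have hu : uIcc (0 : ℝ) 1 = Icc 0 1 := uIcc_of_le zero_le_one
  rw [above_iff (isAngle_fst hc hθ h0), above_iff (isAngle_fst hc hθ h1)]
  have L : ∀ t ∈ Icc (0 : ℝ) 1, Real.cos (θ (0, t)) ≤ 0 := by
    intro t ht
    obtain ⟨r, hr, e1, -⟩ := hθ 0 h0 t ht
    exact cos_nonpos_of hr e1 (by rw [sub_re]; linarith [hl t ht])
  have R : ∀ t ∈ Icc (0 : ℝ) 1, 0 ≤ Real.cos (θ (1, t)) := by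
    intro t ht
    obtain ⟨r, hr', e1, -⟩ := hθ 1 h1 t ht
    exact cos_nonneg_of hr' e1 (by rw [sub_re]; linarith only [hr t ht])
  have S : ∀ t ∈ Icc (0 : ℝ) 1, θ (0, t) ≠ θ (1, t) := by
    intro t ht heq
    have a := L t ht
    have b := R t ht
    rw [← heq] at b
    have c0 : Real.cos (θ (0, t)) = 0 := le_antisymm a b
    obtain ⟨r, -, e1, -⟩ := hθ 0 h0 t ht
    obtain ⟨r', -, e2, -⟩ := hθ 1 h1 t ht
    rw [← heq, c0, mul_zero, sub_re] at e2
    rw [c0, mul_zero, sub_re] at e1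
    linarith
  obtain ⟨c, c1, c2, c3, c4⟩ := exists_left (L 0 h0)
  obtain ⟨c', c1', c2', c3', c4'⟩ := exists_right (R 0 h0)
  have A := left_turn (θ := fun t => θ (0, t)) (a := 0) (b := 1)
    (hc.comp (by fun_prop)).continuousOn (by rw [hu]; exact L) c1 c2 c3 c4
  have B := right_turn (θ := fun t => θ (1, t)) (a := 0) (b := 1)
    (hc.comp (by fun_prop)).continuousOn (by rw [hu]; exact R) c1' c2' c3' c4'
  rcases left_right c1 c2 c1' c2' with h | h
  · constructor
    · intro _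
      exact lt_of_le_of_ne (by linarith [A.1, B.2]) (S 1 h1).symm
    · intro _
      exact lt_of_le_of_ne (by linarith) (S 0 h0).symm
  · constructor
    · intro h'
      linarith
    · intro h'
      linarith [A.2, B.1]

/-- Two paths which overlap. -/
theorem staggered {α β : ℝ → ℂ} (hα : ContinuousOn α (Icc 0 1)) (hβ : ContinuousOn β (Icc 0 1))
    (hne : ∀ s ∈ Icc (0 : ℝ) 1, ∀ t ∈ Icc (0 : ℝ) 1, α s ≠ β t)
    (hl : ∀ t ∈ Icc (0 : ℝ) 1, (α 0).re ≤ (β t).re) (hr : ∀ s ∈ Icc (0 : ℝ) 1, (α s).re ≤ (β 1).re)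
    (h12 : (α 0).re < (α 1).re) (h34 : (β 0).re < (β 1).re) (h23 : (β 0).re ≤ (α 1).re) :
    Above α (β 0) ↔ ¬ Above β (α 1) := by
  obtain ⟨θ, hc, hθ⟩ := exists_angle hα hβ hne
  have h0 : (0 : ℝ) ∈ Icc (0 : ℝ) 1 := by simp only [mem_Icc, Std.le_refl, zero_le_one, and_self]
  have h1 : (1 : ℝ) ∈ Icc (0 : ℝ) 1 := by simp only [mem_Icc, zero_le_one, Std.le_refl, and_self]
  have hu : uIcc (0 : ℝ) 1 = Icc 0 1 := uIcc_of_le zero_le_one
  rw [above_iff (isAngle_fst hc hθ h0), above_iff (isAngle_snd hc hθ h1), add_lt_add_iff_right]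
  have L : ∀ t ∈ Icc (0 : ℝ) 1, Real.cos (θ (0, t)) ≤ 0 := by
    intro t ht
    obtain ⟨r, hr, e1, -⟩ := hθ 0 h0 t ht
    exact cos_nonpos_of hr e1 (by rw [sub_re]; linarith only [hl t ht])
  have T : ∀ s ∈ Icc (0 : ℝ) 1, Real.cos (θ (s, 1)) ≤ 0 := by
    intro s hs
    obtain ⟨r, hr', e1, -⟩ := hθ s hs 1 h1
    exact cos_nonpos_of hr' e1 (by rw [sub_re]; linarith only [hr s hs])
  have C : 0 ≤ Real.cos (θ (1, 0)) := by
    obtain ⟨r, hr', e1, -⟩ := hθ 1 h1 0 h0
    exact cos_nonneg_of hr' e1 (by rw [sub_re]; linarith)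
  obtain ⟨c, c1, c2, c3, c4⟩ := exists_left (L 0 h0)
  obtain ⟨c', c1', c2', c3', c4'⟩ := exists_right C
  have A := left_turn (θ := fun t => θ (0, t)) (a := 0) (b := 1)
    (hc.comp (by fun_prop)).continuousOn (by rw [hu]; exact L) c1 c2 c3 c4
  have B := left_turn (θ := fun s => θ (s, 1)) (a := 0) (b := 1)
    (hc.comp (by fun_prop)).continuousOn (by rw [hu]; exact T) c1 c2 A.1 A.2
  have S1 : θ (1, 0) ≠ θ (0, 0) := by
    intro heq
    have a := L 0 h0
    rw [← heq] at a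
    have c0 : Real.cos (θ (1, 0)) = 0 := le_antisymm a C
    obtain ⟨r, -, e1, -⟩ := hθ 0 h0 0 h0
    obtain ⟨r', -, e2, -⟩ := hθ 1 h1 0 h0
    rw [c0, mul_zero, sub_re] at e2
    rw [← heq, c0, mul_zero, sub_re] at e1
    linarith
  have S2 : θ (1, 1) ≠ θ (1, 0) := by
    intro heq
    have a := T 1 h1
    rw [heq] at a
    have c0 : Real.cos (θ (1, 0)) = 0 := le_antisymm a C
    obtain ⟨r, -, e1, -⟩ := hθ 1 h1 1 h1
    obtain ⟨r', -, e2, -⟩ := hθ 1 h1 0 h0
    rw [c0, mul_zero, sub_re] at e2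
    rw [heq, c0, mul_zero, sub_re] at e1
    linarith
  rcases left_right c1 c2 c1' c2' with h | h
  · constructor
    · intro _
      linarith [B.1]
    · intro _
      exact lt_of_le_of_ne (by linarith) S1
  · constructor
    · intro h'
      linarith
    · intro h'
      exact absurd (lt_of_le_of_ne (by linarith [B.2]) S2) h'

end Vale.Agent.P040.Page
end

section

/-!
# The order of the edges at a vertex
-/

namespace Vale.Agent.P040.Page

open Set Complex

/-- `φ` is the direction in which the path `γ`, starting at `p`, first leaves the disc of radius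
`δ` at `p`. -/
def Leaves (γ : ℝ → ℂ) (p : ℂ) (δ φ : ℝ) : Prop :=
  -(Real.pi / 2) ≤ φ ∧ φ ≤ Real.pi / 2 ∧ ∃ s1, 0 < s1 ∧ s1 ≤ 1 ∧
    (γ s1 - p).re = δ * Real.cos φ ∧ (γ s1 - p).im = δ * Real.sin φ ∧
    ∀ s, 0 ≤ s → s ≤ s1 → ‖γ s - p‖ ≤ δ

theorem exists_leaves {γ : ℝ → ℂ} {p : ℂ} {δ : ℝ} (hγ : ContinuousOn γ (Icc 0 1)) (h0 : γ 0 = p)
    (hδ : 0 < δ) (h1 : δ ≤ ‖γ 1 - p‖) (hre : ∀ s ∈ Icc (0 : ℝ) 1, p.re ≤ (γ s).re) :
    ∃ φ, Leaves γ p δ φ := by
  have hcn : ContinuousOn (fun s => ‖γ s - p‖) (Icc 0 1) := (hγ.sub continuousOn_const).norm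
  let S : Set ℝ := Icc 0 1 ∩ (fun s => ‖γ s - p‖) ⁻¹' Ici δ
  have hSc : IsClosed S := hcn.preimage_isClosed_of_isClosed isClosed_Icc isClosed_Ici
  have hSne : S.Nonempty := ⟨1, by simp only [mem_Icc, zero_le_one, Std.le_refl, and_self], h1⟩
  have hSb : BddBelow S := ⟨0, fun s hs => hs.1.1⟩
  have hs1 : sInf S ∈ S := hSc.csInf_mem hSne hSb
  set s1 := sInf S with hs1def
  have hlt : ∀ s, 0 ≤ s → s < s1 → ‖γ s - p‖ < δ := by
    intro s hs0 hs
    by_contra h
    push Not at h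
    have : s ∈ S := ⟨⟨hs0, hs.le.trans hs1.1.2⟩, h⟩
    exact absurd (csInf_le hSb this) (not_le.2 hs)
  have hpos : 0 < s1 := by
    rcases lt_or_eq_of_le hs1.1.1 with h | h
    · exact h
    · have := hs1.2
      rw [← h] at this
      simp only [mem_preimage, mem_Ici, h0, sub_self, norm_zero] at this
      linarith
  have hle : ‖γ s1 - p‖ ≤ δ := by
    by_contra h
    push Not at h
    have hiv := intermediate_value_Icc hpos.le (hcn.mono (Icc_subset_Icc_right hs1.1.2))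
    have hmem : δ ∈ Icc (‖γ 0 - p‖) (‖γ s1 - p‖) := by
      rw [h0, sub_self, norm_zero]
      exact ⟨hδ.le, h.le⟩
    obtain ⟨s, hs, hsδ⟩ := hiv hmem
    have hs' : ‖γ s - p‖ = δ := hsδ
    rcases lt_or_eq_of_le hs.2 with h2 | h2
    · have := hlt s hs.1 h2
      linarith only [hsδ, this]
    · rw [h2] at hs'
      linarith
  have heq : ‖γ s1 - p‖ = δ := le_antisymm hle hs1.2
  refine ⟨arg (γ s1 - p), ?_, ?_, s1, hpos, hs1.1.2, ?_, ?_, ?_⟩
  · have : |arg (γ s1 - p)| ≤ Real.pi / 2 := by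
      rw [abs_arg_le_pi_div_two_iff, sub_re]
      linarith [hre s1 hs1.1]
    exact (abs_le.1 this).1
  · have : |arg (γ s1 - p)| ≤ Real.pi / 2 := by
      rw [abs_arg_le_pi_div_two_iff, sub_re]
      linarith [hre s1 hs1.1]
    exact (abs_le.1 this).2
  · rw [← heq, norm_mul_cos_arg]
  · rw [← heq, norm_mul_sin_arg]
  · intro s hs0 hs
    rcases lt_or_eq_of_le hs with h | h
    · exact (hlt s hs0 h).le
    · rw [h]; exact hle

/-- The inner product of a vector in the disc with a unit vector. -/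
theorem inner_le {z : ℂ} {δ φ : ℝ} (h : ‖z‖ ≤ δ) :
    z.re * Real.cos φ + z.im * Real.sin φ ≤ δ := by
  have h1 : z.re ^ 2 + z.im ^ 2 ≤ δ ^ 2 := by
    have h2 : ‖z‖ ^ 2 ≤ δ ^ 2 := by
      have := norm_nonneg z
      (clear * - h; gcongr)
    rwa [Complex.sq_norm, normSq_apply, ← sq, ← sq] at h2
  have h3 := Real.sin_sq_add_cos_sq φ
  have h4 : 0 ≤ δ := (norm_nonneg z).trans h
  have h5 : (z.re * Real.cos φ + z.im * Real.sin φ) ^ 2 ≤ δ ^ 2 := by
    have : (z.re * Real.cos φ + z.im * Real.sin φ) ^ 2 +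
        (z.re * Real.sin φ - z.im * Real.cos φ) ^ 2 =
        (z.re ^ 2 + z.im ^ 2) * (Real.sin φ ^ 2 + Real.cos φ ^ 2) := by ring
    rw [h3, mul_one] at this
    nlinarith only [h1, this]
  exact abs_le_of_sq_le_sq' h5 h4 |>.2

theorem chord_nonpos {z w : ℂ} {δ a : ℝ} (hz : ‖z‖ ≤ δ) (hw1 : w.re = δ * Real.cos a)
    (hw2 : w.im = δ * Real.sin a) : (z - w).re * Real.cos a + (z - w).im * Real.sin a ≤ 0 := by
  have h1 := inner_le (φ := a) hz
  have h3 := Real.sin_sq_add_cos_sq a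
  have h4 : w.re * Real.cos a + w.im * Real.sin a = δ := by
    rw [hw1, hw2]
    calc δ * Real.cos a * Real.cos a + δ * Real.sin a * Real.sin a
        = δ * (Real.sin a ^ 2 + Real.cos a ^ 2) := by ring
      _ = δ := by rw [h3, mul_one]
  rw [sub_re, sub_im]
  linarith only [h1, h4]

theorem cos_sub_nonpos {z : ℂ} {r x a : ℝ} (hr : 0 < r) (e1 : z.re = r * Real.cos x)
    (e2 : z.im = r * Real.sin x) (h : z.re * Real.cos a + z.im * Real.sin a ≤ 0) :
    Real.cos (x - a) ≤ 0 := by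
  rw [e1, e2] at h
  have h2 : r * Real.cos (x - a) ≤ 0 := by
    rw [Real.cos_sub]
    linarith
  by_contra h3
  push Not at h3
  linarith only [h2, mul_pos hr h3]

theorem cos_sub_nonneg {z : ℂ} {r x a : ℝ} (hr : 0 < r) (e1 : z.re = r * Real.cos x)
    (e2 : z.im = r * Real.sin x) (h : 0 ≤ z.re * Real.cos a + z.im * Real.sin a) :
    0 ≤ Real.cos (x - a) := by
  rw [e1, e2] at h
  have h2 : 0 ≤ r * Real.cos (x - a) := by
    rw [Real.cos_sub]
    linarith
  exact (mul_nonneg_iff_of_pos_left hr).1 h2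

theorem isAngle_shift {γ : ℝ → ℂ} {v : ℂ} {θ : ℝ → ℝ} (h : IsAngle γ v θ) {ω : ℝ}
    (h1 : Real.cos ω = 1) (h2 : Real.sin ω = 0) : IsAngle γ v (fun s => θ s + ω) := by
  refine ⟨h.1.add continuousOn_const, ?_⟩
  intro s hs
  obtain ⟨r, hr, e1, e2⟩ := h.2 s hs
  refine ⟨r, hr, ?_, ?_⟩
  · rw [Real.cos_add, h1, h2, mul_one, mul_zero, sub_zero, e1]
  · rw [Real.sin_add, h1, h2, mul_one, mul_zero, add_zero, e2]

/-- The order at a vertex `p` of the two disjoint paths `ε` and `φ` starting at `p`. -/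
theorem local_order {ε φ : ℝ → ℂ} (hε : ContinuousOn ε (Icc 0 1)) (hφ : ContinuousOn φ (Icc 0 1))
    (h0 : ε 0 = φ 0)
    (hne : ∀ s ∈ Icc (0 : ℝ) 1, ∀ t ∈ Icc (0 : ℝ) 1, ε s = φ t → s = 0 ∧ t = 0)
    (hεl : ∀ s ∈ Icc (0 : ℝ) 1, (φ 0).re ≤ (ε s).re) (hεr : ∀ s ∈ Icc (0 : ℝ) 1, (ε s).re ≤ (φ 1).re)
    (hφl : ∀ s ∈ Icc (0 : ℝ) 1, (φ 0).re ≤ (φ s).re) (hlr : (φ 0).re < (φ 1).re)
    {δ a b : ℝ} (hδ : 0 < δ) (ha : Leaves ε (φ 0) δ a) (hb : Leaves φ (φ 0) δ b) :
    Above φ (ε 1) ↔ a < b := by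
  obtain ⟨ha1, ha2, s1, hs0, hs1, has1, has2, has3⟩ := ha
  obtain ⟨hb1, hb2, t1, ht0, ht1, hbt1, hbt2, hbt3⟩ := hb
  have hpi := Real.pi_pos
  have i0 : (0 : ℝ) ∈ Icc (0 : ℝ) 1 := by simp only [mem_Icc, Std.le_refl, zero_le_one, and_self]
  have i1 : (1 : ℝ) ∈ Icc (0 : ℝ) 1 := by simp
  have hu : uIcc (0 : ℝ) 1 = Icc 0 1 := uIcc_of_le zero_le_one
  have i2 : s1 ∈ Icc (0 : ℝ) 1 := ⟨hs0.le, hs1⟩
  have i3 : t1 ∈ Icc (0 : ℝ) 1 := ⟨ht0.le, ht1⟩
  have hms : ∀ s ∈ Icc (0 : ℝ) 1, s1 + s * (1 - s1) ∈ Icc (0 : ℝ) 1 := by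
    intro s hs
    constructor
    · nlinarith only [hs0, hs.1, hs.2]
    · nlinarith only [hs1, hs.2]
  have hmt : ∀ s ∈ Icc (0 : ℝ) 1, t1 + s * (1 - t1) ∈ Icc (0 : ℝ) 1 := by
    intro s hs
    constructor
    · nlinarith only [ht0, hs.1, hs.2]
    · nlinarith only [ht1, hs.2]
  have hms' : ∀ s ∈ Icc (0 : ℝ) 1, s * s1 ∈ Icc (0 : ℝ) 1 := by
    intro s hs
    exact ⟨mul_nonneg hs.1 hs0.le, mul_le_one₀ hs.2 hs0.le hs1⟩
  -- step 1: replace the end of `ε` by the point at which it leaves the disc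
  have step1 : Above φ (ε s1) ↔ Above φ (ε 1) := by
    have := nested (α := φ) (β := fun s => ε (s1 + s * (1 - s1))) hφ
      (hε.comp (by fun_prop) hms) (by
        intro t ht s hs heq
        have h := hne _ (hms s hs) t ht heq.symm
        have h2 : s1 ≤ s1 + s * (1 - s1) := by nlinarith only [hs1, hs.1]
        linarith only [hs0, h, h2]) (by
        intro s hs
        exact hεl _ (hms s hs)) (by
        intro s hs
        exact hεr _ (hms s hs)) hlr
    simpa using this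
  rw [← step1]
  -- step 2: the angle of `φ` seen from this point
  obtain ⟨θ, hθc, hθ⟩ := exists_angle (α := φ) (β := fun _ => ε s1) hφ continuousOn_const (by
    intro t ht s _ heq
    have := (hne _ i2 t ht heq.symm).1
    linarith only [hs0, this])
  have A0 : IsAngle φ (ε s1) (fun t => θ (t, 0)) := isAngle_fst hθc hθ i0
  obtain ⟨ω, hω⟩ : ∃ ω, ω = a + Real.pi - θ (0, 0) := ⟨_, rfl⟩
  have hω' : Real.cos ω = 1 ∧ Real.sin ω = 0 := by
    obtain ⟨r, hr, e1, e2⟩ := A0.2 0 i0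
    rw [hω]
    apply cos_sub_eq_one
    · exact (same_dir hδ hr (by
        rw [← e1, Real.cos_add_pi, mul_neg, ← has1]; simp) (by
        rw [← e2, Real.sin_add_pi, mul_neg, ← has2]; simp)).1
    · exact (same_dir hδ hr (by
        rw [← e1, Real.cos_add_pi, mul_neg, ← has1]; simp) (by
        rw [← e2, Real.sin_add_pi, mul_neg, ← has2]; simp)).2
  have A1 := isAngle_shift A0 hω'.1 hω'.2
  set θ1 : ℝ → ℝ := fun t => θ (t, 0) + ω with hθ1
  have A10 : θ1 0 = a + Real.pi := by rw [hθ1, hω]; ring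
  -- step 3
  have hsub1 : uIcc 0 t1 ⊆ Icc (0 : ℝ) 1 := by
    rw [uIcc_of_le ht0.le]; exact Icc_subset_Icc_right ht1
  have step3 := half_turn (θ := θ1) (a := 0) (b := t1) (c := a + Real.pi / 2)
    (A1.1.mono hsub1) (by
      intro t ht
      obtain ⟨r, hr, e1, e2⟩ := A1.2 t (hsub1 ht)
      rw [uIcc_of_le ht0.le] at ht
      rw [show θ1 t - (a + Real.pi / 2) = (θ1 t - a) - Real.pi / 2 by ring, Real.sin_sub_pi_div_two]
      have h1 := chord_nonpos (hbt3 t ht.1 ht.2) has1 has2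
      rw [sub_sub_sub_cancel_right] at h1
      linarith only [cos_sub_nonpos hr e1 e2 h1]) (by rw [A10]; linarith only [hpi]) (by rw [A10]; linarith only [hpi])
  -- step 4: both paths near the vertex
  obtain ⟨η, hηc, hη⟩ := exists_angle (α := fun t => φ (t1 + t * (1 - t1)))
    (β := fun s => ε (s * s1)) (hφ.comp (by fun_prop) hmt) (hε.comp (by fun_prop) hms') (by
      intro t ht s hs heq
      have h := hne _ (hms' s hs) _ (hmt t ht) heq.symm
      have h2 : t1 ≤ t1 + t * (1 - t1) := by nlinarith only [ht1, ht.1]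
      linarith only [ht0, h, h2])
  obtain ⟨ν, hν⟩ : ∃ ν, ν = b - η (0, 0) := ⟨_, rfl⟩
  have hν' : Real.cos ν = 1 ∧ Real.sin ν = 0 := by
    obtain ⟨r, hr, e1, e2⟩ := hη 0 i0 0 i0
    simp only [zero_mul, add_zero] at e1 e2
    rw [hν]
    apply cos_sub_eq_one
    · exact (same_dir hδ hr (by rw [← e1, ← hbt1, h0]) (by rw [← e2, ← hbt2, h0])).1
    · exact (same_dir hδ hr (by rw [← e1, ← hbt1, h0]) (by rw [← e2, ← hbt2, h0])).2
  have hη' : ∀ s ∈ Icc (0 : ℝ) 1, ∀ t ∈ Icc (0 : ℝ) 1,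
      ∃ r : ℝ, 0 < r ∧ (φ (t1 + s * (1 - t1)) - ε (t * s1)).re = r * Real.cos (η (s, t) + ν) ∧
        (φ (t1 + s * (1 - t1)) - ε (t * s1)).im = r * Real.sin (η (s, t) + ν) := by
    intro s hs t ht
    obtain ⟨r, hr, e1, e2⟩ := hη s hs t ht
    refine ⟨r, hr, ?_, ?_⟩
    · rw [Real.cos_add, hν'.1, hν'.2, mul_one, mul_zero, sub_zero]; exact e1
    · rw [Real.sin_add, hν'.1, hν'.2, mul_one, mul_zero, add_zero]; exact e2
  have B00 : η (0, 0) + ν = b := by rw [hν]; ring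
  have left : -(Real.pi / 2) ≤ η (1, 0) + ν ∧ η (1, 0) + ν ≤ -(Real.pi / 2) + Real.pi := by
    have := right_turn (θ := fun t => η (t, 0) + ν) (a := 0) (b := 1) (c := -(Real.pi / 2))
      ((hηc.comp (by fun_prop)).add continuous_const).continuousOn (by
        intro t ht
        rw [hu] at ht
        obtain ⟨r, hr, e1, -⟩ := hη' t ht 0 i0
        refine cos_nonneg_of hr e1 ?_
        rw [zero_mul, h0, sub_re]
        linarith only [hφl _ (hmt t ht)]) (by rw [Real.cos_neg, Real.cos_pi_div_two])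
      (by rw [Real.sin_neg, Real.sin_pi_div_two]) (by rw [B00]; linarith only [hb1]) (by rw [B00]; linarith only [hb2])
    exact this
  have top : -(Real.pi / 2) ≤ η (1, 1) + ν ∧ η (1, 1) + ν ≤ -(Real.pi / 2) + Real.pi := by
    have := right_turn (θ := fun t => η (1, t) + ν) (a := 0) (b := 1) (c := -(Real.pi / 2))
      ((hηc.comp (by fun_prop)).add continuous_const).continuousOn (by
        intro t ht
        rw [hu] at ht
        obtain ⟨r, hr, e1, -⟩ := hη' 1 i1 t ht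
        refine cos_nonneg_of hr e1 ?_
        rw [show t1 + 1 * (1 - t1) = 1 by ring, sub_re]
        linarith only [hεr _ (hms' t ht)]) (by rw [Real.cos_neg, Real.cos_pi_div_two])
      (by rw [Real.sin_neg, Real.sin_pi_div_two]) left.1 left.2
    exact this
  have bot : b - Real.pi / 2 ≤ η (0, 1) + ν ∧ η (0, 1) + ν ≤ b - Real.pi / 2 + Real.pi := by
    have := half_turn (θ := fun t => η (0, t) + ν) (a := 0) (b := 1) (c := b - Real.pi / 2)
      ((hηc.comp (by fun_prop)).add continuous_const).continuousOn (by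
        intro s hs
        rw [hu] at hs
        obtain ⟨r, hr, e1, e2⟩ := hη' 0 i0 s hs
        rw [zero_mul, add_zero] at e1 e2
        rw [show η (0, s) + ν - (b - Real.pi / 2) = (η (0, s) + ν - b) + Real.pi / 2 by ring,
          Real.sin_add_pi_div_two]
        have hs' : s * s1 ≤ s1 := by nlinarith only [hs0, hs.2]
        have h1 := chord_nonpos (has3 (s * s1) (mul_nonneg hs.1 hs0.le) hs') hbt1 hbt2
        rw [sub_sub_sub_cancel_right, ← neg_sub (φ t1), neg_re, neg_im] at h1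
        exact cos_sub_nonneg hr e1 e2 (by linarith only [h1])) (by rw [B00]; linarith only [hpi])
          (by rw [B00]; linarith only [hpi])
    exact this
  -- step 5: compare
  have U1 : IsAngle (fun t => φ (t1 + t * (1 - t1))) (ε s1) (fun t => θ1 (t1 + t * (1 - t1))) :=
    ⟨A1.1.comp (by fun_prop) hmt, fun s hs => A1.2 _ (hmt s hs)⟩
  have U2 : IsAngle (fun t => φ (t1 + t * (1 - t1))) (ε s1) (fun t => η (t, 1) + ν) := by
    refine ⟨((hηc.comp (by fun_prop)).add continuous_const).continuousOn, ?_⟩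
    intro s hs
    have := hη' s hs 1 i1
    rwa [one_mul] at this
  have U := U1.unique U2
  simp only [one_mul, zero_mul, add_zero, show t1 + (1 - t1) = 1 by ring] at U
  have N : Real.cos (θ1 t1 - (η (0, 1) + ν)) = 1 := by
    obtain ⟨r, hr, e1, e2⟩ := A1.2 t1 i3
    obtain ⟨r', hr', e1', e2'⟩ := hη' 0 i0 1 i1
    rw [zero_mul, add_zero, one_mul] at e1' e2'
    obtain ⟨x, y⟩ := same_dir hr hr' (e1.symm.trans e1') (e2.symm.trans e2')
    exact (cos_sub_eq_one x y).1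
  rw [above_iff A1, A10]
  have hstrict : θ1 1 ≠ θ1 0 := by
    intro heq
    obtain ⟨r, hr, e1, -⟩ := A1.2 1 i1
    obtain ⟨r', hr', e1', -⟩ := A1.2 0 i0
    rw [heq] at e1
    have g1 : (ε s1).re ≤ (φ 1).re := hεr _ i2
    have g2 : (φ 0).re ≤ (ε s1).re := hεl _ i2
    rw [sub_re] at e1 e1'
    have g3 : 0 ≤ Real.cos (θ1 0) := cos_nonneg_of hr e1 (by linarith only [g1])
    have g4 : Real.cos (θ1 0) ≤ 0 := cos_nonpos_of hr' e1' (by linarith only [g2])
    have g5 : Real.cos (θ1 0) = 0 := le_antisymm g4 g3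
    rw [g5, mul_zero] at e1 e1'
    linarith only [hlr, e1, e1']
  rw [A10] at hstrict
  have hab : a ≠ b := by
    intro h
    have e : ε s1 = φ t1 := by
      have e1 : (ε s1 - φ 0) = (φ t1 - φ 0) := by
        apply Complex.ext
        · rw [has1, hbt1, h]
        · rw [has2, hbt2, h]
      linear_combination e1
    have := (hne _ i2 _ i3 e).1
    linarith only [hs0, this]
  constructor
  · intro h
    by_contra hba
    have hba' : b < a := lt_of_le_of_ne (not_lt.1 hba) (Ne.symm hab)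
    have x0 : 0 < θ1 t1 - (η (0, 1) + ν) := by linarith only [step3, bot, hba']
    have x1 : 2 * Real.pi ≤ θ1 t1 - (η (0, 1) + ν) := by
      by_contra hx
      push Not at hx
      have := (Real.cos_eq_one_iff_of_lt_of_lt (by linarith only [step3, bot, hba']) hx).1 N
      linarith only [step3, bot, hba', this]
    linarith only [ha2, top, U, h, x1]
  · intro h
    have x0 : -(2 * Real.pi) < θ1 t1 - (η (0, 1) + ν) := by linarith only [ha1, hb2, hpi, step3, bot]
    have x1 : θ1 t1 - (η (0, 1) + ν) < 2 * Real.pi := by (clear * - step3 bot h; linarith [step3.2, bot.1])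
    have := (Real.cos_eq_one_iff_of_lt_of_lt x0 x1).1 N
    apply lt_of_le_of_ne _ hstrict
    linarith only [ha1, top, U, this]

/-- The reflection of a path in the vertical axis, run backwards. -/
noncomputable def mir (γ : ℝ → ℂ) : ℝ → ℂ := fun s => - (starRingEnd ℂ) (γ (1 - s))

theorem mir_re (γ : ℝ → ℂ) (s : ℝ) : (mir γ s).re = - (γ (1 - s)).re := by simp only [mir, neg_re, conj_re]

theorem above_mir {γ : ℝ → ℂ} {v : ℂ} {θ : ℝ → ℝ} (h : IsAngle γ v θ) :
    Above (mir γ) (- (starRingEnd ℂ) v) ↔ Above γ v := by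
  have hm : MapsTo (fun t : ℝ => 1 - t) (Icc 0 1) (Icc 0 1) := by
    intro t ht
    exact ⟨by linarith only [ht.2], by linarith [ht.1]⟩
  have h' : IsAngle (mir γ) (- (starRingEnd ℂ) v) (fun s => Real.pi - θ (1 - s)) := by
    refine ⟨continuousOn_const.sub (h.1.comp (by fun_prop) hm), ?_⟩
    intro s hs
    obtain ⟨r, hr, e1, e2⟩ := h.2 (1 - s) (hm hs)
    rw [sub_re] at e1
    rw [sub_im] at e2
    refine ⟨r, hr, ?_, ?_⟩
    · rw [Real.cos_pi_sub, mul_neg, ← e1]
      simp [mir]; ring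
    · rw [Real.sin_pi_sub, ← e2]
      simp [mir]; ring
  rw [above_iff h, above_iff h']
  simp only [sub_self, sub_zero]
  constructor <;> intro h <;> linarith

theorem mir_continuousOn {γ : ℝ → ℂ} (h : ContinuousOn γ (Icc 0 1)) :
    ContinuousOn (mir γ) (Icc 0 1) := by
  have hm : MapsTo (fun t : ℝ => 1 - t) (Icc 0 1) (Icc 0 1) := by
    intro t ht
    exact ⟨by linarith [ht.2], by linarith [ht.1]⟩
  exact (continuous_conj.comp_continuousOn (h.comp (by fun_prop) hm)).neg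

end Vale.Agent.P040.Page
end
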