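import Vale.Agent.P040.MathlibUsed
import Vale.Agent.P040.Drawing

set_option linter.all false

section

/-!
# Elementary facts on drawings
-/

namespace Vale.Agent.P040

namespace Drawing

variable {V : Type} {G : SimpleGraph V} (D : Drawing G)

theorem crossingSet_finite [Finite V] : D.crossingSet.Finite := by
  have : D.crossingSet ⊆ ⋃ e ∈ G.edgeSet, ⋃ f ∈ {f | f ∈ G.edgeSet ∧ e ≠ f},
      (D.arc e \ Set.range D.pos) ∩ (D.arc f \ Set.range D.pos) := by
    rintro x ⟨hx, e, he, f, hf, hef, h1, h2⟩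
    simp only [Set.mem_iUnion]
    exact ⟨e, he, f, ⟨hf, hef⟩, ⟨h1, hx⟩, ⟨h2, hx⟩⟩
  apply Set.Finite.subset _ this
  apply Set.Finite.biUnion (Set.toFinite _)
  intro e he
  apply Set.Finite.biUnion (Set.toFinite _)
  rintro f ⟨hf, hef⟩
  exact D.finite e he f hf hef

/-- Two pairs of distinct edges with a common crossing point are equal. -/
theorem pair_unique {x : Plane} (hx : x ∉ Set.range D.pos) {e f e' f' : Sym2 V}
    (he : e ∈ G.edgeSet) (hf : f ∈ G.edgeSet) (he' : e' ∈ G.edgeSet) (hf' : f' ∈ G.edgeSet)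
    (hef : e ≠ f) (hef' : e' ≠ f') (h1 : x ∈ D.arc e) (h2 : x ∈ D.arc f) (h3 : x ∈ D.arc e')
    (h4 : x ∈ D.arc f') : (e = e' ∧ f = f') ∨ (e = f' ∧ f = e') := by
  by_cases c1 : e = e'
  · left
    refine ⟨c1, ?_⟩
    by_contra c2
    subst c1
    exact D.two e he f hf f' hf' hef hef' c2 x hx h1 h2 h4
  · by_cases c2 : f = e'
    · right
      refine ⟨?_, c2⟩
      by_contra c3
      subst c2
      exact D.two f hf e he f' hf' (Ne.symm hef) hef' c3 x hx h2 h1 h4
    · exact absurd h3 (D.two e he f hf e' he' hef c1 c2 x hx h1 h2)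

/-- Two edges without common ends whose arcs meet have a crossing point. -/
theorem exists_crossing {e f : Sym2 V} (he : e ∈ G.edgeSet) (hf : f ∈ G.edgeSet)
    (hef : ∀ v, v ∈ e → v ∉ f) (h : (D.arc e ∩ D.arc f).Nonempty) :
    ∃ x, x ∉ Set.range D.pos ∧ x ∈ D.arc e ∧ x ∈ D.arc f := by
  obtain ⟨x, h1, h2⟩ := h
  refine ⟨x, ?_, h1, h2⟩
  rintro ⟨w, rfl⟩
  exact hef w (D.avoid e he w h1) (D.avoid f hf w h2)

end Drawing

end Vale.Agent.P040
end

section

/-!
# Images of drawings under homeomorphisms of the plane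
-/

namespace Vale.Agent.P040

theorem IsArc.image {S : Set Plane} {p q : Plane} (h : IsArc S p q) (ψ : Plane ≃ₜ Plane) :
    IsArc (ψ '' S) (ψ p) (ψ q) := by
  obtain ⟨γ, h1, h2, h3, h4, h5⟩ := h
  refine ⟨fun t => ψ (γ t), ψ.continuous.comp_continuousOn h1, ?_, congrArg ψ h3, congrArg ψ h4, ?_⟩
  · intro s hs t ht hst
    exact h2 hs ht (ψ.injective hst)
  · rw [← h5, Set.image_image]

theorem CrossAt.image {S T : Set Plane} {x : Plane} (h : CrossAt S T x) (ψ : Plane ≃ₜ Plane) :
    CrossAt (ψ '' S) (ψ '' T) (ψ x) := by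
  obtain ⟨φ, h1, h2, h3, h4⟩ := h
  refine ⟨ψ.symm.toOpenPartialHomeomorph.trans φ, ?_, ?_, ?_, ?_⟩
  · simp [h1]
  · simp [h2]
  · intro y hy
    simp only [OpenPartialHomeomorph.trans_source, Homeomorph.toOpenPartialHomeomorph_source,
      Set.univ_inter, Set.mem_preimage, Homeomorph.toOpenPartialHomeomorph_apply] at hy
    have := h3 _ hy
    simp only [OpenPartialHomeomorph.coe_trans, Function.comp_apply,
      Homeomorph.toOpenPartialHomeomorph_apply]
    rw [← this]
    constructor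
    · rintro ⟨z, hz, rfl⟩; simpa using hz
    · intro hz; exact ⟨_, hz, by simp⟩
  · intro y hy
    simp only [OpenPartialHomeomorph.trans_source, Homeomorph.toOpenPartialHomeomorph_source,
      Set.univ_inter, Set.mem_preimage, Homeomorph.toOpenPartialHomeomorph_apply] at hy
    have := h4 _ hy
    simp only [OpenPartialHomeomorph.coe_trans, Function.comp_apply,
      Homeomorph.toOpenPartialHomeomorph_apply]
    rw [← this]
    constructor
    · rintro ⟨z, hz, rfl⟩; simpa using hz
    · intro hz; exact ⟨_, hz, by simp⟩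

namespace Drawing

variable {V : Type} {G : SimpleGraph V}

theorem range_comp' (D : Drawing G) (ψ : Plane ≃ₜ Plane) :
    Set.range (fun v => ψ (D.pos v)) = ψ '' Set.range D.pos := by
  rw [← Set.range_comp]; rfl

/-- The image of a drawing under a homeomorphism of the plane. -/
def map (D : Drawing G) (ψ : Plane ≃ₜ Plane) : Drawing G where
  pos := fun v => ψ (D.pos v)
  pos_inj := ψ.injective.comp D.pos_inj
  arc := fun e => ψ '' D.arc e
  isArc := fun u v h => (D.isArc u v h).image ψ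
  avoid := by
    rintro e he w ⟨x, hx, hxw⟩
    rw [ψ.injective hxw] at hx
    exact D.avoid e he w hx
  finite := by
    intro e he f hf hef
    rw [D.range_comp' ψ, ← Set.image_sdiff ψ.injective, ← Set.image_sdiff ψ.injective,
      ← Set.image_inter ψ.injective]
    exact (D.finite e he f hf hef).image _
  proper := by
    intro e he f hf hef x hx
    rw [D.range_comp' ψ, ← Set.image_sdiff ψ.injective, ← Set.image_sdiff ψ.injective,
      ← Set.image_inter ψ.injective] at hx
    obtain ⟨y, hy, rfl⟩ := hx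
    exact (D.proper e he f hf hef y hy).image ψ
  two := by
    intro e he f hf g hg hef heg hfg x hx he' hf' hg'
    rw [D.range_comp' ψ] at hx
    obtain ⟨y, hy, rfl⟩ := he'
    obtain ⟨y', hy', h1⟩ := hf'
    obtain ⟨y'', hy'', h2⟩ := hg'
    rw [ψ.injective h1] at hy'
    rw [ψ.injective h2] at hy''
    exact D.two e he f hf g hg hef heg hfg y (fun h => hx ⟨y, h, rfl⟩) hy hy' hy''

theorem map_crossingSet (D : Drawing G) (ψ : Plane ≃ₜ Plane) :
    (D.map ψ).crossingSet = ψ '' D.crossingSet := by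
  ext x
  constructor
  · rintro ⟨hx, e, he, f, hf, hef, ⟨y, hy, rfl⟩, ⟨y', hy', h1⟩⟩
    rw [ψ.injective h1] at hy'
    refine ⟨y, ⟨?_, e, he, f, hf, hef, hy, hy'⟩, rfl⟩
    rintro ⟨v, rfl⟩
    exact hx ⟨v, rfl⟩
  · rintro ⟨y, ⟨hx, e, he, f, hf, hef, hy, hy'⟩, rfl⟩
    refine ⟨?_, e, he, f, hf, hef, ⟨y, hy, rfl⟩, ⟨y, hy', rfl⟩⟩
    rintro ⟨v, hv⟩
    exact hx ⟨v, ψ.injective hv⟩

theorem map_crossings (D : Drawing G) (ψ : Plane ≃ₜ Plane) :
    (D.map ψ).crossings = D.crossings := by
  unfold crossings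
  rw [map_crossingSet, Set.ncard_image_of_injective _ ψ.injective]

end Drawing

end Vale.Agent.P040
end

section

section

/-!
# Monotone drawings: rotations and the forced crossings of two stars

The leaves are `Fin n`, indexed by increasing `x`-coordinate.  The rotation of a star is given by
an injective key `κ : Fin n → α` into a linear order, listing the leaves in the cyclic order.
-/

namespace Vale.Agent.P040.Mono

open Finset

variable {n : ℕ} {α β : Type*} [LinearOrder α] [LinearOrder β]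

/-- The position of the leaf `x` in the order given by the key `κ`. -/
def rk (κ : Fin n → α) (x : Fin n) : ℕ := (univ.filter (fun y => κ y < κ x)).card

/-- `k` is among the `h` leaves immediately before `b` in the cyclic order of `2 h + 1` leaves
with positions `p`. -/
def Bef (h : ℕ) (p : Fin n → ℕ) (k b : Fin n) : Prop :=
  (p k < p b ∧ p b ≤ p k + h) ∨ (p b + h < p k)

instance (h : ℕ) (p : Fin n → ℕ) (k b : Fin n) : Decidable (Bef h p k b) := by
  unfold Bef; infer_instance

/-- The number of leaves to the right of `b` among the `h` leaves before `b`. -/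
def g (h : ℕ) (κ : Fin n → α) (b : Fin n) : ℕ :=
  (univ.filter (fun k => b < k ∧ Bef h (rk κ) k b)).card

/-- The number of discordant pairs of two orders. -/
def inv (κ : Fin n → α) (κ' : Fin n → β) : ℕ :=
  (univ.filter (fun s : Fin n × Fin n => κ s.1 < κ s.2 ∧ κ' s.2 < κ' s.1)).card

/-- Forced crossings of the edge `P k` with the edge `Q l` for two stars of a monotone drawing,
`P` to the left of `Q`.  The leaves to the left of `P` are those `< iP`, to the left of `Q` those
`< iQ`.  The keys list the leaves in clockwise order, starting with the leaves on the right from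
top to bottom, followed by the leaves on the left from bottom to top.  `u k` says that the edge
`P k` passes above `Q`, and `v l` says that the edge `Q l` passes above `P`. -/
def Forced (iP iQ : ℕ) (κP κQ : Fin n → α) (u v : Fin n → Prop) (k l : Fin n) : Prop :=
  (iP ≤ l.1 ∧ l < k ∧ iQ ≤ k.1 ∧ (u k ↔ ¬ κP k < κP l)) ∨
  (iQ ≤ k.1 ∧ k < l ∧ (u k ↔ κQ l < κQ k)) ∨
  (iP ≤ l.1 ∧ l < k ∧ k.1 < iQ ∧ (κP k < κP l ↔ κQ k < κQ l)) ∨
  (l.1 < iP ∧ l < k ∧ k.1 < iQ ∧ (v l ↔ ¬ κQ k < κQ l)) ∨
  (k < l ∧ l.1 < iP ∧ (v l ↔ κP l < κP k)) ∨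
  (l.1 < iP ∧ iQ ≤ k.1 ∧ (u k ↔ v l))

open Classical in
/-- The number of forced crossings. -/
noncomputable def forced (iP iQ : ℕ) (κP κQ : Fin n → α) (u v : Fin n → Prop) : ℕ :=
  (univ.filter (fun s : Fin n × Fin n => Forced iP iQ κP κQ u v s.1 s.2)).card

/-- `⌊r/2⌋ ⌊(r-1)/2⌋` -/
def dz (r : ℕ) : ℕ := (r / 2) * ((r - 1) / 2)

end Vale.Agent.P040.Mono
end
end

section

section

/-!
# Positions, adjacent transpositions, and the Lipschitz property
-/

namespace Vale.Agent.P040.Mono

open Finset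

section rk
variable {n : ℕ} {α β γ : Type*} [LinearOrder α] [LinearOrder β] [LinearOrder γ]

theorem rk_lt_rk {κ : Fin n → α} {x y : Fin n} (h : κ x < κ y) : rk κ x < rk κ y := by
  unfold rk
  apply card_lt_card
  rw [Finset.ssubset_iff_of_subset]
  · exact ⟨x, by simp only [mem_filter, mem_univ, h, and_self], by simp only [mem_filter, mem_univ, lt_self_iff_false, and_false, not_false_eq_true]⟩
  · intro z hz
    simp only [mem_filter, mem_univ, true_and] at hz ⊢
    exact hz.trans h

theorem rk_lt_iff {κ : Fin n → α} (hκ : Function.Injective κ) {x y : Fin n} :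
    rk κ x < rk κ y ↔ κ x < κ y := by
  constructor
  · intro h
    rcases lt_trichotomy (κ x) (κ y) with h1 | h1 | h1
    · exact h1
    · rw [hκ h1] at h; exact absurd h (lt_irrefl _)
    · exact absurd h (not_lt.2 (rk_lt_rk h1).le)
  · exact rk_lt_rk

theorem rk_inj {κ : Fin n → α} (hκ : Function.Injective κ) {x y : Fin n} (h : rk κ x = rk κ y) :
    x = y := by
  rcases lt_trichotomy (κ x) (κ y) with h1 | h1 | h1
  · exact absurd h (rk_lt_rk h1).ne
  · exact hκ h1
  · exact absurd h (rk_lt_rk h1).ne'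

theorem rk_lt (κ : Fin n → α) (x : Fin n) : rk κ x < n := by
  have : rk κ x < (univ : Finset (Fin n)).card := by
    unfold rk
    apply card_lt_card
    rw [Finset.ssubset_iff_of_subset (subset_univ _)]
    exact ⟨x, mem_univ _, by simp only [mem_filter, mem_univ, lt_self_iff_false, and_false, not_false_eq_true]⟩
  simpa only [gt_iff_lt, card_univ, Fintype.card_fin] using this

theorem rk_surj {κ : Fin n → α} (hκ : Function.Injective κ) {r : ℕ} (hr : r < n) :
    ∃ x, rk κ x = r := by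
  have hinj : Function.Injective (fun x => (⟨rk κ x, rk_lt κ x⟩ : Fin n)) := by
    intro x y h
    simp only [Fin.mk.injEq] at h
    exact rk_inj hκ h
  obtain ⟨x, hx⟩ := (Finite.injective_iff_surjective.1 hinj) ⟨r, hr⟩
  exact ⟨x, by simpa using congrArg Fin.val hx⟩

theorem rk_congr {κ : Fin n → α} {κ' : Fin n → β} (h : ∀ x y, κ x < κ y ↔ κ' x < κ' y)
    (x : Fin n) : rk κ x = rk κ' x := by
  unfold rk; congr 1; ext y; simp only [h, mem_filter, mem_univ, true_and]

theorem g_congr {h : ℕ} {κ : Fin n → α} {κ' : Fin n → β} (hk : ∀ x y, κ x < κ y ↔ κ' x < κ' y)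
    (b : Fin n) : g h κ b = g h κ' b := by
  have : rk κ = rk κ' := funext (rk_congr hk)
  unfold g; rw [this]

end rk

section swap
variable {h : ℕ} {α : Type*} [LinearOrder α]

/-- Write `g` as a sum. -/
theorem g_eq_sum {n : ℕ} (κ : Fin n → α) (b : Fin n) :
    (g h κ b : ℤ) = ∑ k, if b < k ∧ Bef h (rk κ) k b then 1 else 0 := by
  unfold g; simp only [sum_boole]

theorem g_diff {n : ℕ} (κ κ' : Fin n → α) (b : Fin n) :
    (g h κ' b : ℤ) - g h κ b = ∑ k, ((if b < k ∧ Bef h (rk κ') k b then (1 : ℤ) else 0) -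
      if b < k ∧ Bef h (rk κ) k b then 1 else 0) := by
  rw [g_eq_sum, g_eq_sum, Finset.sum_sub_distrib]

/-- Localisation of the difference. -/
theorem g_diff_pair {n : ℕ} (κ κ' : Fin n → α) (b y z : Fin n) (hyz : y ≠ z)
    (hk : ∀ k, k ≠ y → k ≠ z → k ≠ b → (Bef h (rk κ') k b ↔ Bef h (rk κ) k b)) :
    (g h κ' b : ℤ) - g h κ b =
      ((if b < y ∧ Bef h (rk κ') y b then (1 : ℤ) else 0) -
        if b < y ∧ Bef h (rk κ) y b then 1 else 0) +
      ((if b < z ∧ Bef h (rk κ') z b then (1 : ℤ) else 0) -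
        if b < z ∧ Bef h (rk κ) z b then 1 else 0) := by
  rw [g_diff]
  rw [← Finset.sum_subset (Finset.subset_univ {y, z})]
  · rw [Finset.sum_pair hyz]
  · intro k _ hk'
    simp only [mem_insert, mem_singleton, not_or] at hk'
    by_cases hb : k = b
    · subst hb; simp
    · rw [if_congr (and_congr_right fun _ => hk k hk'.1 hk'.2 hb) rfl rfl, sub_self]

theorem g_diff_zero {n : ℕ} (κ κ' : Fin n → α) (b : Fin n)
    (hk : ∀ k, k ≠ b → (Bef h (rk κ') k b ↔ Bef h (rk κ) k b)) :
    (g h κ' b : ℤ) - g h κ b = 0 := by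
  rw [g_diff]
  apply Finset.sum_eq_zero
  intro k _
  by_cases hb : k = b
  · subst hb; simp
  · rw [if_congr (and_congr_right fun _ => hk k hb) rfl rfl, sub_self]

/-- The distance between two rotations. -/
def W (h : ℕ) {n : ℕ} {α β : Type*} [LinearOrder α] [LinearOrder β] (κ : Fin n → α)
    (κ' : Fin n → β) : ℤ := ∑ b, |(g h κ b : ℤ) - g h κ' b|

/-- Ranks after an adjacent transposition. -/
theorem rk_swap {n : ℕ} {κ : Fin n → α} (hκ : Function.Injective κ) {x y : Fin n}
    (hxy : κ x < κ y) (hadj : ∀ z, ¬ (κ x < κ z ∧ κ z < κ y)) :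
    rk κ y = rk κ x + 1 ∧ rk (κ ∘ Equiv.swap x y) x = rk κ x + 1 ∧
      rk (κ ∘ Equiv.swap x y) y = rk κ x ∧
      ∀ z, z ≠ x → z ≠ y → rk (κ ∘ Equiv.swap x y) z = rk κ z := by
  classical
  have hne : x ≠ y := fun h => by rw [h] at hxy; exact lt_irrefl _ hxy
  have h1 : rk κ y = rk κ x + 1 := by
    unfold rk
    have : univ.filter (fun z => κ z < κ y) = insert x (univ.filter (fun z => κ z < κ x)) := by
      ext z
      simp only [mem_filter, mem_univ, true_and, mem_insert]
      constructor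
      · intro hz
        by_contra hc
        push Not at hc
        exact hadj z ⟨lt_of_le_of_ne hc.2 (fun h => hc.1 (hκ h).symm), hz⟩
      · rintro (rfl | hz)
        · exact hxy
        · exact hz.trans hxy
    rw [this, card_insert_of_notMem (by simp only [mem_filter, mem_univ, lt_self_iff_false, and_false, not_false_eq_true])]
  have key : ∀ z, rk (κ ∘ Equiv.swap x y) z = rk κ (Equiv.swap x y z) := by
    intro z
    unfold rk
    apply Finset.card_bij (fun w _ => Equiv.swap x y w)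
    · intro w hw
      simp only [mem_filter, mem_univ, true_and, Function.comp] at hw ⊢
      exact hw
    · intro w _ w' _ hww
      exact (Equiv.swap x y).injective hww
    · intro w hw
      simp only [mem_filter, mem_univ, true_and, Function.comp] at hw ⊢
      exact ⟨Equiv.swap x y w, by simpa using hw, by simp⟩
  refine ⟨h1, ?_, ?_, ?_⟩
  · rw [key, Equiv.swap_apply_left]; exact h1
  · rw [key, Equiv.swap_apply_right]
  · intro z hzx hzy
    rw [key, Equiv.swap_apply_of_ne_of_ne hzx hzy]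

/-- An adjacent transposition changes the statistics by one unit in total. -/
theorem W_swap {κ : Fin (2 * h + 1) → α} (hκ : Function.Injective κ) {x y : Fin (2 * h + 1)}
    (hxy : κ x < κ y) (hadj : ∀ z, ¬ (κ x < κ z ∧ κ z < κ y)) :
    W h κ (κ ∘ Equiv.swap x y) ≤ 1 := by
  classical
  obtain ⟨r1, r2, r3, r4⟩ := rk_swap hκ hxy hadj
  set κ' := κ ∘ Equiv.swap x y with hκ'
  have hne : x ≠ y := fun h => by rw [h] at hxy; exact lt_irrefl _ hxy
  have hyn := rk_lt κ y
  have hh : 1 ≤ h := by omega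
  -- the opposite leaf
  obtain ⟨m, hm⟩ : ∃ m, (rk κ m = rk κ x + h + 1 ∨ rk κ m + h = rk κ x) := by
    rcases lt_or_ge (rk κ x + h + 1) (2 * h + 1) with h1 | h1
    · obtain ⟨m, hm⟩ := rk_surj hκ h1
      exact ⟨m, Or.inl hm⟩
    · obtain ⟨m, hm⟩ := rk_surj hκ (r := rk κ x - h) (by omega)
      exact ⟨m, Or.inr (by omega)⟩
  have hmx : m ≠ x := by rintro rfl; omega
  have hmy : m ≠ y := by rintro rfl; omega
  have hmuniq : ∀ z, (rk κ z = rk κ x + h + 1 ∨ rk κ z + h = rk κ x) → z = m := by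
    intro z hz
    apply rk_inj hκ
    have := rk_lt κ z
    have := rk_lt κ m
    omega
  have q4 : rk κ' m = rk κ m := r4 m hmx hmy
  -- other leaves
  have hother : ∀ b, b ≠ x → b ≠ y → b ≠ m → (g h κ' b : ℤ) - g h κ b = 0 := by
    intro b hbx hby hbm
    apply g_diff_zero
    intro k hkb
    have e1 := r4 b hbx hby
    have hb1 : ¬ (rk κ b = rk κ x + h + 1 ∨ rk κ b + h = rk κ x) := fun h => hbm (hmuniq b h)
    have hb2 : rk κ b ≠ rk κ x := fun h => hbx (rk_inj hκ h)
    have hb3 : rk κ b ≠ rk κ y := fun h => hby (rk_inj hκ h)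
    have hbl := rk_lt κ b
    unfold Bef
    by_cases hkx : k = x
    · subst hkx; rw [r2, e1]; omega
    · by_cases hky : k = y
      · subst hky; rw [r3, e1, r1]; omega
      · rw [r4 k hkx hky, e1]
  have hm1 : (g h κ' m : ℤ) - g h κ m = (if m < x then 1 else 0) - (if m < y then 1 else 0) := by
    rw [g_diff_pair κ κ' m x y hne]
    · have a1 : Bef h (rk κ') x m := by unfold Bef; rw [r2, q4]; (clear * - r2 r3 hh hm hmx hmy; omega)
      have a2 : ¬ Bef h (rk κ) x m := by unfold Bef; omega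
      have a3 : ¬ Bef h (rk κ') y m := by unfold Bef; rw [r3, q4]; (clear * - r1 r2 r3 hyn hm hmx hmy; omega)
      have a4 : Bef h (rk κ) y m := by unfold Bef; rw [r1]; (clear * - r2 r3 hh hm hmx hmy; omega)
      simp only [a1, a2, a3, a4, and_true, and_false, if_false]
      ring
    · intro k hkx hky _
      unfold Bef
      rw [r4 k hkx hky, q4]
  have hx1 : (g h κ' x : ℤ) - g h κ x = (if x < y then 1 else 0) - (if x < m then 1 else 0) := by
    rw [g_diff_pair κ κ' x y m hmy.symm]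
    · have a1 : Bef h (rk κ') y x := by unfold Bef; rw [r2, r3]; omega
      have a2 : ¬ Bef h (rk κ) y x := by unfold Bef; rw [r1]; omega
      have a3 : ¬ Bef h (rk κ') m x := by unfold Bef; rw [r2, q4]; (clear * - r1 r2 r3 hyn hm hmx hmy; omega)
      have a4 : Bef h (rk κ) m x := by unfold Bef; (clear * - r2 r3 hh hm hmx hmy; omega)
      simp only [a1, a2, a3, a4, and_true, and_false, if_false]
      ring
    · intro k hky hkm hkx
      unfold Bef
      rw [r4 k hkx hky, r2]
      have hb1 : ¬ (rk κ k = rk κ x + h + 1 ∨ rk κ k + h = rk κ x) := fun h => hkm (hmuniq k h)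
      have hb2 : rk κ k ≠ rk κ x := fun h => hkx (rk_inj hκ h)
      have := rk_lt κ k
      (clear * - r1 r2 r3 hyn hb1 hb2; omega)
  have hy1 : (g h κ' y : ℤ) - g h κ y = (if y < m then 1 else 0) - (if y < x then 1 else 0) := by
    rw [g_diff_pair κ κ' y m x hmx]
    · have a1 : Bef h (rk κ') m y := by unfold Bef; rw [r3, q4]; (clear * - r2 r3 hh hm hmx hmy; omega)
      have a2 : ¬ Bef h (rk κ) m y := by unfold Bef; rw [r1]; (clear * - r1 r2 r3 hyn hm hmx hmy; omega)
      have a3 : ¬ Bef h (rk κ') x y := by unfold Bef; rw [r2, r3]; omega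
      have a4 : Bef h (rk κ) x y := by unfold Bef; rw [r1]; omega
      simp only [a1, a2, a3, a4, and_true, and_false, if_false]
      ring
    · intro k hkm hkx hky
      unfold Bef
      rw [r4 k hkx hky, r3, r1]
      have hb1 : ¬ (rk κ k = rk κ x + h + 1 ∨ rk κ k + h = rk κ x) := fun h => hkm (hmuniq k h)
      have hb2 : rk κ k ≠ rk κ x := fun h => hkx (rk_inj hκ h)
      have := rk_lt κ k
      (clear * - r2 r3 hb1 hb2 this; omega)
  unfold W
  have hsum : ∑ b, |(g h κ b : ℤ) - g h κ' b| =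
      |(g h κ x : ℤ) - g h κ' x| + (|(g h κ y : ℤ) - g h κ' y| + |(g h κ m : ℤ) - g h κ' m|) := by
    rw [← Finset.sum_subset (Finset.subset_univ {x, y, m})]
    · rw [Finset.sum_insert (by simp [hne, hmx.symm]), Finset.sum_pair hmy.symm]
    · intro b _ hb
      simp only [mem_insert, mem_singleton, not_or] at hb
      have := hother b hb.1 hb.2.1 hb.2.2
      rw [abs_eq_zero]; omega
  rw [hsum]
  have e1 : (g h κ x : ℤ) - g h κ' x = (if x < m then 1 else 0) - (if x < y then 1 else 0) := by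
    omega
  have e2 : (g h κ y : ℤ) - g h κ' y = (if y < x then 1 else 0) - (if y < m then 1 else 0) := by
    omega
  have e3 : (g h κ m : ℤ) - g h κ' m = (if m < y then 1 else 0) - (if m < x then 1 else 0) := by
    omega
  rw [e1, e2, e3]
  rcases lt_or_gt_of_ne hne with c1 | c1 <;> rcases lt_or_gt_of_ne hmx with c2 | c2 <;>
    rcases lt_or_gt_of_ne hmy with c3 | c3 <;>
    simp [c1, c2, c3, not_lt.2 c1.le, not_lt.2 c2.le, not_lt.2 c3.le]
  all_goals exact absurd (c1.trans (by assumption)) (by order)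

end swap

end Vale.Agent.P040.Mono
end
end

section

section

/-!
# The distance of two rotations is at most the number of discordant pairs
-/

namespace Vale.Agent.P040.Mono

open Finset

section
variable {h : ℕ} {α β γ : Type*} [LinearOrder α] [LinearOrder β] [LinearOrder γ]

theorem W_triangle {n : ℕ} (κ : Fin n → α) (κ' : Fin n → β) (κ'' : Fin n → γ) :
    W h κ κ'' ≤ W h κ κ' + W h κ' κ'' := by
  unfold W
  rw [← Finset.sum_add_distrib]
  apply Finset.sum_le_sum
  intro b _
  exact abs_sub_le _ _ _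

theorem W_le_inv {κ : Fin (2 * h + 1) → α} {κ' : Fin (2 * h + 1) → β}
    (hκ : Function.Injective κ) (hκ' : Function.Injective κ') : W h κ κ' ≤ inv κ κ' := by
  classical
  induction hN : inv κ κ' using Nat.strong_induction_on generalizing κ with
  | _ N ih =>
    subst hN
    set S := univ.filter (fun s : Fin (2 * h + 1) × Fin (2 * h + 1) =>
      κ s.1 < κ s.2 ∧ κ' s.2 < κ' s.1) with hS
    rcases S.eq_empty_or_nonempty with hE | hne
    · have key : ∀ x y, κ x < κ y → κ' x < κ' y := by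
        intro x y hxy
        rcases lt_trichotomy (κ' x) (κ' y) with h1 | h1 | h1
        · exact h1
        · rw [hκ' h1] at hxy; exact absurd hxy (lt_irrefl _)
        · have : (x, y) ∈ S := by simp [hS, hxy, h1]
          rw [hE] at this; exact absurd this (Finset.notMem_empty _)
      have key2 : ∀ x y, κ x < κ y ↔ κ' x < κ' y := by
        intro x y
        refine ⟨key x y, fun h1 => ?_⟩
        rcases lt_trichotomy (κ x) (κ y) with h2 | h2 | h2
        · exact h2
        · rw [hκ h2] at h1; exact absurd h1 (lt_irrefl _)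
        · exact absurd (key y x h2) (not_lt.2 h1.le)
      have : W h κ κ' = 0 := by
        unfold W
        apply Finset.sum_eq_zero
        intro b _
        rw [g_congr key2 b]; simp
      rw [this]; (clear * -; positivity)
    · obtain ⟨⟨x, y⟩, hmem, hmin⟩ := S.exists_min_image (fun s => rk κ s.2 - rk κ s.1) hne
      simp only [hS, mem_filter, mem_univ, true_and] at hmem
      obtain ⟨hxy, hyx⟩ := hmem
      have hadj : ∀ z, ¬ (κ x < κ z ∧ κ z < κ y) := by
        rintro z ⟨h1, h2⟩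
        have r1 := rk_lt_rk h1
        have r2 := rk_lt_rk h2
        rcases lt_or_ge (κ' z) (κ' x) with h3 | h3
        · have := hmin (x, z) (by simp [hS, h1, h3])
          simp only at this
          omega
        · have := hmin (z, y) (by simp [hS, h2, lt_of_lt_of_le hyx h3])
          simp only at this
          omega
      set κ1 := κ ∘ Equiv.swap x y with hκ1
      have hinj1 : Function.Injective κ1 := hκ.comp (Equiv.swap x y).injective
      have e1 : κ1 x = κ y := by simp [hκ1]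
      have e2 : κ1 y = κ x := by simp [hκ1]
      have e3 : ∀ z, z ≠ x → z ≠ y → κ1 z = κ z := by
        intro z h1 h2; simp [hκ1, Equiv.swap_apply_of_ne_of_ne h1 h2]
      have hlt : inv κ1 κ' < inv κ κ' := by
        unfold inv
        apply card_lt_card
        rw [Finset.ssubset_iff_of_subset]
        · refine ⟨(x, y), by simp [hxy, hyx], ?_⟩
          simp only [mem_filter, mem_univ, true_and, not_and]
          intro h1
          rw [e1, e2] at h1
          exact absurd h1 (not_lt.2 hxy.le)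
        · rintro ⟨u, v⟩ huv
          simp only [mem_filter, mem_univ, true_and] at huv ⊢
          obtain ⟨h1, h2⟩ := huv
          refine ⟨?_, h2⟩
          have nb : ∀ z, κ x < κ z → z ≠ y → κ y < κ z := by
            intro z hz hzy
            rcases lt_trichotomy (κ y) (κ z) with c | c | c
            · exact c
            · exact absurd (hκ c).symm hzy
            · exact absurd ⟨hz, c⟩ (hadj z)
          have nb' : ∀ z, κ z < κ y → z ≠ x → κ z < κ x := by
            intro z hz hzx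
            rcases lt_trichotomy (κ z) (κ x) with c | c | c
            · exact c
            · exact absurd (hκ c) hzx
            · exact absurd ⟨c, hz⟩ (hadj z)
          by_cases ux : u = x
          · subst ux
            rw [e1] at h1
            by_cases vy : v = y
            · subst vy; exact hxy
            · by_cases vx : v = u
              · subst vx; rw [e1] at h1; exact absurd h1 (lt_irrefl _)
              · rw [e3 v vx vy] at h1; exact hxy.trans h1
          · by_cases uy : u = y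
            · subst uy
              rw [e2] at h1
              by_cases vx : v = x
              · subst vx; exact absurd h2 (not_lt.2 hyx.le)
              · by_cases vy : v = u
                · subst vy; rw [e2] at h1; exact absurd h1 (lt_irrefl _)
                · rw [e3 v vx vy] at h1; exact nb v h1 vy
            · rw [e3 u ux uy] at h1
              by_cases vx : v = x
              · subst vx; rw [e1] at h1; exact nb' u h1 ux
              · by_cases vy : v = y
                · subst vy; rw [e2] at h1; exact h1.trans hxy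
                · rw [e3 v vx vy] at h1; exact h1
      have h1 := W_swap hκ hxy hadj
      have h2 := ih _ hlt hinj1 rfl
      have h3 := W_triangle (h := h) κ κ1 κ'
      have h4 : ((inv κ1 κ' : ℕ) : ℤ) + 1 ≤ inv κ κ' := by exact_mod_cast hlt
      linarith only [hlt, h1, h2, h3]

end

end Vale.Agent.P040.Mono
end
end

section

section

/-!
# Rotation invariance, reversal, bounds, extreme positions
-/

namespace Vale.Agent.P040.Mono

open Finset

section
variable {h : ℕ} {α β γ : Type*} [LinearOrder α] [LinearOrder β] [LinearOrder γ]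

theorem card_split {n : ℕ} (S T : Fin n → Prop) [DecidablePred S] [DecidablePred T] :
    (univ.filter T).card = (univ.filter (fun y => S y ∧ T y)).card +
      (univ.filter (fun y => ¬ S y ∧ T y)).card := by
  classical
  rw [← Finset.card_filter_add_card_filter_not (s := univ.filter T) (p := S)]
  congr 1 <;> · congr 1; ext y; simp only [mem_filter, mem_univ, true_and, and_comm]

/-- Rotating the cyclic order does not change the statistics. -/
theorem g_rotate {κ : Fin (2 * h + 1) → α} {κ' : Fin (2 * h + 1) → β}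
    (hκ : Function.Injective κ) (S : Fin (2 * h + 1) → Prop)
    (r1 : ∀ x y, S x → ¬ S y → κ y < κ x ∧ κ' x < κ' y)
    (r2 : ∀ x y, (S x ↔ S y) → (κ x < κ y ↔ κ' x < κ' y)) (b : Fin (2 * h + 1)) :
    g h κ b = g h κ' b := by
  classical
  set s := (univ.filter S).card with hs
  set c := (univ.filter (fun y => ¬ S y)).card with hc
  have hsc : s + c = 2 * h + 1 := by
    have := Finset.card_filter_add_card_filter_not (s := (univ : Finset (Fin (2 * h + 1)))) (p := S)
    simpa only [hs, hc, card_univ, Fintype.card_fin] using this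
  -- ranks
  have a1 : ∀ x, S x → rk κ x = c + (univ.filter (fun y => S y ∧ κ y < κ x)).card ∧
      rk κ' x = (univ.filter (fun y => S y ∧ κ y < κ x)).card := by
    intro x hx
    constructor
    · unfold rk
      rw [card_split S, add_comm]
      congr 1
      rw [hc]; congr 1; ext y
      simp only [mem_filter, mem_univ, true_and, and_iff_left_iff_imp]
      exact fun hy => (r1 x y hx hy).1
    · unfold rk
      congr 1; ext y
      simp only [mem_filter, mem_univ, true_and]
      constructor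
      · intro hy
        by_cases hSy : S y
        · exact ⟨hSy, (r2 y x (by simp [hSy, hx])).2 hy⟩
        · exact absurd hy (not_lt.2 (r1 x y hx hSy).2.le)
      · rintro ⟨hSy, hy⟩
        exact (r2 y x (by simp [hSy, hx])).1 hy
  have a2 : ∀ x, ¬ S x → rk κ' x = s + (univ.filter (fun y => ¬ S y ∧ κ y < κ x)).card ∧
      rk κ x = (univ.filter (fun y => ¬ S y ∧ κ y < κ x)).card := by
    intro x hx
    constructor
    · unfold rk
      rw [card_split S]
      congr 1
      · rw [hs]; congr 1; ext y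
        simp only [mem_filter, mem_univ, true_and, and_iff_left_iff_imp]
        exact fun hy => (r1 y x hy hx).2
      · congr 1; ext y
        simp only [mem_filter, mem_univ, true_and, and_congr_right_iff]
        exact fun hy => (r2 y x (by simp [hy, hx])).symm
    · unfold rk
      congr 1; ext y
      simp only [mem_filter, mem_univ, true_and]
      constructor
      · intro hy
        by_cases hSy : S y
        · exact absurd hy (not_lt.2 (r1 y x hSy hx).1.le)
        · exact ⟨hSy, hy⟩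
      · rintro ⟨hSy, hy⟩
        exact hy
  unfold g
  congr 1; ext k
  simp only [mem_filter, mem_univ, true_and, and_congr_right_iff]
  intro hbk
  have hne : rk κ k ≠ rk κ b := fun he => hbk.ne' (rk_inj hκ he)
  have l1 := rk_lt κ k
  have l2 := rk_lt κ b
  have l3 := rk_lt κ' k
  have l4 := rk_lt κ' b
  unfold Bef
  by_cases hk : S k <;> by_cases hb : S b
  · obtain ⟨e1, e2⟩ := a1 k hk
    obtain ⟨e3, e4⟩ := a1 b hb
    omega
  · obtain ⟨e1, e2⟩ := a1 k hk
    obtain ⟨e3, e4⟩ := a2 b hb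
    omega
  · obtain ⟨e1, e2⟩ := a2 k hk
    obtain ⟨e3, e4⟩ := a1 b hb
    omega
  · obtain ⟨e1, e2⟩ := a2 k hk
    obtain ⟨e3, e4⟩ := a2 b hb
    omega

theorem card_gt (b : Fin (2 * h + 1)) : (univ.filter (fun k => b < k)).card = 2 * h - b.1 := by
  have : univ.filter (fun k => b < k) = Finset.Ioi b := by ext; simp only [mem_filter, mem_univ, true_and, mem_Ioi]
  rw [this, Fin.card_Ioi]; omega

theorem card_lt' (b : Fin (2 * h + 1)) : (univ.filter (fun k => k < b)).card = b.1 := by
  have : univ.filter (fun k => k < b) = Finset.Iio b := by ext; simp only [mem_filter, mem_univ, true_and, mem_Iio]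
  rw [this, Fin.card_Iio]

/-- Reversal. -/
theorem g_reverse {κ : Fin (2 * h + 1) → α} {κ' : Fin (2 * h + 1) → β}
    (hκ : Function.Injective κ)
    (hr : ∀ x y, κ' x < κ' y ↔ κ y < κ x) (b : Fin (2 * h + 1)) :
    g h κ' b + g h κ b = 2 * h - b.1 := by
  classical
  have hrk : ∀ x, rk κ' x + rk κ x = 2 * h := by
    intro x
    have h1 : rk κ' x = (univ.filter (fun y => κ x < κ y)).card := by
      unfold rk; congr 1; ext y; simp [hr]
    have h2 := Finset.card_filter_add_card_filter_not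
      (s := (univ : Finset (Fin (2 * h + 1)))) (p := fun y => κ y < κ x)
    have h3 : (univ.filter (fun y => ¬ κ y < κ x)) =
        insert x (univ.filter (fun y => κ x < κ y)) := by
      ext y
      simp only [mem_filter, mem_univ, true_and, mem_insert, not_lt]
      constructor
      · intro hy
        rcases hy.lt_or_eq with h4 | h4
        · exact Or.inr h4
        · exact Or.inl (hκ h4).symm
      · rintro (rfl | h4)
        · exact le_rfl
        · exact h4.le
    rw [h3, card_insert_of_notMem (by simp), card_univ, Fintype.card_fin] at h2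
    unfold rk at h1 ⊢
    omega
  rw [← card_gt b]
  unfold g
  rw [card_split (fun k => Bef h (rk κ') k b) (fun k => b < k)]
  congr 1
  · congr 1; ext k; simp [and_comm]
  · congr 1; ext k
    simp only [mem_filter, mem_univ, true_and]
    rw [and_comm]
    apply and_congr_left
    intro hbk
    have hne : rk κ k ≠ rk κ b := fun he => hbk.ne' (rk_inj hκ he)
    have l1 := rk_lt κ k
    have l2 := rk_lt κ b
    have e1 := hrk k
    have e2 := hrk b
    unfold Bef
    omega

theorem card_bef {κ : Fin (2 * h + 1) → α} (hκ : Function.Injective κ) (b : Fin (2 * h + 1)) :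
    (univ.filter (fun k => Bef h (rk κ) k b)).card = h := by
  classical
  have h1 : (univ.filter (fun k => Bef h (rk κ) k b)).card =
      ((Finset.range (2 * h + 1)).filter (fun r => (r < rk κ b ∧ rk κ b ≤ r + h) ∨
        rk κ b + h < r)).card := by
    apply Finset.card_bij (fun k _ => rk κ k)
    · intro k hk
      simp only [mem_filter, mem_univ, true_and] at hk
      simp only [mem_filter, mem_range]
      exact ⟨rk_lt κ k, hk⟩
    · intro k _ k' _ hkk
      exact rk_inj hκ hkk
    · intro r hr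
      simp only [mem_filter, mem_range] at hr
      obtain ⟨k, hk⟩ := rk_surj hκ hr.1
      refine ⟨k, ?_, hk⟩
      simp only [mem_filter, mem_univ, true_and]
      unfold Bef
      rw [hk]; exact hr.2
  rw [h1]
  have hb := rk_lt κ b
  generalize rk κ b = p at *
  rcases le_or_gt h p with hp | hp
  · have : (Finset.range (2 * h + 1)).filter (fun r => (r < p ∧ p ≤ r + h) ∨ p + h < r) =
        Finset.Ico (p - h) p := by
      ext r
      simp only [mem_filter, mem_range, mem_Ico]
      omega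
    rw [this, Nat.card_Ico]; omega
  · have : (Finset.range (2 * h + 1)).filter (fun r => (r < p ∧ p ≤ r + h) ∨ p + h < r) =
        Finset.range p ∪ Finset.Ico (p + h + 1) (2 * h + 1) := by
      ext r
      simp only [mem_filter, mem_range, mem_Ico, mem_union]
      omega
    rw [this, card_union_of_disjoint]
    · rw [Nat.card_Ico, card_range]; omega
    · rw [Finset.disjoint_left]
      intro r
      simp only [mem_range, mem_Ico]
      omega

theorem g_add {κ : Fin (2 * h + 1) → α} (hκ : Function.Injective κ) (b : Fin (2 * h + 1)) :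
    g h κ b + (univ.filter (fun k => k < b ∧ Bef h (rk κ) k b)).card = h := by
  classical
  have key := card_bef hκ b
  rw [card_split (fun k => b < k) (fun k => Bef h (rk κ) k b)] at key
  have e : univ.filter (fun k => ¬ b < k ∧ Bef h (rk κ) k b) =
      univ.filter (fun k => k < b ∧ Bef h (rk κ) k b) := by
    ext k
    simp only [mem_filter, mem_univ, true_and, not_lt]
    constructor
    · rintro ⟨h1, h2⟩
      refine ⟨lt_of_le_of_ne h1 ?_, h2⟩
      rintro rfl
      unfold Bef at h2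
      omega
    · rintro ⟨h1, h2⟩; exact ⟨h1.le, h2⟩
  rw [e] at key
  exact key

theorem g_le_h {κ : Fin (2 * h + 1) → α} (hκ : Function.Injective κ) (b : Fin (2 * h + 1)) :
    g h κ b ≤ h := by
  have := g_add hκ b; omega

theorem g_le {κ : Fin (2 * h + 1) → α} (b : Fin (2 * h + 1)) :
    g h κ b ≤ 2 * h - b.1 := by
  rw [← card_gt b]
  unfold g
  apply card_le_card
  intro k hk
  simp only [mem_filter, mem_univ, true_and] at hk ⊢
  exact hk.1

theorem le_g {κ : Fin (2 * h + 1) → α} (hκ : Function.Injective κ) (b : Fin (2 * h + 1)) :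
    h ≤ g h κ b + b.1 := by
  have h1 := g_add hκ b
  have h2 : (univ.filter (fun k => k < b ∧ Bef h (rk κ) k b)).card ≤ b.1 := by
    rw [← card_lt' b]
    apply card_le_card
    intro k hk
    simp only [mem_filter, mem_univ, true_and] at hk ⊢
    exact hk.1
  omega

/-- cyclic order of three leaves -/
def Cyc {n : ℕ} (κ : Fin n → α) (x y z : Fin n) : Prop :=
  (κ x < κ y ∧ κ y < κ z) ∨ (κ y < κ z ∧ κ z < κ x) ∨ (κ z < κ x ∧ κ x < κ y)

theorem bef_of_cyc {κ : Fin (2 * h + 1) → α} {b x y : Fin (2 * h + 1)} (hc : Cyc κ b x y)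
    (hx : Bef h (rk κ) x b) : Bef h (rk κ) y b := by
  have l1 := rk_lt κ b
  have l2 := rk_lt κ x
  have l3 := rk_lt κ y
  unfold Bef at *
  rcases hc with ⟨h1, h2⟩ | ⟨h1, h2⟩ | ⟨h1, h2⟩ <;>
  · have := rk_lt_rk h1
    have := rk_lt_rk h2
    omega

/-- lower extreme position -/
theorem g_lo {κ : Fin (2 * h + 1) → α} (hκ : Function.Injective κ) (b : Fin (2 * h + 1))
    (hc : ∀ k k', k < b → b < k' → Cyc κ b k' k) : g h κ b = h - b.1 := by
  classical
  have h1 := g_add hκ b
  have h2 := le_g hκ b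
  by_cases h3 : ∃ k', b < k' ∧ Bef h (rk κ) k' b
  · obtain ⟨k', hk1, hk2⟩ := h3
    have : (univ.filter (fun k => k < b ∧ Bef h (rk κ) k b)).card = b.1 := by
      rw [← card_lt' b]
      congr 1; ext k
      simp only [mem_filter, mem_univ, true_and, and_iff_left_iff_imp]
      intro hk
      exact bef_of_cyc (hc k k' hk hk1) hk2
    omega
  · have : g h κ b = 0 := by
      unfold g
      rw [card_eq_zero, filter_eq_empty_iff]
      intro k _ hk
      exact h3 ⟨k, hk⟩
    omega

/-- upper extreme position -/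
theorem g_hi {κ : Fin (2 * h + 1) → α} (hκ : Function.Injective κ) (b : Fin (2 * h + 1))
    (hc : ∀ k k', k < b → b < k' → Cyc κ b k k') : g h κ b = min h (2 * h - b.1) := by
  classical
  have h1 := g_add hκ b
  have h2 := g_le (κ := κ) b
  have h2' := g_le_h hκ b
  by_cases h3 : ∃ k, k < b ∧ Bef h (rk κ) k b
  · obtain ⟨k, hk1, hk2⟩ := h3
    have : g h κ b = 2 * h - b.1 := by
      rw [← card_gt b]
      unfold g
      congr 1; ext k'
      simp only [mem_filter, mem_univ, true_and, and_iff_left_iff_imp]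
      intro hk
      exact bef_of_cyc (hc k k' hk1 hk) hk2
    omega
  · have : (univ.filter (fun k => k < b ∧ Bef h (rk κ) k b)).card = 0 := by
      rw [card_eq_zero, filter_eq_empty_iff]
      intro k _ hk
      exact h3 ⟨k, hk⟩
    omega

end

end Vale.Agent.P040.Mono
end
end

section

section

/-!
# The inequality for a pair of stars
-/

namespace Vale.Agent.P040.Mono

open Finset

section
variable {α β : Type*} [LinearOrder α] [LinearOrder β]

/-- two orders disagree on the pair -/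
def Disc {n : ℕ} (κ : Fin n → α) (κ' : Fin n → β) (k l : Fin n) : Prop :=
  (κ k < κ l ∧ κ' l < κ' k) ∨ (κ l < κ k ∧ κ' k < κ' l)

open Classical in
theorem inv_le {n : ℕ} (κ : Fin n → α) (κ' : Fin n → β) (D : Fin n → Fin n → Prop)
    (hD : ∀ x y, Disc κ κ' x y → D x y ∨ D y x) :
    inv κ κ' ≤ (univ.filter (fun s : Fin n × Fin n => D s.1 s.2 ∧ Disc κ κ' s.1 s.2)).card := by
  unfold inv
  apply Finset.card_le_card_of_injOn (fun s => if D s.1 s.2 then s else (s.2, s.1))
  · rintro ⟨x, y⟩ hs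
    simp only [coe_filter, mem_univ, true_and, Set.mem_ofPred_eq] at hs ⊢
    have hd : Disc κ κ' x y := Or.inl hs
    by_cases h1 : D x y
    · simp only [h1, if_true]; exact ⟨trivial, hd⟩
    · simp only [h1, if_false]
      rcases hD x y hd with h2 | h2
      · exact absurd h2 h1
      · exact ⟨h2, Or.inr ⟨hs.1, hs.2⟩⟩
  · rintro ⟨x, y⟩ hs ⟨x', y'⟩ hs' he
    simp only [coe_filter, mem_univ, true_and, Set.mem_ofPred_eq] at hs hs' he
    by_cases h1 : D x y <;> by_cases h2 : D x' y' <;>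
      simp only [h1, h2, if_true, if_false, Prod.mk.injEq] at he ⊢
    · exact he
    · obtain ⟨rfl, rfl⟩ := he
      exact absurd hs.1 (not_lt.2 hs'.1.le)
    · obtain ⟨rfl, rfl⟩ := he
      exact absurd hs.1 (not_lt.2 hs'.1.le)
    · exact ⟨he.2, he.1⟩

end

section pair
variable {h : ℕ} {α : Type*} [LinearOrder α] (iP iQ : ℕ) (κQ : Fin (2 * h + 1) → α)
  (u v : Fin (2 * h + 1) → Prop)

/-- decreasing rank for `Q` -/
def rq (x : Fin (2 * h + 1)) : ℕ := rk (fun y => OrderDual.toDual (κQ y)) x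

theorem rq_lt (x : Fin (2 * h + 1)) : rq κQ x < 2 * h + 1 := rk_lt _ x

variable {κQ} in
theorem rq_lt_iff (hQ : Function.Injective κQ) (x y : Fin (2 * h + 1)) :
    rq κQ x < rq κQ y ↔ κQ y < κQ x := by
  unfold rq
  exact (rk_lt_iff (κ := fun y => OrderDual.toDual (κQ y))
    (fun a b h => hQ (OrderDual.toDual.injective h))).trans OrderDual.toDual_lt_toDual

open Classical in
/-- The star `P*`. -/
noncomputable def kP (x : Fin (2 * h + 1)) : ℕ :=
  if x.1 < iP then (if v x then 4 * (2 * h + 2) + x.1 else 3 * (2 * h + 2) + (2 * h + 1 - x.1))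
  else if x.1 < iQ then (2 * h + 2) + rq κQ x
  else if u x then (2 * h + 1 - x.1) else 2 * (2 * h + 2) + x.1

open Classical in
/-- `P*` rotated. -/
noncomputable def k1 (x : Fin (2 * h + 1)) : ℕ :=
  if x.1 < iP then (if v x then x.1 else 4 * (2 * h + 2) + (2 * h + 1 - x.1))
  else if x.1 < iQ then 2 * (2 * h + 2) + rq κQ x
  else if u x then (2 * h + 2) + (2 * h + 1 - x.1) else 3 * (2 * h + 2) + x.1

open Classical in
/-- The reversal of `Q*`. -/
noncomputable def kR (x : Fin (2 * h + 1)) : ℕ :=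
  if x.1 < iP then (if v x then x.1 else 2 * (2 * h + 2) + (2 * h + 1 - x.1))
  else if x.1 < iQ then (2 * h + 2) + rq κQ x
  else if u x then 4 * (2 * h + 2) + (2 * h + 1 - x.1) else 3 * (2 * h + 2) + x.1

open Classical in
/-- The reversal of `Q*`, rotated. -/
noncomputable def k2 (x : Fin (2 * h + 1)) : ℕ :=
  if x.1 < iP then (if v x then (2 * h + 2) + x.1 else 3 * (2 * h + 2) + (2 * h + 1 - x.1))
  else if x.1 < iQ then 2 * (2 * h + 2) + rq κQ x
  else if u x then (2 * h + 1 - x.1) else 4 * (2 * h + 2) + x.1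

variable {κQ}

theorem kP_inj (hQ : Function.Injective κQ) : Function.Injective (kP iP iQ κQ u v) := by
  intro x y hxy
  have hx := x.2
  have hy := y.2
  have rx := rq_lt κQ x
  have ry := rq_lt κQ y
  unfold kP at hxy
  by_cases hr : rq κQ x = rq κQ y
  · exact rk_inj (OrderDual.toDual.injective.comp hQ) hr
  · apply Fin.ext
    split_ifs at hxy <;> omega

theorem k1_inj (hQ : Function.Injective κQ) : Function.Injective (k1 iP iQ κQ u v) := by
  intro x y hxy
  have hx := x.2
  have hy := y.2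
  have rx := rq_lt κQ x
  have ry := rq_lt κQ y
  unfold k1 at hxy
  by_cases hr : rq κQ x = rq κQ y
  · exact rk_inj (OrderDual.toDual.injective.comp hQ) hr
  · apply Fin.ext
    split_ifs at hxy <;> omega

theorem kR_inj (hQ : Function.Injective κQ) : Function.Injective (kR iP iQ κQ u v) := by
  intro x y hxy
  have hx := x.2
  have hy := y.2
  have rx := rq_lt κQ x
  have ry := rq_lt κQ y
  unfold kR at hxy
  by_cases hr : rq κQ x = rq κQ y
  · exact rk_inj (OrderDual.toDual.injective.comp hQ) hr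
  · apply Fin.ext
    split_ifs at hxy <;> omega

theorem k2_inj (hQ : Function.Injective κQ) : Function.Injective (k2 iP iQ κQ u v) := by
  intro x y hxy
  have hx := x.2
  have hy := y.2
  have rx := rq_lt κQ x
  have ry := rq_lt κQ y
  unfold k2 at hxy
  by_cases hr : rq κQ x = rq κQ y
  · exact rk_inj (OrderDual.toDual.injective.comp hQ) hr
  · apply Fin.ext
    split_ifs at hxy <;> omega

theorem g_kP_k1 (hQ : Function.Injective κQ) (b : Fin (2 * h + 1)) :
    g h (kP iP iQ κQ u v) b = g h (k1 iP iQ κQ u v) b := by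
  apply g_rotate (kP_inj iP iQ u v hQ) (fun x => x.1 < iP ∧ v x)
  · intro x y hx hy
    have hx' := x.2
    have hy' := y.2
    have rx := rq_lt κQ x
    have ry := rq_lt κQ y
    unfold kP k1
    simp only [hx.1, hx.2, if_true]
    split_ifs with c1 c2 c3 c4
    · exact absurd ⟨c1, c2⟩ hy
    all_goals omega
  · intro x y hxy
    have hx' := x.2
    have hy' := y.2
    have rx := rq_lt κQ x
    have ry := rq_lt κQ y
    unfold kP k1
    by_cases c1 : x.1 < iP <;> by_cases c2 : v x <;> by_cases c3 : y.1 < iP <;>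
      by_cases c4 : v y <;> simp only [c1, c2, c3, c4, and_true, and_false, if_true,
        if_false, iff_true, iff_false, not_true_eq_false] at hxy ⊢ <;> (try split_ifs) <;> omega

theorem g_kR_k2 (hQ : Function.Injective κQ) (b : Fin (2 * h + 1)) :
    g h (kR iP iQ κQ u v) b = g h (k2 iP iQ κQ u v) b := by
  apply g_rotate (kR_inj iP iQ u v hQ) (fun x => ¬ x.1 < iP ∧ ¬ x.1 < iQ ∧ u x)
  · intro x y hx hy
    have hx' := x.2
    have hy' := y.2
    have rx := rq_lt κQ x
    have ry := rq_lt κQ y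
    unfold kR k2
    simp only [hx.1, hx.2.1, hx.2.2, if_true, if_false]
    split_ifs with c1 c2 c3 c4
    all_goals first | omega | exact absurd ⟨c1, c3, c4⟩ hy
  · intro x y hxy
    have hx' := x.2
    have hy' := y.2
    have rx := rq_lt κQ x
    have ry := rq_lt κQ y
    unfold kR k2
    by_cases c1 : x.1 < iP <;> by_cases c2 : x.1 < iQ <;> by_cases c3 : y.1 < iP <;>
      by_cases c4 : y.1 < iQ <;> by_cases c5 : u x <;> by_cases c6 : u y <;>
      simp only [c1, c2, c3, c4, c5, c6, and_true, and_false, if_true,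
        if_false, iff_true, iff_false, not_true_eq_false, not_false_eq_true] at hxy ⊢ <;> (try split_ifs) <;> omega

end pair

end Vale.Agent.P040.Mono
end
end

section

section

/-!
# The inequality for a pair of stars, part 2
-/

namespace Vale.Agent.P040.Mono

open Finset

section pair
variable {h : ℕ} {α : Type*} [LinearOrder α] {iP iQ : ℕ} {κP κQ : Fin (2 * h + 1) → α}
  {u v : Fin (2 * h + 1) → Prop}

/-- extreme value of the statistic of a leaf on the left of both stars -/
theorem ext1 (hQ : Function.Injective κQ) (b : Fin (2 * h + 1))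
    (hb : b.1 < iP) :
    g h (k1 iP iQ κQ u v) b = h - b.1 ∨ g h (k1 iP iQ κQ u v) b = min h (2 * h - b.1) := by
  by_cases hv : v b
  · left
    apply g_lo (k1_inj iP iQ u v hQ)
    intro k k' hk hk'
    have h1 := b.2
    have h2 := k.2
    have h3 := k'.2
    have r2 := rq_lt κQ k
    have r3 := rq_lt κQ k'
    have hk1 : k.1 < iP := lt_trans hk hb
    rw [Fin.lt_def] at hk hk'
    unfold Cyc k1
    simp only [hb, hv, hk1, if_true]
    split_ifs <;> omega
  · right
    apply g_hi (k1_inj iP iQ u v hQ)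
    intro k k' hk hk'
    have h1 := b.2
    have h2 := k.2
    have h3 := k'.2
    have r2 := rq_lt κQ k
    have r3 := rq_lt κQ k'
    have hk1 : k.1 < iP := lt_trans hk hb
    rw [Fin.lt_def] at hk hk'
    unfold Cyc k1
    simp only [hb, hv, hk1, if_true, if_false]
    split_ifs <;> omega

/-- extreme value of the statistic of a leaf on the right of both stars -/
theorem ext2 (hPQ : iP ≤ iQ) (hQ : Function.Injective κQ) (b : Fin (2 * h + 1))
    (hb : iQ ≤ b.1) :
    g h (k2 iP iQ κQ u v) b = h - b.1 ∨ g h (k2 iP iQ κQ u v) b = min h (2 * h - b.1) := by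
  have hb1 : ¬ b.1 < iP := by omega
  have hb2 : ¬ b.1 < iQ := by omega
  by_cases hu : u b
  · right
    apply g_hi (k2_inj iP iQ u v hQ)
    intro k k' hk hk'
    have h1 := b.2
    have h2 := k.2
    have h3 := k'.2
    have r2 := rq_lt κQ k
    have r3 := rq_lt κQ k'
    rw [Fin.lt_def] at hk hk'
    have hk1 : ¬ k'.1 < iP := by omega
    have hk2 : ¬ k'.1 < iQ := by omega
    unfold Cyc k2
    simp only [hb1, hb2, hu, hk1, hk2, if_true, if_false]
    split_ifs <;> omega
  · left
    apply g_lo (k2_inj iP iQ u v hQ)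
    intro k k' hk hk'
    have h1 := b.2
    have h2 := k.2
    have h3 := k'.2
    have r2 := rq_lt κQ k
    have r3 := rq_lt κQ k'
    rw [Fin.lt_def] at hk hk'
    have hk1 : ¬ k'.1 < iP := by omega
    have hk2 : ¬ k'.1 < iQ := by omega
    unfold Cyc k2
    simp only [hb1, hb2, hu, hk1, hk2, if_false]
    split_ifs <;> omega

/-- location of the discordant pairs, first part -/
def DP (iP : ℕ) (k l : Fin (2 * h + 1)) : Prop := (iP ≤ l.1 ∧ l < k) ∨ (k < l ∧ l.1 < iP)
/-- location of the discordant pairs, second part -/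
def D2 (iP iQ : ℕ) (k l : Fin (2 * h + 1)) : Prop := l.1 < iP ∧ iQ ≤ k.1
/-- location of the discordant pairs, third part -/
def DQ (iP iQ : ℕ) (k l : Fin (2 * h + 1)) : Prop :=
  (iQ ≤ k.1 ∧ k < l) ∨ (l.1 < iP ∧ l < k ∧ k.1 < iQ)

theorem locP (hbP : ∀ x y, iP ≤ x.1 → y.1 < iP → κP x < κP y)
    (x y : Fin (2 * h + 1)) (hd : Disc κP (kP iP iQ κQ u v) x y) : DP iP x y ∨ DP iP y x := by
  have hx := x.2
  have hy := y.2
  have rx := rq_lt κQ x
  have ry := rq_lt κQ y
  have hne : x.1 ≠ y.1 := by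
    intro he
    have : x = y := Fin.ext he
    subst this
    rcases hd with ⟨h1, _⟩ | ⟨h1, _⟩ <;> exact lt_irrefl _ h1
  unfold DP
  simp only [Fin.lt_def]
  by_contra hc
  have hside : (x.1 < iP ∧ iP ≤ y.1) ∨ (y.1 < iP ∧ iP ≤ x.1) := by omega
  rcases hside with ⟨c1, c2⟩ | ⟨c1, c2⟩
  · have h1 := hbP y x c2 c1
    have h2 : kP iP iQ κQ u v y < kP iP iQ κQ u v x := by
      unfold kP
      have c3 : ¬ y.1 < iP := by omega
      simp only [c1, c3, if_true, if_false]
      split_ifs <;> omega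
    rcases hd with ⟨h3, h4⟩ | ⟨h3, h4⟩
    · exact lt_asymm h1 h3
    · exact lt_asymm h2 h4
  · have h1 := hbP x y c2 c1
    have h2 : kP iP iQ κQ u v x < kP iP iQ κQ u v y := by
      unfold kP
      have c3 : ¬ x.1 < iP := by omega
      simp only [c1, c3, if_true, if_false]
      split_ifs <;> omega
    rcases hd with ⟨h3, h4⟩ | ⟨h3, h4⟩
    · exact lt_asymm h2 h4
    · exact lt_asymm h1 h3

theorem loc2 (_hPQ : iP ≤ iQ) (x y : Fin (2 * h + 1))
    (hd : Disc (k1 iP iQ κQ u v) (k2 iP iQ κQ u v) x y) : D2 iP iQ x y ∨ D2 iP iQ y x := by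
  have hx := x.2
  have hy := y.2
  have rx := rq_lt κQ x
  have ry := rq_lt κQ y
  unfold D2
  by_contra hc
  unfold Disc k1 k2 at hd
  split_ifs at hd <;> omega

theorem locQ (_hPQ : iP ≤ iQ) (hQ : Function.Injective κQ)
    (hbQ : ∀ x y, iQ ≤ x.1 → y.1 < iQ → κQ x < κQ y)
    (x y : Fin (2 * h + 1))
    (hd : Disc (kR iP iQ κQ u v) (fun z => OrderDual.toDual (κQ z)) x y) :
    DQ iP iQ x y ∨ DQ iP iQ y x := by
  have hx := x.2
  have hy := y.2
  have rx := rq_lt κQ x
  have ry := rq_lt κQ y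
  have e1 := rq_lt_iff hQ x y
  have e2 := rq_lt_iff hQ y x
  have hne : x.1 ≠ y.1 := by
    intro he
    have : x = y := Fin.ext he
    subst this
    rcases hd with ⟨h1, _⟩ | ⟨h1, _⟩ <;> exact lt_irrefl _ h1
  have hd' : (kR iP iQ κQ u v x < kR iP iQ κQ u v y ∧ rq κQ y < rq κQ x) ∨
      (kR iP iQ κQ u v y < kR iP iQ κQ u v x ∧ rq κQ x < rq κQ y) := by
    rw [e1, e2]
    rcases hd with ⟨h1, h2⟩ | ⟨h1, h2⟩
    · exact Or.inl ⟨h1, OrderDual.toDual_lt_toDual.1 h2⟩
    · exact Or.inr ⟨h1, OrderDual.toDual_lt_toDual.1 h2⟩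
  have b1 : iQ ≤ x.1 → y.1 < iQ → rq κQ y < rq κQ x := fun h1 h2 => e2.2 (hbQ x y h1 h2)
  have b2 : iQ ≤ y.1 → x.1 < iQ → rq κQ x < rq κQ y := fun h1 h2 => e1.2 (hbQ y x h1 h2)
  unfold DQ
  simp only [Fin.lt_def]
  by_contra hc
  clear hd e1 e2
  unfold kR at hd'
  split_ifs at hd' <;> omega

/-- first part of the forced crossings -/
theorem forcedP (hPQ : iP ≤ iQ) (hQ : Function.Injective κQ) (k l : Fin (2 * h + 1))
    (hD : DP iP k l) (hd : Disc κP (kP iP iQ κQ u v) k l) :
    Forced iP iQ κP κQ u v k l := by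
  have hk := k.2
  have hl := l.2
  have rk := rq_lt κQ k
  have rl := rq_lt κQ l
  have e1 := rq_lt_iff hQ k l
  have e2 := rq_lt_iff hQ l k
  unfold Forced
  rcases hD with ⟨c1, c2⟩ | ⟨c1, c2⟩
  · rw [Fin.lt_def] at c2
    have n1 : ¬ l.1 < iP := by omega
    have n2 : ¬ k.1 < iP := by omega
    rcases le_or_gt iQ k.1 with c3 | c3
    · left
      have n3 : ¬ k.1 < iQ := by omega
      refine ⟨c1, c2, c3, ?_⟩
      have hkey : kP iP iQ κQ u v k < kP iP iQ κQ u v l ↔ u k := by
        unfold kP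
        simp only [n1, n2, n3, if_false]
        split_ifs <;> simp_all <;> omega
      have hkey' : kP iP iQ κQ u v l < kP iP iQ κQ u v k ↔ ¬ u k := by
        unfold kP
        simp only [n1, n2, n3, if_false]
        split_ifs <;> simp_all <;> omega
      rcases hd with ⟨h1, h2⟩ | ⟨h1, h2⟩
      · simp [hkey'.1 h2, h1]
      · simp [hkey.1 h2, h1.le]
    · right; right; left
      have n3 : l.1 < iQ := by omega
      refine ⟨c1, c2, c3, ?_⟩
      have hkey : kP iP iQ κQ u v k < kP iP iQ κQ u v l ↔ κQ l < κQ k := by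
        rw [← e1]
        unfold kP
        simp only [n1, n2, n3, c3, if_false, if_true]
        omega
      have hkey' : kP iP iQ κQ u v l < kP iP iQ κQ u v k ↔ κQ k < κQ l := by
        rw [← e2]
        unfold kP
        simp only [n1, n2, n3, c3, if_false, if_true]
        omega
      rcases hd with ⟨h1, h2⟩ | ⟨h1, h2⟩
      · simp [hkey'.1 h2, h1]
      · exact ⟨fun h => absurd h (not_lt.2 h1.le), fun h => absurd h (not_lt.2 (hkey.1 h2).le)⟩
  · right; right; right; right; left
    rw [Fin.lt_def] at c1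
    have n2 : k.1 < iP := by omega
    refine ⟨c1, c2, ?_⟩
    have hkey : kP iP iQ κQ u v l < kP iP iQ κQ u v k ↔ ¬ v l := by
      unfold kP
      simp only [n2, c2, if_true]
      split_ifs <;> simp_all <;> omega
    have hkey' : kP iP iQ κQ u v k < kP iP iQ κQ u v l ↔ v l := by
      unfold kP
      simp only [n2, c2, if_true]
      split_ifs <;> simp_all <;> omega
    rcases hd with ⟨h1, h2⟩ | ⟨h1, h2⟩
    · simp [hkey.1 h2, h1.le]
    · simp [hkey'.1 h2, h1]

theorem forced2 (hPQ : iP ≤ iQ) (k l : Fin (2 * h + 1))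
    (hD : D2 iP iQ k l) (hd : Disc (k1 iP iQ κQ u v) (k2 iP iQ κQ u v) k l) :
    Forced iP iQ κP κQ u v k l := by
  have hk := k.2
  have hl := l.2
  obtain ⟨c1, c2⟩ := hD
  unfold Forced
  right; right; right; right; right
  refine ⟨c1, c2, ?_⟩
  have n1 : ¬ k.1 < iP := by omega
  have n2 : ¬ k.1 < iQ := by omega
  unfold Disc k1 k2 at hd
  simp only [n1, n2, c1, if_true, if_false] at hd
  split_ifs at hd <;> simp_all <;> omega

theorem forcedQ (hPQ : iP ≤ iQ) (k l : Fin (2 * h + 1))
    (hD : DQ iP iQ k l)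
    (hd : Disc (kR iP iQ κQ u v) (fun z => OrderDual.toDual (κQ z)) k l) :
    Forced iP iQ κP κQ u v k l := by
  have hk := k.2
  have hl := l.2
  have rk := rq_lt κQ k
  have rl := rq_lt κQ l
  have hd' : (kR iP iQ κQ u v k < kR iP iQ κQ u v l ∧ κQ k < κQ l) ∨
      (kR iP iQ κQ u v l < kR iP iQ κQ u v k ∧ κQ l < κQ k) := by
    rcases hd with ⟨h1, h2⟩ | ⟨h1, h2⟩
    · exact Or.inl ⟨h1, OrderDual.toDual_lt_toDual.1 h2⟩
    · exact Or.inr ⟨h1, OrderDual.toDual_lt_toDual.1 h2⟩
  unfold Forced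
  rcases hD with ⟨c1, c2⟩ | ⟨c1, c2, c3⟩
  · right; left
    refine ⟨c1, c2, ?_⟩
    rw [Fin.lt_def] at c2
    have n1 : ¬ k.1 < iP := by omega
    have n2 : ¬ k.1 < iQ := by omega
    have n3 : ¬ l.1 < iP := by omega
    have n4 : ¬ l.1 < iQ := by omega
    have hkey : kR iP iQ κQ u v k < kR iP iQ κQ u v l ↔ ¬ u k := by
      unfold kR
      simp only [n1, n2, n3, n4, if_false]
      split_ifs <;> simp_all <;> omega
    have hkey' : kR iP iQ κQ u v l < kR iP iQ κQ u v k ↔ u k := by
      unfold kR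
      simp only [n1, n2, n3, n4, if_false]
      split_ifs <;> simp_all <;> omega
    rcases hd' with ⟨h1, h2⟩ | ⟨h1, h2⟩
    · simp [hkey.1 h1, h2.le]
    · simp [hkey'.1 h1, h2]
  · right; right; right; left
    refine ⟨c1, c2, c3, ?_⟩
    rw [Fin.lt_def] at c2
    have hkey : kR iP iQ κQ u v l < kR iP iQ κQ u v k ↔ v l := by
      unfold kR
      simp only [c1, c3, if_true]
      split_ifs <;> simp_all <;> omega
    have hkey' : kR iP iQ κQ u v k < kR iP iQ κQ u v l ↔ ¬ v l := by
      unfold kR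
      simp only [c1, c3, if_true]
      split_ifs <;> simp_all <;> omega
    rcases hd' with ⟨h1, h2⟩ | ⟨h1, h2⟩
    · simp [hkey'.1 h1, h2]
    · simp [hkey.1 h1, h2.le]

end pair

end Vale.Agent.P040.Mono
end
end

section

section

/-!
# The inequality for a pair of stars, and its sum over all pairs
-/

namespace Vale.Agent.P040.Mono

open Finset

section pair
variable {h : ℕ} {α : Type*} [LinearOrder α] {iP iQ : ℕ} {κP κQ : Fin (2 * h + 1) → α}
  {u v : Fin (2 * h + 1) → Prop}

/-- The contribution of a leaf. -/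
def Dt (h : ℕ) (b : Fin (2 * h + 1)) (same : Prop) [Decidable same] (x y : ℕ) : ℤ :=
  if same then (min b.1 (2 * h - b.1) : ℕ) - |(x : ℤ) - y| else |(x : ℤ) + y - (2 * h - b.1 : ℕ)|

theorem pair_ineq (hPQ : iP ≤ iQ) (hP : Function.Injective κP) (hQ : Function.Injective κQ)
    (hbP : ∀ x y, iP ≤ x.1 → y.1 < iP → κP x < κP y)
    (hbQ : ∀ x y, iQ ≤ x.1 → y.1 < iQ → κQ x < κQ y) :
    ∑ b, Dt h b (b.1 < iP ↔ b.1 < iQ) (g h κP b) (g h κQ b) ≤ forced iP iQ κP κQ u v := by
  classical
  set κQ' : Fin (2 * h + 1) → αᵒᵈ := fun z => OrderDual.toDual (κQ z) with hκQ'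
  have hQ' : Function.Injective κQ' := OrderDual.toDual.injective.comp hQ
  have s1 := W_le_inv (h := h) hP (kP_inj iP iQ u v hQ)
  have s2 := W_le_inv (h := h) (k1_inj iP iQ u v hQ) (k2_inj iP iQ u v hQ)
  have s3 := W_le_inv (h := h) (kR_inj iP iQ u v hQ) hQ'
  have t1 := inv_le κP (kP iP iQ κQ u v) (DP iP) (locP hbP)
  have t2 := inv_le (k1 iP iQ κQ u v) (k2 iP iQ κQ u v) (D2 iP iQ) (loc2 hPQ)
  have t3 := inv_le (kR iP iQ κQ u v) κQ' (DQ iP iQ) (locQ hPQ hQ hbQ)
  set F1 := univ.filter (fun s : Fin (2 * h + 1) × Fin (2 * h + 1) =>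
    DP iP s.1 s.2 ∧ Disc κP (kP iP iQ κQ u v) s.1 s.2) with hF1
  set F2 := univ.filter (fun s : Fin (2 * h + 1) × Fin (2 * h + 1) =>
    D2 iP iQ s.1 s.2 ∧ Disc (k1 iP iQ κQ u v) (k2 iP iQ κQ u v) s.1 s.2) with hF2
  set F3 := univ.filter (fun s : Fin (2 * h + 1) × Fin (2 * h + 1) =>
    DQ iP iQ s.1 s.2 ∧ Disc (kR iP iQ κQ u v) κQ' s.1 s.2) with hF3
  have hcard : F1.card + F2.card + F3.card ≤ forced iP iQ κP κQ u v := by
    unfold forced
    rw [← card_union_of_disjoint, ← card_union_of_disjoint]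
    · apply card_le_card
      intro s hs
      simp only [mem_union, hF1, hF2, hF3, mem_filter, mem_univ, true_and] at hs ⊢
      rcases hs with (⟨h1, h2⟩ | ⟨h1, h2⟩) | ⟨h1, h2⟩
      · exact forcedP hPQ hQ _ _ h1 h2
      · exact forced2 hPQ _ _ h1 h2
      · exact forcedQ hPQ _ _ h1 h2
    · rw [Finset.disjoint_left]
      intro s hs hs'
      simp only [mem_union, hF1, hF2, hF3, mem_filter, mem_univ, true_and] at hs hs'
      obtain ⟨h1, -⟩ := hs'
      unfold DQ at h1
      simp only [Fin.lt_def] at h1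
      rcases hs with ⟨h2, -⟩ | ⟨h2, -⟩
      · unfold DP at h2
        simp only [Fin.lt_def] at h2
        omega
      · unfold D2 at h2
        omega
    · rw [Finset.disjoint_left]
      intro s hs hs'
      simp only [hF1, hF2, mem_filter, mem_univ, true_and] at hs hs'
      obtain ⟨h1, -⟩ := hs'
      obtain ⟨h2, -⟩ := hs
      unfold DP at h2
      simp only [Fin.lt_def] at h2
      unfold D2 at h1
      omega
  have hb : ∀ b : Fin (2 * h + 1), Dt h b (b.1 < iP ↔ b.1 < iQ) (g h κP b) (g h κQ b) ≤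
      |(g h κP b : ℤ) - g h (kP iP iQ κQ u v) b| +
      (|(g h (k1 iP iQ κQ u v) b : ℤ) - g h (k2 iP iQ κQ u v) b| +
       |(g h (kR iP iQ κQ u v) b : ℤ) - g h κQ' b|) := by
    intro b
    rw [g_kP_k1 iP iQ u v hQ, g_kR_k2 iP iQ u v hQ]
    have e1 := g_reverse (h := h) (κ := κQ) (κ' := κQ') hQ
      (fun x y => OrderDual.toDual_lt_toDual) b
    have b1 := g_le_h hP b
    have b2 := g_le (κ := κP) b
    have b3 := le_g hP b
    have b4 := g_le_h hQ b
    have b5 := g_le (κ := κQ) b
    have b6 := le_g hQ b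
    have hb' := b.2
    unfold Dt
    by_cases c1 : b.1 < iP
    · have c2 : b.1 < iQ := by omega
      have e2 := ext1 (u := u) (v := v) (iQ := iQ) hQ b c1
      simp only [c1, c2, if_true]
      rcases abs_cases ((g h κP b : ℤ) - g h κQ b) with ⟨a1, a2⟩ | ⟨a1, a2⟩ <;>
      rcases abs_cases ((g h κP b : ℤ) - g h (k1 iP iQ κQ u v) b) with ⟨a3, a4⟩ | ⟨a3, a4⟩ <;>
      rcases abs_cases ((g h (k1 iP iQ κQ u v) b : ℤ) - g h (k2 iP iQ κQ u v) b) with
        ⟨a5, a6⟩ | ⟨a5, a6⟩ <;>
      rcases abs_cases ((g h (k2 iP iQ κQ u v) b : ℤ) - g h κQ' b) with ⟨a7, a8⟩ | ⟨a7, a8⟩ <;>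
      omega
    · by_cases c2 : b.1 < iQ
      · simp only [c1, c2, iff_true, if_false]
        rcases abs_cases ((g h κP b : ℤ) + g h κQ b - (2 * h - b.1 : ℕ)) with
          ⟨a1, a2⟩ | ⟨a1, a2⟩ <;>
        rcases abs_cases ((g h κP b : ℤ) - g h (k1 iP iQ κQ u v) b) with ⟨a3, a4⟩ | ⟨a3, a4⟩ <;>
        rcases abs_cases ((g h (k1 iP iQ κQ u v) b : ℤ) - g h (k2 iP iQ κQ u v) b) with
          ⟨a5, a6⟩ | ⟨a5, a6⟩ <;>
        rcases abs_cases ((g h (k2 iP iQ κQ u v) b : ℤ) - g h κQ' b) with ⟨a7, a8⟩ | ⟨a7, a8⟩ <;>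
        omega
      · have e2 := ext2 (u := u) (v := v) hPQ hQ b (not_lt.1 c2)
        simp only [c1, c2, if_true]
        rcases abs_cases ((g h κP b : ℤ) - g h κQ b) with ⟨a1, a2⟩ | ⟨a1, a2⟩ <;>
        rcases abs_cases ((g h κP b : ℤ) - g h (k1 iP iQ κQ u v) b) with ⟨a3, a4⟩ | ⟨a3, a4⟩ <;>
        rcases abs_cases ((g h (k1 iP iQ κQ u v) b : ℤ) - g h (k2 iP iQ κQ u v) b) with
          ⟨a5, a6⟩ | ⟨a5, a6⟩ <;>
        rcases abs_cases ((g h (k2 iP iQ κQ u v) b : ℤ) - g h κQ' b) with ⟨a7, a8⟩ | ⟨a7, a8⟩ <;>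
        omega
  have hsum := Finset.sum_le_sum (fun b (_ : b ∈ (univ : Finset (Fin (2 * h + 1)))) => hb b)
  rw [Finset.sum_add_distrib, Finset.sum_add_distrib] at hsum
  unfold W at s1 s2 s3
  have f1 : ((inv κP (kP iP iQ κQ u v) : ℕ) : ℤ) ≤ F1.card := by exact_mod_cast t1
  have f2 : ((inv (k1 iP iQ κQ u v) (k2 iP iQ κQ u v) : ℕ) : ℤ) ≤ F2.card := by exact_mod_cast t2
  have f3 : ((inv (kR iP iQ κQ u v) κQ' : ℕ) : ℤ) ≤ F3.card := by exact_mod_cast t3
  have f4 : (F1.card : ℤ) + F2.card + F3.card ≤ forced iP iQ κP κQ u v := by exact_mod_cast hcard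
  linarith only [s1, s2, s3, t1, t2, t3, hcard, hsum]

end pair

section threshold

/-- bits -/
def bit (lo c : ℕ) (s : Bool) (x t : ℕ) : Bool :=
  if s then decide (lo + c < x + t) else decide (lo + t ≤ x)

/-- pairs -/
def prs (m : ℕ) : Finset (Fin m × Fin m) := univ.filter (fun p => p.1 < p.2)

theorem two_mul_prs (m : ℕ) (f : Fin m → Fin m → ℤ) (hf : ∀ i j, f i j = f j i) :
    2 * ∑ p ∈ prs m, f p.1 p.2 + ∑ i, f i i = ∑ i, ∑ j, f i j := by
  classical
  have h1 : ∑ i, ∑ j, f i j = ∑ p : Fin m × Fin m, f p.1 p.2 := by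
    rw [← Finset.univ_product_univ, Finset.sum_product]
  have h2 : ∑ p : Fin m × Fin m, f p.1 p.2 =
      ∑ p ∈ univ.filter (fun p : Fin m × Fin m => p.1 < p.2), f p.1 p.2 +
      (∑ p ∈ univ.filter (fun p : Fin m × Fin m => p.2 < p.1), f p.1 p.2 +
       ∑ p ∈ univ.filter (fun p : Fin m × Fin m => p.1 = p.2), f p.1 p.2) := by
    rw [← Finset.sum_filter_add_sum_filter_not univ (fun p : Fin m × Fin m => p.1 < p.2)]
    congr 1
    rw [← Finset.sum_filter_add_sum_filter_not
      (univ.filter (fun p : Fin m × Fin m => ¬ p.1 < p.2)) (fun p : Fin m × Fin m => p.2 < p.1)]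
    congr 1
    · apply Finset.sum_congr _ (fun _ _ => rfl)
      ext p; simp only [mem_filter, mem_univ, true_and]; omega
    · apply Finset.sum_congr _ (fun _ _ => rfl)
      ext p; simp only [mem_filter, mem_univ, true_and, Fin.lt_def, Fin.ext_iff]; omega
  have h3 : ∑ p ∈ univ.filter (fun p : Fin m × Fin m => p.2 < p.1), f p.1 p.2 =
      ∑ p ∈ prs m, f p.1 p.2 := by
    unfold prs
    apply Finset.sum_bij (fun p _ => (p.2, p.1))
    · intro p hp; simpa only [mem_filter, mem_univ, true_and] using hp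
    · intro p _ q _ hpq
      simp only [Prod.mk.injEq] at hpq
      exact Prod.ext hpq.2 hpq.1
    · intro p hp; exact ⟨(p.2, p.1), by simpa only [mem_filter, mem_univ, true_and] using hp, rfl⟩
    · intro p _; exact hf _ _
  have h4 : ∑ p ∈ univ.filter (fun p : Fin m × Fin m => p.1 = p.2), f p.1 p.2 = ∑ i, f i i := by
    symm
    apply Finset.sum_bij (fun i _ => (i, i))
    · intro i _; simp
    · intro i _ j _ hij; simpa using hij
    · rintro ⟨i, j⟩ hp
      simp only [mem_filter, mem_univ, true_and] at hp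
      subst hp; exact ⟨i, mem_univ _, rfl⟩
    · intro i _; rfl
  rw [h1, h2, h3, h4]
  unfold prs
  ring

/-- The number of agreeing pairs. -/
theorem agree_ge (m : ℕ) (b : Fin m → Bool) :
    (dz m : ℤ) ≤ ∑ p ∈ prs m, if b p.1 = b p.2 then 1 else 0 := by
  have h := two_mul_prs m (fun i j => if b i = b j then 1 else 0)
    (fun i j => by simp only [eq_comm])
  have h1 : ∀ i j, (if b i = b j then (1 : ℤ) else 0) =
      (if b i then 1 else 0) * (if b j then 1 else 0) +
      (1 - if b i then 1 else 0) * (1 - if b j then 1 else 0) := by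
    intro i j
    cases b i <;> cases b j <;> simp
  set T : ℤ := ∑ i, if b i then 1 else 0 with hT
  have h2 : ∑ i, ∑ j, (if b i = b j then (1 : ℤ) else 0) = T * T + (m - T) * (m - T) := by
    simp only [h1, Finset.sum_add_distrib, ← Finset.mul_sum, ← Finset.sum_mul,
      Finset.sum_sub_distrib, Finset.sum_const, Finset.card_univ, Fintype.card_fin, nsmul_eq_mul,
      mul_one, ← hT]
  rw [h2] at h
  simp only [if_true, Finset.sum_const, Finset.card_univ, Fintype.card_fin, nsmul_eq_mul,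
    mul_one] at h
  unfold dz
  push_cast
  generalize (∑ p ∈ prs m, if b p.1 = b p.2 then (1 : ℤ) else 0) = S at h ⊢
  obtain ⟨r, rfl | rfl⟩ := Nat.even_or_odd' m
  · rcases Nat.eq_zero_or_pos r with rfl | hr
    · simp only [mul_zero, CharP.cast_eq_zero, add_zero, zero_sub, mul_neg, neg_mul, neg_neg, EuclideanDomain.zero_div, zero_tsub, ge_iff_le] at h ⊢; nlinarith only [h]
    · have e1 : 2 * r / 2 = r := by omega
      have e2 : (2 * r - 1) / 2 = r - 1 := by omega
      have e3 : ((2 * r : ℕ) : ℤ) / 2 = r := by omega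
      have e4 : ((2 * r - 1 : ℕ) : ℤ) / 2 = r - 1 := by omega
      rw [e3, e4]
      push_cast at h
      nlinarith only [h, sq_nonneg (T - r)]
  · have e3 : ((2 * r + 1 : ℕ) : ℤ) / 2 = r := by omega
    have e4 : ((2 * r + 1 - 1 : ℕ) : ℤ) / 2 = r := by omega
    rw [e3, e4]
    push_cast at h
    have hT2 : 0 ≤ (T - r) * (T - r - 1) := by
      rcases le_or_gt T r with c | c
      · nlinarith only [c]
      · nlinarith only [c]
    linarith only [h, hT2]

theorem thr_agree {c A B : ℕ} (hA : A ≤ c) (hB : B ≤ c) :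
    (∑ t ∈ Finset.Icc 1 c, if (t ≤ A ↔ t ≤ B) then (1 : ℤ) else 0) = c - |(A : ℤ) - B| := by
  rw [← Finset.sum_filter, Finset.sum_const, nsmul_eq_mul, mul_one]
  have h1 := Finset.card_filter_add_card_filter_not (s := Finset.Icc 1 c)
    (p := fun t => (t ≤ A ↔ t ≤ B))
  have h2 : ((Finset.Icc 1 c).filter (fun t => ¬ (t ≤ A ↔ t ≤ B))).card =
      max A B - min A B := by
    have : (Finset.Icc 1 c).filter (fun t => ¬ (t ≤ A ↔ t ≤ B)) =
        Finset.Ioc (min A B) (max A B) := by
      ext t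
      simp only [mem_filter, mem_Icc, mem_Ioc]
      omega
    rw [this, Nat.card_Ioc]
  rw [h2, Nat.card_Icc] at h1
  rcases abs_cases ((A : ℤ) - B) with ⟨a1, a2⟩ | ⟨a1, a2⟩ <;> omega

/-- agreement of the bits of two values -/
theorem bits_agree {lo c x y : ℕ} {s s' : Bool} (hx : lo ≤ x) (hx' : x ≤ lo + c) (hy : lo ≤ y)
    (hy' : y ≤ lo + c) :
    (∑ t ∈ Finset.Icc 1 c, if bit lo c s x t = bit lo c s' y t then (1 : ℤ) else 0) =
      if s = s' then (c : ℤ) - |(x : ℤ) - y| else |(x : ℤ) + y - (2 * lo + c : ℕ)| := by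
  have key : ∀ (A B : ℕ) (P : ℕ → Prop) [DecidablePred P], A ≤ c → B ≤ c →
      (∀ t ∈ Finset.Icc 1 c, P t ↔ (t ≤ A ↔ t ≤ B)) →
      (∑ t ∈ Finset.Icc 1 c, if P t then (1 : ℤ) else 0) = c - |(A : ℤ) - B| := by
    intro A B P _ hA hB hP
    rw [← thr_agree hA hB]
    apply Finset.sum_congr rfl
    intro t ht
    rw [if_congr (hP t ht) rfl rfl]
  have key' : ∀ (A B : ℕ) (P : ℕ → Prop) [DecidablePred P], A ≤ c → B ≤ c →
      (∀ t ∈ Finset.Icc 1 c, P t ↔ ¬ (t ≤ A ↔ t ≤ B)) →
      (∑ t ∈ Finset.Icc 1 c, if P t then (1 : ℤ) else 0) = |(A : ℤ) - B| := by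
    intro A B P _ hA hB hP
    have e := thr_agree hA hB
    have e2 : (∑ t ∈ Finset.Icc 1 c, if P t then (1 : ℤ) else 0) +
        (∑ t ∈ Finset.Icc 1 c, if (t ≤ A ↔ t ≤ B) then (1 : ℤ) else 0) = c := by
      rw [← Finset.sum_add_distrib]
      have : ∀ t ∈ Finset.Icc 1 c, ((if P t then (1 : ℤ) else 0) +
          if (t ≤ A ↔ t ≤ B) then (1 : ℤ) else 0) = 1 := by
        intro t ht
        have := hP t ht
        by_cases hc : (t ≤ A ↔ t ≤ B)
        · have hn : ¬ P t := fun h => (this.1 h) hc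
          simp [hc, hn]
        · have hn : P t := this.2 hc
          simp only [hc, hn, if_true, if_false]; norm_num
      rw [Finset.sum_congr rfl this]
      simp only [sum_const, Nat.card_Icc, add_tsub_cancel_right, Int.nsmul_eq_mul, mul_one]
    linarith only [e, e2]
  cases s <;> cases s'
  · rw [if_pos rfl, key (x - lo) (y - lo) _ (by omega) (by omega)]
    · rcases abs_cases ((x : ℤ) - y) with ⟨a1, a2⟩ | ⟨a1, a2⟩ <;>
      rcases abs_cases (((x - lo : ℕ) : ℤ) - (y - lo : ℕ)) with ⟨a3, a4⟩ | ⟨a3, a4⟩ <;> omega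
    · intro t ht
      rw [mem_Icc] at ht
      simp only [bit, Bool.false_eq_true, if_false, decide_eq_decide]
      omega
  · rw [if_neg (by simp), key' (x - lo) (lo + c - y) _ (by omega) (by omega)]
    · rcases abs_cases ((x : ℤ) + y - (2 * lo + c : ℕ)) with ⟨a1, a2⟩ | ⟨a1, a2⟩ <;>
      rcases abs_cases (((x - lo : ℕ) : ℤ) - (lo + c - y : ℕ)) with ⟨a3, a4⟩ | ⟨a3, a4⟩ <;> omega
    · intro t ht
      rw [mem_Icc] at ht
      simp only [bit, Bool.false_eq_true, if_false, if_true, decide_eq_decide]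
      omega
  · rw [if_neg (by simp), key' (lo + c - x) (y - lo) _ (by omega) (by omega)]
    · rcases abs_cases ((x : ℤ) + y - (2 * lo + c : ℕ)) with ⟨a1, a2⟩ | ⟨a1, a2⟩ <;>
      rcases abs_cases (((lo + c - x : ℕ) : ℤ) - (y - lo : ℕ)) with ⟨a3, a4⟩ | ⟨a3, a4⟩ <;> omega
    · intro t ht
      rw [mem_Icc] at ht
      simp only [bit, Bool.false_eq_true, if_false, if_true, decide_eq_decide]
      omega
  · rw [if_pos rfl, key (lo + c - x) (lo + c - y) _ (by omega) (by omega)]
    · rcases abs_cases ((x : ℤ) - y) with ⟨a1, a2⟩ | ⟨a1, a2⟩ <;>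
      rcases abs_cases (((lo + c - x : ℕ) : ℤ) - (lo + c - y : ℕ)) with ⟨a3, a4⟩ | ⟨a3, a4⟩ <;>
      omega
    · intro t ht
      rw [mem_Icc] at ht
      simp only [bit, if_true, decide_eq_decide]
      omega

end threshold

section family
variable {m h : ℕ} {α : Type*} [LinearOrder α]

/-- The combinatorial inequality for an odd number of leaves. -/
theorem core_odd (i : Fin m → ℕ) (κ : Fin m → Fin (2 * h + 1) → α)
    (U : Fin m → Fin m → Fin (2 * h + 1) → Prop) (hi : Monotone i)
    (hκ : ∀ a, Function.Injective (κ a))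
    (hb : ∀ a x y, i a ≤ x.1 → y.1 < i a → κ a x < κ a y) :
    dz m * (h * h) ≤ ∑ p ∈ prs m, forced (i p.1) (i p.2) (κ p.1) (κ p.2) (U p.1 p.2) (U p.2 p.1) := by
  classical
  have h1 : ∀ p ∈ prs m,
      (∑ b, Dt h b (b.1 < i p.1 ↔ b.1 < i p.2) (g h (κ p.1) b) (g h (κ p.2) b)) ≤
      ((forced (i p.1) (i p.2) (κ p.1) (κ p.2) (U p.1 p.2) (U p.2 p.1) : ℕ) : ℤ) := by
    intro p hp
    simp only [prs, mem_filter, mem_univ, true_and] at hp
    exact pair_ineq (hi hp.le) (hκ _) (hκ _) (hb _) (hb _)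
  have h2 := Finset.sum_le_sum h1
  rw [Finset.sum_comm] at h2
  have h3 : ∀ b : Fin (2 * h + 1), ((min b.1 (2 * h - b.1) * dz m : ℕ) : ℤ) ≤
      ∑ p ∈ prs m, Dt h b (b.1 < i p.1 ↔ b.1 < i p.2) (g h (κ p.1) b) (g h (κ p.2) b) := by
    intro b
    have hb' := b.2
    set lo := h - b.1 with hlo
    set c := min b.1 (2 * h - b.1) with hc
    have e1 : ∀ p ∈ prs m, Dt h b (b.1 < i p.1 ↔ b.1 < i p.2) (g h (κ p.1) b) (g h (κ p.2) b) =
        ∑ t ∈ Finset.Icc 1 c, if bit lo c (decide (b.1 < i p.1)) (g h (κ p.1) b) t =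
          bit lo c (decide (b.1 < i p.2)) (g h (κ p.2) b) t then (1 : ℤ) else 0 := by
      intro p _
      have b1 := g_le_h (hκ p.1) b
      have b2 := g_le (κ := κ p.1) b
      have b3 := le_g (hκ p.1) b
      have b4 := g_le_h (hκ p.2) b
      have b5 := g_le (κ := κ p.2) b
      have b6 := le_g (hκ p.2) b
      rw [bits_agree (by omega) (by omega) (by omega) (by omega)]
      unfold Dt
      have e2 : (2 * lo + c : ℕ) = 2 * h - b.1 := by omega
      rw [e2]
      congr 1
      simp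
    rw [Finset.sum_congr rfl e1, Finset.sum_comm]
    have e3 : ((c * dz m : ℕ) : ℤ) = ∑ t ∈ Finset.Icc 1 c, (dz m : ℤ) := by
      rw [Finset.sum_const, Nat.card_Icc]; push_cast; simp
    rw [e3]
    apply Finset.sum_le_sum
    intro t _
    exact agree_ge m (fun a => bit lo c (decide (b.1 < i a)) (g h (κ a) b) t)
  have h4 := Finset.sum_le_sum (fun b (_ : b ∈ (univ : Finset (Fin (2 * h + 1)))) => h3 b)
  have h5 := h4.trans h2
  have h6 : ∑ b : Fin (2 * h + 1), (min b.1 (2 * h - b.1)) = h * h := by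
    rw [Fin.sum_univ_eq_sum_range (fun b => min b (2 * h - b)) (2 * h + 1)]
    clear h1 h2 h3 h4 h5
    have s1 : ∑ b ∈ Finset.range (2 * h + 1), min b (2 * h - b) =
        ∑ b ∈ Finset.range h, b + ∑ b ∈ Finset.range (h + 1), (h - b) := by
      rw [show 2 * h + 1 = h + (h + 1) by ring, Finset.sum_range_add]
      congr 1
      · apply Finset.sum_congr rfl
        intro b hb; rw [mem_range] at hb; omega
      · apply Finset.sum_congr rfl
        intro b hb; rw [mem_range] at hb; omega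
    have s2 : ∑ b ∈ Finset.range (h + 1), (h - b) = ∑ b ∈ Finset.range (h + 1), b := by
      rw [← Finset.sum_range_reflect (fun b => b) (h + 1)]
      apply Finset.sum_congr rfl
      intro b hb; rw [mem_range] at hb; omega
    rw [s1, s2, Finset.sum_range_succ]
    have s3 := Finset.sum_range_id_mul_two h
    rcases Nat.eq_zero_or_pos h with rfl | hpos
    · simp
    · obtain ⟨r, rfl⟩ : ∃ r, h = r + 1 := ⟨h - 1, by omega⟩
      rw [Nat.add_sub_cancel] at s3
      nlinarith only [s3]
  have h7 : ((dz m * (h * h) : ℕ) : ℤ) ≤ ((∑ p ∈ prs m,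
      forced (i p.1) (i p.2) (κ p.1) (κ p.2) (U p.1 p.2) (U p.2 p.1) : ℕ) : ℤ) := by
    rw [← h6]
    refine le_trans (le_of_eq ?_) (h5.trans (le_of_eq ?_))
    · push_cast
      rw [Finset.mul_sum]
      apply Finset.sum_congr rfl
      intro b _
      ring
    · push_cast; rfl
  exact_mod_cast h7

end family

end Vale.Agent.P040.Mono
end
end

section

section

section

/-!
# Basic definitions for the Zarankiewicz lower bound for rectilinear drawings
-/

namespace Vale.Agent.P040.Zar

/-- Vectors in `ℝ³` (a planar point `(x, y)` is lifted to `(x, y, 1)`). -/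
abbrev V3 := Fin 3 → ℝ

/-- The `3 × 3` determinant with columns `a`, `b`, `c`. -/
def det3 (a b c : V3) : ℝ :=
  a 0 * (b 1 * c 2 - b 2 * c 1) - a 1 * (b 0 * c 2 - b 2 * c 0)
    + a 2 * (b 0 * c 1 - b 1 * c 0)

/-- The cyclically consecutive pairs of a list. -/
def sides {B : Type*} (L : List B) : List (B × B) := L.zip (L.rotate 1)

/-- The list `L` of indices lists the vertices of a convex polygon, counterclockwise. -/
def ConvexPoly {B : Type*} (v : B → V3) (L : List B) : Prop :=
  L.Nodup ∧ 3 ≤ L.length ∧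
    ∀ s ∈ sides L, ∀ z ∈ L, z ≠ s.1 → z ≠ s.2 → 0 < det3 (v s.1) (v s.2) (v z)

/-- The number of pairs `{a i, a j}` on one side of the plane spanned by `u, w` and such that
`u, w` lie on one side of the plane spanned by `a i, a j`. -/
noncomputable def crP {m : ℕ} (a : Fin m → V3) (u w : V3) : ℕ :=
  {p : Fin m × Fin m | p.1 < p.2 ∧ 0 < det3 u w (a p.1) * det3 u w (a p.2) ∧
    0 < det3 (a p.1) (a p.2) u * det3 (a p.1) (a p.2) w}.ncard

/-- The number `⌊r/2⌋ ⌊(r-1)/2⌋`. -/
def dz (r : ℕ) : ℕ := (r / 2) * ((r - 1) / 2)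

end Vale.Agent.P040.Zar
end
end
end

section

section

section

/-!
# Counting for the polygon lemma
-/

namespace Vale.Agent.P040.Zar

open Finset

open Classical in
/-- The number of elements of `S` with property `u`. -/
noncomputable def cnt {α : Type*} (S : Finset α) (u : α → Prop) : ℕ := (S.filter u).card

theorem cnt_congr {α : Type*} {S : Finset α} {u v : α → Prop} (h : ∀ i ∈ S, u i ↔ v i) :
    cnt S u = cnt S v := by
  classical
  unfold cnt
  congr 1
  exact Finset.filter_congr h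

theorem cnt_eq_sum {α : Type*} (S : Finset α) (u : α → Prop) [DecidablePred u] :
    cnt S u = ∑ i ∈ S, if u i then 1 else 0 := by
  unfold cnt
  rw [Finset.card_filter]
  apply Finset.sum_congr rfl
  intro i _
  by_cases h : u i <;> simp [h]

theorem cnt_eq_card {α : Type*} (S : Finset α) (u : α → Prop) [DecidablePred u] :
    cnt S u = (S.filter u).card := by
  rw [cnt_eq_sum, Finset.card_filter]

theorem cnt_xor {α : Type*} (S : Finset α) (u v : α → Prop) :
    cnt S (fun i => ¬ (u i ↔ v i)) + 2 * cnt S (fun i => u i ∧ v i)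
      = cnt S u + cnt S v := by
  classical
  simp only [cnt_eq_sum]
  rw [Finset.mul_sum, ← Finset.sum_add_distrib, ← Finset.sum_add_distrib]
  apply Finset.sum_congr rfl
  intro i _
  by_cases h1 : u i <;> by_cases h2 : v i <;> simp [h1, h2]

theorem cnt_not {α : Type*} (S : Finset α) (u : α → Prop) :
    cnt S u + cnt S (fun i => ¬ u i) = S.card := by
  classical
  simp only [cnt_eq_sum]
  rw [← Finset.sum_add_distrib, Finset.card_eq_sum_ones]
  apply Finset.sum_congr rfl
  intro i _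
  by_cases h1 : u i <;> simp [h1]

theorem cnt_insert_pos {S : Finset ℕ} {u : ℕ → Prop} {a : ℕ} (ha : a ∉ S) (h : u a) :
    cnt (insert a S) u = 1 + cnt S u := by
  classical
  simp only [cnt_eq_sum]
  rw [Finset.sum_insert ha, if_pos h]

theorem cnt_insert_neg {S : Finset ℕ} {u : ℕ → Prop} {a : ℕ} (ha : a ∉ S) (h : ¬ u a) :
    cnt (insert a S) u = cnt S u := by
  classical
  simp only [cnt_eq_sum]
  rw [Finset.sum_insert ha, if_neg h, zero_add]

/-- The number of runs of an interval is one. -/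
theorem runs (K : ℕ) (z : ℕ → Prop)
    (hz : ∀ i j l, 0 < i → i < j → j < l → l ≤ K → z i → z l → z j) :
    ((∃ i ∈ Icc 1 K, z i) ∧
      cnt (Icc 1 K) z = cnt (Icc 1 (K - 1)) (fun j => z j ∧ z (j + 1)) + 1) ∨
    ((¬ ∃ i ∈ Icc 1 K, z i) ∧
      cnt (Icc 1 K) z = cnt (Icc 1 (K - 1)) (fun j => z j ∧ z (j + 1))) := by
  classical
  by_cases h : (∃ i ∈ Icc 1 K, z i)
  · left
    refine ⟨h, ?_⟩
    have hne : ((Icc 1 K).filter z).Nonempty := by
      obtain ⟨i, hi, hzi⟩ := h
      exact ⟨i, by simp only [mem_filter]; exact ⟨hi, hzi⟩⟩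
    obtain ⟨s, hs⟩ : ∃ s, s = ((Icc 1 K).filter z).min' hne := ⟨_, rfl⟩
    obtain ⟨e, he⟩ : ∃ e, e = ((Icc 1 K).filter z).max' hne := ⟨_, rfl⟩
    have hsm : s ∈ (Icc 1 K).filter z := hs ▸ Finset.min'_mem _ _
    have hem : e ∈ (Icc 1 K).filter z := he ▸ Finset.max'_mem _ _
    have hmin : ∀ i ∈ (Icc 1 K).filter z, s ≤ i := fun i hi => hs ▸ Finset.min'_le _ _ hi
    have hmax : ∀ i ∈ (Icc 1 K).filter z, i ≤ e := fun i hi => he ▸ Finset.le_max' _ _ hi
    clear hs he
    simp only [mem_filter, mem_Icc] at hsm hem hmin hmax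
    have hin : ∀ j, s ≤ j → j ≤ e → z j := by
      intro j h1 h2
      rcases Nat.eq_or_lt_of_le h1 with h1 | h1
      · rw [← h1]; exact hsm.2
      · rcases Nat.eq_or_lt_of_le h2 with h2 | h2
        · rw [h2]; exact hem.2
        · exact hz s j e (by omega) h1 h2 (by omega) hsm.2 hem.2
    have e1 : (Icc 1 K).filter z = Icc s e := by
      ext j
      simp only [mem_filter, mem_Icc]
      constructor
      · intro hj; exact ⟨hmin j hj, hmax j hj⟩
      · intro hj; exact ⟨⟨by omega, by omega⟩, hin j hj.1 hj.2⟩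
    have e2 : (Icc 1 (K - 1)).filter (fun j => z j ∧ z (j + 1)) = Ico s e := by
      ext j
      simp only [mem_filter, mem_Icc, mem_Ico]
      constructor
      · rintro ⟨⟨h1, h2⟩, h3, h4⟩
        have := hmin j ⟨⟨h1, by omega⟩, h3⟩
        have := hmax (j + 1) ⟨⟨by omega, by omega⟩, h4⟩
        omega
      · rintro ⟨h1, h2⟩
        exact ⟨⟨by omega, by omega⟩, hin j h1 (by omega), hin (j + 1) (by omega) (by omega)⟩
    rw [cnt_eq_card, cnt_eq_card, e1, e2, Nat.card_Icc, Nat.card_Ico]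
    have := hmin e hem
    omega
  · right
    refine ⟨h, ?_⟩
    push Not at h
    rw [cnt_eq_card, cnt_eq_card, Finset.filter_false_of_mem (fun i hi => h i hi),
      Finset.filter_false_of_mem (fun i hi => ?_)]
    intro hh
    rw [mem_Icc] at hi
    exact h i (mem_Icc.2 ⟨hi.1, by omega⟩) hh.1

/-- Majority of three. -/
def maj (x y z : Prop) : Prop := (x ∧ y) ∨ (x ∧ z) ∨ (y ∧ z)

theorem maj_iff (x y z : Prop) : maj x y z ↔ (x ↔ ¬ (¬ (y ↔ x) ∧ ¬ (z ↔ x))) := by
  unfold maj
  by_cases h1 : x <;> by_cases h2 : y <;> by_cases h3 : z <;> simp [h1, h2, h3]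

theorem iff_aux1 {a b c d : Prop} (h : a ↔ b) : ((a ↔ ¬ c) ↔ (b ↔ ¬ d)) ↔ ¬ ¬ (c ↔ d) := by
  by_cases h1 : a <;> by_cases h2 : b <;> by_cases h3 : c <;> by_cases h4 : d <;>
    simp_all

theorem iff_aux2 {a b c d : Prop} (h : ¬ (a ↔ b)) : ((a ↔ ¬ c) ↔ (b ↔ ¬ d)) ↔ ¬ (c ↔ d) := by
  by_cases h1 : a <;> by_cases h2 : b <;> by_cases h3 : c <;> by_cases h4 : d <;>
    simp_all

theorem iff_aux3 {a b x y : Prop} (h : a ↔ b) :
    (x ↔ y) ↔ ¬ ¬ (¬ (x ↔ a) ↔ ¬ (y ↔ b)) := by
  by_cases h1 : a <;> by_cases h2 : b <;> by_cases h3 : x <;> by_cases h4 : y <;>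
    simp_all

theorem iff_aux4 {a b x y : Prop} (h : ¬ (a ↔ b)) :
    (x ↔ y) ↔ ¬ (¬ (x ↔ a) ↔ ¬ (y ↔ b)) := by
  by_cases h1 : a <;> by_cases h2 : b <;> by_cases h3 : x <;> by_cases h4 : y <;>
    simp_all

theorem not_of_ne {x a : Prop} (h : ¬ (x ↔ a)) (ha : a) : ¬ x :=
  fun hx => h ⟨fun _ => ha, fun _ => hx⟩

theorem of_ne {x a : Prop} (h : ¬ (x ↔ a)) (ha : ¬ a) : x := by
  by_contra hx
  exact h ⟨fun h => absurd h hx, fun h => absurd h ha⟩

theorem count_aux (K : ℕ) (p q : ℕ → Prop)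
    (hp : ∀ i j l, 0 < i → i < j → j < l → l ≤ K → ¬ (p i ↔ p 0) → ¬ (p l ↔ p 0) →
      ¬ (p j ↔ p 0))
    (hq : ∀ i j l, 0 < i → i < j → j < l → l ≤ K → ¬ (q i ↔ q 0) → ¬ (q l ↔ q 0) →
      ¬ (q j ↔ q 0)) :
    ∃ e1 e2 e3 : ℕ,
      ((∃ i ∈ Icc 1 K, ¬ (p i ↔ p 0)) ∧ e1 = 1 ∨ (¬ ∃ i ∈ Icc 1 K, ¬ (p i ↔ p 0)) ∧ e1 = 0) ∧
      ((∃ i ∈ Icc 1 K, ¬ (q i ↔ q 0)) ∧ e2 = 1 ∨ (¬ ∃ i ∈ Icc 1 K, ¬ (q i ↔ q 0)) ∧ e2 = 0) ∧
      ((∃ i ∈ Icc 1 K, ¬ (p i ↔ p 0) ∧ ¬ (q i ↔ q 0)) ∧ e3 = 1 ∨
        (¬ ∃ i ∈ Icc 1 K, ¬ (p i ↔ p 0) ∧ ¬ (q i ↔ q 0)) ∧ e3 = 0) ∧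
      cnt (Icc 1 K) (fun i => ¬ (¬ (p i ↔ p 0) ↔ ¬ (q i ↔ q 0))) + 2 * e3 =
        cnt (Icc 1 (K - 1)) (fun j => ¬ ((¬ (p j ↔ p 0) ∧ ¬ (p (j + 1) ↔ p 0)) ↔
          (¬ (q j ↔ q 0) ∧ ¬ (q (j + 1) ↔ q 0)))) + e1 + e2 := by
  have r1 := runs K (fun i => ¬ (p i ↔ p 0)) hp
  have r2 := runs K (fun i => ¬ (q i ↔ q 0)) hq
  have r3 := runs K (fun i => ¬ (p i ↔ p 0) ∧ ¬ (q i ↔ q 0)) (by
    intro i j l h1 h2 h3 h4 h5 h6
    exact ⟨hp i j l h1 h2 h3 h4 h5.1 h6.1, hq i j l h1 h2 h3 h4 h5.2 h6.2⟩)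
  have c1 := cnt_xor (Icc 1 K) (fun i => ¬ (p i ↔ p 0)) (fun i => ¬ (q i ↔ q 0))
  have c2 := cnt_xor (Icc 1 (K - 1))
    (fun j => ¬ (p j ↔ p 0) ∧ ¬ (p (j + 1) ↔ p 0))
    (fun j => ¬ (q j ↔ q 0) ∧ ¬ (q (j + 1) ↔ q 0))
  have c5 : cnt (Icc 1 (K - 1)) (fun j => (¬ (p j ↔ p 0) ∧ ¬ (q j ↔ q 0)) ∧
      (¬ (p (j + 1) ↔ p 0) ∧ ¬ (q (j + 1) ↔ q 0))) =
      cnt (Icc 1 (K - 1)) (fun j => (¬ (p j ↔ p 0) ∧ ¬ (p (j + 1) ↔ p 0)) ∧
      (¬ (q j ↔ q 0) ∧ ¬ (q (j + 1) ↔ q 0))) := by
    apply cnt_congr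
    intro j _
    exact and_and_and_comm
  have s1 : ∃ e1 : ℕ, ((∃ i ∈ Icc 1 K, ¬ (p i ↔ p 0)) ∧ e1 = 1 ∨
      (¬ ∃ i ∈ Icc 1 K, ¬ (p i ↔ p 0)) ∧ e1 = 0) ∧ cnt (Icc 1 K) (fun i => ¬ (p i ↔ p 0)) =
      cnt (Icc 1 (K - 1)) (fun j => ¬ (p j ↔ p 0) ∧ ¬ (p (j + 1) ↔ p 0)) + e1 := by
    rcases r1 with ⟨h, r⟩ | ⟨h, r⟩
    · exact ⟨1, Or.inl ⟨h, rfl⟩, r⟩
    · exact ⟨0, Or.inr ⟨h, rfl⟩, r⟩
  have s2 : ∃ e1 : ℕ, ((∃ i ∈ Icc 1 K, ¬ (q i ↔ q 0)) ∧ e1 = 1 ∨
      (¬ ∃ i ∈ Icc 1 K, ¬ (q i ↔ q 0)) ∧ e1 = 0) ∧ cnt (Icc 1 K) (fun i => ¬ (q i ↔ q 0)) =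
      cnt (Icc 1 (K - 1)) (fun j => ¬ (q j ↔ q 0) ∧ ¬ (q (j + 1) ↔ q 0)) + e1 := by
    rcases r2 with ⟨h, r⟩ | ⟨h, r⟩
    · exact ⟨1, Or.inl ⟨h, rfl⟩, r⟩
    · exact ⟨0, Or.inr ⟨h, rfl⟩, r⟩
  have s3 : ∃ e1 : ℕ, ((∃ i ∈ Icc 1 K, ¬ (p i ↔ p 0) ∧ ¬ (q i ↔ q 0)) ∧ e1 = 1 ∨
      (¬ ∃ i ∈ Icc 1 K, ¬ (p i ↔ p 0) ∧ ¬ (q i ↔ q 0)) ∧ e1 = 0) ∧
      cnt (Icc 1 K) (fun i => ¬ (p i ↔ p 0) ∧ ¬ (q i ↔ q 0)) =
      cnt (Icc 1 (K - 1)) (fun j => (¬ (p j ↔ p 0) ∧ ¬ (q j ↔ q 0)) ∧
        (¬ (p (j + 1) ↔ p 0) ∧ ¬ (q (j + 1) ↔ q 0))) + e1 := by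
    rcases r3 with ⟨h, r⟩ | ⟨h, r⟩
    · exact ⟨1, Or.inl ⟨h, rfl⟩, r⟩
    · exact ⟨0, Or.inr ⟨h, rfl⟩, r⟩
  obtain ⟨e1, i1, r1⟩ := s1
  obtain ⟨e2, i2, r2⟩ := s2
  obtain ⟨e3, i3, r3⟩ := s3
  refine ⟨e1, e2, e3, i1, i2, i3, ?_⟩
  clear i1 i2 i3 hp hq
  rw [c5] at r3
  omega

theorem count_same (K : ℕ) (p q : ℕ → Prop) (h0 : p 0 ↔ q 0) :
    cnt (Icc 0 K) (fun i => p i ↔ q i) +
        cnt (Icc 1 K) (fun i => ¬ (¬ (p i ↔ p 0) ↔ ¬ (q i ↔ q 0))) = 1 + K ∧
    cnt (Icc 1 (K - 1)) (fun j => maj (p 0) (p j) (p (j + 1)) ↔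
        maj (q 0) (q j) (q (j + 1))) +
      cnt (Icc 1 (K - 1)) (fun j => ¬ ((¬ (p j ↔ p 0) ∧ ¬ (p (j + 1) ↔ p 0)) ↔
          (¬ (q j ↔ q 0) ∧ ¬ (q (j + 1) ↔ q 0)))) = K - 1 := by
  have c3 := cnt_not (Icc 1 K) (fun i => ¬ (¬ (p i ↔ p 0) ↔ ¬ (q i ↔ q 0)))
  have c4 := cnt_not (Icc 1 (K - 1))
    (fun j => ¬ ((¬ (p j ↔ p 0) ∧ ¬ (p (j + 1) ↔ p 0)) ↔
      (¬ (q j ↔ q 0) ∧ ¬ (q (j + 1) ↔ q 0))))
  have hIcc : Icc 0 K = insert 0 (Icc 1 K) := by
    ext i; simp only [mem_Icc, mem_insert]; omega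
  have e1 : cnt (Icc 0 K) (fun i => p i ↔ q i) =
      1 + cnt (Icc 1 K) (fun i => ¬ ¬ (¬ (p i ↔ p 0) ↔ ¬ (q i ↔ q 0))) := by
    rw [hIcc, cnt_insert_pos (by simp only [mem_Icc, nonpos_iff_eq_zero, one_ne_zero, zero_le, and_true, not_false_eq_true]) h0]
    congr 1
    apply cnt_congr
    intro i _
    exact iff_aux3 h0
  have e2 : cnt (Icc 1 (K - 1)) (fun j => maj (p 0) (p j) (p (j + 1)) ↔
      maj (q 0) (q j) (q (j + 1))) = cnt (Icc 1 (K - 1))
      (fun j => ¬ ¬ ((¬ (p j ↔ p 0) ∧ ¬ (p (j + 1) ↔ p 0)) ↔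
    (¬ (q j ↔ q 0) ∧ ¬ (q (j + 1) ↔ q 0)))) := by
    apply cnt_congr
    intro j _
    rw [maj_iff, maj_iff]
    exact iff_aux1 h0
  rw [e1, e2]
  have k1 : (Icc 1 K).card = K := by simp only [Nat.card_Icc, add_tsub_cancel_right]
  have k2 : (Icc 1 (K - 1)).card = K - 1 := by simp only [Nat.card_Icc, add_tsub_cancel_right]
  rw [k1] at c3
  rw [k2] at c4
  constructor
  · rw [add_assoc, add_comm _ (cnt (Icc 1 K) (fun i => ¬ (¬ (p i ↔ p 0) ↔ ¬ (q i ↔ q 0)))),
      c3]
  · rw [add_comm, c4]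

theorem count_diff (K : ℕ) (p q : ℕ → Prop) (h0 : ¬ (p 0 ↔ q 0)) :
    cnt (Icc 0 K) (fun i => p i ↔ q i) =
        cnt (Icc 1 K) (fun i => ¬ (¬ (p i ↔ p 0) ↔ ¬ (q i ↔ q 0))) ∧
    cnt (Icc 1 (K - 1)) (fun j => maj (p 0) (p j) (p (j + 1)) ↔
        maj (q 0) (q j) (q (j + 1))) =
      cnt (Icc 1 (K - 1)) (fun j => ¬ ((¬ (p j ↔ p 0) ∧ ¬ (p (j + 1) ↔ p 0)) ↔
          (¬ (q j ↔ q 0) ∧ ¬ (q (j + 1) ↔ q 0)))) := by
  have hIcc : Icc 0 K = insert 0 (Icc 1 K) := by
    ext i; simp only [mem_Icc, mem_insert]; omega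
  constructor
  · rw [hIcc, cnt_insert_neg (by simp only [mem_Icc, nonpos_iff_eq_zero, one_ne_zero, zero_le, and_true, not_false_eq_true]) h0]
    apply cnt_congr
    intro i _
    exact iff_aux4 h0
  · apply cnt_congr
    intro j _
    rw [maj_iff, maj_iff]
    exact iff_aux2 h0

/-- The counting core of the polygon lemma. -/
theorem count_core (K : ℕ) (hK : 2 ≤ K) (p q : ℕ → Prop) (t : ℕ)
    (hp : ∀ i j l, 0 < i → i < j → j < l → l ≤ K → ¬ (p i ↔ p 0) → ¬ (p l ↔ p 0) →
      ¬ (p j ↔ p 0))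
    (hq : ∀ i j l, 0 < i → i < j → j < l → l ≤ K → ¬ (q i ↔ q 0) → ¬ (q l ↔ q 0) →
      ¬ (q j ↔ q 0))
    (hT : (∀ i ≤ K, ¬ (p i ↔ q i)) → t = 0)
    (g0 : t ≤ 2)
    (g1 : (∀ l ≤ K, p l ↔ p 0) → (∃ l ≤ K, ¬ (q l ↔ q 0)) → t ≤ 1)
    (g1' : (∀ l ≤ K, q l ↔ q 0) → (∃ l ≤ K, ¬ (p l ↔ p 0)) → t ≤ 1)
    (g2 : (∃ l ≤ K, p l ∧ ¬ q l) → (∃ l ≤ K, ¬ p l ∧ q l) → t = 0) :
    cnt (Icc 1 (K - 1)) (fun j => maj (p 0) (p j) (p (j + 1)) ↔
        maj (q 0) (q j) (q (j + 1))) + t
      ≤ cnt (Icc 0 K) (fun i => p i ↔ q i) := by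
  obtain ⟨e1, e2, e3, i1, i2, i3, hc⟩ := count_aux K p q hp hq
  have n1 : e1 = 0 → ∀ l ≤ K, p l ↔ p 0 := by
    intro he l hl
    rcases i1 with ⟨_, h⟩ | ⟨h, _⟩
    · omega
    · rcases Nat.eq_zero_or_pos l with h' | h'
      · rw [h']
      · by_contra hc; exact h ⟨l, mem_Icc.2 ⟨h', hl⟩, hc⟩
  have n2 : e2 = 0 → ∀ l ≤ K, q l ↔ q 0 := by
    intro he l hl
    rcases i2 with ⟨_, h⟩ | ⟨h, _⟩
    · omega
    · rcases Nat.eq_zero_or_pos l with h' | h'
      · rw [h']
      · by_contra hc; exact h ⟨l, mem_Icc.2 ⟨h', hl⟩, hc⟩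
  have n1' : e1 = 1 → ∃ l ≤ K, ¬ (p l ↔ p 0) := by
    intro he
    rcases i1 with ⟨⟨l, hl, h⟩, _⟩ | ⟨_, h⟩
    · exact ⟨l, (mem_Icc.1 hl).2, h⟩
    · omega
  have n2' : e2 = 1 → ∃ l ≤ K, ¬ (q l ↔ q 0) := by
    intro he
    rcases i2 with ⟨⟨l, hl, h⟩, _⟩ | ⟨_, h⟩
    · exact ⟨l, (mem_Icc.1 hl).2, h⟩
    · omega
  have n3 : e3 = 0 → ∀ l ≤ K, ¬ (p l ↔ p 0) → (q l ↔ q 0) := by
    intro he l hl hpl
    rcases i3 with ⟨_, h⟩ | ⟨h, _⟩
    · omega
    · rcases Nat.eq_zero_or_pos l with h' | h'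
      · rw [h']
      · by_contra hc; exact h ⟨l, mem_Icc.2 ⟨h', hl⟩, hpl, hc⟩
  have n3' : e3 = 1 → ∃ l ≤ K, ¬ (p l ↔ p 0) ∧ ¬ (q l ↔ q 0) := by
    intro he
    rcases i3 with ⟨⟨l, hl, h⟩, _⟩ | ⟨_, h⟩
    · exact ⟨l, (mem_Icc.1 hl).2, h⟩
    · omega
  have b1 : e1 = 0 ∨ e1 = 1 := by rcases i1 with ⟨_, h⟩ | ⟨_, h⟩ <;> omega
  have b2 : e2 = 0 ∨ e2 = 1 := by rcases i2 with ⟨_, h⟩ | ⟨_, h⟩ <;> omega
  have b3 : e3 = 0 ∨ e3 = 1 := by rcases i3 with ⟨_, h⟩ | ⟨_, h⟩ <;> omega
  have b13 : e1 = 0 → e3 = 0 := by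
    intro he
    rcases b3 with h | h
    · exact h
    · obtain ⟨l, hl, h1, _⟩ := n3' h
      exact absurd (n1 he l hl) h1
  have b23 : e2 = 0 → e3 = 0 := by
    intro he
    rcases b3 with h | h
    · exact h
    · obtain ⟨l, hl, _, h1⟩ := n3' h
      exact absurd (n2 he l hl) h1
  clear i1 i2 i3 hp hq
  by_cases h0 : p 0 ↔ q 0
  · obtain ⟨c1, c2⟩ := count_same K p q h0
    have key : t + e1 + e2 ≤ 2 + 2 * e3 := by
      rcases b1 with b1 | b1 <;> rcases b2 with b2 | b2
      · omega
      · have := g1 (n1 b1) (n2' b2); omega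
      · have := g1' (n2 b2) (n1' b1); omega
      · rcases b3 with b3 | b3
        · have : t = 0 := by
            obtain ⟨i, hi, hpi⟩ := n1' b1
            obtain ⟨j, hj, hqj⟩ := n2' b2
            have m1 : q i ↔ q 0 := n3 b3 i hi hpi
            have m2 : p j ↔ p 0 := by
              by_contra hc; exact hqj (n3 b3 j hj hc)
            by_cases a1 : p 0
            · have a2 : q 0 := h0.1 a1
              exact g2 ⟨j, hj, m2.2 a1, not_of_ne hqj a2⟩ ⟨i, hi, not_of_ne hpi a1, m1.2 a2⟩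
            · have a2 : ¬ q 0 := fun h => a1 (h0.2 h)
              exact g2 ⟨i, hi, of_ne hpi a1, fun h => a2 (m1.1 h)⟩
                ⟨j, hj, fun h => a1 (m2.1 h), of_ne hqj a2⟩
          omega
        · omega
    omega
  · obtain ⟨c1, c2⟩ := count_diff K p q h0
    rw [c1, c2]
    have key : t + 2 * e3 ≤ e1 + e2 := by
      rcases b1 with b1 | b1 <;> rcases b2 with b2 | b2
      · have h3 := b13 b1
        have : t = 0 := by
          apply hT
          intro i hi hh
          have m1 := n1 b1 i hi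
          have m2 := n2 b2 i hi
          exact h0 (m1.symm.trans (hh.trans m2))
        omega
      · have h3 := b13 b1
        have := g1 (n1 b1) (n2' b2); omega
      · have h3 := b23 b2
        have := g1' (n2 b2) (n1' b1); omega
      · rcases b3 with b3 | b3
        · omega
        · have : t = 0 := by
            obtain ⟨i, hi, hpi, hqi⟩ := n3' b3
            by_cases a1 : p 0
            · have a2 : ¬ q 0 := fun h => h0 ⟨fun _ => h, fun _ => a1⟩
              exact g2 ⟨0, by omega, a1, a2⟩ ⟨i, hi, not_of_ne hpi a1, of_ne hqi a2⟩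
            · have a2 : q 0 := by
                by_contra hc; exact h0 ⟨fun h => absurd h a1, fun h => absurd h hc⟩
              exact g2 ⟨i, hi, of_ne hpi a1, not_of_ne hqi a2⟩ ⟨0, by omega, a1, a2⟩
          omega
    omega

end Vale.Agent.P040.Zar
end
end
end

section

section

section

/-!
# The polygon lemma
-/

namespace Vale.Agent.P040.Zar

open Finset

theorem pos_right {x y : ℝ} (h : 0 < x * y) (hx : 0 ≤ x) : 0 < y := by
  by_contra hc
  push Not at hc
  have := mul_nonpos_of_nonneg_of_nonpos hx hc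
  linarith

/-- Four vector relation. -/
theorem det3_rel (a a' u w c d : V3) :
    det3 u w a' * det3 c d a - det3 u w a * det3 c d a'
      = det3 a a' u * det3 c d w - det3 a a' w * det3 c d u := by
  simp only [det3]; ring

theorem det3_rel2 (a x y w z : V3) :
    det3 a y z * det3 x y w = det3 a y x * det3 y w z + det3 a y w * det3 x y z := by
  simp only [det3]; ring

/-- Discrete intermediate value property: a descent of signs. -/
theorem exists_descent (P : ℕ → ℝ) (hP : ∀ i, P i ≠ 0) (u v : ℕ) (huv : u < v)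
    (hu : 0 < P u) (hv : P v < 0) : ∃ w, u ≤ w ∧ w < v ∧ 0 < P w ∧ P (w + 1) < 0 := by
  obtain ⟨d, rfl⟩ : ∃ d, v = u + (d + 1) := ⟨v - u - 1, by omega⟩
  clear huv
  induction d with
  | zero => exact ⟨u, le_refl _, by omega, hu, by simpa using hv⟩
  | succ d ih =>
    rcases lt_or_gt_of_ne (hP (u + (d + 1))) with h | h
    · obtain ⟨w, h1, h2, h3, h4⟩ := ih h
      exact ⟨w, h1, by omega, h3, h4⟩
    · exact ⟨u + (d + 1), by omega, by omega, h, by simpa [add_assoc] using hv⟩

theorem not_modEq_add {k c d : ℕ} (h0 : 0 < d) (h1 : d < k) : ¬ c + d ≡ c [MOD k] := by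
  intro h
  have h2 : c + d ≡ c + 0 [MOD k] := by simpa using h
  have h3 := Nat.ModEq.add_left_cancel' c h2
  have h4 : d % k = 0 % k := h3
  rw [Nat.mod_eq_of_lt h1, Nat.zero_mod] at h4
  omega

/-- A closed convex polygon, indexed periodically by the natural numbers. -/
structure CPoly (k : ℕ) (b : ℕ → V3) : Prop where
  three_le : 3 ≤ k
  per : ∀ i l, l ≡ i [MOD k] → b l = b i
  pos : ∀ j l, ¬ l ≡ j [MOD k] → ¬ l ≡ j + 1 [MOD k] → 0 < det3 (b j) (b (j + 1)) (b l)

namespace CPoly

variable {k : ℕ} {b : ℕ → V3} (hb : CPoly k b)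
include hb

theorem nonneg (j l : ℕ) : 0 ≤ det3 (b j) (b (j + 1)) (b l) := by
  by_cases h1 : l ≡ j [MOD k]
  · rw [hb.per _ _ h1]; apply le_of_eq; simp only [det3]; ring
  · by_cases h2 : l ≡ j + 1 [MOD k]
    · rw [hb.per _ _ h2]; apply le_of_eq; simp only [det3]; ring
    · exact (hb.pos j l h1 h2).le

/-- The sign sequence of a point with respect to the sides has at most one descent. -/
theorem descent_unique (a : V3) {i j : ℕ}
    (hi : 0 < det3 (b i) (b (i + 1)) a) (hi' : det3 (b (i + 1)) (b (i + 2)) a < 0)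
    (hj : 0 < det3 (b j) (b (j + 1)) a) (hj' : det3 (b (j + 1)) (b (j + 2)) a < 0) :
    i ≡ j [MOD k] := by
  have hk := hb.three_le
  -- key: for such a descent, `det3 a (b (i+1)) (b l) < 0` for all `l ≢ i + 1`
  have key : ∀ i : ℕ, 0 < det3 (b i) (b (i + 1)) a → det3 (b (i + 1)) (b (i + 2)) a < 0 →
      ∀ l, ¬ l ≡ i + 1 [MOD k] → det3 a (b (i + 1)) (b l) < 0 := by
    intro i hi hi' l hl
    have h1 : det3 a (b (i + 1)) (b i) < 0 := by
      have : det3 a (b (i + 1)) (b i) = - det3 (b i) (b (i + 1)) a := by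
        simp only [det3]; ring
      linarith only [hi, this]
    have h2 : det3 a (b (i + 1)) (b (i + 2)) < 0 := by
      have : det3 a (b (i + 1)) (b (i + 2)) = det3 (b (i + 1)) (b (i + 2)) a := by
        simp only [det3]; ring
      linarith only [hi', this]
    have h3 : 0 < det3 (b i) (b (i + 1)) (b (i + 2)) := by
      apply hb.pos
      · exact not_modEq_add (by norm_num) (by omega)
      · exact not_modEq_add (c := i + 1) (d := 1) (by norm_num) (by omega)
    have h4 := det3_rel2 a (b i) (b (i + 1)) (b (i + 2)) (b l)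
    have h5 := hb.nonneg (i + 1) l
    have h6 := hb.nonneg i l
    have h7 : 0 < det3 (b (i + 1)) (b (i + 2)) (b l) ∨ 0 < det3 (b i) (b (i + 1)) (b l) := by
      by_cases c1 : l ≡ i [MOD k]
      · left
        apply hb.pos (i + 1) l hl
        intro h
        exact not_modEq_add (c := i) (d := 2) (k := k) (by norm_num) (by omega) (h.symm.trans c1)
      · right
        exact hb.pos i l c1 hl
    have h5' : 0 ≤ det3 (b (i + 1)) (b (i + 2)) (b l) := h5
    have h8 : det3 a (b (i + 1)) (b l) * det3 (b i) (b (i + 1)) (b (i + 2)) < 0 := by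
      rw [h4]
      rcases h7 with h7 | h7
      · have := mul_neg_of_neg_of_pos h1 h7
        have := mul_nonpos_of_nonpos_of_nonneg h2.le h6
        (clear j hj hj' hk hl h3 h4 h5 h5'; linarith)
      · have := mul_nonpos_of_nonpos_of_nonneg h1.le h5'
        have := mul_neg_of_neg_of_pos h2 h7
        (clear j hj hj' hk hl h3 h4 h6; linarith)
    by_contra hcon
    push Not at hcon
    have := mul_nonneg hcon h3.le
    linarith only [h8, this]
  by_contra hij
  have hij' : ¬ j ≡ i [MOD k] := fun h => hij h.symm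
  have e1 : ¬ j + 1 ≡ i + 1 [MOD k] := fun h => hij' (Nat.ModEq.add_right_cancel' 1 h)
  have e2 : ¬ i + 1 ≡ j + 1 [MOD k] := fun h => hij (Nat.ModEq.add_right_cancel' 1 h)
  have f1 := key i hi hi' (j + 1) e1
  have f2 := key j hj hj' (i + 1) e2
  have : det3 a (b (j + 1)) (b (i + 1)) = - det3 a (b (i + 1)) (b (j + 1)) := by
    simp only [det3]; ring
  linarith only [f1, f2, this]

/-- Alternating signs at four cyclically ordered sides are impossible. -/
theorem no_alt (a : V3) (ha : ∀ i, det3 (b i) (b (i + 1)) a ≠ 0) {i j l : ℕ}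
    (h0i : 0 < i) (hij : i < j) (hjl : j < l) (hlk : l < k)
    (h1 : 0 < det3 (b 0) (b 1) a * det3 (b j) (b (j + 1)) a)
    (h2 : det3 (b 0) (b 1) a * det3 (b i) (b (i + 1)) a < 0)
    (h3 : det3 (b 0) (b 1) a * det3 (b l) (b (l + 1)) a < 0) : False := by
  set P : ℕ → ℝ := fun i => det3 (b i) (b (i + 1)) a with hPdef
  have hP : ∀ i, P i ≠ 0 := ha
  have hPk : P k = P 0 := by
    have e1 : b k = b 0 := hb.per 0 k (by simp [Nat.ModEq])
    have e2 : b (k + 1) = b 1 := hb.per 1 (k + 1) (by simp [Nat.ModEq])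
    simp only [hPdef, e1, e2, zero_add]
  have hdesc : ∀ u v, 0 < P u → P (u + 1) < 0 → 0 < P v → P (v + 1) < 0 → u < k → v < k →
      u = v := by
    intro u v a1 a2 a3 a4 a5 a6
    have := hb.descent_unique a a1 a2 a3 a4
    have h := Nat.ModEq.eq_of_lt_of_lt this a5 a6
    exact h
  have h1' : 0 < P 0 * P j := h1
  have h2' : P 0 * P i < 0 := h2
  have h3' : P 0 * P l < 0 := h3
  rcases lt_or_gt_of_ne (hP 0) with h0 | h0
  · have hi : 0 < P i := by
      by_contra hc; push Not at hc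
      have := mul_nonneg_of_nonpos_of_nonpos h0.le hc
      linarith only [h2, this]
    have hl : 0 < P l := by
      by_contra hc; push Not at hc
      have := mul_nonneg_of_nonpos_of_nonpos h0.le hc
      linarith only [h3, this]
    have hj : P j < 0 := by
      by_contra hc; push Not at hc
      have := mul_nonpos_of_nonpos_of_nonneg h0.le hc
      linarith only [h1, this]
    obtain ⟨w, a1, a2, a3, a4⟩ := exists_descent P hP i j hij hi hj
    obtain ⟨w', b1, b2, b3, b4⟩ := exists_descent P hP l k hlk hl (by rw [hPk]; exact h0)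
    have := hdesc w w' a3 a4 b3 b4 (by omega) (by omega)
    omega
  · have hi : P i < 0 := by
      by_contra hc; push Not at hc
      have := mul_nonneg h0.le hc
      linarith only [h2, this]
    have hl : P l < 0 := by
      by_contra hc; push Not at hc
      have := mul_nonneg h0.le hc
      linarith only [h3, this]
    have hj : 0 < P j := by
      by_contra hc; push Not at hc
      have := mul_nonpos_of_nonneg_of_nonpos h0.le hc
      linarith only [h1, this]
    obtain ⟨w, a1, a2, a3, a4⟩ := exists_descent P hP 0 i h0i h0 hi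
    obtain ⟨w', b1, b2, b3, b4⟩ := exists_descent P hP j l hjl hj hl
    have := hdesc w w' a3 a4 b3 b4 (by omega) (by omega)
    omega

/-- The sign relation at a crossed side. -/
theorem cross_sign (a a' : V3) {i l : ℕ}
    (hc : det3 a a' (b i) * det3 a a' (b (i + 1)) < 0) (hl : ¬ l ≡ i [MOD k]) :
    0 < (det3 (b i) (b (i + 1)) a' * det3 (b l) (b (l + 1)) a
      - det3 (b i) (b (i + 1)) a * det3 (b l) (b (l + 1)) a') * det3 a a' (b i) := by
  have hk := hb.three_le
  rw [det3_rel a a' (b i) (b (i + 1)) (b l) (b (l + 1))]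
  have n1 := hb.nonneg l (i + 1)
  have n2 := hb.nonneg l i
  have hU : 0 < det3 a a' (b i) ^ 2 := by
    apply pow_two_pos_of_ne_zero
    intro h
    rw [h, zero_mul] at hc
    exact lt_irrefl _ hc
  have e : (det3 a a' (b i) * det3 (b l) (b (l + 1)) (b (i + 1))
      - det3 a a' (b (i + 1)) * det3 (b l) (b (l + 1)) (b i)) * det3 a a' (b i)
      = det3 a a' (b i) ^ 2 * det3 (b l) (b (l + 1)) (b (i + 1))
        + (- (det3 a a' (b i) * det3 a a' (b (i + 1)))) * det3 (b l) (b (l + 1)) (b i) := by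
    ring
  rw [e]
  have hc' : 0 < - (det3 a a' (b i) * det3 a a' (b (i + 1))) := by linarith only [hc]
  by_cases h1 : i ≡ l + 1 [MOD k]
  · have h2 : 0 < det3 (b l) (b (l + 1)) (b (i + 1)) := by
      have h3 : i + 1 ≡ l + 2 [MOD k] := h1.add_right 1
      apply hb.pos
      · intro h
        exact not_modEq_add (c := l) (d := 2) (k := k) (by norm_num) (by omega)
          (h3.symm.trans h)
      · intro h
        exact not_modEq_add (c := l + 1) (d := 1) (k := k) (by norm_num) (by omega)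
          (h3.symm.trans h)
    have := mul_pos hU h2
    have := mul_nonneg hc'.le n2
    (clear hl n1 e; linarith)
  · have h2 : 0 < det3 (b l) (b (l + 1)) (b i) := hb.pos l i (fun h => hl h.symm) h1
    have := mul_pos hc' h2
    have := mul_nonneg hU.le n1
    (clear hk n2 e; linarith)

theorem cross_opp (a a' : V3) {i l : ℕ}
    (hi : det3 a a' (b i) * det3 a a' (b (i + 1)) < 0)
    (hl : det3 a a' (b l) * det3 a a' (b (l + 1)) < 0) (h : ¬ i ≡ l [MOD k]) :
    det3 a a' (b i) * det3 a a' (b l) < 0 := by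
  have h1 := hb.cross_sign a a' hi (l := l) (fun hh => h hh.symm)
  have h2 := hb.cross_sign a a' hl (l := i) h
  by_contra hc
  push Not at hc
  have h3 := mul_pos h1 h2
  nlinarith only [h3, mul_nonneg (mul_self_nonneg (det3 (b i) (b (i + 1)) a' * det3 (b l) (b (l + 1)) a       - det3 (b i) (b (i + 1)) a * det3 (b l) (b (l + 1)) a')) hc]

/-- If both sign classes `(+, -)` and `(-, +)` occur, a crossed side separates. -/
theorem cross_G2 (a a' : V3) {i l l' : ℕ}
    (hi : det3 a a' (b i) * det3 a a' (b (i + 1)) < 0)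
    (hP : 0 < det3 (b i) (b (i + 1)) a * det3 (b i) (b (i + 1)) a')
    (h1 : 0 < det3 (b l) (b (l + 1)) a) (h2 : det3 (b l) (b (l + 1)) a' < 0)
    (h3 : det3 (b l') (b (l' + 1)) a < 0) (h4 : 0 < det3 (b l') (b (l' + 1)) a') : False := by
  have e1 : ¬ l ≡ i [MOD k] := by
    intro h
    have h5 := hb.per _ _ h
    have h6 := hb.per _ _ (h.add_right 1)
    rw [h5, h6] at h1 h2
    nlinarith only [hP, h1, h2]
  have e2 : ¬ l' ≡ i [MOD k] := by
    intro h
    have h5 := hb.per _ _ h
    have h6 := hb.per _ _ (h.add_right 1)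
    rw [h5, h6] at h3 h4
    nlinarith only [hP, h3, h4]
  have f1 := hb.cross_sign a a' hi e1
  have f2 := hb.cross_sign a a' hi e2
  rcases lt_or_ge 0 (det3 (b i) (b (i + 1)) a) with hp | hp
  · have hq : 0 < det3 (b i) (b (i + 1)) a' := pos_right hP hp.le
    have g1 : 0 < det3 (b i) (b (i + 1)) a' * det3 (b l) (b (l + 1)) a
      - det3 (b i) (b (i + 1)) a * det3 (b l) (b (l + 1)) a' := by
      have := mul_pos hq h1
      have := mul_neg_of_pos_of_neg hp h2
      linarith
    have g2 : det3 (b i) (b (i + 1)) a' * det3 (b l') (b (l' + 1)) a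
      - det3 (b i) (b (i + 1)) a * det3 (b l') (b (l' + 1)) a' < 0 := by
      have := mul_neg_of_pos_of_neg hq h3
      have := mul_pos hp h4
      linarith
    nlinarith only [f1, g2, f2, g1]
  · have hp' : det3 (b i) (b (i + 1)) a < 0 := by
      rcases lt_or_eq_of_le hp with h | h
      · exact h
      · rw [h, zero_mul] at hP; exact absurd hP (lt_irrefl _)
    have hq : det3 (b i) (b (i + 1)) a' < 0 := by
      by_contra hc; push Not at hc
      have := mul_nonpos_of_nonpos_of_nonneg hp hc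
      linarith
    have g1 : det3 (b i) (b (i + 1)) a' * det3 (b l) (b (l + 1)) a
      - det3 (b i) (b (i + 1)) a * det3 (b l) (b (l + 1)) a' < 0 := by
      have := mul_neg_of_neg_of_pos hq h1
      have := mul_pos_of_neg_of_neg hp' h2
      linarith
    have g2 : 0 < det3 (b i) (b (i + 1)) a' * det3 (b l') (b (l' + 1)) a
      - det3 (b i) (b (i + 1)) a * det3 (b l') (b (l' + 1)) a' := by
      have := mul_pos_of_neg_of_neg hq h3
      have := mul_neg_of_neg_of_pos hp' h4
      linarith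
    nlinarith only [f1, g2, f2, g1]

/-- If the signs of `a` are constant and two crossed sides have `a, a'` on one side each, then
the signs of `a'` agree with those of `a`. -/
theorem cross_G1 (a a' : V3) {i j l : ℕ}
    (hi : det3 a a' (b i) * det3 a a' (b (i + 1)) < 0)
    (hj : det3 a a' (b j) * det3 a a' (b (j + 1)) < 0) (hij : ¬ i ≡ j [MOD k])
    (hPi : 0 < det3 (b i) (b (i + 1)) a * det3 (b i) (b (i + 1)) a')
    (hPj : 0 < det3 (b j) (b (j + 1)) a * det3 (b j) (b (j + 1)) a')
    (hc : ∀ l l', 0 < det3 (b l) (b (l + 1)) a * det3 (b l') (b (l' + 1)) a)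
    (hl : det3 (b l) (b (l + 1)) a * det3 (b l) (b (l + 1)) a' < 0) : False := by
  have key : ∀ i, det3 a a' (b i) * det3 a a' (b (i + 1)) < 0 →
      0 < det3 (b i) (b (i + 1)) a * det3 (b i) (b (i + 1)) a' → 0 < det3 a a' (b i) := by
    intro i hi hPi
    have e1 : ¬ l ≡ i [MOD k] := by
      intro h
      have h5 := hb.per _ _ h
      have h6 := hb.per _ _ (h.add_right 1)
      rw [h5, h6] at hl
      linarith
    have f1 := hb.cross_sign a a' hi e1
    have h1 := hc i l
    generalize det3 (b i) (b (i + 1)) a = Pi at *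
    generalize det3 (b i) (b (i + 1)) a' = Qi at *
    generalize det3 (b l) (b (l + 1)) a = Pl at *
    generalize det3 (b l) (b (l + 1)) a' = Ql at *
    have g1 : 0 < Qi * Pl - Pi * Ql := by
      have m1 : 0 < Qi * Pl := by
        have : 0 < (Pi * Pi) * (Qi * Pl) := by
          have := mul_pos hPi h1
          calc 0 < Pi * Qi * (Pi * Pl) := this
            _ = _ := by ring
        exact pos_right this (mul_self_nonneg _)
      have m2 : Pi * Ql < 0 := by
        have : 0 < (Pl * Pl) * (-(Pi * Ql)) := by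
          have := mul_pos_of_neg_of_neg (neg_neg_of_pos h1) hl
          calc 0 < -(Pi * Pl) * (Pl * Ql) := this
            _ = _ := by ring
        have := pos_right this (mul_self_nonneg _)
        linarith
      linarith
    exact pos_right f1 g1.le
  have k1 := key i hi hPi
  have k2 := key j hj hPj
  have := hb.cross_opp a a' hi hj hij
  nlinarith only [this, k1, k2]

omit hb in
theorem sgn_iff {x y : ℝ} (hx : x ≠ 0) (hy : y ≠ 0) : 0 < x * y ↔ (0 < x ↔ 0 < y) := by
  rcases lt_or_gt_of_ne hx with c1 | c1 <;> rcases lt_or_gt_of_ne hy with c2 | c2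
  · simp [mul_pos_of_neg_of_neg c1 c2, not_lt.2 c1.le, not_lt.2 c2.le]
  · simp [not_lt.2 (mul_neg_of_neg_of_pos c1 c2).le, not_lt.2 c1.le, c2]
  · simp [not_lt.2 (mul_neg_of_pos_of_neg c1 c2).le, not_lt.2 c2.le, c1]
  · simp [mul_pos c1 c2, c1, c2]

theorem const_case (a a' : V3) (ha : ∀ i, det3 (b i) (b (i + 1)) a ≠ 0)
    (ha' : ∀ i, det3 (b i) (b (i + 1)) a' ≠ 0) {i j : ℕ} (hij : ¬ i ≡ j [MOD k])
    (x1 : 0 < det3 (b i) (b (i + 1)) a * det3 (b i) (b (i + 1)) a')
    (x2 : det3 a a' (b i) * det3 a a' (b (i + 1)) < 0)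
    (y1 : 0 < det3 (b j) (b (j + 1)) a * det3 (b j) (b (j + 1)) a')
    (y2 : det3 a a' (b j) * det3 a a' (b (j + 1)) < 0)
    (h1 : ∀ l ≤ k - 1, (0 < det3 (b l) (b (l + 1)) a ↔ 0 < det3 (b 0) (b 1) a))
    (h2 : ∃ l ≤ k - 1, ¬ (0 < det3 (b l) (b (l + 1)) a' ↔ 0 < det3 (b 0) (b 1) a')) :
    False := by
  have hk := hb.three_le
  have hper : ∀ l, det3 (b l) (b (l + 1)) a = det3 (b (l % k)) (b (l % k + 1)) a := by
    intro l
    have e : l ≡ l % k [MOD k] := (Nat.mod_modEq l k).symm
    rw [hb.per _ _ e, hb.per _ _ (e.add_right 1)]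
  have hlt : ∀ l, l % k ≤ k - 1 := by
    intro l
    have := Nat.mod_lt l (show 0 < k by omega)
    omega
  have hconst0 : ∀ l, 0 < det3 (b l) (b (l + 1)) a ↔ 0 < det3 (b 0) (b 1) a := by
    intro l
    rw [hper l]
    exact h1 _ (hlt l)
  have hconst : ∀ l l', 0 < det3 (b l) (b (l + 1)) a * det3 (b l') (b (l' + 1)) a := by
    intro l l'
    rw [sgn_iff (ha l) (ha l')]
    exact (hconst0 l).trans (hconst0 l').symm
  obtain ⟨l, _, hl⟩ := h2
  have hall : ∀ l, (0 < det3 (b l) (b (l + 1)) a ↔ 0 < det3 (b l) (b (l + 1)) a') := by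
    intro l
    by_contra hc
    rw [← sgn_iff (ha l) (ha' l)] at hc
    exact hb.cross_G1 a a' x2 y2 hij x1 y1 hconst
      (lt_of_le_of_ne (not_lt.1 hc) (mul_ne_zero (ha l) (ha' l)))
  exact hl ((hall l).symm.trans ((hconst0 l).trans (hall 0)))

/-- The polygon inequality for one pair. -/
theorem pair_count (a a' : V3) (ha : ∀ i, det3 (b i) (b (i + 1)) a ≠ 0)
    (ha' : ∀ i, det3 (b i) (b (i + 1)) a' ≠ 0) (hU : ∀ i, det3 a a' (b i) ≠ 0) :
    cnt (Icc 1 (k - 2)) (fun j =>
      maj (0 < det3 (b 0) (b 1) a) (0 < det3 (b j) (b (j + 1)) a)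
        (0 < det3 (b (j + 1)) (b (j + 2)) a) ↔
      maj (0 < det3 (b 0) (b 1) a') (0 < det3 (b j) (b (j + 1)) a')
        (0 < det3 (b (j + 1)) (b (j + 2)) a'))
    ≤ cnt (Icc 0 (k - 1)) (fun i => 0 < det3 (b i) (b (i + 1)) a * det3 (b i) (b (i + 1)) a' ∧
        0 < det3 a a' (b i) * det3 a a' (b (i + 1))) := by
  have hk := hb.three_le
  have hIcc : ∀ i j, i ≤ k - 1 → j ≤ k - 1 → i ≠ j → ¬ i ≡ j [MOD k] := by
    intro i j hi hj hij h
    exact hij (Nat.ModEq.eq_of_lt_of_lt h (by omega) (by omega))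
  obtain ⟨t, ht⟩ : ∃ t, t = cnt (Icc 0 (k - 1))
      (fun i => 0 < det3 (b i) (b (i + 1)) a * det3 (b i) (b (i + 1)) a' ∧
        ¬ 0 < det3 a a' (b i) * det3 a a' (b (i + 1))) := ⟨_, rfl⟩
  have hint : ∀ a : V3, (∀ i, det3 (b i) (b (i + 1)) a ≠ 0) →
      ∀ i j l, 0 < i → i < j → j < l → l ≤ k - 1 →
      ¬ (0 < det3 (b i) (b (i + 1)) a ↔ 0 < det3 (b 0) (b 1) a) →
      ¬ (0 < det3 (b l) (b (l + 1)) a ↔ 0 < det3 (b 0) (b 1) a) →
      ¬ (0 < det3 (b j) (b (j + 1)) a ↔ 0 < det3 (b 0) (b 1) a) := by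
    intro a ha i j l h0 h1 h2 h3 h4 h5 h6
    have m1 : ∀ x, ¬ (0 < det3 (b x) (b (x + 1)) a ↔ 0 < det3 (b 0) (b 1) a) →
        det3 (b 0) (b 1) a * det3 (b x) (b (x + 1)) a < 0 := by
      intro x hx
      rcases lt_or_gt_of_ne (ha x) with c1 | c1 <;> rcases lt_or_gt_of_ne (ha 0) with c2 | c2
      · exact absurd ⟨fun h => absurd h (not_lt.2 c1.le), fun h => absurd h (not_lt.2 c2.le)⟩ hx
      · exact mul_neg_of_pos_of_neg c2 c1
      · exact mul_neg_of_neg_of_pos c2 c1
      · exact absurd ⟨fun _ => c2, fun _ => c1⟩ hx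
    have m2 : 0 < det3 (b 0) (b 1) a * det3 (b j) (b (j + 1)) a := by
      rcases lt_or_gt_of_ne (ha j) with c1 | c1 <;> rcases lt_or_gt_of_ne (ha 0) with c2 | c2
      · exact mul_pos_of_neg_of_neg c2 c1
      · exact absurd (h6.2 c2) (not_lt.2 c1.le)
      · exact absurd (h6.1 c1) (not_lt.2 c2.le)
      · exact mul_pos c2 c1
    exact hb.no_alt a ha h0 h1 h2 (by omega) m2 (m1 i h4) (m1 l h5)
  have hsgn : ∀ i, (0 < det3 (b i) (b (i + 1)) a * det3 (b i) (b (i + 1)) a') ↔
      (0 < det3 (b i) (b (i + 1)) a ↔ 0 < det3 (b i) (b (i + 1)) a') := by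
    intro i
    exact sgn_iff (ha i) (ha' i)
  have hUneg : ∀ i, ¬ 0 < det3 a a' (b i) * det3 a a' (b (i + 1)) →
      det3 a a' (b i) * det3 a a' (b (i + 1)) < 0 := by
    intro i h
    push Not at h
    exact lt_of_le_of_ne h (mul_ne_zero (hU i) (hU (i + 1)))
  have hsplit : cnt (Icc 0 (k - 1)) (fun i => (0 < det3 (b i) (b (i + 1)) a ↔
      0 < det3 (b i) (b (i + 1)) a')) =
      cnt (Icc 0 (k - 1)) (fun i => 0 < det3 (b i) (b (i + 1)) a * det3 (b i) (b (i + 1)) a' ∧
        0 < det3 a a' (b i) * det3 a a' (b (i + 1))) + t := by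
    classical
    rw [ht]
    simp only [cnt_eq_sum]
    rw [← Finset.sum_add_distrib]
    apply Finset.sum_congr rfl
    intro i _
    by_cases c1 : 0 < det3 (b i) (b (i + 1)) a * det3 (b i) (b (i + 1)) a'
    · have c2 := (hsgn i).1 c1
      by_cases c3 : 0 < det3 a a' (b i) * det3 a a' (b (i + 1)) <;> simp [c1, c2, c3]
    · have c2 : ¬ (0 < det3 (b i) (b (i + 1)) a ↔ 0 < det3 (b i) (b (i + 1)) a') :=
        fun h => c1 ((hsgn i).2 h)
      rw [if_neg c2]
      simp only [c1, false_and, ↓reduceIte, not_lt, add_zero]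
  -- from `t ≥ 1` and `t ≥ 2` we get crossed indices
  have t1 : t ≠ 0 → ∃ i ≤ k - 1, 0 < det3 (b i) (b (i + 1)) a * det3 (b i) (b (i + 1)) a' ∧
      det3 a a' (b i) * det3 a a' (b (i + 1)) < 0 := by
    classical
    intro h
    rw [ht, cnt_eq_card] at h
    obtain ⟨i, hi⟩ := Finset.card_pos.1 (Nat.pos_of_ne_zero h)
    simp only [mem_filter, mem_Icc] at hi
    exact ⟨i, hi.1.2, hi.2.1, hUneg i hi.2.2⟩
  have t2 : 1 < t → ∃ i j, i ≤ k - 1 ∧ j ≤ k - 1 ∧ i ≠ j ∧
      (0 < det3 (b i) (b (i + 1)) a * det3 (b i) (b (i + 1)) a' ∧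
      det3 a a' (b i) * det3 a a' (b (i + 1)) < 0) ∧
      (0 < det3 (b j) (b (j + 1)) a * det3 (b j) (b (j + 1)) a' ∧
      det3 a a' (b j) * det3 a a' (b (j + 1)) < 0) := by
    classical
    intro h
    rw [ht, cnt_eq_card] at h
    obtain ⟨i, hi, j, hj, hij⟩ := Finset.one_lt_card.1 h
    simp only [mem_filter, mem_Icc] at hi hj
    exact ⟨i, j, hi.1.2, hj.1.2, hij, ⟨hi.2.1, hUneg i hi.2.2⟩, ⟨hj.2.1, hUneg j hj.2.2⟩⟩
  have t3 : t ≤ 2 := by
    classical
    by_contra h
    push Not at h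
    rw [ht, cnt_eq_card] at h
    obtain ⟨i, hi, j, hj, l, hl, hij, hil, hjl⟩ := Finset.two_lt_card.1 h
    simp only [mem_filter, mem_Icc] at hi hj hl
    have o1 := hb.cross_opp a a' (hUneg i hi.2.2) (hUneg j hj.2.2) (hIcc i j hi.1.2 hj.1.2 hij)
    have o2 := hb.cross_opp a a' (hUneg i hi.2.2) (hUneg l hl.2.2) (hIcc i l hi.1.2 hl.1.2 hil)
    have o3 := hb.cross_opp a a' (hUneg j hj.2.2) (hUneg l hl.2.2) (hIcc j l hj.1.2 hl.1.2 hjl)
    have o4 := mul_pos_of_neg_of_neg o1 o2
    have o5 : 0 < (det3 a a' (b i) * det3 a a' (b i)) * (det3 a a' (b j) * det3 a a' (b l)) := by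
      calc 0 < _ := o4
        _ = _ := by ring
    have := pos_right o5 (mul_self_nonneg _)
    linarith only [o3, this]
  have main := count_core (k - 1) (by omega) (fun i => 0 < det3 (b i) (b (i + 1)) a)
    (fun i => 0 < det3 (b i) (b (i + 1)) a') t (hint a ha) (hint a' ha')
    (by
      intro h
      by_contra hne
      obtain ⟨i, hi, h1, _⟩ := t1 hne
      exact h i hi ((hsgn i).1 h1))
    t3
    (by
      intro h1 h2
      by_contra hne
      push Not at hne
      obtain ⟨i, j, hi, hj, hij, ⟨x1, x2⟩, ⟨y1, y2⟩⟩ := t2 hne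
      exact hb.const_case a a' ha ha' (hIcc i j hi hj hij) x1 x2 y1 y2 h1 h2)
    (by
      intro h1 h2
      by_contra hne
      push Not at hne
      obtain ⟨i, j, hi, hj, hij, ⟨x1, x2⟩, ⟨y1, y2⟩⟩ := t2 hne
      have e : ∀ i, det3 a' a (b i) = - det3 a a' (b i) := by
        intro i; simp only [det3]; ring
      exact hb.const_case a' a ha' ha (hIcc i j hi hj hij) (by rw [mul_comm]; exact x1)
        (by rw [e, e, neg_mul_neg]; exact x2) (by rw [mul_comm]; exact y1)
        (by rw [e, e, neg_mul_neg]; exact y2) h1 h2)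
    (by
      rintro ⟨l, hl, h1, h2⟩ ⟨l', hl', h3, h4⟩
      by_contra hne
      obtain ⟨i, hi, x1, x2⟩ := t1 hne
      exact hb.cross_G2 a a' x2 x1 h1 (lt_of_le_of_ne (not_lt.1 h2) (ha' l))
        (lt_of_le_of_ne (not_lt.1 h3) (ha l')) h4)
  rw [hsplit] at main
  have e2 : k - 1 - 1 = k - 2 := by omega
  rw [e2] at main
  simp only [zero_add] at main
  have := Nat.le_of_add_le_add_right main
  exact this

end CPoly

end Vale.Agent.P040.Zar
end
end
end

section

section

section

/-!
# The polygon lemma (list form)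
-/

namespace Vale.Agent.P040.Zar

open Finset

/-- The ordered pairs of distinct elements of `Fin m`. -/
def prs (m : ℕ) : Finset (Fin m × Fin m) := Finset.univ.filter (fun p => p.1 < p.2)

theorem crP_eq_cnt {m : ℕ} (a : Fin m → V3) (u w : V3) :
    crP a u w = cnt (prs m) (fun p => 0 < det3 u w (a p.1) * det3 u w (a p.2) ∧
      0 < det3 (a p.1) (a p.2) u * det3 (a p.1) (a p.2) w) := by
  classical
  rw [cnt_eq_card, crP, ← Set.ncard_coe_finset]
  congr 1
  ext p
  simp only [Set.mem_ofPred_eq, prs, coe_filter, mem_filter, mem_univ, true_and]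

theorem cnt_swap {α β : Type*} (S : Finset α) (T : Finset β) (u : α → β → Prop) :
    ∑ i ∈ S, cnt T (fun j => u i j) = ∑ j ∈ T, cnt S (fun i => u i j) := by
  classical
  simp only [cnt_eq_sum]
  exact Finset.sum_comm

theorem sum_sym {m : ℕ} (f : Fin m → Fin m → ℕ) (hf : ∀ i j, f i j = f j i) :
    ∑ i, ∑ j, f i j = ∑ i, f i i + 2 * ∑ p ∈ prs m, f p.1 p.2 := by
  classical
  have h1 : ∑ i, ∑ j, f i j = ∑ p : Fin m × Fin m, f p.1 p.2 := by
    rw [Fintype.sum_prod_type]
  have h2 : ∑ p : Fin m × Fin m, f p.1 p.2 =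
      ∑ p ∈ prs m, f p.1 p.2 + ∑ p ∈ Finset.univ.filter (fun p : Fin m × Fin m => ¬ p.1 < p.2),
        f p.1 p.2 := by
    rw [prs, Finset.sum_filter_add_sum_filter_not]
  have h3 : ∑ p ∈ Finset.univ.filter (fun p : Fin m × Fin m => ¬ p.1 < p.2), f p.1 p.2 =
      ∑ p ∈ Finset.univ.filter (fun p : Fin m × Fin m => p.2 < p.1), f p.1 p.2 +
      ∑ p ∈ Finset.univ.filter (fun p : Fin m × Fin m => p.1 = p.2), f p.1 p.2 := by
    rw [← Finset.sum_union]
    · apply Finset.sum_congr _ (fun _ _ => rfl)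
      ext p
      simp only [mem_filter, mem_univ, true_and, mem_union]
      constructor
      · intro h
        rcases lt_trichotomy p.1 p.2 with c | c | c
        · exact absurd c h
        · exact Or.inr c
        · exact Or.inl c
      · rintro (h | h)
        · exact not_lt.2 h.le
        · rw [h]; exact lt_irrefl _
    · rw [Finset.disjoint_left]
      intro p hp hq
      simp only [mem_filter, mem_univ, true_and] at hp hq
      rw [hq] at hp
      exact lt_irrefl _ hp
  have h4 : ∑ p ∈ Finset.univ.filter (fun p : Fin m × Fin m => p.2 < p.1), f p.1 p.2 =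
      ∑ p ∈ prs m, f p.1 p.2 := by
    apply Finset.sum_nbij' (fun p => (p.2, p.1)) (fun p => (p.2, p.1))
    · intro p hp; simpa only [prs, mem_filter, mem_univ, true_and] using hp
    · intro p hp; simpa only [mem_filter, mem_univ, true_and, prs] using hp
    · intro p _; rfl
    · intro p _; rfl
    · intro p _; exact hf _ _
  have h5 : ∑ p ∈ Finset.univ.filter (fun p : Fin m × Fin m => p.1 = p.2), f p.1 p.2 =
      ∑ i, f i i := by
    symm
    apply Finset.sum_nbij' (fun i => (i, i)) (fun p => p.1)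
    · intro i _; simp
    · intro p _; simp
    · intro i _; rfl
    · intro p hp
      simp only [mem_filter, mem_univ, true_and] at hp
      exact Prod.ext rfl hp
    · intro i _; rfl
  rw [h1, h2, h3, h4, h5]
  ring

theorem two_color {m : ℕ} (c : Fin m → Prop) :
    dz m ≤ cnt (prs m) (fun p => c p.1 ↔ c p.2) := by
  classical
  obtain ⟨s, hs⟩ : ∃ s, s = cnt (prs m) (fun p => c p.1 ↔ c p.2) := ⟨_, rfl⟩
  have h1 := sum_sym (m := m) (fun i j => if (c i ↔ c j) then 1 else 0) (by
    intro i j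
    by_cases h : c i ↔ c j
    · simp [h]
    · have h' : ¬ (c j ↔ c i) := fun hh => h hh.symm
      simp [h, h'])
  simp only [iff_self, if_true, Finset.sum_const, Finset.card_univ, Fintype.card_fin,
    smul_eq_mul, mul_one] at h1
  rw [← cnt_eq_sum, ← hs] at h1
  obtain ⟨x, hx⟩ : ∃ x, x = ∑ i : Fin m, (if c i then 1 else 0) := ⟨_, rfl⟩
  obtain ⟨y, hy⟩ : ∃ y, y = ∑ i : Fin m, (if c i then 0 else 1) := ⟨_, rfl⟩
  have hxy : x + y = m := by
    rw [hx, hy, ← Finset.sum_add_distrib]
    have : ∀ i : Fin m, (if c i then 1 else 0) + (if c i then 0 else 1) = 1 := by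
      intro i; by_cases h : c i <;> simp [h]
    simp only [this, sum_const, card_univ, Fintype.card_fin, smul_eq_mul, mul_one]
  have h2 : ∑ i : Fin m, ∑ j : Fin m, (if (c i ↔ c j) then 1 else 0) = x * x + y * y := by
    rw [hx, hy, Finset.sum_mul_sum, Finset.sum_mul_sum, ← Finset.sum_add_distrib]
    apply Finset.sum_congr rfl
    intro i _
    rw [← Finset.sum_add_distrib]
    apply Finset.sum_congr rfl
    intro j _
    by_cases h : c i <;> by_cases h' : c j <;> simp [h, h']
  rw [h2] at h1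
  rw [← hs]
  clear hs hx hy h2
  unfold dz
  obtain ⟨r, rfl | rfl⟩ := Nat.even_or_odd' m
  · have e1 : 2 * r / 2 = r := by omega
    have e2 : (2 * r - 1) / 2 = r - 1 := by (clear * - e1; omega)
    rw [e1, e2]
    rcases Nat.eq_zero_or_pos r with h | h
    · simp [h]
    · obtain ⟨r', rfl⟩ : ∃ r', r = r' + 1 := ⟨r - 1, by omega⟩
      simp only [Nat.add_sub_cancel]
      have e3 : y = 2 * (r' + 1) - x := by omega
      subst e3
      zify [show x ≤ 2 * (r' + 1) by omega] at h1 ⊢
      nlinarith only [h1, sq_nonneg ((x : ℤ) - (r' + 1))]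
  · have e1 : (2 * r + 1) / 2 = r := by omega
    have e2 : (2 * r + 1 - 1) / 2 = r := by omega
    rw [e1, e2]
    have e3 : y = 2 * r + 1 - x := by omega
    subst e3
    zify [show x ≤ 2 * r + 1 by omega] at h1 ⊢
    have : 0 ≤ ((x : ℤ) - r) * ((x : ℤ) - r - 1) := by
      rcases le_or_gt ((x : ℤ) - r) 0 with h | h
      · exact mul_nonneg_of_nonpos_of_nonpos h (by omega)
      · exact mul_nonneg h.le (by omega)
    nlinarith only [h1, this]

/-- The polygon inequality for periodically indexed polygons. -/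
theorem polygon_core {k m : ℕ} {b : ℕ → V3} (hb : CPoly k b) (a : Fin m → V3)
    (h1 : ∀ i x, det3 (b i) (b (i + 1)) (a x) ≠ 0)
    (h2 : ∀ x y, x ≠ y → ∀ i, det3 (a x) (a y) (b i) ≠ 0) :
    (k - 2) * dz m ≤ ∑ i ∈ Icc 0 (k - 1), crP a (b i) (b (i + 1)) := by
  have hk := hb.three_le
  have e1 : ∑ i ∈ Icc 0 (k - 1), crP a (b i) (b (i + 1)) =
      ∑ p ∈ prs m, cnt (Icc 0 (k - 1)) (fun i =>
        0 < det3 (b i) (b (i + 1)) (a p.1) * det3 (b i) (b (i + 1)) (a p.2) ∧
        0 < det3 (a p.1) (a p.2) (b i) * det3 (a p.1) (a p.2) (b (i + 1))) := by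
    rw [← cnt_swap]
    apply Finset.sum_congr rfl
    intro i _
    exact crP_eq_cnt _ _ _
  rw [e1]
  have e2 : (k - 2) * dz m ≤ ∑ j ∈ Icc 1 (k - 2), cnt (prs m) (fun p =>
      maj (0 < det3 (b 0) (b 1) (a p.1)) (0 < det3 (b j) (b (j + 1)) (a p.1))
        (0 < det3 (b (j + 1)) (b (j + 2)) (a p.1)) ↔
      maj (0 < det3 (b 0) (b 1) (a p.2)) (0 < det3 (b j) (b (j + 1)) (a p.2))
        (0 < det3 (b (j + 1)) (b (j + 2)) (a p.2))) := by
    calc (k - 2) * dz m = ∑ j ∈ Icc 1 (k - 2), dz m := by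
          rw [Finset.sum_const, Nat.card_Icc, smul_eq_mul]
          congr 1
      _ ≤ _ := by
          apply Finset.sum_le_sum
          intro j _
          exact two_color (fun x => maj (0 < det3 (b 0) (b 1) (a x))
            (0 < det3 (b j) (b (j + 1)) (a x)) (0 < det3 (b (j + 1)) (b (j + 2)) (a x)))
  refine e2.trans ?_
  rw [cnt_swap]
  apply Finset.sum_le_sum
  intro p hp
  have hne : p.1 ≠ p.2 := by
    simp only [prs, mem_filter, mem_univ, true_and] at hp
    exact ne_of_lt hp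
  exact hb.pair_count (a p.1) (a p.2) (fun i => h1 i _) (fun i => h1 i _)
    (fun i => h2 _ _ hne i)

/-- The polygon inequality for lists. -/
theorem polygon_lemma {B : Type*} {m : ℕ} (a : Fin m → V3) (v : B → V3) (L : List B)
    (hL : ConvexPoly v L)
    (h1 : ∀ s ∈ sides L, ∀ x, det3 (v s.1) (v s.2) (a x) ≠ 0)
    (h2 : ∀ x y, x ≠ y → ∀ z ∈ L, det3 (a x) (a y) (v z) ≠ 0) :
    (L.length - 2) * dz m ≤ ((sides L).map (fun s => crP a (v s.1) (v s.2))).sum := by
  obtain ⟨hnd, hlen, hpos⟩ := hL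
  obtain ⟨k, hk⟩ : ∃ k, k = L.length := ⟨_, rfl⟩
  have hk0 : 0 < k := by omega
  have hmod : ∀ i, i % k < L.length := fun i => hk ▸ Nat.mod_lt i hk0
  have hsl : (sides L).length = k := by
    simp [sides, hk]
  have hget : ∀ i (h : i < (sides L).length), (sides L)[i] =
      (L[i % k]'(hmod i), L[(i + 1) % k]'(hmod (i + 1))) := by
    intro i h
    have hi : i < k := by rw [hsl] at h; exact h
    simp only [sides, List.getElem_zip, List.getElem_rotate]
    congr 1
    · congr 1
      exact (Nat.mod_eq_of_lt hi).symm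
    · simp [hk]
  have hmem : ∀ i, (L[i % k]'(hmod i), L[(i + 1) % k]'(hmod (i + 1))) ∈ sides L := by
    intro i
    have hi : i % k < (sides L).length := by rw [hsl]; exact Nat.mod_lt i hk0
    have e := hget (i % k) hi
    have e3 : (i % k + 1) % k = (i + 1) % k := by rw [Nat.mod_add_mod]
    simp only [Nat.mod_mod, e3] at e
    rw [← e]
    exact List.getElem_mem hi
  have hb : CPoly k (fun i => v (L[i % k]'(hmod i))) := by
    refine ⟨by omega, ?_, ?_⟩
    · intro i l h
      have h' : l % k = i % k := h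
      simp only [h']
    · intro j l hj hj'
      apply hpos _ (hmem j) _ (List.getElem_mem (hmod l))
      · intro h
        exact hj (hnd.getElem_inj_iff.1 h)
      · intro h
        exact hj' (hnd.getElem_inj_iff.1 h)
  have main := polygon_core hb a (fun i x => h1 _ (hmem i) x)
    (fun x y hxy i => h2 x y hxy _ (List.getElem_mem (hmod i)))
  rw [← hk]
  refine main.trans (le_of_eq ?_)
  rw [← Fin.sum_univ_fun_getElem]
  rw [Finset.sum_fin_eq_sum_range]
  have e4 : Icc 0 (k - 1) = range (sides L).length := by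
    rw [hsl]
    ext i; simp only [mem_Icc, mem_range]; omega
  rw [e4]
  apply Finset.sum_congr rfl
  intro i hi
  rw [mem_range] at hi
  rw [dif_pos hi]
  have := hget i hi
  simp only [this]

end Vale.Agent.P040.Zar
end
end
end

section

section

section

/-!
# From the decomposition into convex polygons to the Zarankiewicz bound
-/

namespace Vale.Agent.P040.Zar.Asm

open Finset

theorem crP_symm {m : ℕ} (a : Fin m → V3) (u w : V3) : crP a u w = crP a w u := by
  rw [crP_eq_cnt, crP_eq_cnt]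
  apply cnt_congr
  intro p _
  have e : ∀ x, det3 w u x = - det3 u w x := by intro x; simp only [det3]; ring
  rw [e, e, neg_mul_neg, mul_comm (det3 (a p.1) (a p.2) w)]

/-- The number of crossing pairs of stars. -/
noncomputable def TT {m n : ℕ} (a : Fin m → V3) (b : Fin n → V3) : ℕ :=
  ∑ p ∈ prs n, crP a (b p.1) (b p.2)

theorem sides_mem {B : Type*} {L : List B} {s : B × B} (hs : s ∈ sides L) :
    s.1 ∈ L ∧ s.2 ∈ L := by
  obtain ⟨s1, s2⟩ := s
  have := List.of_mem_zip hs
  exact ⟨this.1, List.mem_rotate.1 this.2⟩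

theorem sides_ne {B : Type*} {L : List B} (hL : L.Nodup) (h2 : 2 ≤ L.length) {s : B × B}
    (hs : s ∈ sides L) : s.1 ≠ s.2 := by
  obtain ⟨i, hi, rfl⟩ := List.getElem_of_mem hs
  have hlen : (sides L).length = L.length := by simp [sides]
  have hi' : i < L.length := hlen ▸ hi
  simp only [sides, List.getElem_zip, List.getElem_rotate]
  intro h
  have h3 := hL.getElem_inj_iff.1 h
  rcases Nat.lt_or_ge (i + 1) L.length with h4 | h4
  · rw [Nat.mod_eq_of_lt h4] at h3; omega
  · have h5 : i + 1 = L.length := by omega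
    rw [h5, Nat.mod_self] at h3; omega

theorem card_prs (m : ℕ) : 2 * (prs m).card + m = m * m := by
  have h := sum_sym (m := m) (fun _ _ => 1) (fun _ _ => rfl)
  simp only [sum_const, card_univ, Fintype.card_fin, smul_eq_mul, mul_one] at h
  omega

theorem sum_len_sub {B : Type*} (Ps : List (List B)) (h : ∀ L ∈ Ps, 3 ≤ L.length) :
    (Ps.map (fun L => L.length)).sum = (Ps.map (fun L => L.length - 2)).sum + 2 * Ps.length := by
  induction Ps with
  | nil => simp
  | cons L Ps ih =>
    have h1 := ih (fun L hL => h L (List.mem_cons_of_mem _ hL))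
    have h2 := h L List.mem_cons_self
    simp only [List.map_cons, List.sum_cons, List.length_cons]
    omega

theorem zar_odd {h m : ℕ} (b : Fin (2 * h + 1) → V3) (Ps : List (List (Fin (2 * h + 1))))
    (hP : ∀ L ∈ Ps, ConvexPoly b L) (hlen : 2 * Ps.length = h * (h + 1))
    (hsum : ∀ f : Fin (2 * h + 1) → Fin (2 * h + 1) → ℕ, (∀ i j, f i j = f j i) →
      (Ps.map (fun L => ((sides L).map (fun s => f s.1 s.2)).sum)).sum =
        ∑ p ∈ prs (2 * h + 1), f p.1 p.2)
    (a : Fin m → V3)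
    (h1 : ∀ i j, i ≠ j → ∀ x, det3 (b i) (b j) (a x) ≠ 0)
    (h2 : ∀ x y, x ≠ y → ∀ i, det3 (a x) (a y) (b i) ≠ 0) :
    dz m * dz (2 * h + 1) ≤ TT a b := by
  have e1 := hsum (fun i j => crP a (b i) (b j)) (fun i j => crP_symm _ _ _)
  have e2 := hsum (fun _ _ => 1) (fun _ _ => rfl)
  unfold TT
  rw [← e1]
  have e3 : (Ps.map (fun L => (L.length - 2) * dz m)).sum ≤
      (Ps.map (fun L => ((sides L).map (fun s => crP a (b s.1) (b s.2))).sum)).sum := by
    apply List.sum_le_sum
    intro L hL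
    have hC := hP L hL
    apply polygon_lemma a b L hC
    · intro s hs x
      exact h1 _ _ (sides_ne hC.1 (by have := hC.2.1; omega) hs) x
    · intro x y hxy z _
      exact h2 x y hxy z
  refine le_trans ?_ e3
  rw [List.sum_map_mul_right]
  have e4 : (Ps.map (fun L => ((sides L).map (fun _ => 1)).sum)).sum =
      (Ps.map (fun L => L.length)).sum := by
    congr 1
    apply List.map_congr_left
    intro L _
    simp [sides]
  have e5 := sum_len_sub Ps (fun L hL => (hP L hL).2.1)
  have e6 := card_prs (2 * h + 1)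
  simp only [Finset.sum_const, smul_eq_mul, mul_one] at e2
  rw [e4, e5] at e2
  have e7 : (Ps.map (fun L => L.length - 2)).sum = h * h := by
    generalize (Ps.map (fun L => L.length - 2)).sum = s at *
    generalize (prs (2 * h + 1)).card = c at *
    generalize Ps.length = l at *
    linarith only [e6, hlen, e2]
  rw [e7]
  unfold dz
  have e8 : (2 * h + 1) / 2 = h := by omega
  have e9 : (2 * h + 1 - 1) / 2 = h := by omega
  rw [e8, e9]
  exact le_of_eq (mul_comm _ _)

theorem avg {N : ℕ} (g : Fin (N + 1) → Fin (N + 1) → ℕ) :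
    ∑ j : Fin (N + 1), ∑ p ∈ prs N, g (j.succAbove p.1) (j.succAbove p.2) =
      (N - 1) * ∑ p ∈ prs (N + 1), g p.1 p.2 := by
  classical
  have h1 : ∀ j : Fin (N + 1), ∑ p ∈ prs N, g (j.succAbove p.1) (j.succAbove p.2) =
      ∑ p ∈ prs (N + 1), if (p.1 ≠ j ∧ p.2 ≠ j) then g p.1 p.2 else 0 := by
    intro j
    rw [← Finset.sum_filter]
    apply Finset.sum_bij (fun p _ => (j.succAbove p.1, j.succAbove p.2))
    · intro p hp
      simp only [prs, mem_filter, mem_univ, true_and] at hp ⊢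
      exact ⟨(Fin.succAbove_lt_succAbove_iff).2 hp, Fin.succAbove_ne _ _, Fin.succAbove_ne _ _⟩
    · intro p _ q _ hpq
      simp only [Prod.mk.injEq] at hpq
      exact Prod.ext (Fin.succAbove_right_injective hpq.1) (Fin.succAbove_right_injective hpq.2)
    · intro p hp
      simp only [prs, mem_filter, mem_univ, true_and] at hp
      obtain ⟨hlt, hn1, hn2⟩ := hp
      obtain ⟨x, hx⟩ := Fin.exists_succAbove_eq hn1
      obtain ⟨y, hy⟩ := Fin.exists_succAbove_eq hn2
      refine ⟨(x, y), ?_, ?_⟩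
      · simp only [prs, mem_filter, mem_univ, true_and]
        rw [← hx, ← hy] at hlt
        exact (Fin.succAbove_lt_succAbove_iff).1 hlt
      · exact Prod.ext hx hy
    · intro p _; rfl
  simp only [h1]
  rw [Finset.sum_comm, Finset.mul_sum]
  apply Finset.sum_congr rfl
  intro p hp
  simp only [prs, mem_filter, mem_univ, true_and] at hp
  rw [← Finset.sum_filter, Finset.sum_const, smul_eq_mul]
  congr 1
  have e : (Finset.univ.filter (fun j : Fin (N + 1) => p.1 ≠ j ∧ p.2 ≠ j)) =
      ({p.1, p.2} : Finset (Fin (N + 1)))ᶜ := by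
    ext j
    simp only [mem_filter, mem_univ, true_and, mem_compl, mem_insert, mem_singleton, not_or]
    constructor
    · rintro ⟨a, b⟩; exact ⟨fun h => a h.symm, fun h => b h.symm⟩
    · rintro ⟨a, b⟩; exact ⟨fun h => a h.symm, fun h => b h.symm⟩
  rw [e, Finset.card_compl, Finset.card_pair (ne_of_lt hp), Fintype.card_fin]
  omega

/-- The lift of a planar point. -/
def lift (p : ℝ × ℝ) : V3 := ![p.1, p.2, 1]

/-- Decomposition of the complete geometric graph on `2h+1` points into convex polygons. -/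
def Decomp : Prop := ∀ (h : ℕ) (P : Fin (2 * h + 1) → ℝ × ℝ),
  Function.Injective (fun i => (P i).1) →
  (∀ i j k, i ≠ j → i ≠ k → j ≠ k → det3 (lift (P i)) (lift (P j)) (lift (P k)) ≠ 0) →
  ∃ Ps : List (List (Fin (2 * h + 1))), (∀ L ∈ Ps, ConvexPoly (fun i => lift (P i)) L) ∧
    2 * Ps.length = h * (h + 1) ∧
    ∀ f : Fin (2 * h + 1) → Fin (2 * h + 1) → ℕ, (∀ i j, f i j = f j i) →
      (Ps.map (fun L => ((sides L).map (fun s => f s.1 s.2)).sum)).sum =
        ∑ p ∈ prs (2 * h + 1), f p.1 p.2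

theorem zar_gp (hD : Decomp) {m n : ℕ} (P : Fin n → ℝ × ℝ) (a : Fin m → V3)
    (hx : Function.Injective (fun i => (P i).1))
    (hP : ∀ i j k, i ≠ j → i ≠ k → j ≠ k →
      det3 (lift (P i)) (lift (P j)) (lift (P k)) ≠ 0)
    (h1 : ∀ i j, i ≠ j → ∀ x, det3 (lift (P i)) (lift (P j)) (a x) ≠ 0)
    (h2 : ∀ x y, x ≠ y → ∀ i, det3 (a x) (a y) (lift (P i)) ≠ 0) :
    dz m * dz n ≤ TT a (fun i => lift (P i)) := by
  obtain ⟨h, rfl | rfl⟩ := Nat.even_or_odd' n
  · rcases Nat.eq_zero_or_pos h with rfl | hpos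
    · simp only [dz, mul_zero, Nat.zero_div, zero_tsub, Nat.mul_zero, zero_le]
    · obtain ⟨r, rfl⟩ : ∃ r, h = r + 1 := ⟨h - 1, by omega⟩
      have key : ∀ j : Fin (2 * r + 1 + 1), dz m * dz (2 * r + 1) ≤
          TT a (fun i => lift (P (j.succAbove i))) := by
        intro j
        have hinj : Function.Injective (j.succAbove) := Fin.succAbove_right_injective
        obtain ⟨Ps, p1, p2, p3⟩ := hD r (fun i => P (j.succAbove i))
          (fun x y hxy => hinj (hx hxy))
          (fun x y z hxy hxz hyz => hP _ _ _ (fun h => hxy (hinj h)) (fun h => hxz (hinj h))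
            (fun h => hyz (hinj h)))
        exact zar_odd (fun i => lift (P (j.succAbove i))) Ps p1 p2 p3 a
          (fun x y hxy z => h1 _ _ (fun h => hxy (hinj h)) z) (fun x y hxy i => h2 x y hxy _)
      have hs := Finset.sum_le_sum (fun (j : Fin (2 * r + 1 + 1)) (_ : j ∈ Finset.univ) => key j)
      have e1 := avg (N := 2 * r + 1) (fun i j => crP a (lift (P i)) (lift (P j)))
      have e2 : ∑ j : Fin (2 * r + 1 + 1), TT a (fun i => lift (P (j.succAbove i))) =
          (2 * r + 1 - 1) * TT a (fun i => lift (P i)) := by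
        unfold TT
        exact e1
      rw [e2] at hs
      simp only [Finset.sum_const, Finset.card_univ, Fintype.card_fin, smul_eq_mul] at hs
      have e3 : dz (2 * r + 1) = r * r := by
        unfold dz
        have e8 : (2 * r + 1) / 2 = r := by omega
        have e9 : (2 * r + 1 - 1) / 2 = r := by omega
        rw [e8, e9]
      have e4 : dz (2 * (r + 1)) = (r + 1) * r := by
        unfold dz
        have e8 : (2 * (r + 1)) / 2 = r + 1 := by omega
        have e9 : (2 * (r + 1) - 1) / 2 = r := by omega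
        rw [e8, e9]
      rw [e3, Nat.add_sub_cancel] at hs
      rw [e4]
      rcases Nat.eq_zero_or_pos r with hr | hr
      · simp [hr]
      · have h5 : (2 * r) * (dz m * ((r + 1) * r)) ≤ (2 * r) * TT a (fun i => lift (P i)) := by
          calc (2 * r) * (dz m * ((r + 1) * r)) = (2 * r + 1 + 1) * (dz m * (r * r)) := by ring
            _ ≤ _ := hs
        exact Nat.le_of_mul_le_mul_left h5 (by omega)
  · obtain ⟨Ps, p1, p2, p3⟩ := hD h P hx hP
    exact zar_odd (fun i => lift (P i)) Ps p1 p2 p3 a h1 h2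

end Vale.Agent.P040.Zar.Asm
end
end
end

section

section

section

/-!
# Sweeps (circular sequences of orders) and the token process
-/

namespace Vale.Agent.P040.Zar

/-- A circular sequence of total orders in which consecutive orders differ by one flip. -/
structure Sweep (B : Type*) where
  /-- half period -/
  H : ℕ
  /-- the order at time `t` -/
  lt : ℕ → B → B → Prop
  /-- the first element of the pair flipped between times `t` and `t+1` -/
  e1 : ℕ → B
  /-- the second element of the pair flipped between times `t` and `t+1` -/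
  e2 : ℕ → B
  irrefl : ∀ t u, ¬ lt t u u
  trans : ∀ t u v w, lt t u v → lt t v w → lt t u w
  total : ∀ t u v, u ≠ v → lt t u v ∨ lt t v u
  before : ∀ t, lt t (e1 t) (e2 t)
  after : ∀ t, lt (t + 1) (e2 t) (e1 t)
  same : ∀ t u v, ¬ (u = e1 t ∧ v = e2 t) → ¬ (u = e2 t ∧ v = e1 t) → (lt (t + 1) u v ↔ lt t u v)
  anti : ∀ t u v, lt (t + H) u v ↔ lt t v u
  window : ∀ s t, s < t → t ≤ s + H → lt t (e2 s) (e1 s)

namespace Sweep

variable {B : Type*} (S : Sweep B)

theorem asymm {t : ℕ} {u v : B} (h : S.lt t u v) : ¬ S.lt t v u :=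
  fun h' => S.irrefl t u (S.trans t u v u h h')

theorem ne_of_lt {t : ℕ} {u v : B} (h : S.lt t u v) : u ≠ v := by
  rintro rfl; exact S.irrefl t u h

theorem e_ne (t : ℕ) : S.e1 t ≠ S.e2 t := S.ne_of_lt (S.before t)

theorem window' {s t : ℕ} (h1 : t ≤ s) (h2 : s < t + S.H) : S.lt t (S.e1 s) (S.e2 s) := by
  have := S.window s (t + S.H) h2 (by omega)
  exact (S.anti t _ _).1 this

/-- an element different from both flipped elements is before the first iff before the second -/
theorem adj_before {t : ℕ} {z : B} (h1 : z ≠ S.e1 t) (h2 : z ≠ S.e2 t) :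
    S.lt t z (S.e1 t) ↔ S.lt t z (S.e2 t) := by
  constructor
  · intro h; exact S.trans _ _ _ _ h (S.before t)
  · intro h
    rcases S.total t z (S.e1 t) h1 with h' | h'
    · exact h'
    · exfalso
      have a1 : S.lt (t + 1) (S.e1 t) z := by
        rw [S.same]
        · exact h'
        · rintro ⟨_, rfl⟩; exact h2 rfl
        · rintro ⟨_, rfl⟩; exact h1 rfl
      have a2 : S.lt (t + 1) z (S.e2 t) := by
        rw [S.same]
        · exact h
        · rintro ⟨rfl, _⟩; exact h1 rfl
        · rintro ⟨rfl, _⟩; exact h2 rfl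
      exact S.asymm (S.trans _ _ _ _ a1 a2) (S.after t)

theorem adj_after {t : ℕ} {z : B} (h1 : z ≠ S.e1 t) (h2 : z ≠ S.e2 t) :
    S.lt t (S.e1 t) z ↔ S.lt t (S.e2 t) z := by
  constructor
  · intro h
    rcases S.total t z (S.e2 t) h2 with h' | h'
    · exact absurd ((S.adj_before h1 h2).2 h') (S.asymm h)
    · exact h'
  · intro h; exact S.trans _ _ _ _ (S.before t) h

theorem same_left {t : ℕ} {u z : B} (h1 : z ≠ S.e1 t) (h2 : z ≠ S.e2 t) :
    S.lt (t + 1) u z ↔ S.lt t u z := by
  apply S.same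
  · rintro ⟨_, rfl⟩; exact h2 rfl
  · rintro ⟨_, rfl⟩; exact h1 rfl

theorem same_right {t : ℕ} {u z : B} (h1 : z ≠ S.e1 t) (h2 : z ≠ S.e2 t) :
    S.lt (t + 1) z u ↔ S.lt t z u := by
  apply S.same
  · rintro ⟨rfl, _⟩; exact h1 rfl
  · rintro ⟨rfl, _⟩; exact h2 rfl

/-- the pair flipped at time `t + H` is the pair flipped at time `t`, in the opposite order -/
theorem e_anti (t : ℕ) : S.e1 (t + S.H) = S.e2 t ∧ S.e2 (t + S.H) = S.e1 t := by
  have h1 : S.lt t (S.e2 (t + S.H)) (S.e1 (t + S.H)) := (S.anti t _ _).1 (S.before (t + S.H))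
  have h2 : S.lt (t + 1) (S.e1 (t + S.H)) (S.e2 (t + S.H)) := by
    have := S.after (t + S.H)
    rw [show t + S.H + 1 = t + 1 + S.H by ring] at this
    exact (S.anti (t + 1) _ _).1 this
  by_contra hcon
  have h3 : S.lt (t + 1) (S.e2 (t + S.H)) (S.e1 (t + S.H)) := by
    rw [S.same]
    · exact h1
    · rintro ⟨a, b⟩; exact hcon ⟨b, a⟩
    · rintro ⟨a, b⟩
      rw [a, b] at h1
      exact S.asymm h1 (S.before t)
  exact S.asymm h2 h3

variable [Fintype B] (blue : B → Prop)

open Classical in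
/-- number of blue elements before `z` -/
noncomputable def bl (t : ℕ) (z : B) : ℕ :=
  (Finset.univ.filter (fun y => blue y ∧ S.lt t y z)).card

/-- number of red elements before `z` -/
noncomputable def rd (t : ℕ) (z : B) : ℕ := S.bl (fun y => ¬ blue y) t z

theorem rd_eq_bl (t : ℕ) (z : B) : S.rd blue t z = S.bl (fun y => ¬ blue y) t z := rfl

open Classical in
/-- number of blue elements -/
noncomputable def cnt {B : Type*} [Fintype B] (blue : B → Prop) : ℕ :=
  (Finset.univ.filter blue).card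

variable {blue}

theorem bl_same {t : ℕ} {z : B} (h1 : z ≠ S.e1 t) (h2 : z ≠ S.e2 t) :
    S.bl blue (t + 1) z = S.bl blue t z := by
  unfold bl
  congr 1
  ext y
  simp only [Finset.mem_filter, Finset.mem_univ, true_and]
  rw [S.same_left h1 h2]

theorem rd_same {t : ℕ} {z : B} (h1 : z ≠ S.e1 t) (h2 : z ≠ S.e2 t) :
    S.rd blue (t + 1) z = S.rd blue t z := by
  rw [rd_eq_bl, rd_eq_bl, S.bl_same h1 h2]

theorem bl_mono {t : ℕ} {u v : B} (h : S.lt t u v) : S.bl blue t u ≤ S.bl blue t v := by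
  unfold bl
  apply Finset.card_le_card
  intro y
  simp only [Finset.mem_filter, Finset.mem_univ, true_and]
  rintro ⟨a, b⟩
  exact ⟨a, S.trans _ _ _ _ b h⟩

theorem bl_strict {t : ℕ} {u v : B} (h : S.lt t u v) (hu : blue u) :
    S.bl blue t u < S.bl blue t v := by
  unfold bl
  apply Finset.card_lt_card
  rw [Finset.ssubset_iff_of_subset]
  · refine ⟨u, ?_, ?_⟩
    · simp only [Finset.mem_filter, Finset.mem_univ, hu, h, and_self]
    · simp only [Finset.mem_filter, Finset.mem_univ, S.irrefl, and_false, not_false_eq_true]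
  · intro y
    simp only [Finset.mem_filter, Finset.mem_univ, true_and]
    rintro ⟨a, b⟩
    exact ⟨a, S.trans _ _ _ _ b h⟩

theorem rd_mono {t : ℕ} {u v : B} (h : S.lt t u v) : S.rd blue t u ≤ S.rd blue t v :=
  S.bl_mono (blue := fun y => ¬ blue y) h

theorem rd_strict {t : ℕ} {u v : B} (h : S.lt t u v) (hu : ¬ blue u) :
    S.rd blue t u < S.rd blue t v :=
  S.bl_strict (blue := fun y => ¬ blue y) h hu

/-- the number of blue elements before the second flipped element, first one blue -/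
theorem bl_e2_blue {t : ℕ} (h : blue (S.e1 t)) :
    S.bl blue t (S.e2 t) = S.bl blue t (S.e1 t) + 1 := by
  classical
  unfold bl
  rw [← Finset.card_insert_of_notMem (a := S.e1 t)
    (s := Finset.univ.filter (fun y => blue y ∧ S.lt t y (S.e1 t)))]
  · congr 1
    ext y
    simp only [Finset.mem_filter, Finset.mem_univ, true_and, Finset.mem_insert]
    by_cases hy : y = S.e1 t
    · subst hy; simp [h, S.before]
    · by_cases hy2 : y = S.e2 t
      · subst hy2
        simp only [S.irrefl, and_false, hy, false_or, false_iff, not_and]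
        intro _
        exact S.asymm (S.before t)
      · rw [S.adj_before hy hy2]; simp [hy]
  · simp only [Finset.mem_filter, Finset.mem_univ, S.irrefl, and_false, not_false_eq_true]

theorem bl_e2_red {t : ℕ} (h : ¬ blue (S.e1 t)) :
    S.bl blue t (S.e2 t) = S.bl blue t (S.e1 t) := by
  classical
  unfold bl
  congr 1
  ext y
  simp only [Finset.mem_filter, Finset.mem_univ, true_and]
  by_cases hy : y = S.e1 t
  · subst hy; simp [h]
  · by_cases hy2 : y = S.e2 t
    · subst hy2
      simp only [S.irrefl, and_false, false_iff, not_and]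
      intro _
      exact S.asymm (S.before t)
    · rw [S.adj_before hy hy2]

theorem bl_succ_e2 {t : ℕ} : S.bl blue (t + 1) (S.e2 t) = S.bl blue t (S.e1 t) := by
  classical
  unfold bl
  congr 1
  ext y
  simp only [Finset.mem_filter, Finset.mem_univ, true_and]
  by_cases hy : y = S.e1 t
  · subst hy
    have := S.asymm (S.after t)
    simp [this, S.irrefl]
  · by_cases hy2 : y = S.e2 t
    · subst hy2
      have := S.asymm (S.before t)
      simp [this, S.irrefl]
    · rw [S.same_right hy hy2, S.adj_before hy hy2]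

theorem bl_succ_e1_blue {t : ℕ} (h : blue (S.e2 t)) :
    S.bl blue (t + 1) (S.e1 t) = S.bl blue t (S.e1 t) + 1 := by
  classical
  unfold bl
  rw [← Finset.card_insert_of_notMem (a := S.e2 t)
    (s := Finset.univ.filter (fun y => blue y ∧ S.lt t y (S.e1 t)))]
  · congr 1
    ext y
    simp only [Finset.mem_filter, Finset.mem_univ, true_and, Finset.mem_insert]
    by_cases hy : y = S.e2 t
    · subst hy; simp [h, S.after]
    · by_cases hy2 : y = S.e1 t
      · subst hy2
        simp [S.irrefl, S.e_ne]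
      · rw [S.same_right hy2 hy]; simp [hy]
  · have := S.asymm (S.before t)
    simp only [Finset.mem_filter, Finset.mem_univ, this, and_false, not_false_eq_true]

theorem bl_succ_e1_red {t : ℕ} (h : ¬ blue (S.e2 t)) :
    S.bl blue (t + 1) (S.e1 t) = S.bl blue t (S.e1 t) := by
  classical
  unfold bl
  congr 1
  ext y
  simp only [Finset.mem_filter, Finset.mem_univ, true_and]
  by_cases hy : y = S.e2 t
  · subst hy; simp [h]
  · by_cases hy2 : y = S.e1 t
    · subst hy2
      simp [S.irrefl]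
    · rw [S.same_right hy2 hy]

theorem rd_e2_red {t : ℕ} (h : ¬ blue (S.e1 t)) :
    S.rd blue t (S.e2 t) = S.rd blue t (S.e1 t) + 1 :=
  S.bl_e2_blue (blue := fun y => ¬ blue y) h

theorem rd_e2_blue {t : ℕ} (h : blue (S.e1 t)) :
    S.rd blue t (S.e2 t) = S.rd blue t (S.e1 t) :=
  S.bl_e2_red (blue := fun y => ¬ blue y) (not_not.2 h)

theorem rd_succ_e2 {t : ℕ} : S.rd blue (t + 1) (S.e2 t) = S.rd blue t (S.e1 t) :=
  S.bl_succ_e2 (blue := fun y => ¬ blue y)

theorem rd_succ_e1_red {t : ℕ} (h : ¬ blue (S.e2 t)) :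
    S.rd blue (t + 1) (S.e1 t) = S.rd blue t (S.e1 t) + 1 :=
  S.bl_succ_e1_blue (blue := fun y => ¬ blue y) h

theorem rd_succ_e1_blue {t : ℕ} (h : blue (S.e2 t)) :
    S.rd blue (t + 1) (S.e1 t) = S.rd blue t (S.e1 t) :=
  S.bl_succ_e1_red (blue := fun y => ¬ blue y) (not_not.2 h)

/-- counting from both ends -/
theorem bl_anti_blue {t : ℕ} {z : B} (hz : blue z) :
    S.bl blue (t + S.H) z + S.bl blue t z + 1 = cnt blue := by
  classical
  have h1 : (Finset.univ.filter blue) =
      insert z ((Finset.univ.filter (fun y => blue y ∧ S.lt (t + S.H) y z)) ∪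
        (Finset.univ.filter (fun y => blue y ∧ S.lt t y z))) := by
    ext y
    simp only [Finset.mem_filter, Finset.mem_univ, true_and, Finset.mem_insert, Finset.mem_union]
    constructor
    · intro hy
      by_cases hyz : y = z
      · exact Or.inl hyz
      · rcases S.total t y z hyz with h | h
        · exact Or.inr (Or.inr ⟨hy, h⟩)
        · exact Or.inr (Or.inl ⟨hy, (S.anti t _ _).2 h⟩)
    · rintro (rfl | ⟨h, _⟩ | ⟨h, _⟩)
      · exact hz
      · exact h
      · exact h
  have h2 : z ∉ ((Finset.univ.filter (fun y => blue y ∧ S.lt (t + S.H) y z)) ∪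
        (Finset.univ.filter (fun y => blue y ∧ S.lt t y z))) := by
    simp only [Finset.mem_union, Finset.mem_filter, Finset.mem_univ, S.irrefl, and_false, or_self, not_false_eq_true]
  have h3 : Disjoint (Finset.univ.filter (fun y => blue y ∧ S.lt (t + S.H) y z))
        (Finset.univ.filter (fun y => blue y ∧ S.lt t y z)) := by
    rw [Finset.disjoint_left]
    intro y
    simp only [Finset.mem_filter, Finset.mem_univ, true_and]
    rintro ⟨_, a⟩ ⟨_, b⟩
    exact S.asymm b ((S.anti t _ _).1 a)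
  have h4 := congrArg Finset.card h1
  rw [Finset.card_insert_of_notMem h2, Finset.card_union_of_disjoint h3] at h4
  unfold bl cnt
  convert h4.symm using 2

omit [Fintype B] in
theorem exists_rank_aux (t : ℕ) (s : Finset B) : ∀ r < s.card, ∃ z ∈ s, by
    classical exact (s.filter (fun y => S.lt t y z)).card = r := by
  classical
  induction hn : s.card using Nat.strong_induction_on generalizing s with
  | _ n ih =>
    intro r hr
    -- the maximal element
    have hne : s.Nonempty := by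
      rw [← Finset.card_pos]; omega
    have hmax : ∃ m ∈ s, ∀ y ∈ s, y ≠ m → S.lt t y m := by
      clear ih hn hr
      induction hne using Finset.Nonempty.cons_induction with
      | singleton a => exact ⟨a, by simp, by simp⟩
      | cons a s ha hs ih =>
        obtain ⟨m, hm, hmax⟩ := ih
        have hma : m ≠ a := by rintro rfl; exact ha hm
        rcases S.total t m a hma with h | h
        · refine ⟨a, by simp, ?_⟩
          intro y hy hya
          rw [Finset.mem_cons] at hy
          rcases hy with hy | hy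
          · exact absurd hy hya
          · by_cases hym : y = m
            · rw [hym]; exact h
            · exact S.trans _ _ _ _ (hmax y hy hym) h
        · refine ⟨m, by simp [hm], ?_⟩
          intro y hy hym
          rw [Finset.mem_cons] at hy
          rcases hy with hy | hy
          · rw [hy]; exact h
          · exact hmax y hy hym
    obtain ⟨m, hm, hmax⟩ := hmax
    by_cases hrn : r = n - 1
    · refine ⟨m, hm, ?_⟩
      have : s.filter (fun y => S.lt t y m) = s.erase m := by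
        ext y
        simp only [Finset.mem_filter, Finset.mem_erase]
        constructor
        · rintro ⟨a, b⟩; exact ⟨S.ne_of_lt b, a⟩
        · rintro ⟨a, b⟩; exact ⟨b, hmax y b a⟩
      rw [this, Finset.card_erase_of_mem hm, hn, hrn]
    · have hc : (s.erase m).card = n - 1 := by rw [Finset.card_erase_of_mem hm, hn]
      obtain ⟨z, hz, hz2⟩ := ih (n - 1) (by omega) (s.erase m) hc r (by omega)
      refine ⟨z, Finset.mem_of_mem_erase hz, ?_⟩
      rw [← hz2]
      congr 1
      ext y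
      simp only [Finset.mem_filter, Finset.mem_erase]
      constructor
      · rintro ⟨a, b⟩
        refine ⟨⟨?_, a⟩, b⟩
        rintro rfl
        have hzm : z ≠ y := (Finset.mem_erase.1 hz).1
        exact S.asymm b (hmax z (Finset.mem_of_mem_erase hz) hzm)
      · rintro ⟨⟨_, a⟩, b⟩; exact ⟨a, b⟩

theorem exists_bl (t : ℕ) {r : ℕ} (hr : r < cnt blue) :
    ∃ z, blue z ∧ S.bl blue t z = r := by
  classical
  obtain ⟨z, hz, hz2⟩ := S.exists_rank_aux t (Finset.univ.filter blue) r
    (by unfold cnt at hr; convert hr)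
  refine ⟨z, by simpa only [Finset.mem_filter, Finset.mem_univ, true_and] using hz, ?_⟩
  rw [← hz2]
  unfold bl
  congr 1
  ext y
  simp only [Finset.mem_filter, Finset.mem_univ, true_and]

theorem exists_rd (t : ℕ) {r : ℕ} (hr : r < cnt (fun y => ¬ blue y)) :
    ∃ z, ¬ blue z ∧ S.rd blue t z = r :=
  S.exists_bl (blue := fun y => ¬ blue y) t hr

theorem rd_anti_red {t : ℕ} {z : B} (hz : ¬ blue z) :
    S.rd blue (t + S.H) z + S.rd blue t z + 1 = cnt (fun y => ¬ blue y) :=
  S.bl_anti_blue (blue := fun y => ¬ blue y) hz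

theorem bl_inj {t : ℕ} {u v : B} (hu : blue u) (hv : blue v) (h : S.bl blue t u = S.bl blue t v) :
    u = v := by
  by_contra hne
  rcases S.total t u v hne with h' | h'
  · have := S.bl_strict (blue := blue) h' hu; omega
  · have := S.bl_strict (blue := blue) h' hv; omega

theorem rd_inj {t : ℕ} {u v : B} (hu : ¬ blue u) (hv : ¬ blue v)
    (h : S.rd blue t u = S.rd blue t v) : u = v :=
  S.bl_inj (blue := fun y => ¬ blue y) hu hv h

theorem lt_of_bl_lt {t : ℕ} {u v : B} (h : S.bl blue t u < S.bl blue t v) : S.lt t u v := by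
  by_cases hne : u = v
  · subst hne; omega
  rcases S.total t u v hne with h' | h'
  · exact h'
  · have := S.bl_mono (blue := blue) h'; omega

theorem lt_of_rd_lt {t : ℕ} {u v : B} (h : S.rd blue t u < S.rd blue t v) : S.lt t u v :=
  S.lt_of_bl_lt (blue := fun y => ¬ blue y) h

end Sweep

end Vale.Agent.P040.Zar
end
end
end

section

section

section

/-!
# The token process on a sweep
-/

namespace Vale.Agent.P040.Zar

namespace Sweep

variable {B : Type*} (S : Sweep B) [Fintype B] (blue : B → Prop)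

/-- the set of alive tokens -/
def M (t : ℕ) (P : B × B) : Prop :=
  blue P.1 ∧ ¬ blue P.2 ∧ S.lt t P.1 P.2 ∧ S.rd blue t P.2 ≤ S.bl blue t P.1

/-- low flips -/
def Low (t : ℕ) : Prop :=
  (blue (S.e1 t) ∧ blue (S.e2 t) ∧ S.rd blue t (S.e1 t) ≤ S.bl blue t (S.e1 t) + 1) ∨
  (¬ blue (S.e1 t) ∧ ¬ blue (S.e2 t) ∧ S.rd blue t (S.e1 t) + 1 ≤ S.bl blue t (S.e1 t)) ∨
  ((¬ blue (S.e1 t) ∧ blue (S.e2 t) ∨ blue (S.e1 t) ∧ ¬ blue (S.e2 t)) ∧
    S.rd blue t (S.e1 t) ≤ S.bl blue t (S.e1 t))

variable {blue}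

theorem low_BB {t : ℕ} (h1 : blue (S.e1 t)) (h2 : blue (S.e2 t)) :
    S.Low blue t ↔ S.rd blue t (S.e1 t) ≤ S.bl blue t (S.e1 t) + 1 := by
  simp only [Low, h1, h2, true_and, not_true_eq_false, Order.add_one_le_iff, false_and, and_self, and_true, and_false, or_self, or_false]

theorem low_RR {t : ℕ} (h1 : ¬ blue (S.e1 t)) (h2 : ¬ blue (S.e2 t)) :
    S.Low blue t ↔ S.rd blue t (S.e1 t) + 1 ≤ S.bl blue t (S.e1 t) := by
  simp [Low, h1, h2]

theorem low_RB {t : ℕ} (h1 : ¬ blue (S.e1 t)) (h2 : blue (S.e2 t)) :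
    S.Low blue t ↔ S.rd blue t (S.e1 t) ≤ S.bl blue t (S.e1 t) := by
  simp only [Low, h1, h2, true_and, false_and, not_false_eq_true, not_true_eq_false, Order.add_one_le_iff, and_false, and_self, or_false, false_or]

theorem low_BR {t : ℕ} (h1 : blue (S.e1 t)) (h2 : ¬ blue (S.e2 t)) :
    S.Low blue t ↔ S.rd blue t (S.e1 t) ≤ S.bl blue t (S.e1 t) := by
  simp [Low, h1, h2]

theorem bl_lt_cnt {t : ℕ} {z : B} (hz : blue z) : S.bl blue t z < cnt blue := by
  have := S.bl_anti_blue (t := t) hz; omega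

theorem rd_lt_cnt {t : ℕ} {z : B} (hz : ¬ blue z) : S.rd blue t z < cnt (fun y => ¬ blue y) := by
  have := S.rd_anti_red (t := t) hz; omega

theorem M_same {t : ℕ} {P : B × B} (h1 : P.1 ≠ S.e1 t) (h2 : P.1 ≠ S.e2 t)
    (h3 : P.2 ≠ S.e1 t) (h4 : P.2 ≠ S.e2 t) : S.M blue (t + 1) P ↔ S.M blue t P := by
  unfold M
  rw [S.same_left h3 h4, S.bl_same h1 h2, S.rd_same h3 h4]

/-- births -/
theorem M_RB {t : ℕ} (h1 : ¬ blue (S.e1 t)) (h2 : blue (S.e2 t)) :
    (¬ S.M blue t (S.e2 t, S.e1 t)) ∧ (S.M blue (t + 1) (S.e2 t, S.e1 t) ↔ S.Low blue t) ∧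
    ∀ P, P ≠ (S.e2 t, S.e1 t) → (S.M blue (t + 1) P ↔ S.M blue t P) := by
  refine ⟨?_, ?_, ?_⟩
  · rintro ⟨_, _, h, _⟩
    exact S.asymm h (S.before t)
  · rw [S.low_RB h1 h2]
    unfold M
    simp only [h1, h2, not_false_eq_true, true_and, S.after, S.rd_succ_e1_blue h2, S.bl_succ_e2]
  · rintro ⟨y, x⟩ hP
    unfold M
    simp only
    by_cases hy : blue y
    swap; · simp [hy]
    by_cases hx : blue x
    · simp [hx]
    have hxe2 : x ≠ S.e2 t := by rintro rfl; exact hx h2
    have hye1 : y ≠ S.e1 t := by rintro rfl; exact h1 hy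
    have hlt : S.lt (t + 1) y x ↔ S.lt t y x := by
      apply S.same
      · rintro ⟨a, _⟩; exact hye1 a
      · rintro ⟨rfl, rfl⟩; exact hP rfl
    have hb : S.bl blue (t + 1) y = S.bl blue t y := by
      by_cases hye2 : y = S.e2 t
      · rw [hye2, S.bl_succ_e2, S.bl_e2_red h1]
      · exact S.bl_same hye1 hye2
    have hr : S.rd blue (t + 1) x = S.rd blue t x := by
      by_cases hxe1 : x = S.e1 t
      · rw [hxe1, S.rd_succ_e1_blue h2]
      · exact S.rd_same hxe1 hxe2
    rw [hlt, hb, hr]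

/-- deaths -/
theorem M_BR {t : ℕ} (h1 : blue (S.e1 t)) (h2 : ¬ blue (S.e2 t)) :
    (¬ S.M blue (t + 1) (S.e1 t, S.e2 t)) ∧ (S.M blue t (S.e1 t, S.e2 t) ↔ S.Low blue t) ∧
    ∀ P, P ≠ (S.e1 t, S.e2 t) → (S.M blue (t + 1) P ↔ S.M blue t P) := by
  refine ⟨?_, ?_, ?_⟩
  · rintro ⟨_, _, h, _⟩
    exact S.asymm h (S.after t)
  · rw [S.low_BR h1 h2]
    unfold M
    simp only [h1, h2, not_false_eq_true, true_and, S.before, S.rd_e2_blue h1]
  · rintro ⟨y, x⟩ hP
    unfold M
    simp only
    by_cases hy : blue y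
    swap; · simp [hy]
    by_cases hx : blue x
    · simp [hx]
    have hxe1 : x ≠ S.e1 t := by rintro rfl; exact hx h1
    have hye2 : y ≠ S.e2 t := by rintro rfl; exact h2 hy
    have hlt : S.lt (t + 1) y x ↔ S.lt t y x := by
      apply S.same
      · rintro ⟨rfl, rfl⟩; exact hP rfl
      · rintro ⟨a, _⟩; exact hye2 a
    have hb : S.bl blue (t + 1) y = S.bl blue t y := by
      by_cases hye1 : y = S.e1 t
      · rw [hye1, S.bl_succ_e1_red h2]
      · exact S.bl_same hye1 hye2
    have hr : S.rd blue (t + 1) x = S.rd blue t x := by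
      by_cases hxe2 : x = S.e2 t
      · rw [hxe2, S.rd_succ_e2, S.rd_e2_blue h1]
      · exact S.rd_same hxe1 hxe2
    rw [hlt, hb, hr]

/-- blue-blue flips that are low -/
theorem M_BB_low {t : ℕ} (hcnt : cnt blue ≤ cnt (fun y => ¬ blue y))
    (h1 : blue (S.e1 t)) (h2 : blue (S.e2 t)) (hl : S.Low blue t) :
    ∃ x, ¬ blue x ∧ S.rd blue t x = S.bl blue t (S.e1 t) + 1 ∧
      S.M blue t (S.e2 t, x) ∧ ¬ S.M blue t (S.e1 t, x) ∧
      S.M blue (t + 1) (S.e1 t, x) ∧ ¬ S.M blue (t + 1) (S.e2 t, x) ∧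
      ∀ P, P ≠ (S.e1 t, x) → P ≠ (S.e2 t, x) → (S.M blue (t + 1) P ↔ S.M blue t P) := by
  have hk : S.bl blue t (S.e2 t) = S.bl blue t (S.e1 t) + 1 := S.bl_e2_blue h1
  have hlt : S.bl blue t (S.e1 t) + 1 < cnt (fun y => ¬ blue y) := by
    rw [← hk]; exact lt_of_lt_of_le (S.bl_lt_cnt h2) hcnt
  obtain ⟨x, hx, hxr⟩ := S.exists_rd t hlt
  rw [S.low_BB h1 h2] at hl
  have hxe1 : x ≠ S.e1 t := by rintro rfl; exact hx h1
  have hxe2 : x ≠ S.e2 t := by rintro rfl; exact hx h2
  have hx1 : S.lt t (S.e1 t) x := by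
    rcases S.total t (S.e1 t) x (Ne.symm hxe1) with h | h
    · exact h
    · have := S.rd_strict (blue := blue) h hx; omega
  have hx2 : S.lt t (S.e2 t) x := (S.adj_after hxe1 hxe2).1 hx1
  have hr : S.rd blue (t + 1) x = S.rd blue t x := S.rd_same hxe1 hxe2
  have hb1 : S.bl blue (t + 1) (S.e1 t) = S.bl blue t (S.e1 t) + 1 := S.bl_succ_e1_blue h2
  have hb2 : S.bl blue (t + 1) (S.e2 t) = S.bl blue t (S.e1 t) := S.bl_succ_e2
  refine ⟨x, hx, hxr, ⟨h2, hx, hx2, by simp only; omega⟩, ?_, ⟨h1, hx, ?_, ?_⟩, ?_, ?_⟩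
  · rintro ⟨_, _, _, h⟩; simp only at h; omega
  · simp only; rw [S.same_left hxe1 hxe2]; exact hx1
  · simp only; rw [hr, hb1, hxr]
  · rintro ⟨_, _, _, h⟩; simp only at h; omega
  · rintro ⟨y, x'⟩ hP1 hP2
    by_cases hx' : blue x'
    · simp [M, hx']
    have hx'1 : x' ≠ S.e1 t := by rintro rfl; exact hx' h1
    have hx'2 : x' ≠ S.e2 t := by rintro rfl; exact hx' h2
    have hr' : S.rd blue (t + 1) x' = S.rd blue t x' := S.rd_same hx'1 hx'2
    have hlt' : ∀ y, S.lt (t + 1) y x' ↔ S.lt t y x' := fun y => S.same_left hx'1 hx'2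
    by_cases hy1 : y = S.e1 t
    · have hne : x' ≠ x := by rintro rfl; exact hP1 (by rw [hy1])
      have hrne : S.rd blue t x' ≠ S.bl blue t (S.e1 t) + 1 := by
        intro h; exact hne (S.rd_inj hx' hx (by rw [h, hxr]))
      subst hy1
      unfold M
      simp only [hlt', hr', hb1]
      constructor
      · rintro ⟨a, b, c, d⟩; exact ⟨a, b, c, by (clear * - hk hxr hr hb1 hb2 hrne d; omega)⟩
      · rintro ⟨a, b, c, d⟩; exact ⟨a, b, c, by omega⟩
    · by_cases hy2 : y = S.e2 t
      · have hne : x' ≠ x := by rintro rfl; exact hP2 (by rw [hy2])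
        have hrne : S.rd blue t x' ≠ S.bl blue t (S.e1 t) + 1 := by
          intro h; exact hne (S.rd_inj hx' hx (by rw [h, hxr]))
        subst hy2
        unfold M
        simp only [hlt', hr', hb2, hk]
        constructor
        · rintro ⟨a, b, c, d⟩; exact ⟨a, b, c, by omega⟩
        · rintro ⟨a, b, c, d⟩; exact ⟨a, b, c, by omega⟩
      · exact S.M_same hy1 hy2 hx'1 hx'2

theorem M_BB_high {t : ℕ} (h1 : blue (S.e1 t)) (h2 : blue (S.e2 t)) (hl : ¬ S.Low blue t) :
    ∀ P, (S.M blue (t + 1) P ↔ S.M blue t P) := by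
  have hk : S.bl blue t (S.e2 t) = S.bl blue t (S.e1 t) + 1 := S.bl_e2_blue h1
  rw [S.low_BB h1 h2] at hl
  have hb1 : S.bl blue (t + 1) (S.e1 t) = S.bl blue t (S.e1 t) + 1 := S.bl_succ_e1_blue h2
  have hb2 : S.bl blue (t + 1) (S.e2 t) = S.bl blue t (S.e1 t) := S.bl_succ_e2
  rintro ⟨y, x'⟩
  by_cases hx' : blue x'
  · simp [M, hx']
  have hx'1 : x' ≠ S.e1 t := by rintro rfl; exact hx' h1
  have hx'2 : x' ≠ S.e2 t := by rintro rfl; exact hx' h2
  have hr' : S.rd blue (t + 1) x' = S.rd blue t x' := S.rd_same hx'1 hx'2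
  have hlt' : ∀ y, S.lt (t + 1) y x' ↔ S.lt t y x' := fun y => S.same_left hx'1 hx'2
  have key : S.lt t (S.e1 t) x' → S.bl blue t (S.e1 t) + 1 < S.rd blue t x' := by
    intro h
    have := S.rd_mono (blue := blue) h
    omega
  have key2 : S.lt t (S.e2 t) x' → S.bl blue t (S.e1 t) + 1 < S.rd blue t x' := by
    intro h
    exact key ((S.adj_after hx'1 hx'2).2 h)
  by_cases hy1 : y = S.e1 t
  · subst hy1
    unfold M
    simp only [hlt', hr', hb1]
    constructor
    · rintro ⟨a, b, c, d⟩; have := key c; omega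
    · rintro ⟨a, b, c, d⟩; have := key c; omega
  · by_cases hy2 : y = S.e2 t
    · subst hy2
      unfold M
      simp only [hlt', hr', hb2, hk]
      constructor
      · rintro ⟨a, b, c, d⟩; have := key2 c; omega
      · rintro ⟨a, b, c, d⟩; have := key2 c; omega
    · exact S.M_same hy1 hy2 hx'1 hx'2

/-- red-red flips that are low -/
theorem M_RR_low {t : ℕ} (h1 : ¬ blue (S.e1 t)) (h2 : ¬ blue (S.e2 t)) (hl : S.Low blue t) :
    ∃ y, blue y ∧ S.bl blue t y = S.rd blue t (S.e1 t) ∧
      S.M blue t (y, S.e1 t) ∧ ¬ S.M blue t (y, S.e2 t) ∧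
      S.M blue (t + 1) (y, S.e2 t) ∧ ¬ S.M blue (t + 1) (y, S.e1 t) ∧
      ∀ P, P ≠ (y, S.e1 t) → P ≠ (y, S.e2 t) → (S.M blue (t + 1) P ↔ S.M blue t P) := by
  have hk : S.rd blue t (S.e2 t) = S.rd blue t (S.e1 t) + 1 := S.rd_e2_red h1
  rw [S.low_RR h1 h2] at hl
  have hbc : S.bl blue t (S.e1 t) ≤ cnt blue := by
    classical
    unfold bl cnt
    apply Finset.card_le_card
    intro y
    simp only [Finset.mem_filter, Finset.mem_univ, true_and]
    rintro ⟨a, _⟩; exact a
  obtain ⟨y, hy, hyr⟩ := S.exists_bl (blue := blue) t (r := S.rd blue t (S.e1 t)) (by omega)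
  have hye1 : y ≠ S.e1 t := by rintro rfl; exact h1 hy
  have hye2 : y ≠ S.e2 t := by rintro rfl; exact h2 hy
  have hy1 : S.lt t y (S.e1 t) := S.lt_of_bl_lt (blue := blue) (by omega)
  have hy2 : S.lt t y (S.e2 t) := (S.adj_before hye1 hye2).1 hy1
  have hb : S.bl blue (t + 1) y = S.bl blue t y := S.bl_same hye1 hye2
  have hr1 : S.rd blue (t + 1) (S.e1 t) = S.rd blue t (S.e1 t) + 1 := S.rd_succ_e1_red h2
  have hr2 : S.rd blue (t + 1) (S.e2 t) = S.rd blue t (S.e1 t) := S.rd_succ_e2
  refine ⟨y, hy, hyr, ⟨hy, h1, hy1, by simp only; omega⟩, ?_, ⟨hy, h2, ?_, ?_⟩, ?_, ?_⟩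
  · rintro ⟨_, _, _, h⟩; simp only at h; omega
  · simp only; rw [S.same_right hye1 hye2]; exact hy2
  · simp only; rw [hr2, hb, hyr]
  · rintro ⟨_, _, _, h⟩; simp only at h; omega
  · rintro ⟨y', x⟩ hP1 hP2
    by_cases hy' : blue y'
    swap
    · simp [M, hy']
    have hy'1 : y' ≠ S.e1 t := by rintro rfl; exact h1 hy'
    have hy'2 : y' ≠ S.e2 t := by rintro rfl; exact h2 hy'
    have hb' : S.bl blue (t + 1) y' = S.bl blue t y' := S.bl_same hy'1 hy'2
    have hlt' : ∀ x, S.lt (t + 1) y' x ↔ S.lt t y' x := fun x => S.same_right hy'1 hy'2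
    by_cases hx1 : x = S.e1 t
    · have hne : y' ≠ y := by rintro rfl; exact hP1 (by rw [hx1])
      have hrne : S.bl blue t y' ≠ S.rd blue t (S.e1 t) := by
        intro h; exact hne (S.bl_inj hy' hy (by rw [h, hyr]))
      subst hx1
      unfold M
      simp only [hlt', hb', hr1]
      constructor
      · rintro ⟨a, b, c, d⟩; exact ⟨a, b, c, by omega⟩
      · rintro ⟨a, b, c, d⟩; exact ⟨a, b, c, by (clear * - hk hyr hb hr1 hr2 hrne d; omega)⟩
    · by_cases hx2 : x = S.e2 t
      · have hne : y' ≠ y := by rintro rfl; exact hP2 (by rw [hx2])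
        have hrne : S.bl blue t y' ≠ S.rd blue t (S.e1 t) := by
          intro h; exact hne (S.bl_inj hy' hy (by rw [h, hyr]))
        subst hx2
        unfold M
        simp only [hlt', hb', hr2, hk]
        constructor
        · rintro ⟨a, b, c, d⟩; exact ⟨a, b, c, by omega⟩
        · rintro ⟨a, b, c, d⟩; exact ⟨a, b, c, by omega⟩
      · exact S.M_same hy'1 hy'2 hx1 hx2

theorem M_RR_high {t : ℕ} (h1 : ¬ blue (S.e1 t)) (h2 : ¬ blue (S.e2 t)) (hl : ¬ S.Low blue t) :
    ∀ P, (S.M blue (t + 1) P ↔ S.M blue t P) := by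
  have hk : S.rd blue t (S.e2 t) = S.rd blue t (S.e1 t) + 1 := S.rd_e2_red h1
  rw [S.low_RR h1 h2] at hl
  have hr1 : S.rd blue (t + 1) (S.e1 t) = S.rd blue t (S.e1 t) + 1 := S.rd_succ_e1_red h2
  have hr2 : S.rd blue (t + 1) (S.e2 t) = S.rd blue t (S.e1 t) := S.rd_succ_e2
  rintro ⟨y', x⟩
  by_cases hy' : blue y'
  swap
  · simp [M, hy']
  have hy'1 : y' ≠ S.e1 t := by rintro rfl; exact h1 hy'
  have hy'2 : y' ≠ S.e2 t := by rintro rfl; exact h2 hy'
  have hb' : S.bl blue (t + 1) y' = S.bl blue t y' := S.bl_same hy'1 hy'2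
  have hlt' : ∀ x, S.lt (t + 1) y' x ↔ S.lt t y' x := fun x => S.same_right hy'1 hy'2
  have key : S.lt t y' (S.e1 t) → S.bl blue t y' < S.rd blue t (S.e1 t) := by
    intro h
    have := S.bl_strict (blue := blue) h hy'
    omega
  have key2 : S.lt t y' (S.e2 t) → S.bl blue t y' < S.rd blue t (S.e1 t) := by
    intro h
    exact key ((S.adj_before hy'1 hy'2).2 h)
  by_cases hx1 : x = S.e1 t
  · subst hx1
    unfold M
    simp only [hlt', hb', hr1]
    constructor
    · rintro ⟨a, b, c, d⟩; have := key c; omega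
    · rintro ⟨a, b, c, d⟩; have := key c; omega
  · by_cases hx2 : x = S.e2 t
    · subst hx2
      unfold M
      simp only [hlt', hb', hr2, hk]
      constructor
      · rintro ⟨a, b, c, d⟩; have := key2 c; omega
      · rintro ⟨a, b, c, d⟩; have := key2 c; omega
    · exact S.M_same hy'1 hy'2 hx1 hx2

end Sweep

end Vale.Agent.P040.Zar
end
end
end

section

section

section

/-!
# Rectilinear drawings: perturbation to general position
-/

namespace Vale.Agent.P040.Zar.Asm

open Finset Filter Topology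

theorem seg_of {P Q R S : ℝ × ℝ} {x y z w : ℝ} (hx : 0 < x) (hy : 0 < y) (hz : 0 < z)
    (hw : 0 < w) (h : x • P + y • Q = z • R + w • S) (hs : x + y = z + w) :
    (segment ℝ P Q ∩ segment ℝ R S).Nonempty := by
  have hxy : 0 < x + y := by linarith
  refine ⟨(x + y)⁻¹ • (x • P + y • Q), ?_, ?_⟩
  · refine ⟨(x + y)⁻¹ * x, (x + y)⁻¹ * y, by positivity, by positivity, ?_, ?_⟩
    · rw [← mul_add, inv_mul_cancel₀ hxy.ne']
    · rw [smul_add, smul_smul, smul_smul]
  · rw [h]
    refine ⟨(x + y)⁻¹ * z, (x + y)⁻¹ * w, by positivity, by positivity, ?_, ?_⟩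
    · rw [← mul_add, ← hs, inv_mul_cancel₀ hxy.ne']
    · rw [smul_add, smul_smul, smul_smul]

theorem seg_inter (A A' B B' : ℝ × ℝ)
    (h1 : 0 < det3 (lift B) (lift B') (lift A) * det3 (lift B) (lift B') (lift A'))
    (h2 : 0 < det3 (lift A) (lift A') (lift B) * det3 (lift A) (lift A') (lift B')) :
    (segment ℝ A B ∩ segment ℝ A' B').Nonempty ∨ (segment ℝ A B' ∩ segment ℝ A' B).Nonempty := by
  have e1 : det3 (lift B) (lift B') (lift A') • A + det3 (lift A) (lift A') (lift B') • B
      = det3 (lift B) (lift B') (lift A) • A' + det3 (lift A) (lift A') (lift B) • B' := by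
    ext <;> simp [det3, lift] <;> ring
  have e2 : det3 (lift B) (lift B') (lift A') + det3 (lift A) (lift A') (lift B')
      = det3 (lift B) (lift B') (lift A) + det3 (lift A) (lift A') (lift B) := by
    simp only [det3, lift, Fin.isValue, Matrix.cons_val_zero, Matrix.cons_val_one, Matrix.cons_val, mul_one, one_mul]; ring
  generalize det3 (lift B) (lift B') (lift A) = D1 at *
  generalize det3 (lift B) (lift B') (lift A') = D2 at *
  generalize det3 (lift A) (lift A') (lift B) = E1 at *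
  generalize det3 (lift A) (lift A') (lift B') = E2 at *
  rcases (mul_pos_iff.1 h1) with ⟨d1, d2⟩ | ⟨d1, d2⟩ <;>
    rcases (mul_pos_iff.1 h2) with ⟨f1, f2⟩ | ⟨f1, f2⟩
  · left; exact seg_of d2 f2 d1 f1 e1 e2
  · right
    refine seg_of (x := D2) (y := -E1) (z := D1) (w := -E2) d2 (by linarith) d1 (by linarith) ?_
      (by linarith)
    have : D2 • A + -E1 • B' = (D2 • A + E2 • B) - E2 • B - E1 • B' := by module
    rw [this, e1]; module
  · right
    refine seg_of (x := -D2) (y := E1) (z := -D1) (w := E2) (by linarith) f1 (by linarith) f2 ?_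
      (by linarith)
    have : -D2 • A + E1 • B' = -(D2 • A + E2 • B) + E2 • B + E1 • B' := by module
    rw [this, e1]; module
  · left
    refine seg_of (x := -D2) (y := -E2) (z := -D1) (w := -E1) (by linarith) (by linarith)
      (by linarith) (by linarith) ?_ (by linarith)
    have : -D2 • A + -E2 • B = -(D2 • A + E2 • B) := by module
    rw [this, e1]; module

/-- Perturbation in the direction of the moment curve. -/
noncomputable def pert {V : Type} (pos : V → ℝ × ℝ) (τ : V → ℝ) (ε : ℝ) (v : V) : ℝ × ℝ :=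
  ((pos v).1 + ε * τ v, (pos v).2 + ε * τ v ^ 2)

theorem quad_ne {c0 c1 c2 : ℝ} (h : c2 ≠ 0) :
    ∀ᶠ ε : ℝ in 𝓝[>] 0, c0 + c1 * ε + c2 * ε ^ 2 ≠ 0 := by
  by_cases h0 : c0 = 0
  · by_cases h1 : c1 = 0
    · filter_upwards [self_mem_nhdsWithin] with ε hε
      have : (0 : ℝ) < ε := hε
      rw [h0, h1]
      simp [h, this.ne']
    · have hc : ∀ᶠ ε : ℝ in 𝓝[>] 0, c1 + c2 * ε ≠ 0 := by
        apply eventually_nhdsWithin_of_eventually_nhds
        have : ContinuousAt (fun ε : ℝ => c1 + c2 * ε) 0 := by fun_prop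
        apply this.eventually_ne
        simpa using h1
      filter_upwards [self_mem_nhdsWithin, hc] with ε hε hc
      have : (0 : ℝ) < ε := hε
      have e : c0 + c1 * ε + c2 * ε ^ 2 = ε * (c1 + c2 * ε) := by rw [h0]; ring
      rw [e]
      exact mul_ne_zero this.ne' hc
  · apply eventually_nhdsWithin_of_eventually_nhds
    have : ContinuousAt (fun ε : ℝ => c0 + c1 * ε + c2 * ε ^ 2) 0 := by fun_prop
    apply this.eventually_ne
    simpa using h0

theorem lin_ne {c0 c1 : ℝ} (h : c1 ≠ 0) :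
    ∀ᶠ ε : ℝ in 𝓝[>] 0, c0 + c1 * ε ≠ 0 := by
  by_cases h0 : c0 = 0
  · filter_upwards [self_mem_nhdsWithin] with ε hε
    have : (0 : ℝ) < ε := hε
    rw [h0]
    simp [h, this.ne']
  · apply eventually_nhdsWithin_of_eventually_nhds
    have : ContinuousAt (fun ε : ℝ => c0 + c1 * ε) 0 := by fun_prop
    apply this.eventually_ne
    simpa using h0

theorem pert_det {V : Type} (pos : V → ℝ × ℝ) {τ : V → ℝ} (hτ : Function.Injective τ)
    {u v w : V} (huv : u ≠ v) (huw : u ≠ w) (hvw : v ≠ w) :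
    ∀ᶠ ε : ℝ in 𝓝[>] 0,
      det3 (lift (pert pos τ ε u)) (lift (pert pos τ ε v)) (lift (pert pos τ ε w)) ≠ 0 := by
  have hc : (τ v - τ u) * (τ w - τ u) * (τ w - τ v) ≠ 0 := by
    refine mul_ne_zero (mul_ne_zero ?_ ?_) ?_
    · exact sub_ne_zero.2 (fun h => huv (hτ h).symm)
    · exact sub_ne_zero.2 (fun h => huw (hτ h).symm)
    · exact sub_ne_zero.2 (fun h => hvw (hτ h).symm)
  have e : ∀ ε : ℝ,
      det3 (lift (pert pos τ ε u)) (lift (pert pos τ ε v)) (lift (pert pos τ ε w)) =
      det3 (lift (pos u)) (lift (pos v)) (lift (pos w)) +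
      (det3 (lift (pert pos τ 1 u)) (lift (pert pos τ 1 v)) (lift (pert pos τ 1 w)) -
        det3 (lift (pos u)) (lift (pos v)) (lift (pos w)) -
        (τ v - τ u) * (τ w - τ u) * (τ w - τ v)) * ε +
      ((τ v - τ u) * (τ w - τ u) * (τ w - τ v)) * ε ^ 2 := by
    intro ε
    simp only [det3, lift, pert, Fin.isValue, Matrix.cons_val_zero, Matrix.cons_val_one, Matrix.cons_val, mul_one, one_mul]
    ring
  filter_upwards [quad_ne (c0 := det3 (lift (pos u)) (lift (pos v)) (lift (pos w)))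
    (c1 := det3 (lift (pert pos τ 1 u)) (lift (pert pos τ 1 v)) (lift (pert pos τ 1 w)) -
        det3 (lift (pos u)) (lift (pos v)) (lift (pos w)) -
        (τ v - τ u) * (τ w - τ u) * (τ w - τ v)) hc] with ε hε
  rw [e]
  exact hε

theorem pert_fst {V : Type} (pos : V → ℝ × ℝ) {τ : V → ℝ} (hτ : Function.Injective τ)
    {u v : V} (huv : u ≠ v) :
    ∀ᶠ ε : ℝ in 𝓝[>] 0, (pert pos τ ε u).1 ≠ (pert pos τ ε v).1 := by
  have hc : τ u - τ v ≠ 0 := sub_ne_zero.2 (fun h => huv (hτ h))
  filter_upwards [lin_ne (c0 := (pos u).1 - (pos v).1) hc] with ε hε h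
  apply hε
  simp only [pert] at h
  linarith

theorem pert_disj {V : Type} (pos : V → ℝ × ℝ) (τ : V → ℝ) {u v w z : V}
    (h : ¬ (segment ℝ (pos u) (pos v) ∩ segment ℝ (pos w) (pos z)).Nonempty) :
    ∀ᶠ ε : ℝ in 𝓝[>] 0, ¬ (segment ℝ (pert pos τ ε u) (pert pos τ ε v) ∩
      segment ℝ (pert pos τ ε w) (pert pos τ ε z)).Nonempty := by
  apply eventually_nhdsWithin_of_eventually_nhds
  have hK : IsCompact (Set.Icc (0 : ℝ) 1 ×ˢ Set.Icc (0 : ℝ) 1) := isCompact_Icc.prod isCompact_Icc
  have key : ∀ᶠ ε : ℝ in 𝓝 0, ∀ y ∈ (Set.Icc (0 : ℝ) 1 ×ˢ Set.Icc (0 : ℝ) 1),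
      (1 - y.1) • pert pos τ ε u + y.1 • pert pos τ ε v ≠
      (1 - y.2) • pert pos τ ε w + y.2 • pert pos τ ε z := by
    apply hK.eventually_forall_of_forall_eventually
      (P := fun ε y => (1 - y.1) • pert pos τ ε u + y.1 • pert pos τ ε v ≠
      (1 - y.2) • pert pos τ ε w + y.2 • pert pos τ ε z)
    intro y hy
    have hopen : IsOpen {q : ℝ × (ℝ × ℝ) |
        (1 - q.2.1) • pert pos τ q.1 u + q.2.1 • pert pos τ q.1 v ≠
        (1 - q.2.2) • pert pos τ q.1 w + q.2.2 • pert pos τ q.1 z} := by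
      apply isOpen_ne_fun
      · unfold pert; (clear * -; fun_prop)
      · unfold pert; (clear * -; fun_prop)
    apply hopen.mem_nhds
    simp only [Set.mem_ofPred_eq]
    intro heq
    apply h
    have p0 : ∀ v, pert pos τ 0 v = pos v := by intro v; simp [pert]
    rw [p0, p0, p0, p0] at heq
    refine ⟨(1 - y.1) • pos u + y.1 • pos v, ?_, ?_⟩
    · exact ⟨1 - y.1, y.1, by linarith [hy.1.2], hy.1.1, by ring, rfl⟩
    · rw [heq]
      exact ⟨1 - y.2, y.2, by linarith [hy.2.2], hy.2.1, by ring, rfl⟩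
  filter_upwards [key] with ε hε
  rintro ⟨x, ⟨s, t, hs, ht, hst, hx⟩, ⟨s', t', hs', ht', hst', hx'⟩⟩
  refine hε (t, t') ⟨⟨ht, by linarith⟩, ⟨ht', by linarith⟩⟩ ?_
  have e1 : 1 - t = s := by linarith only [hst]
  have e2 : 1 - t' = s' := by linarith only [hst']
  simp only [e1, e2]
  rw [hx, hx']

/-- Pairs of pairs counted by `TT`, as a finset. -/
theorem TT_eq_card {m n : ℕ} (a : Fin m → V3) (b : Fin n → V3) :
    TT a b = cnt (prs m ×ˢ prs n) (fun s =>
      0 < det3 (b s.2.1) (b s.2.2) (a s.1.1) * det3 (b s.2.1) (b s.2.2) (a s.1.2) ∧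
      0 < det3 (a s.1.1) (a s.1.2) (b s.2.1) * det3 (a s.1.1) (a s.1.2) (b s.2.2)) := by
  classical
  unfold TT
  simp only [crP_eq_cnt, cnt_eq_sum]
  rw [Finset.sum_product_right]

/-- The Zarankiewicz bound for rectilinear drawings (given the decomposition theorem). -/
theorem rect_bound (hD : Decomp) {m n : ℕ}
    (D : Drawing (completeBipartiteGraph (Fin m) (Fin n))) (hR : D.Rectilinear) :
    dz m * dz n ≤ D.crossings := by
  classical
  -- general position
  obtain ⟨τ, hτ⟩ : ∃ τ : Fin m ⊕ Fin n → ℝ, Function.Injective τ := by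
    refine ⟨fun v => ((Fintype.equivFin (Fin m ⊕ Fin n) v : ℕ) : ℝ), ?_⟩
    intro u v h
    have h' : ((Fintype.equivFin (Fin m ⊕ Fin n) u : ℕ) : ℝ) =
      ((Fintype.equivFin (Fin m ⊕ Fin n) v : ℕ) : ℝ) := h
    have h2 := Nat.cast_injective h'
    exact (Fintype.equivFin (Fin m ⊕ Fin n)).injective (Fin.ext h2)
  have g1 : ∀ᶠ ε : ℝ in 𝓝[>] 0, ∀ u v w, u ≠ v → u ≠ w → v ≠ w →
      det3 (lift (pert D.pos τ ε u)) (lift (pert D.pos τ ε v)) (lift (pert D.pos τ ε w)) ≠ 0 := by
    simp only [eventually_all]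
    intro u v w huv huw hvw
    exact pert_det D.pos hτ huv huw hvw
  have g2 : ∀ᶠ ε : ℝ in 𝓝[>] 0, ∀ u v, u ≠ v →
      (pert D.pos τ ε u).1 ≠ (pert D.pos τ ε v).1 := by
    simp only [eventually_all]
    intro u v huv
    exact pert_fst D.pos hτ huv
  have g3 : ∀ᶠ ε : ℝ in 𝓝[>] 0, ∀ u v w z,
      ¬ (segment ℝ (D.pos u) (D.pos v) ∩ segment ℝ (D.pos w) (D.pos z)).Nonempty →
      ¬ (segment ℝ (pert D.pos τ ε u) (pert D.pos τ ε v) ∩
      segment ℝ (pert D.pos τ ε w) (pert D.pos τ ε z)).Nonempty := by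
    simp only [eventually_all]
    intro u v w z h
    exact pert_disj D.pos τ h
  obtain ⟨ε, h1, h2, h3⟩ := (g1.and (g2.and g3)).exists
  clear g1 g2 g3
  have main := zar_gp hD (m := m) (n := n) (fun j => pert D.pos τ ε (Sum.inr j))
    (fun i => lift (pert D.pos τ ε (Sum.inl i)))
    (fun i j hij => by
      by_contra hne
      exact h2 _ _ (fun h => hne (Sum.inr_injective h)) hij)
    (fun i j k hij hik hjk => h1 _ _ _ (fun h => hij (Sum.inr_injective h))
      (fun h => hik (Sum.inr_injective h)) (fun h => hjk (Sum.inr_injective h)))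
    (fun i j hij x => h1 _ _ _ (fun h => hij (Sum.inr_injective h)) Sum.inr_ne_inl Sum.inr_ne_inl)
    (fun x y hxy i => h1 _ _ _ (fun h => hxy (Sum.inl_injective h)) Sum.inl_ne_inr Sum.inl_ne_inr)
  refine main.trans ?_
  rw [TT_eq_card, cnt_eq_card]
  -- adjacency
  have hadj : ∀ (i : Fin m) (j : Fin n),
      (completeBipartiteGraph (Fin m) (Fin n)).Adj (Sum.inl i) (Sum.inr j) := by
    intro i j; simp
  have hmem : ∀ (i : Fin m) (j : Fin n),
      s(Sum.inl i, Sum.inr j) ∈ (completeBipartiteGraph (Fin m) (Fin n)).edgeSet := by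
    intro i j; exact hadj i j
  have hcr : ∀ (i i' : Fin m) (j j' : Fin n), i ≠ i' → j ≠ j' →
      (segment ℝ (pert D.pos τ ε (Sum.inl i)) (pert D.pos τ ε (Sum.inr j)) ∩
      segment ℝ (pert D.pos τ ε (Sum.inl i')) (pert D.pos τ ε (Sum.inr j'))).Nonempty →
      ∃ x, x ∉ Set.range D.pos ∧ x ∈ D.arc s(Sum.inl i, Sum.inr j) ∧
        x ∈ D.arc s(Sum.inl i', Sum.inr j') := by
    intro i i' j j' hi hj h
    apply D.exists_crossing (hmem i j) (hmem i' j')
    · intro v hv hv'
      rw [Sym2.mem_iff] at hv hv'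
      rcases hv with rfl | rfl <;> rcases hv' with h | h
      · exact hi (Sum.inl_injective h)
      · exact Sum.inl_ne_inr h
      · exact Sum.inr_ne_inl h
      · exact hj (Sum.inr_injective h)
    · rw [hR _ _ (hadj i j), hR _ _ (hadj i' j')]
      by_contra hc
      exact h3 _ _ _ _ hc h
  have hex : ∀ s ∈ (prs m ×ˢ prs n).filter (fun s =>
      0 < det3 (lift (pert D.pos τ ε (Sum.inr s.2.1))) (lift (pert D.pos τ ε (Sum.inr s.2.2)))
          (lift (pert D.pos τ ε (Sum.inl s.1.1))) *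
        det3 (lift (pert D.pos τ ε (Sum.inr s.2.1))) (lift (pert D.pos τ ε (Sum.inr s.2.2)))
          (lift (pert D.pos τ ε (Sum.inl s.1.2))) ∧
      0 < det3 (lift (pert D.pos τ ε (Sum.inl s.1.1))) (lift (pert D.pos τ ε (Sum.inl s.1.2)))
          (lift (pert D.pos τ ε (Sum.inr s.2.1))) *
        det3 (lift (pert D.pos τ ε (Sum.inl s.1.1))) (lift (pert D.pos τ ε (Sum.inl s.1.2)))
          (lift (pert D.pos τ ε (Sum.inr s.2.2)))),
      ∃ x, x ∉ Set.range D.pos ∧
        ((x ∈ D.arc s(Sum.inl s.1.1, Sum.inr s.2.1) ∧ x ∈ D.arc s(Sum.inl s.1.2, Sum.inr s.2.2)) ∨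
        (x ∈ D.arc s(Sum.inl s.1.1, Sum.inr s.2.2) ∧ x ∈ D.arc s(Sum.inl s.1.2, Sum.inr s.2.1))) := by
    intro s hs
    simp only [mem_filter, mem_product, prs, mem_univ, true_and] at hs
    obtain ⟨⟨hs1, hs2⟩, c1, c2⟩ := hs
    rcases seg_inter _ _ _ _ c1 c2 with h | h
    · obtain ⟨x, hx, a1, a2⟩ := hcr _ _ _ _ (ne_of_lt hs1) (ne_of_lt hs2) h
      exact ⟨x, hx, Or.inl ⟨a1, a2⟩⟩
    · obtain ⟨x, hx, a1, a2⟩ := hcr _ _ _ _ (ne_of_lt hs1) (ne_of_lt hs2).symm h
      exact ⟨x, hx, Or.inr ⟨a1, a2⟩⟩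
  choose! F hF using hex
  have hfin := D.crossingSet_finite
  rw [Drawing.crossings, Set.ncard_eq_toFinset_card _ hfin]
  apply Finset.card_le_card_of_injOn F
  · intro s hs
    have hs' := hs
    simp only [coe_filter, mem_product, prs, mem_filter, mem_univ, true_and,
      Set.mem_ofPred_eq] at hs'
    obtain ⟨hx, hc⟩ := hF s hs
    have q1 := ne_of_lt hs'.1.1
    have q2 := ne_of_lt hs'.1.2
    rw [Finset.mem_coe, Set.Finite.mem_toFinset]
    rcases hc with ⟨a1, a2⟩ | ⟨a1, a2⟩
    · exact ⟨hx, _, hmem _ _, _, hmem _ _, by simp [q1], a1, a2⟩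
    · exact ⟨hx, _, hmem _ _, _, hmem _ _, by simp [q1], a1, a2⟩
  · intro s hs t ht hst
    have hs' := hs
    have ht' := ht
    simp only [coe_filter, mem_product, prs, mem_filter, mem_univ, true_and,
      Set.mem_ofPred_eq] at hs' ht'
    obtain ⟨hx, hc⟩ := hF s hs
    obtain ⟨hx', hc'⟩ := hF t ht
    rw [← hst] at hc'
    have q1 := ne_of_lt hs'.1.1
    have q2 := ne_of_lt hs'.1.2
    have r1 := ne_of_lt ht'.1.1
    have r2 := ne_of_lt ht'.1.2
    have o1 := lt_asymm hs'.1.1
    have o2 := lt_asymm hs'.1.2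
    obtain ⟨⟨s1, s2⟩, ⟨s3, s4⟩⟩ := s
    obtain ⟨⟨t1, t2⟩, ⟨t3, t4⟩⟩ := t
    simp only at hs' ht' hc hc' q1 q2 r1 r2 o1 o2 ⊢
    have n1 : s(Sum.inl s1, Sum.inr s3) ≠ (s(Sum.inl s2, Sum.inr s4) : Sym2 (Fin m ⊕ Fin n)) := by
      simp [q1]
    have n2 : s(Sum.inl s1, Sum.inr s4) ≠ (s(Sum.inl s2, Sum.inr s3) : Sym2 (Fin m ⊕ Fin n)) := by
      simp [q1]
    have n3 : s(Sum.inl t1, Sum.inr t3) ≠ (s(Sum.inl t2, Sum.inr t4) : Sym2 (Fin m ⊕ Fin n)) := by
      simp [r1]
    have n4 : s(Sum.inl t1, Sum.inr t4) ≠ (s(Sum.inl t2, Sum.inr t3) : Sym2 (Fin m ⊕ Fin n)) := by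
      simp [r1]
    rcases hc with ⟨a1, a2⟩ | ⟨a1, a2⟩ <;> rcases hc' with ⟨a3, a4⟩ | ⟨a3, a4⟩
    · have := D.pair_unique hx (hmem _ _) (hmem _ _) (hmem _ _) (hmem _ _) n1 n3 a1 a2 a3 a4
      simp at this
      rcases this with ⟨⟨b1, b2⟩, b3, b4⟩ | ⟨⟨b1, b2⟩, b3, b4⟩
      · rw [b1, b2, b3, b4]
      · exfalso
        rw [b1, b3] at o1
        exact o1 ht'.1.1
    · have := D.pair_unique hx (hmem _ _) (hmem _ _) (hmem _ _) (hmem _ _) n1 n4 a1 a2 a3 a4
      simp at this
      rcases this with ⟨⟨b1, b2⟩, b3, b4⟩ | ⟨⟨b1, b2⟩, b3, b4⟩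
      · exfalso
        rw [b2, b4] at o2
        exact o2 ht'.1.2
      · exfalso
        rw [b1, b3] at o1
        exact o1 ht'.1.1
    · have := D.pair_unique hx (hmem _ _) (hmem _ _) (hmem _ _) (hmem _ _) n2 n3 a1 a2 a3 a4
      simp at this
      rcases this with ⟨⟨b1, b2⟩, b3, b4⟩ | ⟨⟨b1, b2⟩, b3, b4⟩
      · exfalso
        rw [b2, b4] at o2
        exact o2 ht'.1.2
      · exfalso
        rw [b1, b3] at o1
        exact o1 ht'.1.1
    · have := D.pair_unique hx (hmem _ _) (hmem _ _) (hmem _ _) (hmem _ _) n2 n4 a1 a2 a3 a4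
      simp at this
      rcases this with ⟨⟨b1, b2⟩, b3, b4⟩ | ⟨⟨b1, b2⟩, b3, b4⟩
      · rw [b1, b2, b3, b4]
      · exfalso
        rw [b1, b3] at o1
        exact o1 ht'.1.1

end Vale.Agent.P040.Zar.Asm
end
end
end

section

section

section

/-!
# Histories of tokens and the convex polygons they trace
-/

namespace Vale.Agent.P040.Zar

section lists

variable {B : Type*}

/-- consecutive pairs of a list -/
def conseq (l : List B) : List (B × B) := l.zip l.tail

@[simp] theorem conseq_nil : conseq ([] : List B) = [] := rfl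
@[simp] theorem conseq_single (a : B) : conseq [a] = [] := rfl
@[simp] theorem conseq_cons_cons (a b : B) (l : List B) :
    conseq (a :: b :: l) = (a, b) :: conseq (b :: l) := rfl

theorem conseq_append (l1 : List B) (a : B) (l2 : List B) :
    conseq (l1 ++ a :: l2) = conseq (l1 ++ [a]) ++ conseq (a :: l2) := by
  induction l1 with
  | nil => simp
  | cons b l1 ih =>
    cases l1 with
    | nil => simp
    | cons c l1 =>
      simp only [List.cons_append, conseq_cons_cons] at ih ⊢
      rw [ih]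

theorem conseq_reverse (l : List B) :
    conseq l.reverse = ((conseq l).reverse).map Prod.swap := by
  induction l with
  | nil => simp
  | cons a l ih =>
    cases l with
    | nil => simp
    | cons b l =>
      simp only [List.reverse_cons, List.append_assoc, List.cons_append, List.nil_append,
        conseq_cons_cons, List.map_append, List.map_cons, List.map_nil, Prod.swap_prod_mk] at ih ⊢
      rw [conseq_append, ih]
      simp

theorem zip_append_drop (l1 l2 : List B) (a : B) (h : l1.length = l2.length) :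
    (l1 ++ [a]).zip l2 = l1.zip l2 := by
  induction l1 generalizing l2 with
  | nil => simp at h; have : l2 = [] := List.length_eq_zero_iff.1 h.symm; subst this; simp
  | cons b l1 ih =>
    cases l2 with
    | nil => simp at h
    | cons c l2 =>
      simp only [List.cons_append, List.zip_cons_cons]
      rw [ih l2 (by simpa using h)]

theorem sides_eq (a : B) (l : List B) : sides (a :: l) = conseq (a :: l ++ [a]) := by
  unfold sides conseq
  simp only [List.rotate_cons_succ, List.rotate_zero, List.cons_append, List.tail_cons]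
  have := zip_append_drop (a :: l) (l ++ [a]) a (by simp)
  simpa using this.symm

theorem sides_poly (y x y0 x0 : B) (ys xs ys' xs' ly lx : List B) (hy : ys = y :: ys')
    (hx : xs = x :: xs') (hly : ys = ly ++ [y0]) (hlx : xs = lx ++ [x0]) :
    sides (ys.reverse ++ xs) =
      ((conseq ys).reverse).map Prod.swap ++ (y, x) :: (conseq xs ++ [(x0, y0)]) := by
  have h1 : ys.reverse ++ xs = y0 :: (ly.reverse ++ xs) := by
    rw [hly]; simp
  have h2 : sides (ys.reverse ++ xs) = conseq (ys.reverse ++ xs ++ [y0]) := by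
    rw [h1, sides_eq]
  rw [h2]
  have h3 : ys.reverse ++ xs ++ [y0] = ys'.reverse ++ y :: (xs ++ [y0]) := by
    rw [hy]; simp
  rw [h3, conseq_append]
  have h4 : ys'.reverse ++ [y] = ys.reverse := by rw [hy]; simp
  rw [h4, conseq_reverse]
  congr 1
  have h5 : conseq (y :: (xs ++ [y0])) = (y, x) :: conseq (xs ++ [y0]) := by
    rw [hx]; simp
  rw [h5]
  congr 1
  have h6 : xs ++ [y0] = lx ++ x0 :: [y0] := by rw [hlx]; simp
  rw [h6, conseq_append, ← hlx]
  simp

/-- the sum of a function over the consecutive pairs of a list -/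
def csum (f : B → B → ℕ) (l : List B) : ℕ := ((conseq l).map (fun s => f s.1 s.2)).sum

/-- the sum of a function over the sides of a polygon -/
def ssum (f : B → B → ℕ) (l : List B) : ℕ := ((sides l).map (fun s => f s.1 s.2)).sum

theorem csum_cons_cons (f : B → B → ℕ) (a b : B) (l : List B) :
    csum f (a :: b :: l) = f a b + csum f (b :: l) := by
  simp [csum]

theorem ssum_poly (f : B → B → ℕ) (hf : ∀ a b, f a b = f b a)
    (y x y0 x0 : B) (ys xs ys' xs' ly lx : List B) (hy : ys = y :: ys')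
    (hx : xs = x :: xs') (hly : ys = ly ++ [y0]) (hlx : xs = lx ++ [x0]) :
    ssum f (ys.reverse ++ xs) = csum f ys + csum f xs + f x0 y0 + f y x := by
  unfold ssum csum
  rw [sides_poly y x y0 x0 ys xs ys' xs' ly lx hy hx hly hlx]
  simp only [List.map_append, List.map_map, List.map_cons, List.sum_append, List.sum_cons,
    List.map_nil, List.sum_nil, List.map_reverse, List.sum_reverse]
  have : ((fun s : B × B => f s.1 s.2) ∘ Prod.swap) = (fun s : B × B => f s.1 s.2) := by
    funext s; simp [hf s.2 s.1]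
  rw [this]
  ring

/-- in a chain, every element is related to the head -/
theorem chain_head {R : B → B → Prop} (htr : ∀ a b c, R a b → R b c → R a c) (y : B) (l : List B)
    (h : ∀ s ∈ conseq (y :: l), R s.1 s.2) : ∀ z ∈ y :: l, z = y ∨ R y z := by
  induction l generalizing y with
  | nil => simp
  | cons b l ih =>
    intro z hz
    rw [List.mem_cons] at hz
    rcases hz with hz | hz
    · exact Or.inl hz
    · right
      have h1 : R y b := h (y, b) (by simp)
      rcases ih b (fun s hs => h s (by simp [hs])) z hz with h2 | h2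
      · rw [h2]; exact h1
      · exact htr _ _ _ h1 h2

theorem chain_nodup {R : B → B → Prop} (htr : ∀ a b c, R a b → R b c → R a c)
    (hirr : ∀ a, ¬ R a a) (l : List B)
    (h : ∀ s ∈ conseq l, R s.1 s.2) : l.Nodup := by
  induction l with
  | nil => simp
  | cons y l ih =>
    cases l with
    | nil => simp
    | cons b l =>
      rw [List.nodup_cons]
      refine ⟨?_, ih (fun s hs => h s (by simp [hs]))⟩
      intro hmem
      have h1 : R y b := h (y, b) (by simp)
      rcases chain_head htr b l (fun s hs => h s (by simp [hs])) y hmem with h2 | h2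
      · rw [h2] at h1; exact hirr _ h1
      · exact hirr _ (htr _ _ _ h1 h2)

end lists

/-- the record of a token -/
structure Tok (B : Type*) where
  /-- first blue element -/
  y0 : B
  /-- first red element -/
  x0 : B
  /-- blue elements, latest first -/
  ys : List B
  /-- red elements, latest first -/
  xs : List B

namespace Tok

variable {B : Type*}

/-- the sum of a function over the sides drawn so far -/
def val (f : B → B → ℕ) (T : Tok B) : ℕ := csum f T.ys + csum f T.xs + f T.x0 T.y0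

end Tok

namespace Sweep

variable {B : Type*} (S : Sweep B) [Fintype B] (blue : B → Prop)

open Classical in
/-- the red element involved in a low blue-blue flip -/
noncomputable def xst (t : ℕ) : B :=
  if h : ∃ x, ¬ blue x ∧ S.rd blue t x = S.bl blue t (S.e1 t) + 1 then h.choose else S.e1 t

open Classical in
/-- the blue element involved in a low red-red flip -/
noncomputable def yst (t : ℕ) : B :=
  if h : ∃ y, blue y ∧ S.bl blue t y = S.rd blue t (S.e1 t) then h.choose else S.e1 t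

variable {blue}

theorem xst_eq {t : ℕ} {x : B} (hx : ¬ blue x)
    (h : S.rd blue t x = S.bl blue t (S.e1 t) + 1) : S.xst blue t = x := by
  have hex : ∃ x, ¬ blue x ∧ S.rd blue t x = S.bl blue t (S.e1 t) + 1 := ⟨x, hx, h⟩
  have h1 : S.xst blue t = hex.choose := by simp only [xst, hex, dite_true]
  rw [h1]
  exact S.rd_inj hex.choose_spec.1 hx (by rw [hex.choose_spec.2, h])

theorem yst_eq {t : ℕ} {y : B} (hy : blue y)
    (h : S.bl blue t y = S.rd blue t (S.e1 t)) : S.yst blue t = y := by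
  have hex : ∃ y, blue y ∧ S.bl blue t y = S.rd blue t (S.e1 t) := ⟨y, hy, h⟩
  have h1 : S.yst blue t = hex.choose := by simp only [yst, hex, dite_true]
  rw [h1]
  exact S.bl_inj hex.choose_spec.1 hy (by rw [hex.choose_spec.2, h])

variable (blue)

open Classical in
/-- one step of the evolution of the histories -/
noncomputable def step (t : ℕ) (h : B × B → Option (Tok B)) : B × B → Option (Tok B) :=
  if S.Low blue t then
    if blue (S.e1 t) then
      if blue (S.e2 t) then
        Function.update (Function.update h (S.e2 t, S.xst blue t) none) (S.e1 t, S.xst blue t)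
          ((h (S.e2 t, S.xst blue t)).map (fun T => ⟨T.y0, T.x0, S.e1 t :: T.ys, T.xs⟩))
      else Function.update h (S.e1 t, S.e2 t) none
    else
      if blue (S.e2 t) then
        Function.update h (S.e2 t, S.e1 t) (some ⟨S.e2 t, S.e1 t, [S.e2 t], [S.e1 t]⟩)
      else
        Function.update (Function.update h (S.yst blue t, S.e1 t) none) (S.yst blue t, S.e2 t)
          ((h (S.yst blue t, S.e1 t)).map (fun T => ⟨T.y0, T.x0, T.ys, S.e2 t :: T.xs⟩))
  else h

/-- the histories of the alive tokens at time `t` -/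
noncomputable def hist (t : ℕ) : B × B → Option (Tok B) :=
  Nat.rec (fun _ => none) (fun t h => S.step blue t h) t

theorem hist_zero (P : B × B) : S.hist blue 0 P = none := rfl

theorem hist_succ (t : ℕ) : S.hist blue (t + 1) = S.step blue t (S.hist blue t) := rfl

open Classical in
/-- the polygons finished before time `t` -/
noncomputable def fin (t : ℕ) : List (List B) :=
  Nat.rec [] (fun t l => if S.Low blue t ∧ blue (S.e1 t) ∧ ¬ blue (S.e2 t) then
    ((S.hist blue t (S.e1 t, S.e2 t)).map (fun T => T.ys.reverse ++ T.xs)).toList ++ l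
    else l) t

theorem fin_zero : S.fin blue 0 = [] := rfl

open Classical in
theorem fin_succ (t : ℕ) : S.fin blue (t + 1) =
    if S.Low blue t ∧ blue (S.e1 t) ∧ ¬ blue (S.e2 t) then
    ((S.hist blue t (S.e1 t, S.e2 t)).map (fun T => T.ys.reverse ++ T.xs)).toList
      ++ S.fin blue t
    else S.fin blue t := rfl

/-- position of an element relative to the pair flipped at time `t` -/
def Good (t : ℕ) (z : B) : Prop := (blue z → S.lt t z (S.e1 t)) ∧ (¬ blue z → S.lt t (S.e1 t) z)

/-- the invariant of a token -/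
structure Inv (t tb : ℕ) (P : B × B) (T : Tok B) : Prop where
  lt_t : tb < t
  le_H : t ≤ tb + S.H
  low : S.Low blue tb
  ex : T.x0 = S.e1 tb
  ey : T.y0 = S.e2 tb
  hdy : ∃ l, T.ys = P.1 :: l
  hdx : ∃ l, T.xs = P.2 :: l
  lasty : ∃ l, T.ys = l ++ [T.y0]
  lastx : ∃ l, T.xs = l ++ [T.x0]
  bly : ∀ z ∈ T.ys, blue z
  rdx : ∀ z ∈ T.xs, ¬ blue z
  good0 : ∀ z ∈ T.ys ++ T.xs, z ≠ S.e1 tb → z ≠ S.e2 tb → S.Good blue tb z
  cy : ∀ s ∈ conseq T.ys, ∃ τ, tb ≤ τ ∧ τ < t ∧ S.e1 τ = s.1 ∧ S.e2 τ = s.2 ∧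
    ∀ z ∈ T.ys ++ T.xs, z ≠ S.e1 τ → z ≠ S.e2 τ → S.Good blue τ z
  cx : ∀ s ∈ conseq T.xs, ∃ τ, tb ≤ τ ∧ τ < t ∧ S.e1 τ = s.2 ∧ S.e2 τ = s.1 ∧
    ∀ z ∈ T.ys ++ T.xs, z ≠ S.e1 τ → z ≠ S.e2 τ → S.Good blue τ z

variable {blue}

namespace Inv

variable {S}
variable {t tb : ℕ} {P : B × B} {T : Tok B}

theorem cyR (h : S.Inv blue t tb P T) : ∀ s ∈ conseq T.ys, S.lt t s.2 s.1 := by
  intro s hs
  obtain ⟨τ, h1, h2, h3, h4, _⟩ := h.cy s hs
  rw [← h3, ← h4]
  have := h.le_H
  exact S.window τ t h2 (by omega)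

theorem cxR (h : S.Inv blue t tb P T) : ∀ s ∈ conseq T.xs, S.lt t s.1 s.2 := by
  intro s hs
  obtain ⟨τ, h1, h2, h3, h4, _⟩ := h.cx s hs
  rw [← h3, ← h4]
  have := h.le_H
  exact S.window τ t h2 (by omega)

theorem le_y (h : S.Inv blue t tb P T) : ∀ z ∈ T.ys, z = P.1 ∨ S.lt t z P.1 := by
  obtain ⟨l, hl⟩ := h.hdy
  have h1 := h.cyR
  rw [hl] at h1 ⊢
  exact chain_head (R := fun a b => S.lt t b a)
    (fun a b c hab hbc => S.trans _ _ _ _ hbc hab) P.1 l h1

theorem le_x (h : S.Inv blue t tb P T) : ∀ z ∈ T.xs, z = P.2 ∨ S.lt t P.2 z := by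
  obtain ⟨l, hl⟩ := h.hdx
  have h1 := h.cxR
  rw [hl] at h1 ⊢
  exact chain_head (R := fun a b => S.lt t a b)
    (fun a b c hab hbc => S.trans _ _ _ _ hab hbc) P.2 l h1

theorem nodup_y (h : S.Inv blue t tb P T) : T.ys.Nodup :=
  chain_nodup (R := fun a b => S.lt t b a)
    (fun _ _ _ hab hbc => S.trans _ _ _ _ hbc hab) (fun a => S.irrefl t a) _ h.cyR

theorem nodup_x (h : S.Inv blue t tb P T) : T.xs.Nodup :=
  chain_nodup (R := fun a b => S.lt t a b)
    (fun _ _ _ hab hbc => S.trans _ _ _ _ hab hbc) (fun a => S.irrefl t a) _ h.cxR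

theorem mem_y0 (h : S.Inv blue t tb P T) : T.y0 ∈ T.ys := by
  obtain ⟨l, hl⟩ := h.lasty
  rw [hl]; simp

theorem mem_x0 (h : S.Inv blue t tb P T) : T.x0 ∈ T.xs := by
  obtain ⟨l, hl⟩ := h.lastx
  rw [hl]; simp

theorem mem_P1 (h : S.Inv blue t tb P T) : P.1 ∈ T.ys := by
  obtain ⟨l, hl⟩ := h.hdy
  rw [hl]; simp

theorem mem_P2 (h : S.Inv blue t tb P T) : P.2 ∈ T.xs := by
  obtain ⟨l, hl⟩ := h.hdx
  rw [hl]; simp

/-- an alive token is younger than a half period -/
theorem lt_H (h : S.Inv blue t tb P T) (hM : S.M blue t P)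
    (hcnt : cnt blue < cnt (fun y => ¬ blue y)) : t < tb + S.H := by
  rcases lt_or_eq_of_le h.le_H with h1 | h1
  · exact h1
  exfalso
  have hy0 : T.y0 = S.e1 t := by rw [h1, (S.e_anti tb).1, h.ey]
  have hx0 : T.x0 = S.e2 t := by rw [h1, (S.e_anti tb).2, h.ex]
  obtain ⟨hM1, hM2, hM3, hM4⟩ := hM
  have by0 : blue T.y0 := h.bly _ h.mem_y0
  have rx0 : ¬ blue T.x0 := h.rdx _ h.mem_x0
  have hPx : S.lt t P.1 T.x0 := by
    rcases h.le_x _ h.mem_x0 with h2 | h2
    · rw [h2]; exact hM3
    · exact S.trans _ _ _ _ hM3 h2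
  have e1 : T.y0 = P.1 := by
    rcases h.le_y _ h.mem_y0 with h2 | h2
    · exact h2
    exfalso
    have hne1 : P.1 ≠ S.e1 t := by rw [← hy0]; exact (S.ne_of_lt h2).symm
    have hne2 : P.1 ≠ S.e2 t := by
      rw [← hx0]; intro hh; rw [hh] at hM1; exact rx0 hM1
    rw [hx0, ← S.adj_before hne1 hne2, ← hy0] at hPx
    exact S.asymm hPx h2
  have e2 : T.x0 = P.2 := by
    rcases h.le_x _ h.mem_x0 with h2 | h2
    · exact h2
    exfalso
    have hne1 : P.2 ≠ S.e1 t := by
      rw [← hy0]; intro hh; rw [hh] at hM2; exact hM2 by0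
    have hne2 : P.2 ≠ S.e2 t := by rw [← hx0]; exact S.ne_of_lt h2
    have h3 : S.lt t (S.e1 t) P.2 := by rw [← hy0, e1]; exact hM3
    rw [S.adj_after hne1 hne2, ← hx0] at h3
    exact S.asymm h3 h2
  rw [← e1, ← e2] at hM4
  have a1 := S.bl_anti_blue (t := tb) by0
  have a2 := S.rd_anti_red (t := tb) rx0
  rw [← h1] at a1 a2
  have hlow := h.low
  have c1 : ¬ blue (S.e1 tb) := by rw [← h.ex]; exact rx0
  have c2 : blue (S.e2 tb) := by rw [← h.ey]; exact by0
  rw [S.low_RB c1 c2] at hlow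
  have a3 : S.bl blue tb T.y0 = S.bl blue tb (S.e1 tb) := by rw [h.ey, S.bl_e2_red c1]
  rw [h.ex] at a2
  rw [← h.ex] at hlow
  rw [h.ex] at hM4 hlow
  omega

theorem good_new_y (h : S.Inv blue t tb P T) (hH : t < tb + S.H) (he2 : S.e2 t = P.1)
    (hb : blue (S.e1 t)) {τ : ℕ} (h1 : tb ≤ τ) (h2 : τ < t)
    (hg : ∀ z ∈ T.ys ++ T.xs, z ≠ S.e1 τ → z ≠ S.e2 τ → S.Good blue τ z)
    (hn1 : S.e1 t ≠ S.e1 τ) (hn2 : S.e1 t ≠ S.e2 τ) : S.Good blue τ (S.e1 t) := by
  refine ⟨fun _ => ?_, fun h' => absurd hb h'⟩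
  have h3 : S.lt τ (S.e1 t) P.1 := by
    rw [← he2]; exact S.window' (le_of_lt h2) (by omega)
  by_cases c1 : P.1 = S.e1 τ
  · rw [← c1]; exact h3
  by_cases c2 : P.1 = S.e2 τ
  · rw [S.adj_before hn1 hn2, ← c2]; exact h3
  · have := (hg P.1 (by simp [h.mem_P1]) c1 c2).1 (h.bly _ h.mem_P1)
    exact S.trans _ _ _ _ h3 this

theorem good_new_x (h : S.Inv blue t tb P T) (hH : t < tb + S.H) (he1 : S.e1 t = P.2)
    (hr : ¬ blue (S.e2 t)) {τ : ℕ} (h1 : tb ≤ τ) (h2 : τ < t)
    (hg : ∀ z ∈ T.ys ++ T.xs, z ≠ S.e1 τ → z ≠ S.e2 τ → S.Good blue τ z)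
    (hn1 : S.e2 t ≠ S.e1 τ) (hn2 : S.e2 t ≠ S.e2 τ) : S.Good blue τ (S.e2 t) := by
  refine ⟨fun h' => absurd h' hr, fun _ => ?_⟩
  have h3 : S.lt τ P.2 (S.e2 t) := by
    rw [← he1]; exact S.window' (le_of_lt h2) (by omega)
  by_cases c1 : P.2 = S.e1 τ
  · rw [← c1]; exact h3
  by_cases c2 : P.2 = S.e2 τ
  · rw [S.adj_after hn1 hn2, ← c2]; exact h3
  · have := (hg P.2 (by simp [h.mem_P2]) c1 c2).2 (h.rdx _ h.mem_P2)
    exact S.trans _ _ _ _ this h3

/-- untouched tokens -/
theorem stay (h : S.Inv blue t tb P T) (hH : t < tb + S.H) : S.Inv blue (t + 1) tb P T where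
  lt_t := by have := h.lt_t; omega
  le_H := hH
  low := h.low
  ex := h.ex
  ey := h.ey
  hdy := h.hdy
  hdx := h.hdx
  lasty := h.lasty
  lastx := h.lastx
  bly := h.bly
  rdx := h.rdx
  good0 := h.good0
  cy := by
    intro s hs
    obtain ⟨τ, h1, h2, h3⟩ := h.cy s hs
    exact ⟨τ, h1, by omega, h3⟩
  cx := by
    intro s hs
    obtain ⟨τ, h1, h2, h3⟩ := h.cx s hs
    exact ⟨τ, h1, by omega, h3⟩

/-- old elements are in good position with respect to a new corner -/
theorem good_old (h : S.Inv blue t tb P T) (hM : S.M blue t P)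
    (hP : P.1 = S.e1 t ∨ P.1 = S.e2 t ∨ P.2 = S.e1 t) :
    ∀ z ∈ T.ys ++ T.xs, z ≠ S.e1 t → z ≠ S.e2 t → S.Good blue t z := by
  intro z hz h1 h2
  rw [List.mem_append] at hz
  obtain ⟨hM1, hM2, hM3, hM4⟩ := hM
  rcases hz with hz | hz
  · refine ⟨fun _ => ?_, fun h' => absurd (h.bly _ hz) h'⟩
    rcases hP with hP | hP | hP
    · rcases h.le_y z hz with h3 | h3
      · rw [h3] at h1; exact absurd hP h1
      · rw [← hP]; exact h3
    · rcases h.le_y z hz with h3 | h3
      · rw [h3] at h2; exact absurd hP h2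
      · rw [S.adj_before h1 h2, ← hP]; exact h3
    · rw [← hP]
      rcases h.le_y z hz with h3 | h3
      · rw [h3]; exact hM3
      · exact S.trans _ _ _ _ h3 hM3
  · refine ⟨fun h' => absurd h' (h.rdx _ hz), fun _ => ?_⟩
    have h4 : S.lt t P.1 z := by
      rcases h.le_x z hz with h3 | h3
      · rw [h3]; exact hM3
      · exact S.trans _ _ _ _ hM3 h3
    rcases hP with hP | hP | hP
    · rw [← hP]; exact h4
    · rw [S.adj_after h1 h2, ← hP]; exact h4
    · rcases h.le_x z hz with h3 | h3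
      · rw [h3] at h1; exact absurd hP h1
      · rw [← hP]; exact h3

theorem moveB (h : S.Inv blue t tb P T) (hM : S.M blue t P) (hH : t < tb + S.H)
    (he2 : P.1 = S.e2 t) (hb : blue (S.e1 t)) :
    S.Inv blue (t + 1) tb (S.e1 t, P.2) ⟨T.y0, T.x0, S.e1 t :: T.ys, T.xs⟩ where
  lt_t := by have := h.lt_t; omega
  le_H := hH
  low := h.low
  ex := h.ex
  ey := h.ey
  hdy := ⟨T.ys, rfl⟩
  hdx := h.hdx
  lasty := by
    obtain ⟨l, hl⟩ := h.lasty
    exact ⟨S.e1 t :: l, by simp only; rw [hl]; simp⟩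
  lastx := h.lastx
  bly := by
    intro z hz
    simp only [List.mem_cons] at hz
    rcases hz with hz | hz
    · rw [hz]; exact hb
    · exact h.bly z hz
  rdx := h.rdx
  good0 := by
    intro z hz h1 h2
    simp only [List.cons_append, List.mem_cons] at hz
    rcases hz with hz | hz
    · rw [hz] at h1 h2 ⊢
      exact h.good_new_y hH he2.symm hb le_rfl h.lt_t h.good0 h1 h2
    · exact h.good0 z hz h1 h2
  cy := by
    intro s hs
    obtain ⟨l, hl⟩ := h.hdy
    simp only at hs
    rw [hl, conseq_cons_cons, List.mem_cons] at hs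
    rcases hs with hs | hs
    · refine ⟨t, le_of_lt h.lt_t, by omega, by rw [hs], by rw [hs]; exact he2.symm, ?_⟩
      intro z hz h1 h2
      simp only [List.cons_append, List.mem_cons] at hz
      rcases hz with hz | hz
      · exact absurd hz h1
      · exact h.good_old hM (Or.inr (Or.inl he2)) z hz h1 h2
    · rw [← hl] at hs
      obtain ⟨τ, h1, h2, h3, h4, h5⟩ := h.cy s hs
      refine ⟨τ, h1, by omega, h3, h4, ?_⟩
      intro z hz h6 h7
      simp only [List.cons_append, List.mem_cons] at hz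
      rcases hz with hz | hz
      · rw [hz] at h6 h7 ⊢
        exact h.good_new_y hH he2.symm hb h1 h2 h5 h6 h7
      · exact h5 z hz h6 h7
  cx := by
    intro s hs
    obtain ⟨τ, h1, h2, h3, h4, h5⟩ := h.cx s hs
    refine ⟨τ, h1, by omega, h3, h4, ?_⟩
    intro z hz h6 h7
    simp only [List.cons_append, List.mem_cons] at hz
    rcases hz with hz | hz
    · rw [hz] at h6 h7 ⊢
      exact h.good_new_y hH he2.symm hb h1 h2 h5 h6 h7
    · exact h5 z hz h6 h7

theorem moveR (h : S.Inv blue t tb P T) (hM : S.M blue t P) (hH : t < tb + S.H)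
    (he1 : P.2 = S.e1 t) (hr : ¬ blue (S.e2 t)) :
    S.Inv blue (t + 1) tb (P.1, S.e2 t) ⟨T.y0, T.x0, T.ys, S.e2 t :: T.xs⟩ where
  lt_t := by have := h.lt_t; omega
  le_H := hH
  low := h.low
  ex := h.ex
  ey := h.ey
  hdy := h.hdy
  hdx := ⟨T.xs, rfl⟩
  lasty := h.lasty
  lastx := by
    obtain ⟨l, hl⟩ := h.lastx
    exact ⟨S.e2 t :: l, by simp only; rw [hl]; simp⟩
  bly := h.bly
  rdx := by
    intro z hz
    simp only [List.mem_cons] at hz
    rcases hz with hz | hz
    · rw [hz]; exact hr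
    · exact h.rdx z hz
  good0 := by
    intro z hz h1 h2
    simp only [List.mem_append, List.mem_cons] at hz
    rcases hz with hz | hz | hz
    · exact h.good0 z (by simp [hz]) h1 h2
    · rw [hz] at h1 h2 ⊢
      exact h.good_new_x hH he1.symm hr le_rfl h.lt_t h.good0 h1 h2
    · exact h.good0 z (by simp [hz]) h1 h2
  cy := by
    intro s hs
    obtain ⟨τ, h1, h2, h3, h4, h5⟩ := h.cy s hs
    refine ⟨τ, h1, by omega, h3, h4, ?_⟩
    intro z hz h6 h7
    simp only [List.mem_append, List.mem_cons] at hz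
    rcases hz with hz | hz | hz
    · exact h5 z (by simp [hz]) h6 h7
    · rw [hz] at h6 h7 ⊢
      exact h.good_new_x hH he1.symm hr h1 h2 h5 h6 h7
    · exact h5 z (by simp [hz]) h6 h7
  cx := by
    intro s hs
    obtain ⟨l, hl⟩ := h.hdx
    simp only at hs
    rw [hl, conseq_cons_cons, List.mem_cons] at hs
    rcases hs with hs | hs
    · refine ⟨t, le_of_lt h.lt_t, by omega, by rw [hs]; exact he1.symm, by rw [hs], ?_⟩
      intro z hz h1 h2
      simp only [List.mem_append, List.mem_cons] at hz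
      rcases hz with hz | hz | hz
      · exact h.good_old hM (Or.inr (Or.inr he1)) z (by simp [hz]) h1 h2
      · exact absurd hz h2
      · exact h.good_old hM (Or.inr (Or.inr he1)) z (by simp [hz]) h1 h2
    · rw [← hl] at hs
      obtain ⟨τ, h1, h2, h3, h4, h5⟩ := h.cx s hs
      refine ⟨τ, h1, by omega, h3, h4, ?_⟩
      intro z hz h6 h7
      simp only [List.mem_append, List.mem_cons] at hz
      rcases hz with hz | hz | hz
      · exact h5 z (by simp [hz]) h6 h7
      · rw [hz] at h6 h7 ⊢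
        exact h.good_new_x hH he1.symm hr h1 h2 h5 h6 h7
      · exact h5 z (by simp [hz]) h6 h7

end Inv

/-- a new token -/
theorem Inv.birth {t : ℕ} (hH : 0 < S.H) (h1 : ¬ blue (S.e1 t)) (h2 : blue (S.e2 t))
    (hl : S.Low blue t) :
    S.Inv blue (t + 1) t (S.e2 t, S.e1 t) ⟨S.e2 t, S.e1 t, [S.e2 t], [S.e1 t]⟩ where
  lt_t := by omega
  le_H := by omega
  low := hl
  ex := rfl
  ey := rfl
  hdy := ⟨[], rfl⟩
  hdx := ⟨[], rfl⟩
  lasty := ⟨[], rfl⟩
  lastx := ⟨[], rfl⟩
  bly := by simp [h2]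
  rdx := by simp [h1]
  good0 := by
    intro z hz c1 c2
    simp at hz
    rcases hz with hz | hz
    · exact absurd hz c2
    · exact absurd hz c1
  cy := by simp only [conseq_single, List.not_mem_nil, Order.lt_add_one_iff, List.cons_append, List.nil_append, List.mem_cons, or_false, ne_eq, forall_eq_or_imp, forall_eq, IsEmpty.forall_iff, implies_true]
  cx := by simp only [conseq_single, List.not_mem_nil, Order.lt_add_one_iff, List.cons_append, List.nil_append, List.mem_cons, or_false, ne_eq, forall_eq_or_imp, forall_eq, IsEmpty.forall_iff, implies_true]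

end Sweep

end Vale.Agent.P040.Zar
end
end
end

section

section

section

/-!
# The decomposition into polygons: combinatorial form
-/

namespace Vale.Agent.P040.Zar

theorem sum_upd {α β : Type*} [Fintype α] [DecidableEq α] (w : β → ℕ) (h : α → β) (Q : α) (v : β) :
    ∑ P, w (Function.update h Q v P) + w (h Q) = ∑ P, w (h P) + w v := by
  have e1 := Finset.add_sum_erase Finset.univ (fun P => w (Function.update h Q v P))
    (Finset.mem_univ Q)
  have e2 := Finset.add_sum_erase Finset.univ (fun P => w (h P)) (Finset.mem_univ Q)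
  have : ∑ x ∈ Finset.univ.erase Q, w (Function.update h Q v x) =
      ∑ x ∈ Finset.univ.erase Q, w (h x) := by
    apply Finset.sum_congr rfl
    intro x hx
    rw [Function.update_of_ne (Finset.ne_of_mem_erase hx)]
  simp only [Function.update_self] at e1
  omega

namespace Sweep

variable {B : Type*} (S : Sweep B) [Fintype B] (blue : B → Prop)

/-- a side of a polygon and the time at which it is drawn -/
def Cor (τ : ℕ) (s : B × B) : Prop :=
  ((blue s.1 ↔ blue s.2) ∧ s.1 = S.e2 τ ∧ s.2 = S.e1 τ) ∨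
  (¬ (blue s.1 ↔ blue s.2) ∧ s.1 = S.e1 τ ∧ s.2 = S.e2 τ)

/-- the property of the finished polygons -/
def PolyGood (L : List B) : Prop :=
  L.Nodup ∧ 3 ≤ L.length ∧ ∀ s ∈ sides L, ∃ τ, S.Cor blue τ s ∧
    ∀ z ∈ L, z ≠ s.1 → z ≠ s.2 → S.Good blue τ z

variable {blue}

theorem polyGood_of_inv {t tb : ℕ} {T : Tok B} (h : S.Inv blue t tb (S.e1 t, S.e2 t) T)
    (hM : S.M blue t (S.e1 t, S.e2 t)) (hH : t < tb + S.H) :
    S.PolyGood blue (T.ys.reverse ++ T.xs) := by
  have h1 : blue (S.e1 t) := h.bly _ h.mem_P1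
  have h2 : ¬ blue (S.e2 t) := h.rdx _ h.mem_P2
  have hmem : ∀ z, z ∈ T.ys.reverse ++ T.xs → z ∈ T.ys ++ T.xs := by
    intro z hz
    simpa using hz
  refine ⟨?_, ?_, ?_⟩
  · rw [List.nodup_append]
    refine ⟨List.nodup_reverse.2 h.nodup_y, h.nodup_x, ?_⟩
    intro a ha b hb hab
    rw [List.mem_reverse] at ha
    subst hab
    exact h.rdx _ hb (h.bly _ ha)
  · -- length at least three
    obtain ⟨l, hl⟩ := h.hdy
    obtain ⟨l', hl'⟩ := h.hdx
    by_contra hcon
    have hlen : l = [] ∧ l' = [] := by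
      rw [hl, hl'] at hcon
      simp only [List.length_append, List.length_reverse, List.length_cons] at hcon
      constructor
      · apply List.eq_nil_of_length_eq_zero; omega
      · apply List.eq_nil_of_length_eq_zero; omega
    have hy0 : T.y0 = S.e1 t := by
      have := h.mem_y0
      rw [hl, hlen.1] at this
      simpa using this
    have hx0 : T.x0 = S.e2 t := by
      have := h.mem_x0
      rw [hl', hlen.2] at this
      simpa using this
    have a1 := S.window tb (t + 1) (by have := h.lt_t; omega) hH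
    rw [← h.ex, ← h.ey, hy0, hx0] at a1
    exact S.asymm a1 (S.after t)
  · intro s hs
    obtain ⟨l, hl⟩ := h.hdy
    obtain ⟨l', hl'⟩ := h.hdx
    obtain ⟨k, hk⟩ := h.lasty
    obtain ⟨k', hk'⟩ := h.lastx
    rw [sides_poly (S.e1 t) (S.e2 t) T.y0 T.x0 T.ys T.xs l l' k k' hl hl' hk hk'] at hs
    simp only [List.mem_append, List.mem_map, List.mem_reverse, List.mem_cons,
      List.not_mem_nil, or_false] at hs
    have conseq_mem : ∀ (l : List B) (s : B × B), s ∈ conseq l → s.1 ∈ l ∧ s.2 ∈ l := by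
      intro l s hs
      have := List.of_mem_zip (a := s.1) (b := s.2) (l₁ := l) (l₂ := l.tail) hs
      exact ⟨this.1, List.mem_of_mem_tail this.2⟩
    rcases hs with ⟨s', hs', rfl⟩ | hs | hs | hs
    · obtain ⟨τ, c1, c2, c3, c4, c5⟩ := h.cy s' hs'
      have hm := conseq_mem _ _ hs'
      refine ⟨τ, Or.inl ⟨?_, c4.symm, c3.symm⟩, ?_⟩
      · simp [h.bly _ hm.1, h.bly _ hm.2]
      · intro z hz c6 c7
        simp only [Prod.fst_swap, Prod.snd_swap] at c6 c7
        exact c5 z (hmem z hz) (by rw [c3]; exact c7) (by rw [c4]; exact c6)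
    · refine ⟨t, Or.inr ⟨?_, by rw [hs], by rw [hs]⟩, ?_⟩
      · rw [hs]; simp [h1, h2]
      · intro z hz c6 c7
        rw [hs] at c6 c7
        exact h.good_old hM (Or.inl rfl) z (hmem z hz) c6 c7
    · obtain ⟨τ, c1, c2, c3, c4, c5⟩ := h.cx s hs
      have hm := conseq_mem _ _ hs
      refine ⟨τ, Or.inl ⟨?_, c4.symm, c3.symm⟩, ?_⟩
      · simp [h.rdx _ hm.1, h.rdx _ hm.2]
      · intro z hz c6 c7
        exact c5 z (hmem z hz) (by rw [c3]; exact c7) (by rw [c4]; exact c6)
    · refine ⟨tb, Or.inr ⟨?_, by rw [hs]; exact h.ex, by rw [hs]; exact h.ey⟩, ?_⟩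
      · rw [hs]; simp [h.bly _ h.mem_y0, h.rdx _ h.mem_x0]
      · intro z hz c6 c7
        rw [hs] at c6 c7
        exact h.good0 z (hmem z hz) (by rw [← h.ex]; exact c6) (by rw [← h.ey]; exact c7)

section steps

theorem hist_idle {t : ℕ} (hl : ¬ S.Low blue t) : S.hist blue (t + 1) = S.hist blue t := by
  simp [hist_succ, step, hl]

theorem fin_idle {t : ℕ} (hl : ¬ (S.Low blue t ∧ blue (S.e1 t) ∧ ¬ blue (S.e2 t))) :
    S.fin blue (t + 1) = S.fin blue t := by
  rw [fin_succ, if_neg hl]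

end steps

variable (blue)

/-- the full invariant of the process -/
structure State (t : ℕ) : Prop where
  supp : ∀ P, (S.hist blue t P).isSome ↔ S.M blue t P
  inv : ∀ P T, S.hist blue t P = some T → ∃ tb, S.Inv blue t tb P T
  good : ∀ L ∈ S.fin blue t, S.PolyGood blue L
  sum : ∀ f : B → B → ℕ, (∀ a b, f a b = f b a) →
    ∑ P, (S.hist blue t P).elim 0 (Tok.val f) + ((S.fin blue t).map (ssum f)).sum =
      ∑ s ∈ Finset.range t, by classical exact if S.Low blue s then f (S.e1 s) (S.e2 s) else 0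
  count : ∑ P, (S.hist blue t P).elim 0 (fun _ => 1) + 2 * (S.fin blue t).length =
      ∑ s ∈ Finset.range t, by
        classical exact if S.Low blue s ∧ ¬ (blue (S.e1 s) ↔ blue (S.e2 s)) then 1 else 0

variable {blue}

theorem State.step_idle {t : ℕ} (h : S.State blue t) (hl : ¬ S.Low blue t)
    (hM : ∀ P, S.M blue (t + 1) P ↔ S.M blue t P)
    (hcnt : cnt blue < cnt (fun y => ¬ blue y)) : S.State blue (t + 1) where
  supp := by
    intro P; rw [S.hist_idle hl, hM]; exact h.supp P
  inv := by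
    intro P T hT
    rw [S.hist_idle hl] at hT
    obtain ⟨tb, hI⟩ := h.inv P T hT
    have : S.M blue t P := (h.supp P).1 (by rw [hT]; rfl)
    exact ⟨tb, hI.stay (hI.lt_H this hcnt)⟩
  good := by
    rw [S.fin_idle (by tauto)]; exact h.good
  sum := by
    intro f hf
    rw [S.hist_idle hl, S.fin_idle (by tauto), Finset.sum_range_succ, ← h.sum f hf]
    simp only [hl, ↓reduceIte, add_zero, Nat.add_left_cancel_iff]
  count := by
    rw [S.hist_idle hl, S.fin_idle (by tauto), Finset.sum_range_succ, ← h.count]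
    simp only [hl, false_and, ↓reduceIte, add_zero, Nat.add_left_cancel_iff]

theorem State.step_birth {t : ℕ} (h : S.State blue t) (hl : S.Low blue t)
    (h1 : ¬ blue (S.e1 t)) (h2 : blue (S.e2 t)) (hH : 0 < S.H)
    (hcnt : cnt blue < cnt (fun y => ¬ blue y)) : S.State blue (t + 1) := by
  classical
  obtain ⟨m1, m2, m3⟩ := S.M_RB h1 h2
  have hh : S.hist blue (t + 1) = Function.update (S.hist blue t) (S.e2 t, S.e1 t)
      (some ⟨S.e2 t, S.e1 t, [S.e2 t], [S.e1 t]⟩) := by
    simp only [hist_succ, step, hl, h1, h2, if_true, if_false]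
  have hf : S.fin blue (t + 1) = S.fin blue t := S.fin_idle (by (clear * - m2 h1; tauto))
  have hnone : S.hist blue t (S.e2 t, S.e1 t) = none := by
    have := h.supp (S.e2 t, S.e1 t)
    rw [← Option.not_isSome_iff_eq_none, this]; exact m1
  constructor
  · intro P
    rw [hh]
    by_cases hP : P = (S.e2 t, S.e1 t)
    · rw [hP, Function.update_self]; simp [m2, hl]
    · rw [Function.update_of_ne hP, h.supp, m3 P hP]
  · intro P T hT
    rw [hh] at hT
    by_cases hP : P = (S.e2 t, S.e1 t)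
    · rw [hP, Function.update_self] at hT
      have hT' := Option.some.inj hT
      rw [hP, ← hT']
      exact ⟨t, Inv.birth S hH h1 h2 hl⟩
    · rw [Function.update_of_ne hP] at hT
      obtain ⟨tb, hI⟩ := h.inv P T hT
      have : S.M blue t P := (h.supp P).1 (by rw [hT]; rfl)
      exact ⟨tb, hI.stay (hI.lt_H this hcnt)⟩
  · rw [hf]; exact h.good
  · intro f hff
    rw [hf, Finset.sum_range_succ, ← h.sum f hff, hh]
    have := sum_upd (fun o : Option (Tok B) => o.elim 0 (Tok.val f)) (S.hist blue t)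
      (S.e2 t, S.e1 t) (some ⟨S.e2 t, S.e1 t, [S.e2 t], [S.e1 t]⟩)
    simp only [hnone, Option.elim] at this
    simp only [hl, if_true]
    have h3 : Tok.val f ⟨S.e2 t, S.e1 t, [S.e2 t], [S.e1 t]⟩ = f (S.e1 t) (S.e2 t) := by
      simp [Tok.val, csum]
    rw [h3] at this
    simp only [Option.elim]
    omega
  · rw [hf, Finset.sum_range_succ, ← h.count, hh]
    have := sum_upd (fun o : Option (Tok B) => o.elim 0 (fun _ => 1)) (S.hist blue t)
      (S.e2 t, S.e1 t) (some ⟨S.e2 t, S.e1 t, [S.e2 t], [S.e1 t]⟩)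
    simp only [hnone, Option.elim] at this
    simp only [hl, h1, h2, true_and, false_iff, not_true, not_false_eq_true, if_true]
    simp only [Option.elim]
    omega

theorem State.step_death {t : ℕ} (h : S.State blue t) (hl : S.Low blue t)
    (h1 : blue (S.e1 t)) (h2 : ¬ blue (S.e2 t))
    (hcnt : cnt blue < cnt (fun y => ¬ blue y)) : S.State blue (t + 1) := by
  classical
  obtain ⟨m1, m2, m3⟩ := S.M_BR h1 h2
  have hh : S.hist blue (t + 1) = Function.update (S.hist blue t) (S.e1 t, S.e2 t) none := by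
    simp only [hist_succ, step, hl, h1, h2, if_true, if_false]
  have hMt : S.M blue t (S.e1 t, S.e2 t) := m2.2 hl
  obtain ⟨T, hT⟩ : ∃ T, S.hist blue t (S.e1 t, S.e2 t) = some T := by
    have := (h.supp (S.e1 t, S.e2 t)).2 hMt
    exact Option.isSome_iff_exists.1 this
  have hf : S.fin blue (t + 1) = (T.ys.reverse ++ T.xs) :: S.fin blue t := by
    rw [fin_succ, if_pos ⟨hl, h1, h2⟩, hT]; rfl
  obtain ⟨tb, hI⟩ := h.inv _ _ hT
  have hHt := hI.lt_H hMt hcnt
  constructor
  · intro P
    rw [hh]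
    by_cases hP : P = (S.e1 t, S.e2 t)
    · rw [hP, Function.update_self]; simp [m1]
    · rw [Function.update_of_ne hP, h.supp, m3 P hP]
  · intro P T' hT'
    rw [hh] at hT'
    by_cases hP : P = (S.e1 t, S.e2 t)
    · rw [hP, Function.update_self] at hT'
      exact absurd hT' (by simp)
    · rw [Function.update_of_ne hP] at hT'
      obtain ⟨tb, hI⟩ := h.inv P T' hT'
      have : S.M blue t P := (h.supp P).1 (by rw [hT']; rfl)
      exact ⟨tb, hI.stay (hI.lt_H this hcnt)⟩
  · rw [hf]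
    intro L hL
    rw [List.mem_cons] at hL
    rcases hL with hL | hL
    · rw [hL]; exact S.polyGood_of_inv hI hMt hHt
    · exact h.good L hL
  · intro f hff
    rw [hf, Finset.sum_range_succ, ← h.sum f hff, hh]
    have := sum_upd (fun o : Option (Tok B) => o.elim 0 (Tok.val f)) (S.hist blue t)
      (S.e1 t, S.e2 t) none
    simp only [hT, Option.elim] at this
    simp only [hl, if_true]
    obtain ⟨l, hl1⟩ := hI.hdy
    obtain ⟨l', hl'⟩ := hI.hdx
    obtain ⟨k, hk⟩ := hI.lasty
    obtain ⟨k', hk'⟩ := hI.lastx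
    have h3 := ssum_poly f hff (S.e1 t) (S.e2 t) T.y0 T.x0 T.ys T.xs l l' k k' hl1 hl' hk hk'
    have h4 : Tok.val f T = csum f T.ys + csum f T.xs + f T.x0 T.y0 := rfl
    simp only [Option.elim, List.map_cons, List.sum_cons]
    omega
  · rw [hf, Finset.sum_range_succ, ← h.count, hh]
    have := sum_upd (fun o : Option (Tok B) => o.elim 0 (fun _ => 1)) (S.hist blue t)
      (S.e1 t, S.e2 t) none
    simp only [hT, Option.elim] at this
    simp only [hl, h1, h2, true_and, iff_false, not_true, not_false_eq_true, if_true]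
    simp only [Option.elim, List.length_cons]
    omega

theorem State.step_BB {t : ℕ} (h : S.State blue t) (hl : S.Low blue t)
    (h1 : blue (S.e1 t)) (h2 : blue (S.e2 t))
    (hcnt : cnt blue < cnt (fun y => ¬ blue y)) : S.State blue (t + 1) := by
  classical
  obtain ⟨x, hx, hxr, m1, m2, m3, m4, m5⟩ := S.M_BB_low (le_of_lt hcnt) h1 h2 hl
  have hxs := S.xst_eq hx hxr
  have hh : S.hist blue (t + 1) =
      Function.update (Function.update (S.hist blue t) (S.e2 t, x) none) (S.e1 t, x)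
        ((S.hist blue t (S.e2 t, x)).map (fun T => ⟨T.y0, T.x0, S.e1 t :: T.ys, T.xs⟩)) := by
    simp only [hist_succ, step, hl, h1, h2, if_true, hxs]
  obtain ⟨T, hT⟩ : ∃ T, S.hist blue t (S.e2 t, x) = some T :=
    Option.isSome_iff_exists.1 ((h.supp _).2 m1)
  have hnone : S.hist blue t (S.e1 t, x) = none := by
    rw [← Option.not_isSome_iff_eq_none, h.supp]; exact m2
  rw [hT] at hh
  simp only [Option.map_some] at hh
  have hf : S.fin blue (t + 1) = S.fin blue t := S.fin_idle (by (clear * - h2; tauto))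
  obtain ⟨tb, hI⟩ := h.inv _ _ hT
  have hHt := hI.lt_H m1 hcnt
  have hne : (S.e1 t, x) ≠ (S.e2 t, x) := by
    intro hc; exact S.e_ne t (congrArg Prod.fst hc)
  constructor
  · intro P
    rw [hh]
    by_cases hP : P = (S.e1 t, x)
    · rw [hP, Function.update_self]; simp [m3]
    · rw [Function.update_of_ne hP]
      by_cases hP2 : P = (S.e2 t, x)
      · rw [hP2, Function.update_self]; simp [m4]
      · rw [Function.update_of_ne hP2, h.supp, m5 P hP hP2]
  · intro P T' hT'
    rw [hh] at hT'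
    by_cases hP : P = (S.e1 t, x)
    · rw [hP, Function.update_self] at hT'
      have hT'' := Option.some.inj hT'
      rw [hP, ← hT'']
      exact ⟨tb, hI.moveB m1 hHt rfl h1⟩
    · rw [Function.update_of_ne hP] at hT'
      by_cases hP2 : P = (S.e2 t, x)
      · rw [hP2, Function.update_self] at hT'
        exact absurd hT' (by simp)
      · rw [Function.update_of_ne hP2] at hT'
        obtain ⟨tb, hI⟩ := h.inv P T' hT'
        have : S.M blue t P := (h.supp P).1 (by rw [hT']; rfl)
        exact ⟨tb, hI.stay (hI.lt_H this hcnt)⟩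
  · rw [hf]; exact h.good
  · intro f hff
    rw [hf, Finset.sum_range_succ, ← h.sum f hff, hh]
    have s1 := sum_upd (fun o : Option (Tok B) => o.elim 0 (Tok.val f))
      (Function.update (S.hist blue t) (S.e2 t, x) none)
      (S.e1 t, x) (some ⟨T.y0, T.x0, S.e1 t :: T.ys, T.xs⟩)
    have s2 := sum_upd (fun o : Option (Tok B) => o.elim 0 (Tok.val f)) (S.hist blue t)
      (S.e2 t, x) none
    rw [Function.update_of_ne hne, hnone] at s1
    rw [hT] at s2
    simp only [Option.elim] at s1 s2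
    simp only [hl, if_true]
    obtain ⟨l, hl1⟩ := hI.hdy
    have h3 : Tok.val f ⟨T.y0, T.x0, S.e1 t :: T.ys, T.xs⟩ =
        f (S.e1 t) (S.e2 t) + Tok.val f T := by
      simp only [Tok.val]
      rw [hl1, csum_cons_cons]
      ring
    rw [h3] at s1
    simp only [Option.elim]
    omega
  · rw [hf, Finset.sum_range_succ, ← h.count, hh]
    have s1 := sum_upd (fun o : Option (Tok B) => o.elim 0 (fun _ => 1))
      (Function.update (S.hist blue t) (S.e2 t, x) none)
      (S.e1 t, x) (some ⟨T.y0, T.x0, S.e1 t :: T.ys, T.xs⟩)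
    have s2 := sum_upd (fun o : Option (Tok B) => o.elim 0 (fun _ => 1)) (S.hist blue t)
      (S.e2 t, x) none
    rw [Function.update_of_ne hne, hnone] at s1
    rw [hT] at s2
    simp only [Option.elim] at s1 s2
    simp only [hl, h1, h2, iff_true, not_true, and_false, if_false]
    simp only [Option.elim]
    omega

theorem State.step_RR {t : ℕ} (h : S.State blue t) (hl : S.Low blue t)
    (h1 : ¬ blue (S.e1 t)) (h2 : ¬ blue (S.e2 t))
    (hcnt : cnt blue < cnt (fun y => ¬ blue y)) : S.State blue (t + 1) := by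
  classical
  obtain ⟨y, hy, hyr, m1, m2, m3, m4, m5⟩ := S.M_RR_low h1 h2 hl
  have hys := S.yst_eq hy hyr
  have hh : S.hist blue (t + 1) =
      Function.update (Function.update (S.hist blue t) (y, S.e1 t) none) (y, S.e2 t)
        ((S.hist blue t (y, S.e1 t)).map (fun T => ⟨T.y0, T.x0, T.ys, S.e2 t :: T.xs⟩)) := by
    simp only [hist_succ, step, hl, h1, h2, if_true, if_false, hys]
  obtain ⟨T, hT⟩ : ∃ T, S.hist blue t (y, S.e1 t) = some T :=
    Option.isSome_iff_exists.1 ((h.supp _).2 m1)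
  have hnone : S.hist blue t (y, S.e2 t) = none := by
    rw [← Option.not_isSome_iff_eq_none, h.supp]; exact m2
  rw [hT] at hh
  simp only [Option.map_some] at hh
  have hf : S.fin blue (t + 1) = S.fin blue t := S.fin_idle (by (clear * - h1; tauto))
  obtain ⟨tb, hI⟩ := h.inv _ _ hT
  have hHt := hI.lt_H m1 hcnt
  have hne : (y, S.e2 t) ≠ (y, S.e1 t) := by
    intro hc; exact S.e_ne t (congrArg Prod.snd hc).symm
  constructor
  · intro P
    rw [hh]
    by_cases hP : P = (y, S.e2 t)
    · rw [hP, Function.update_self]; simp [m3]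
    · rw [Function.update_of_ne hP]
      by_cases hP2 : P = (y, S.e1 t)
      · rw [hP2, Function.update_self]; simp [m4]
      · rw [Function.update_of_ne hP2, h.supp, m5 P hP2 hP]
  · intro P T' hT'
    rw [hh] at hT'
    by_cases hP : P = (y, S.e2 t)
    · rw [hP, Function.update_self] at hT'
      have hT'' := Option.some.inj hT'
      rw [hP, ← hT'']
      exact ⟨tb, hI.moveR m1 hHt rfl h2⟩
    · rw [Function.update_of_ne hP] at hT'
      by_cases hP2 : P = (y, S.e1 t)
      · rw [hP2, Function.update_self] at hT'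
        exact absurd hT' (by simp)
      · rw [Function.update_of_ne hP2] at hT'
        obtain ⟨tb, hI⟩ := h.inv P T' hT'
        have : S.M blue t P := (h.supp P).1 (by rw [hT']; rfl)
        exact ⟨tb, hI.stay (hI.lt_H this hcnt)⟩
  · rw [hf]; exact h.good
  · intro f hff
    rw [hf, Finset.sum_range_succ, ← h.sum f hff, hh]
    have s1 := sum_upd (fun o : Option (Tok B) => o.elim 0 (Tok.val f))
      (Function.update (S.hist blue t) (y, S.e1 t) none)
      (y, S.e2 t) (some ⟨T.y0, T.x0, T.ys, S.e2 t :: T.xs⟩)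
    have s2 := sum_upd (fun o : Option (Tok B) => o.elim 0 (Tok.val f)) (S.hist blue t)
      (y, S.e1 t) none
    rw [Function.update_of_ne hne, hnone] at s1
    rw [hT] at s2
    simp only [Option.elim] at s1 s2
    simp only [hl, if_true]
    obtain ⟨l, hl1⟩ := hI.hdx
    have h3 : Tok.val f ⟨T.y0, T.x0, T.ys, S.e2 t :: T.xs⟩ =
        f (S.e1 t) (S.e2 t) + Tok.val f T := by
      simp only [Tok.val]
      rw [hl1, csum_cons_cons, hff (S.e2 t)]
      ring
    rw [h3] at s1
    simp only [Option.elim]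
    omega
  · rw [hf, Finset.sum_range_succ, ← h.count, hh]
    have s1 := sum_upd (fun o : Option (Tok B) => o.elim 0 (fun _ => 1))
      (Function.update (S.hist blue t) (y, S.e1 t) none)
      (y, S.e2 t) (some ⟨T.y0, T.x0, T.ys, S.e2 t :: T.xs⟩)
    have s2 := sum_upd (fun o : Option (Tok B) => o.elim 0 (fun _ => 1)) (S.hist blue t)
      (y, S.e1 t) none
    rw [Function.update_of_ne hne, hnone] at s1
    rw [hT] at s2
    simp only [Option.elim] at s1 s2
    simp only [hl, h1, h2, not_true, and_false, if_false]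
    simp only [Option.elim]
    omega

/-- the state at all times -/
theorem state (hM0 : ∀ P, ¬ S.M blue 0 P) (hH : 0 < S.H)
    (hcnt : cnt blue < cnt (fun y => ¬ blue y)) (t : ℕ) : S.State blue t := by
  induction t with
  | zero =>
    constructor
    · intro P; simp [hist_zero, hM0]
    · intro P T hT; simp [hist_zero] at hT
    · intro L hL; simp [fin_zero] at hL
    · intro f _; simp only [hist_zero, Option.elim_none, Finset.sum_const_zero, fin_zero, List.map_nil, List.sum_nil, add_zero, Finset.range_zero, Finset.sum_empty]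
    · simp only [hist_zero, Option.elim_none, Finset.sum_const_zero, fin_zero, List.length_nil, mul_zero, add_zero, Finset.range_zero, Finset.sum_boole, Finset.filter_empty, Finset.card_empty, CharP.cast_eq_zero]
  | succ t ih =>
    by_cases hl : S.Low blue t
    · by_cases h1 : blue (S.e1 t)
      · by_cases h2 : blue (S.e2 t)
        · exact ih.step_BB S hl h1 h2 hcnt
        · exact ih.step_death S hl h1 h2 hcnt
      · by_cases h2 : blue (S.e2 t)
        · exact ih.step_birth S hl h1 h2 hH hcnt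
        · exact ih.step_RR S hl h1 h2 hcnt
    · refine ih.step_idle S hl ?_ hcnt
      by_cases h1 : blue (S.e1 t)
      · by_cases h2 : blue (S.e2 t)
        · exact S.M_BB_high h1 h2 hl
        · obtain ⟨m1, m2, m3⟩ := S.M_BR h1 h2
          intro P
          by_cases hP : P = (S.e1 t, S.e2 t)
          · rw [hP]; simp [m1, m2, hl]
          · exact m3 P hP
      · by_cases h2 : blue (S.e2 t)
        · obtain ⟨m1, m2, m3⟩ := S.M_RB h1 h2
          intro P
          by_cases hP : P = (S.e2 t, S.e1 t)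
          · rw [hP]; simp [m1, m2, hl]
          · exact m3 P hP
        · exact S.M_RR_high h1 h2 hl

/-- counting blue elements from both ends, at a red element -/
theorem bl_anti_red {t : ℕ} {z : B} (hz : ¬ blue z) :
    S.bl blue (t + S.H) z + S.bl blue t z = cnt blue := by
  classical
  have h1 : (Finset.univ.filter blue) =
      (Finset.univ.filter (fun y => blue y ∧ S.lt (t + S.H) y z)) ∪
        (Finset.univ.filter (fun y => blue y ∧ S.lt t y z)) := by
    ext y
    simp only [Finset.mem_filter, Finset.mem_univ, true_and, Finset.mem_union]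
    constructor
    · intro hy
      have hyz : y ≠ z := by rintro rfl; exact hz hy
      rcases S.total t y z hyz with h | h
      · exact Or.inr ⟨hy, h⟩
      · exact Or.inl ⟨hy, (S.anti t _ _).2 h⟩
    · rintro (⟨h, _⟩ | ⟨h, _⟩)
      · exact h
      · exact h
  have h3 : Disjoint (Finset.univ.filter (fun y => blue y ∧ S.lt (t + S.H) y z))
        (Finset.univ.filter (fun y => blue y ∧ S.lt t y z)) := by
    rw [Finset.disjoint_left]
    intro y
    simp only [Finset.mem_filter, Finset.mem_univ, true_and]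
    rintro ⟨_, a⟩ ⟨_, b⟩
    exact S.asymm b ((S.anti t _ _).1 a)
  have h4 := congrArg Finset.card h1
  rw [Finset.card_union_of_disjoint h3] at h4
  unfold bl cnt
  convert h4.symm using 2

theorem rd_anti_blue {t : ℕ} {z : B} (hz : blue z) :
    S.rd blue (t + S.H) z + S.rd blue t z = cnt (fun y => ¬ blue y) :=
  S.bl_anti_red (blue := fun y => ¬ blue y) (not_not.2 hz)

/-- exactly one of two opposite flips is low -/
theorem low_anti (hcnt : cnt (fun y => ¬ blue y) = cnt blue + 1) (t : ℕ) :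
    S.Low blue (t + S.H) ↔ ¬ S.Low blue t := by
  obtain ⟨a1, a2⟩ := S.e_anti t
  by_cases h1 : blue (S.e1 t)
  · have b3 := S.bl_e2_blue (t := t) h1
    have b4 := S.rd_e2_blue (t := t) h1
    by_cases h2 : blue (S.e2 t)
    · rw [S.low_BB h1 h2, S.low_BB (by rw [a1]; exact h2) (by rw [a2]; exact h1), a1]
      have b1 := S.bl_anti_blue (t := t) h2
      have b2 := S.rd_anti_blue (t := t) h2
      omega
    · rw [S.low_BR h1 h2, S.low_RB (by rw [a1]; exact h2) (by rw [a2]; exact h1), a1]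
      have b1 := S.bl_anti_red (t := t) h2
      have b2 := S.rd_anti_red (t := t) h2
      omega
  · have b3 := S.bl_e2_red (t := t) h1
    have b4 := S.rd_e2_red (t := t) h1
    by_cases h2 : blue (S.e2 t)
    · rw [S.low_RB h1 h2, S.low_BR (by rw [a1]; exact h2) (by rw [a2]; exact h1), a1]
      have b1 := S.bl_anti_blue (t := t) h2
      have b2 := S.rd_anti_blue (t := t) h2
      omega
    · rw [S.low_RR h1 h2, S.low_RR (by rw [a1]; exact h2) (by rw [a2]; exact h1), a1]
      have b1 := S.bl_anti_red (t := t) h2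
      have b2 := S.rd_anti_red (t := t) h2
      omega

/-- sum over a full period of the low flips -/
theorem sum_low (hcnt : cnt (fun y => ¬ blue y) = cnt blue + 1) (g : B → B → ℕ)
    (hg : ∀ a b, g a b = g b a) :
    (∑ s ∈ Finset.range (S.H + S.H), by
      classical exact if S.Low blue s then g (S.e1 s) (S.e2 s) else 0) =
    ∑ s ∈ Finset.range S.H, g (S.e1 s) (S.e2 s) := by
  classical
  rw [Finset.sum_range_add, ← Finset.sum_add_distrib]
  apply Finset.sum_congr rfl
  intro s _
  obtain ⟨a1, a2⟩ := S.e_anti s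
  rw [show S.H + s = s + S.H by ring, a1, a2]
  by_cases hl : S.Low blue s
  · simp [hl, S.low_anti hcnt]
  · simp [hl, S.low_anti hcnt, hg (S.e2 s)]

/-- The decomposition theorem, combinatorial form. -/
theorem decomp (hM0 : ∀ P, ¬ S.M blue 0 P) (hH : 0 < S.H)
    (hcnt : cnt (fun y => ¬ blue y) = cnt blue + 1) :
    ∃ Ps : List (List B), (∀ L ∈ Ps, S.PolyGood blue L) ∧
      (∀ f : B → B → ℕ, (∀ a b, f a b = f b a) →
        (Ps.map (ssum f)).sum = ∑ s ∈ Finset.range S.H, f (S.e1 s) (S.e2 s)) ∧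
      2 * Ps.length = ∑ s ∈ Finset.range S.H, by
        classical exact if ¬ (blue (S.e1 s) ↔ blue (S.e2 s)) then 1 else 0 := by
  classical
  have hst := S.state hM0 hH (by omega) (S.H + S.H)
  -- no token is alive after a full period
  have hMend : ∀ P, ¬ S.M blue (S.H + S.H) P := by
    intro P hP
    apply hM0 P
    obtain ⟨c1, c2, c3, c4⟩ := hP
    have key : ∀ u v, S.lt (S.H + S.H) u v ↔ S.lt 0 u v := by
      intro u v
      rw [S.anti S.H u v]
      have := S.anti 0 v u
      rw [Nat.zero_add] at this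
      exact this
    have kb : ∀ z, S.bl blue (S.H + S.H) z = S.bl blue 0 z := by
      intro z; unfold bl; congr 1; ext y; simp only [key, Finset.mem_filter, Finset.mem_univ, true_and]
    have kr : ∀ z, S.rd blue (S.H + S.H) z = S.rd blue 0 z := by
      intro z; unfold rd bl; congr 1; ext y; simp only [key, Finset.mem_filter, Finset.mem_univ, true_and]
    refine ⟨c1, c2, (key _ _).1 c3, ?_⟩
    rw [← kb, ← kr]; exact c4
  have hnone : ∀ P, S.hist blue (S.H + S.H) P = none := by
    intro P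
    rw [← Option.not_isSome_iff_eq_none, hst.supp]; exact hMend P
  refine ⟨S.fin blue (S.H + S.H), hst.good, ?_, ?_⟩
  · intro f hf
    have h1 := hst.sum f hf
    rw [S.sum_low hcnt f hf] at h1
    simpa only [hnone, Option.elim_none, Finset.sum_const_zero, zero_add] using h1
  · have h1 := hst.count
    have h2 := S.sum_low hcnt (fun a b => if ¬ (blue a ↔ blue b) then 1 else 0)
      (fun a b => by simp only [iff_comm])
    rw [← h2]
    simp only [hnone, Option.elim, Finset.sum_const_zero, zero_add] at h1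
    rw [h1]
    apply Finset.sum_congr rfl
    intro s _
    by_cases c1 : S.Low blue s
    · simp [c1]
    · simp [c1]

end Sweep

end Vale.Agent.P040.Zar
end
end
end

section

section

section

/-!
# The sweep of a planar point set
-/

namespace Vale.Agent.P040.Zar

variable {n : ℕ}

/-- the time at which `p` and `q` are flipped -/
noncomputable def TT (u v : Fin n → ℝ) (p q : Fin n) : ℝ := (v p - v q) / (u p - u q)

theorem TT_symm (u v : Fin n → ℝ) (p q : Fin n) : TT u v p q = TT u v q p := by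
  unfold TT
  rw [← neg_sub (v q) (v p), ← neg_sub (u q) (u p), neg_div_neg_eq]

theorem TT_diff (u v : Fin n → ℝ) {p q : Fin n} (h : u p ≠ u q) (t : ℝ) :
    (v p - t * u p) - (v q - t * u q) = (u p - u q) * (TT u v p q - t) := by
  have : u p - u q ≠ 0 := sub_ne_zero.2 h
  unfold TT
  field_simp
  ring

/-- an enumeration of the pairs in the order of their times -/
structure TauData (u v : Fin n → ℝ) (H : ℕ) (τ : Fin n → Fin n → ℕ) : Prop where
  symm : ∀ p q, τ p q = τ q p
  lt : ∀ p q, p ≠ q → τ p q < H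
  inj : ∀ p q r s, p ≠ q → r ≠ s → τ p q = τ r s → (p = r ∧ q = s) ∨ (p = s ∧ q = r)
  mono : ∀ p q r s, p ≠ q → r ≠ s → TT u v p q < TT u v r s → τ p q < τ r s
  surj : ∀ s < H, ∃ p q, p ≠ q ∧ τ p q = s
  sum : ∀ f : Fin n → Fin n → ℕ, (∀ a b, f a b = f b a) → ∀ a b : ℕ → Fin n,
    (∀ s < H, a s ≠ b s ∧ τ (a s) (b s) = s) →
    ∑ s ∈ Finset.range H, f (a s) (b s) =
      ∑ p ∈ Finset.univ.filter (fun p : Fin n × Fin n => p.1 < p.2), f p.1 p.2

theorem exists_tau (u v : Fin n → ℝ) : ∃ H τ, TauData u v H τ := by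
  classical
  let PP := {p : Fin n × Fin n // p.1 < p.2}
  let H := Fintype.card PP
  let e0 : Fin H ≃ PP := (Fintype.equivFin PP).symm
  let T : PP → ℝ := fun p => TT u v p.1.1 p.1.2
  let e : Fin H ≃ PP := (Tuple.sort (T ∘ e0)).trans e0
  have hmono : Monotone (T ∘ e) := Tuple.monotone_sort (T ∘ e0)
  let τ : Fin n → Fin n → ℕ := fun p q =>
    if h : p < q then (e.symm ⟨(p, q), h⟩ : ℕ) else
      if h : q < p then (e.symm ⟨(q, p), h⟩ : ℕ) else 0
  have τ1 : ∀ p q (h : p < q), τ p q = (e.symm ⟨(p, q), h⟩ : ℕ) := by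
    intro p q h; simp only [τ, h, dite_true]
  have τ2 : ∀ p q (h : q < p), τ p q = (e.symm ⟨(q, p), h⟩ : ℕ) := by
    intro p q h; simp only [τ, h, dite_true, not_lt_of_gt h, dite_false]
  have hsymm : ∀ p q, τ p q = τ q p := by
    intro p q
    rcases lt_trichotomy p q with h | h | h
    · rw [τ1 p q h, τ2 q p h]
    · rw [h]
    · rw [τ2 p q h, τ1 q p h]
  -- canonical form
  have hcan : ∀ p q, p ≠ q → ∃ s : PP, τ p q = (e.symm s : ℕ) ∧ T s = TT u v p q ∧
      ((s.1.1 = p ∧ s.1.2 = q) ∨ (s.1.1 = q ∧ s.1.2 = p)) := by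
    intro p q h
    rcases lt_or_gt_of_ne h with h | h
    · exact ⟨⟨(p, q), h⟩, τ1 p q h, rfl, Or.inl ⟨rfl, rfl⟩⟩
    · exact ⟨⟨(q, p), h⟩, τ2 p q h, TT_symm u v q p, Or.inr ⟨rfl, rfl⟩⟩
  have hinj : ∀ p q r s, p ≠ q → r ≠ s → τ p q = τ r s → (p = r ∧ q = s) ∨ (p = s ∧ q = r) := by
    intro p q r s hpq hrs h
    obtain ⟨a, a1, _, a3⟩ := hcan p q hpq
    obtain ⟨b, b1, _, b3⟩ := hcan r s hrs
    rw [a1, b1] at h
    have hab : a = b := e.symm.injective (Fin.ext h)
    subst hab
    rcases a3 with ⟨c1, c2⟩ | ⟨c1, c2⟩ <;> rcases b3 with ⟨c3, c4⟩ | ⟨c3, c4⟩ <;>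
      rw [← c1, ← c2, ← c3, ← c4] <;> simp
  refine ⟨H, τ, hsymm, ?_, hinj, ?_, ?_, ?_⟩
  · intro p q h
    obtain ⟨a, a1, _, _⟩ := hcan p q h
    rw [a1]; exact (e.symm a).2
  · intro p q r s hpq hrs h
    obtain ⟨a, a1, a2, a3⟩ := hcan p q hpq
    obtain ⟨b, b1, b2, b3⟩ := hcan r s hrs
    rw [a1, b1]
    by_contra hcon
    have : e.symm b ≤ e.symm a := by
      rw [Fin.le_def]; omega
    have h1 := hmono this
    simp only [Function.comp_apply, Equiv.apply_symm_apply] at h1
    rw [a2, b2] at h1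
    exact absurd h (not_lt.2 h1)
  · intro s hs
    refine ⟨(e ⟨s, hs⟩).1.1, (e ⟨s, hs⟩).1.2, ne_of_lt (e ⟨s, hs⟩).2, ?_⟩
    rw [τ1 _ _ (e ⟨s, hs⟩).2]
    simp
  · intro f hf a b hab
    have h1 : ∑ s ∈ Finset.range H, f (a s) (b s) = ∑ s : Fin H, f (a s) (b s) := by
      rw [Fin.sum_univ_eq_sum_range (fun s => f (a s) (b s))]
    rw [h1]
    have h2 : ∑ s : Fin H, f (a s) (b s) = ∑ s : Fin H, f (e s).1.1 (e s).1.2 := by
      apply Finset.sum_congr rfl
      intro s _
      obtain ⟨c1, c2⟩ := hab s s.2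
      have c3 : τ (e s).1.1 (e s).1.2 = s := by
        rw [τ1 _ _ (e s).2]; simp
      rcases hinj _ _ _ _ c1 (ne_of_lt (e s).2) (c2.trans c3.symm) with ⟨d1, d2⟩ | ⟨d1, d2⟩
      · rw [d1, d2]
      · rw [d1, d2, hf]
    rw [h2, Equiv.sum_comp e (fun p : PP => f p.1.1 p.1.2)]
    rw [← Finset.sum_subtype_eq_sum_filter]
    simp only [Finset.subtype_univ]
    rfl

/-- number of flips of the pair with index `k` before time `t` -/
def fc (H t k : ℕ) : ℕ := t / H + if k < t % H then 1 else 0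

theorem fc_succ {H : ℕ} (hH : 0 < H) (t k : ℕ) (hk : k < H) :
    fc H (t + 1) k = fc H t k + if k = t % H then 1 else 0 := by
  unfold fc
  obtain ⟨j, r, hr, rfl⟩ : ∃ j r, r < H ∧ t = H * j + r :=
    ⟨t / H, t % H, Nat.mod_lt _ hH, (Nat.div_add_mod t H).symm⟩
  have h1 : (H * j + r) / H = j := by
    rw [Nat.mul_add_div hH, Nat.div_eq_of_lt hr, add_zero]
  have h2 : (H * j + r) % H = r := by
    rw [Nat.mul_add_mod, Nat.mod_eq_of_lt hr]
  rw [h1, h2]
  by_cases hr1 : r + 1 < H
  · have h3 : (H * j + r + 1) / H = j := by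
      rw [add_assoc, Nat.mul_add_div hH, Nat.div_eq_of_lt hr1, add_zero]
    have h4 : (H * j + r + 1) % H = r + 1 := by
      rw [add_assoc, Nat.mul_add_mod, Nat.mod_eq_of_lt hr1]
    rw [h3, h4]
    split_ifs <;> omega
  · have h5 : r + 1 = H := by omega
    have h6 : H * j + r + 1 = H * (j + 1) + 0 := by rw [add_assoc, h5]; ring
    have h3 : (H * j + r + 1) / H = j + 1 := by
      rw [h6, Nat.mul_add_div hH]; simp
    have h4 : (H * j + r + 1) % H = 0 := by
      rw [h6, Nat.mul_add_mod]; simp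
    rw [h3, h4]
    split_ifs <;> omega

theorem fc_add_H {H : ℕ} (hH : 0 < H) (t k : ℕ) : fc H (t + H) k = fc H t k + 1 := by
  unfold fc
  rw [Nat.add_div_right t hH, Nat.add_mod_right]
  omega

theorem fc_mono {H : ℕ} (hH : 0 < H) (k : ℕ) (hk : k < H) : Monotone (fun t => fc H t k) := by
  apply monotone_nat_of_le_succ
  intro t
  rw [fc_succ hH t k hk]; omega

theorem fc_window {H : ℕ} (hH : 0 < H) {s t k : ℕ} (hk : k = s % H) (h1 : s < t)
    (h2 : t ≤ s + H) : fc H t k = fc H s k + 1 := by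
  have hkH : k < H := by rw [hk]; exact Nat.mod_lt _ hH
  have a1 : fc H (s + 1) k = fc H s k + 1 := by
    rw [fc_succ hH s k hkH, if_pos hk]
  have a2 : fc H (s + 1) k ≤ fc H t k := fc_mono hH k hkH h1
  have a3 : fc H t k ≤ fc H (s + H) k := fc_mono hH k hkH h2
  rw [fc_add_H hH] at a3
  omega

/-- the order at time `t` -/
def ltT (u : Fin n → ℝ) (H : ℕ) (τ : Fin n → Fin n → ℕ) (t : ℕ) (p q : Fin n) : Prop :=
  (u q < u p ∧ Even (fc H t (τ p q))) ∨ (u p < u q ∧ ¬ Even (fc H t (τ p q)))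

variable {u v : Fin n → ℝ} {H : ℕ} {τ : Fin n → Fin n → ℕ}

theorem ltT_ne {t : ℕ} {p q : Fin n} (h : ltT u H τ t p q) : p ≠ q := by
  rintro rfl
  rcases h with ⟨h, _⟩ | ⟨h, _⟩ <;> exact lt_irrefl _ h

theorem ltT_asymm (hτ : TauData u v H τ) {t : ℕ} {p q : Fin n} (h : ltT u H τ t p q) :
    ¬ ltT u H τ t q p := by
  rintro h'
  rcases h with ⟨h, h2⟩ | ⟨h, h2⟩ <;> rcases h' with ⟨h', h3⟩ | ⟨h', h3⟩
  · linarith
  · rw [hτ.symm q p] at h3; exact h3 h2
  · rw [hτ.symm q p] at h3; exact h2 h3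
  · linarith

theorem ltT_total (hu : Function.Injective u) (hτ : TauData u v H τ) (t : ℕ) {p q : Fin n}
    (h : p ≠ q) : ltT u H τ t p q ∨ ltT u H τ t q p := by
  unfold ltT
  rw [hτ.symm q p]
  rcases lt_or_gt_of_ne (fun hh => h (hu hh)) with h1 | h1
  · by_cases h2 : Even (fc H t (τ p q)) <;> (clear * - h1 h2; tauto)
  · by_cases h2 : Even (fc H t (τ p q)) <;> tauto

/-- for three elements, the order at a time is the order of a linear functional -/
theorem ltT_real (hτ : TauData u v H τ) (t : ℕ) (S : Finset (Fin n × Fin n))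
    (hS : ∀ s ∈ S, s.1 ≠ s.2 ∧ u s.1 ≠ u s.2)
    (hgp : ∀ s ∈ S, ∀ s' ∈ S, TT u v s.1 s.2 = TT u v s'.1 s'.2 → τ s.1 s.2 = τ s'.1 s'.2) :
    ∃ c t' : ℝ, c ≠ 0 ∧ ∀ s ∈ S, (ltT u H τ t s.1 s.2 ↔
      c * (v s.2 - t' * u s.2) < c * (v s.1 - t' * u s.1)) := by
  classical
  have hsep : ∃ t' : ℝ, (∀ x ∈ (S.filter (fun s => τ s.1 s.2 < t % H)).image
      (fun s => TT u v s.1 s.2), x < t') ∧
      ∀ y ∈ (S.filter (fun s => ¬ τ s.1 s.2 < t % H)).image
      (fun s => TT u v s.1 s.2), t' < y := by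
    apply Order.exists_between_finsets
    intro x hx y hy
    simp only [Finset.mem_image, Finset.mem_filter] at hx hy
    obtain ⟨s, ⟨hs1, hs2⟩, rfl⟩ := hx
    obtain ⟨s', ⟨hs1', hs2'⟩, rfl⟩ := hy
    rcases lt_trichotomy (TT u v s.1 s.2) (TT u v s'.1 s'.2) with h | h | h
    · exact h
    · have := hgp s hs1 s' hs1' h; omega
    · have := hτ.mono _ _ _ _ (hS s' hs1').1 (hS s hs1).1 h; omega
  obtain ⟨t', ht1, ht2⟩ := hsep
  have key : ∀ s ∈ S, (τ s.1 s.2 < t % H ↔ TT u v s.1 s.2 < t') ∧ TT u v s.1 s.2 ≠ t' := by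
    intro s hs
    by_cases h : τ s.1 s.2 < t % H
    · have := ht1 (TT u v s.1 s.2) (Finset.mem_image_of_mem _ (Finset.mem_filter.2 ⟨hs, h⟩))
      exact ⟨by simp [h, this], ne_of_lt this⟩
    · have := ht2 (TT u v s.1 s.2) (Finset.mem_image_of_mem _ (Finset.mem_filter.2 ⟨hs, h⟩))
      exact ⟨by simp only [h, false_iff]; linarith only [this], ne_of_gt this⟩
  by_cases hpar : Even (t / H)
  · refine ⟨1, t', one_ne_zero, ?_⟩
    intro s hs
    obtain ⟨k1, k2⟩ := key s hs
    have hfc : Even (fc H t (τ s.1 s.2)) ↔ ¬ τ s.1 s.2 < t % H := by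
      unfold fc
      by_cases h : τ s.1 s.2 < t % H
      · simp only [h, if_true, not_true, iff_false]
        rw [Nat.even_add_one]; simpa only [Nat.not_even_iff_odd, Nat.not_odd_iff_even] using hpar
      · simp only [h, if_false, not_false_eq_true, iff_true]
        simpa only [add_zero] using hpar
    have hd := TT_diff u v (hS s hs).2 t'
    unfold ltT
    rw [hfc, k1, not_not, not_lt]
    have e1 : 1 * (v s.2 - t' * u s.2) < 1 * (v s.1 - t' * u s.1) ↔
        0 < (u s.1 - u s.2) * (TT u v s.1 s.2 - t') := by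
      rw [← hd]; constructor <;> intro h <;> linarith
    rw [e1]
    rcases lt_or_gt_of_ne (hS s hs).2 with h | h
    · have h' : ¬ u s.2 < u s.1 := not_lt.2 h.le
      simp only [h, h', false_and, true_and, false_or]
      rw [mul_pos_iff]
      constructor
      · intro h1; right; constructor <;> linarith
      · rintro (⟨a, b⟩ | ⟨a, b⟩) <;> linarith
    · have h' : ¬ u s.1 < u s.2 := not_lt.2 h.le
      simp only [h, h', false_and, true_and, or_false]
      rw [mul_pos_iff]
      constructor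
      · intro h1
        have := lt_of_le_of_ne h1 (Ne.symm k2)
        left; constructor <;> linarith
      · rintro (⟨a, b⟩ | ⟨a, b⟩) <;> linarith
  · refine ⟨-1, t', by norm_num, ?_⟩
    intro s hs
    obtain ⟨k1, k2⟩ := key s hs
    have hfc : Even (fc H t (τ s.1 s.2)) ↔ τ s.1 s.2 < t % H := by
      unfold fc
      by_cases h : τ s.1 s.2 < t % H
      · simp only [h, if_true, iff_true]
        rw [Nat.even_add_one]; simpa only [Nat.not_even_iff_odd] using hpar
      · simp only [h, if_false, iff_false]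
        simpa only [add_zero, Nat.not_even_iff_odd] using hpar
    have hd := TT_diff u v (hS s hs).2 t'
    unfold ltT
    rw [hfc, k1]
    have e1 : -1 * (v s.2 - t' * u s.2) < -1 * (v s.1 - t' * u s.1) ↔
        (u s.1 - u s.2) * (TT u v s.1 s.2 - t') < 0 := by
      rw [← hd]; constructor <;> intro h <;> linarith
    rw [e1]
    rcases lt_or_gt_of_ne (hS s hs).2 with h | h
    · have h' : ¬ u s.2 < u s.1 := not_lt.2 h.le
      simp only [h, h', false_and, true_and, false_or, not_lt]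
      rw [mul_neg_iff]
      constructor
      · intro h1
        have := lt_of_le_of_ne h1 (Ne.symm k2)
        right; constructor <;> linarith
      · rintro (⟨a, b⟩ | ⟨a, b⟩) <;> linarith
    · have h' : ¬ u s.1 < u s.2 := not_lt.2 h.le
      simp only [h, h', false_and, true_and, or_false]
      rw [mul_neg_iff]
      constructor
      · intro h1; left; constructor <;> linarith
      · rintro (⟨a, b⟩ | ⟨a, b⟩) <;> linarith

/-- general position: no two lines through a common point flip at the same time -/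
def GP (u v : Fin n → ℝ) : Prop :=
  ∀ p q r, p ≠ q → p ≠ r → q ≠ r → TT u v p q ≠ TT u v p r

theorem ltT_trans (hu : Function.Injective u) (hgp : GP u v) (hτ : TauData u v H τ) (t : ℕ)
    (p q r : Fin n) (h1 : ltT u H τ t p q) (h2 : ltT u H τ t q r) : ltT u H τ t p r := by
  classical
  have hpq := ltT_ne h1
  have hqr := ltT_ne h2
  have hpr : p ≠ r := by
    rintro rfl; exact ltT_asymm hτ h1 h2
  have un : ∀ {a b : Fin n}, a ≠ b → u a ≠ u b := fun h hh => h (hu hh)
  obtain ⟨c, t', hc, hs⟩ := ltT_real hτ t {(p, q), (q, r), (p, r)}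
    (by
      intro s hs
      simp only [Finset.mem_insert, Finset.mem_singleton] at hs
      rcases hs with rfl | rfl | rfl
      · exact ⟨hpq, un hpq⟩
      · exact ⟨hqr, un hqr⟩
      · exact ⟨hpr, un hpr⟩)
    (by
      intro s hs s' hs' h
      simp only [Finset.mem_insert, Finset.mem_singleton] at hs hs'
      have g1 := hgp p q r hpq hpr hqr
      have g2 := hgp q p r hpq.symm hqr hpr
      have g3 := hgp r p q hpr.symm hqr.symm hpq
      rw [TT_symm u v q p] at g2
      rw [TT_symm u v r p, TT_symm u v r q] at g3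
      rcases hs with rfl | rfl | rfl <;> rcases hs' with rfl | rfl | rfl
      · rfl
      · exact absurd h g2
      · exact absurd h g1
      · exact absurd h g2.symm
      · rfl
      · exact absurd h.symm g3
      · exact absurd h g1.symm
      · exact absurd h g3
      · rfl)
  have k1 := (hs (p, q) (by simp)).1 h1
  have k2 := (hs (q, r) (by simp)).1 h2
  exact (hs (p, r) (by simp)).2 (lt_trans k2 k1)

end Vale.Agent.P040.Zar
end
end
end

section

section

section

/-!
# The decomposition theorem for planar point sets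
-/

namespace Vale.Agent.P040.Zar

variable {n : ℕ} {u v : Fin n → ℝ} {H : ℕ} {τ : Fin n → Fin n → ℕ}

theorem exists_PQ (hu : Function.Injective u) (hτ : TauData u v H τ) (hH : 0 < H) :
    ∃ P Q : ℕ → Fin n, ∀ s < H, u (Q s) < u (P s) ∧ τ (P s) (Q s) = s := by
  have h : ∀ s, ∃ p : Fin n × Fin n, s < H → u p.2 < u p.1 ∧ τ p.1 p.2 = s := by
    intro s
    obtain ⟨a, _, _⟩ := hτ.surj 0 hH
    by_cases hs : s < H
    · obtain ⟨p, q, hpq, hs2⟩ := hτ.surj s hs
      rcases lt_or_gt_of_ne (fun hh => hpq (hu hh)) with h1 | h1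
      · exact ⟨(q, p), fun _ => ⟨h1, by rw [hτ.symm]; exact hs2⟩⟩
      · exact ⟨(p, q), fun _ => ⟨h1, hs2⟩⟩
    · exact ⟨(a, a), fun h => absurd h hs⟩
  choose f hf using h
  exact ⟨fun s => (f s).1, fun s => (f s).2, fun s hs => hf s hs⟩

/-- the sweep of a point set -/
noncomputable def sweepOf (hu : Function.Injective u) (hgp : GP u v) (hτ : TauData u v H τ)
    (hH : 0 < H) (P Q : ℕ → Fin n) (hPQ : ∀ s < H, u (Q s) < u (P s) ∧ τ (P s) (Q s) = s) :
    Sweep (Fin n) where
  H := H
  lt := ltT u H τ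
  e1 := fun t => if Even (t / H) then P (t % H) else Q (t % H)
  e2 := fun t => if Even (t / H) then Q (t % H) else P (t % H)
  irrefl := fun t p h => ltT_ne h rfl
  trans := fun t p q r h1 h2 => ltT_trans hu hgp hτ t p q r h1 h2
  total := fun t p q h => ltT_total hu hτ t h
  before := by
    intro t
    have hr := Nat.mod_lt t hH
    obtain ⟨h1, h2⟩ := hPQ _ hr
    have h3 : fc H t (t % H) = t / H := by simp [fc]
    by_cases hp : Even (t / H)
    · simp only [hp, if_true]
      left; exact ⟨h1, by rw [h2, h3]; exact hp⟩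
    · simp only [hp, if_false]
      right; exact ⟨h1, by rw [hτ.symm, h2, h3]; exact hp⟩
  after := by
    intro t
    have hr := Nat.mod_lt t hH
    obtain ⟨h1, h2⟩ := hPQ _ hr
    have h3 : fc H (t + 1) (t % H) = t / H + 1 := by
      rw [fc_succ hH _ _ hr]; simp [fc]
    by_cases hp : Even (t / H)
    · simp only [hp, if_true]
      right; refine ⟨h1, ?_⟩
      rw [hτ.symm, h2, h3, Nat.even_add_one, not_not]; exact hp
    · simp only [hp, if_false]
      left; refine ⟨h1, ?_⟩
      rw [h2, h3, Nat.even_add_one]; exact hp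
  same := by
    intro t a b h1 h2
    have hr := Nat.mod_lt t hH
    obtain ⟨h3, h4⟩ := hPQ _ hr
    have hPne : P (t % H) ≠ Q (t % H) := by
      intro hh; rw [hh] at h3; exact lt_irrefl _ h3
    by_cases hab : a = b
    · subst hab
      simp [ltT]
    have hne : τ a b ≠ t % H := by
      intro hh
      rcases hτ.inj _ _ _ _ hab hPne (hh.trans h4.symm) with ⟨c1, c2⟩ | ⟨c1, c2⟩
      · by_cases hp : Even (t / H)
        · exact h1 (by simp [hp, c1, c2])
        · exact h2 (by simp [hp, c1, c2])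
      · by_cases hp : Even (t / H)
        · exact h2 (by simp [hp, c1, c2])
        · exact h1 (by simp [hp, c1, c2])
    have hfc : fc H (t + 1) (τ a b) = fc H t (τ a b) := by
      rw [fc_succ hH _ _ (hτ.lt a b hab), if_neg hne, add_zero]
    unfold ltT
    rw [hfc]
  anti := by
    intro t a b
    unfold ltT
    rw [fc_add_H hH, Nat.even_add_one, not_not, hτ.symm b a]
    tauto
  window := by
    intro s t h1 h2
    have hr := Nat.mod_lt s hH
    obtain ⟨h3, h4⟩ := hPQ _ hr
    have h5 : fc H t (s % H) = s / H + 1 := by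
      rw [fc_window hH rfl h1 h2]; simp [fc]
    by_cases hp : Even (s / H)
    · simp only [hp, if_true]
      right; refine ⟨h3, ?_⟩
      rw [hτ.symm, h4, h5, Nat.even_add_one, not_not]; exact hp
    · simp only [hp, if_false]
      left; refine ⟨h3, ?_⟩
      rw [h4, h5, Nat.even_add_one]; exact hp

/-- the order at the exact time of a flip -/
theorem ltT_exact (hgp : GP u v) (hu : Function.Injective u) (hτ : TauData u v H τ) (s : ℕ)
    {a b z : Fin n} (hab : a ≠ b) (hs : τ a b = s % H) (hza : z ≠ a) (hzb : z ≠ b) :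
    (Even (s / H) → (ltT u H τ s z a ↔
      0 < (v z - TT u v a b * u z) - (v a - TT u v a b * u a))) ∧
    (¬ Even (s / H) → (ltT u H τ s z a ↔
      (v z - TT u v a b * u z) - (v a - TT u v a b * u a) < 0)) := by
  have hne : u z ≠ u a := fun hh => hza (hu hh)
  have hT : TT u v z a ≠ TT u v a b := by
    have := hgp a z b hza.symm hab hzb
    rwa [TT_symm u v a z] at this
  have hcmp : τ z a < s % H ↔ TT u v z a < TT u v a b := by
    rw [← hs]
    constructor
    · intro h
      rcases lt_trichotomy (TT u v z a) (TT u v a b) with h1 | h1 | h1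
      · exact h1
      · exact absurd h1 hT
      · have := hτ.mono _ _ _ _ hab hza h1; omega
    · intro h; exact hτ.mono _ _ _ _ hza hab h
  rw [TT_diff u v hne]
  constructor
  · intro hp
    have hfc : Even (fc H s (τ z a)) ↔ ¬ τ z a < s % H := by
      unfold fc
      by_cases h : τ z a < s % H
      · simp only [h, if_true, not_true, iff_false]
        rw [Nat.even_add_one]; simpa only [Nat.not_even_iff_odd, Nat.not_odd_iff_even] using hp
      · simp only [h, if_false, not_false_eq_true, iff_true]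
        simpa only [add_zero] using hp
    unfold ltT
    rw [hfc, hcmp, not_not, not_lt]
    rcases lt_or_gt_of_ne hne with h | h
    · have h' : ¬ u a < u z := not_lt.2 h.le
      simp only [h, h', false_and, true_and, false_or]
      rw [mul_pos_iff]
      constructor
      · intro h1; right; constructor <;> linarith only [h1, h]
      · rintro (⟨a, b⟩ | ⟨a, b⟩) <;> linarith only [b, h, a]
    · have h' : ¬ u z < u a := not_lt.2 h.le
      simp only [h, h', false_and, true_and, or_false]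
      rw [mul_pos_iff]
      constructor
      · intro h1
        have := lt_of_le_of_ne h1 (Ne.symm hT)
        left; constructor <;> linarith only [h, this]
      · rintro (⟨a, b⟩ | ⟨a, b⟩) <;> linarith only [b, h, a]
  · intro hp
    have hfc : Even (fc H s (τ z a)) ↔ τ z a < s % H := by
      unfold fc
      by_cases h : τ z a < s % H
      · simp only [h, if_true, iff_true]
        rw [Nat.even_add_one]; simpa only [Nat.not_even_iff_odd] using hp
      · simp only [h, if_false, iff_false]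
        simpa only [add_zero, Nat.not_even_iff_odd] using hp
    unfold ltT
    rw [hfc, hcmp]
    rcases lt_or_gt_of_ne hne with h | h
    · have h' : ¬ u a < u z := not_lt.2 h.le
      simp only [h, h', false_and, true_and, false_or, not_lt]
      rw [mul_neg_iff]
      constructor
      · intro h1
        have := lt_of_le_of_ne h1 (Ne.symm hT)
        right; constructor <;> linarith only [h, this]
      · rintro (⟨a, b⟩ | ⟨a, b⟩) <;> linarith only [b, h, a]
    · have h' : ¬ u z < u a := not_lt.2 h.le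
      simp only [h, h', false_and, true_and, or_false]
      rw [mul_neg_iff]
      constructor
      · intro h1; left; constructor <;> linarith only [h1, h]
      · rintro (⟨a, b⟩ | ⟨a, b⟩) <;> linarith only [b, h, a]

/-- lift of a planar point -/
abbrev lift (x y : Fin n → ℝ) (i : Fin n) : V3 := ![x i, y i, 1]

theorem det3_lift (x y : Fin n → ℝ) (p q r : Fin n) :
    det3 (lift x y p) (lift x y q) (lift x y r) =
      (x q - x p) * (y r - y p) - (x r - x p) * (y q - y p) := by
  simp only [det3, lift, Fin.isValue, Matrix.cons_val_zero, Matrix.cons_val_one, Matrix.cons_val, mul_one, one_mul]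
  ring

theorem det3_uv (x y : Fin n → ℝ) (c : ℝ) (hc : ∀ i, x i ≠ c) (t : ℝ) (p q r : Fin n) :
    det3 (lift x y p) (lift x y q) (lift x y r) =
      (x p - c) * (x q - c) * (x r - c) *
      (((y q / (x q - c) - t * (1 / (x q - c))) - (y p / (x p - c) - t * (1 / (x p - c)))) *
          (1 / (x r - c) - 1 / (x p - c)) -
       ((y r / (x r - c) - t * (1 / (x r - c))) - (y p / (x p - c) - t * (1 / (x p - c)))) *
          (1 / (x q - c) - 1 / (x p - c))) := by
  have h1 : x p - c ≠ 0 := sub_ne_zero.2 (hc p)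
  have h2 : x q - c ≠ 0 := sub_ne_zero.2 (hc q)
  have h3 : x r - c ≠ 0 := sub_ne_zero.2 (hc r)
  rw [det3_lift]
  field_simp
  ring

/-- a halving vertical line -/
theorem exists_halving {h : ℕ} (x : Fin (2 * h + 1) → ℝ) (hx : Function.Injective x) :
    ∃ c, (∀ i, x i ≠ c) ∧ (Finset.univ.filter (fun i => x i < c)).card = h := by
  classical
  -- the element of rank `h`
  have hrank : ∀ s : Finset (Fin (2 * h + 1)), ∀ r < s.card, ∃ z ∈ s,
      (s.filter (fun y => x y < x z)).card = r := by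
    intro s
    induction s using Finset.induction_on_max_value x with
    | empty => intro r hr; simp at hr
    | insert a s ha hmax ih =>
      intro r hr
      rw [Finset.card_insert_of_notMem ha] at hr
      by_cases hr2 : r = s.card
      · refine ⟨a, by simp, ?_⟩
        have : (insert a s).filter (fun y => x y < x a) = s := by
          ext y
          simp only [Finset.mem_filter, Finset.mem_insert]
          constructor
          · rintro ⟨rfl | h1, h2⟩
            · exact absurd h2 (lt_irrefl _)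
            · exact h1
          · intro hy
            refine ⟨Or.inr hy, lt_of_le_of_ne (hmax y hy) ?_⟩
            intro hh
            have := hx hh
            subst this
            exact ha hy
        rw [this, hr2]
      · obtain ⟨z, hz, hz2⟩ := ih r (by omega)
        refine ⟨z, by simp [hz], ?_⟩
        rw [Finset.filter_insert, if_neg (not_lt.2 (hmax z hz)), hz2]
  obtain ⟨z, _, hz⟩ := hrank Finset.univ h (by simp only [Finset.card_univ, Fintype.card_fin, Order.lt_add_one_iff]; omega)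
  obtain ⟨c, hc1, hc2⟩ := Order.exists_between_finsets
    ((Finset.univ.filter (fun y => x y < x z)).image x) {x z} (by
      intro a ha b hb
      simp only [Finset.mem_image, Finset.mem_filter, Finset.mem_univ, true_and,
        Finset.mem_singleton] at ha hb
      obtain ⟨y, hy, rfl⟩ := ha
      rw [hb]; exact hy)
  have hc3 : c < x z := hc2 _ (by simp)
  have hc4 : ∀ y, x y < x z → x y < c := by
    intro y hy
    apply hc1
    simp only [Finset.mem_image, Finset.mem_filter, Finset.mem_univ, true_and]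
    exact ⟨y, hy, rfl⟩
  refine ⟨c, ?_, ?_⟩
  · intro i hi
    rcases lt_or_ge (x i) (x z) with h1 | h1
    · have := hc4 i h1; linarith only [hi, this]
    · linarith only [hc3, hi, h1]
  · refine Eq.trans ?_ hz
    congr 1
    ext y
    simp only [Finset.mem_filter, Finset.mem_univ, true_and]
    constructor
    · intro h1; linarith only [hc3, h1]
    · exact hc4 y

/-- The number of mixed pairs. -/
theorem mixed_count {n : ℕ} (blue : Fin n → Prop) [DecidablePred blue] :
    ∑ p ∈ Finset.univ.filter (fun p : Fin n × Fin n => p.1 < p.2),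
      (if ¬ (blue p.1 ↔ blue p.2) then 1 else 0) =
    (Finset.univ.filter blue).card * (Finset.univ.filter (fun i => ¬ blue i)).card := by
  classical
  rw [← Finset.card_product, ← Finset.card_filter, Finset.filter_filter]
  symm
  apply Finset.card_bij (fun (p : Fin n × Fin n) _ => if p.1 < p.2 then p else p.swap)
  · rintro ⟨a, b⟩ h
    simp only [Finset.mem_product, Finset.mem_filter, Finset.mem_univ, true_and] at h
    have hne : a ≠ b := by rintro rfl; exact h.2 h.1
    simp only [Finset.mem_filter, Finset.mem_univ, true_and]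
    by_cases hab : a < b
    · simp only [hab, if_true, true_and]
      simp [h.1, h.2]
    · simp only [hab, if_false]
      have : b < a := lt_of_le_of_ne (not_lt.1 hab) hne.symm
      simp [h.1, h.2, this]
  · rintro ⟨a, b⟩ h ⟨a', b'⟩ h' heq
    simp only [Finset.mem_product, Finset.mem_filter, Finset.mem_univ, true_and] at h h'
    by_cases hab : a < b <;> by_cases hab' : a' < b' <;>
      simp only [hab, hab', if_true, if_false, Prod.swap_prod_mk, Prod.mk.injEq] at heq
    · rw [heq.1, heq.2]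
    · exfalso; rw [heq.1] at h; exact h'.2 h.1
    · exfalso; rw [heq.1] at h; exact h.2 h'.1
    · rw [heq.1, heq.2]
  · rintro ⟨a, b⟩ h
    simp only [Finset.mem_filter, Finset.mem_univ, true_and] at h
    by_cases ha : blue a
    · have hb : ¬ blue b := fun hb => h.2 (by simp [ha, hb])
      exact ⟨(a, b), by simp only [Finset.mem_product, Finset.mem_filter, Finset.mem_univ, ha, and_self, hb, not_false_eq_true], by simp [h.1]⟩
    · have hb : blue b := by
        by_contra hb; exact h.2 (by simp [ha, hb])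
      exact ⟨(b, a), by simp only [Finset.mem_product, Finset.mem_filter, Finset.mem_univ, hb, and_self, ha, not_false_eq_true], by simp [not_lt_of_gt h.1]⟩

/-- **Decomposition theorem.** For an odd number `2 h + 1` of points in general position in the
plane, the set of all pairs is decomposed into the sides of `h (h+1) / 2` convex polygons. -/
theorem decomposition {h : ℕ} (x y : Fin (2 * h + 1) → ℝ) (hx : Function.Injective x)
    (hgp : ∀ i j k, i ≠ j → i ≠ k → j ≠ k →
      det3 ![x i, y i, 1] ![x j, y j, 1] ![x k, y k, 1] ≠ 0) :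
    ∃ Ps : List (List (Fin (2 * h + 1))), (∀ L ∈ Ps, ConvexPoly (fun i => ![x i, y i, 1]) L) ∧
      2 * Ps.length = h * (h + 1) ∧
      ∀ f : Fin (2 * h + 1) → Fin (2 * h + 1) → ℕ, (∀ a b, f a b = f b a) →
        (Ps.map (fun L => ((sides L).map (fun s => f s.1 s.2)).sum)).sum =
          ∑ p ∈ Finset.univ.filter (fun p : Fin (2 * h + 1) × Fin (2 * h + 1) => p.1 < p.2),
            f p.1 p.2 := by
  classical
  rcases Nat.eq_zero_or_pos h with h0 | hpos
  · subst h0
    refine ⟨[], by simp, by simp, ?_⟩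
    intro f _
    have : Finset.univ.filter (fun p : Fin (2 * 0 + 1) × Fin (2 * 0 + 1) => p.1 < p.2) = ∅ := by
      ext ⟨a, b⟩
      simp only [Finset.mem_filter, Finset.mem_univ, true_and, Finset.notMem_empty, iff_false]
      omega
    rw [this]; simp
  obtain ⟨c, hc, hcard⟩ := exists_halving x hx
  set u : Fin (2 * h + 1) → ℝ := fun i => 1 / (x i - c) with hu_def
  set v : Fin (2 * h + 1) → ℝ := fun i => y i / (x i - c) with hv_def
  have hX : ∀ i, x i - c ≠ 0 := fun i => sub_ne_zero.2 (hc i)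
  have hu : Function.Injective u := by
    intro i j hij
    simp only [hu_def, one_div] at hij
    have := inv_injective hij
    exact hx (by linarith only [this])
  have hGP : GP u v := by
    intro p q r hpq hpr hqr hT
    have h1 := TT_diff u v (fun hh => hpq (hu hh)) (TT u v p q)
    have h2 := TT_diff u v (fun hh => hpr (hu hh)) (TT u v p q)
    rw [← hT, sub_self, mul_zero] at h2
    rw [sub_self, mul_zero] at h1
    have hd := det3_uv x y c hc (TT u v p q) p q r
    have e1 : (y q / (x q - c) - TT u v p q * (1 / (x q - c))) -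
        (y p / (x p - c) - TT u v p q * (1 / (x p - c))) = 0 := by
      simp only [hu_def, hv_def] at h1 ⊢; linarith only [h1]
    have e2 : (y r / (x r - c) - TT u v p q * (1 / (x r - c))) -
        (y p / (x p - c) - TT u v p q * (1 / (x p - c))) = 0 := by
      simp only [hu_def, hv_def] at h2 ⊢; linarith only [h2]
    rw [e1, e2] at hd
    simp only [zero_mul, sub_self, mul_zero] at hd
    exact hgp p q r hpq hpr hqr hd
  obtain ⟨H, τ, hτ⟩ := exists_tau u v
  have hH : 0 < H := by
    have : (⟨0, by omega⟩ : Fin (2 * h + 1)) ≠ ⟨1, by omega⟩ := by simp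
    exact lt_of_le_of_lt (Nat.zero_le _) (hτ.lt _ _ this)
  obtain ⟨P, Q, hPQ⟩ := exists_PQ hu hτ hH
  let S := sweepOf hu hGP hτ hH P Q hPQ
  let blue : Fin (2 * h + 1) → Prop := fun i => x i < c
  have hblue : ∀ i, blue i ↔ x i - c < 0 := fun i => by simp [blue]
  have hred : ∀ i, ¬ blue i ↔ 0 < x i - c := fun i => by
    rw [hblue, not_lt]
    constructor
    · intro h1; exact lt_of_le_of_ne h1 (Ne.symm (hX i))
    · intro h1; exact h1.le
  have hcb1 : (Finset.univ.filter blue).card = h := by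
    refine Eq.trans ?_ hcard
    congr 1
  have hcb : Sweep.cnt blue = h := by
    unfold Sweep.cnt
    refine Eq.trans ?_ hcb1
    congr 1
  have hcr : Sweep.cnt (fun i => ¬ blue i) = h + 1 := by
    have h1 := Finset.card_filter_add_card_filter_not (s := (Finset.univ : Finset (Fin (2 * h + 1))))
      (p := blue)
    have h3 : (Finset.univ.filter (fun i => ¬ blue i)).card = h + 1 := by
      rw [hcb1, Finset.card_univ, Fintype.card_fin] at h1; omega
    unfold Sweep.cnt
    refine Eq.trans ?_ h3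
    congr 1
    ext i
    simp
  have hM0 : ∀ R, ¬ S.M blue 0 R := by
    rintro ⟨a, b⟩ ⟨h1, h2, h3, _⟩
    simp only at h1 h2 h3
    have h4 : ltT u H τ 0 a b := h3
    have hua : u a < 0 := by
      simp only [hu_def, one_div]; exact inv_lt_zero.2 ((hblue a).1 h1)
    have hub : 0 < u b := by
      simp only [hu_def, one_div]; exact inv_pos.2 ((hred b).1 h2)
    have hfc : ∀ k, fc H 0 k = 0 := by intro k; simp [fc]
    rcases h4 with ⟨h4, _⟩ | ⟨_, h4⟩
    · linarith only [hua, hub, h4]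
    · rw [hfc] at h4; exact h4 (by simp only [Even.zero])
  obtain ⟨Ps, hP1, hP2, hP3⟩ := S.decomp hM0 hH (by rw [hcb, hcr])
  have hS : S.H = H := rfl
  -- the flipped pairs
  have hpairs : ∀ s, S.e1 s ≠ S.e2 s ∧ τ (S.e1 s) (S.e2 s) = s % H := by
    intro s
    have hr := Nat.mod_lt s hH
    obtain ⟨h1, h2⟩ := hPQ _ hr
    refine ⟨S.e_ne s, ?_⟩
    show τ (if Even (s / H) then P (s % H) else Q (s % H))
      (if Even (s / H) then Q (s % H) else P (s % H)) = s % H
    split_ifs
    · exact h2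
    · rw [hτ.symm]; exact h2
  have hpairs' : ∀ s < H, S.e1 s ≠ S.e2 s ∧ τ (S.e1 s) (S.e2 s) = s := by
    intro s hs
    have := hpairs s
    rw [Nat.mod_eq_of_lt hs] at this
    exact this
  have horient : ∀ s, (Even (s / H) → u (S.e2 s) < u (S.e1 s)) ∧
      (¬ Even (s / H) → u (S.e1 s) < u (S.e2 s)) := by
    intro s
    have hr := Nat.mod_lt s hH
    obtain ⟨h1, h2⟩ := hPQ _ hr
    constructor
    · intro hp
      show u (if Even (s / H) then Q (s % H) else P (s % H)) <
        u (if Even (s / H) then P (s % H) else Q (s % H))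
      simp only [hp, if_true]; exact h1
    · intro hp
      show u (if Even (s / H) then P (s % H) else Q (s % H)) <
        u (if Even (s / H) then Q (s % H) else P (s % H))
      simp only [hp, if_false]; exact h1
  refine ⟨Ps, ?_, ?_, ?_⟩
  · -- convexity
    intro L hL
    obtain ⟨g1, g2, g3⟩ := hP1 L hL
    refine ⟨g1, g2, ?_⟩
    intro s hs z hz hz1 hz2
    obtain ⟨σ, hcor, hgood⟩ := g3 s hs
    have hg := hgood z hz hz1 hz2
    set a := S.e1 σ with ha_def
    set b := S.e2 σ with hb_def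
    have hza : z ≠ a ∧ z ≠ b := by
      rcases hcor with ⟨_, c1, c2⟩ | ⟨_, c1, c2⟩
      · rw [c1] at hz1; rw [c2] at hz2; exact ⟨hz2, hz1⟩
      · rw [c1] at hz1; rw [c2] at hz2; exact ⟨hz1, hz2⟩
    obtain ⟨hab, hσ⟩ := hpairs σ
    obtain ⟨ex1, ex2⟩ := ltT_exact hGP hu hτ σ hab hσ hza.1 hza.2
    obtain ⟨o1, o2⟩ := horient σ
    set t0 := TT u v a b with ht0
    have hfab := TT_diff u v (fun hh => hab (hu hh)) t0
    rw [← ht0, sub_self, mul_zero] at hfab
    -- the key sign
    have key : (u a - u b) * ((x z - c) * ((v z - t0 * u z) - (v a - t0 * u a))) < 0 := by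
      have hfz : (v z - t0 * u z) - (v a - t0 * u a) ≠ 0 := by
        rw [TT_diff u v (fun hh => hza.1 (hu hh)) t0]
        apply mul_ne_zero (sub_ne_zero.2 (fun hh => hza.1 (hu hh)))
        apply sub_ne_zero.2
        rw [TT_symm u v z a]
        exact (hGP a z b hza.1.symm hab hza.2)
      by_cases hev : Even (σ / H)
      · have h1 : 0 < u a - u b := sub_pos.2 (o1 hev)
        apply mul_neg_of_pos_of_neg h1
        by_cases hbz : blue z
        · have h2 : ltT u H τ σ z a := hg.1 hbz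
          rw [ex1 hev] at h2
          exact mul_neg_of_neg_of_pos ((hblue z).1 hbz) h2
        · have h2 : ltT u H τ σ a z := hg.2 hbz
          have h3 : ¬ ltT u H τ σ z a := ltT_asymm hτ h2
          rw [ex1 hev, not_lt] at h3
          exact mul_neg_of_pos_of_neg ((hred z).1 hbz) (lt_of_le_of_ne h3 hfz)
      · have h1 : u a - u b < 0 := sub_neg.2 (o2 hev)
        apply mul_neg_of_neg_of_pos h1
        by_cases hbz : blue z
        · have h2 : ltT u H τ σ z a := hg.1 hbz
          rw [ex2 hev] at h2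
          exact mul_pos_of_neg_of_neg ((hblue z).1 hbz) h2
        · have h2 : ltT u H τ σ a z := hg.2 hbz
          have h3 : ¬ ltT u H τ σ z a := ltT_asymm hτ h2
          rw [ex2 hev, not_lt] at h3
          exact mul_pos ((hred z).1 hbz) (lt_of_le_of_ne h3 (Ne.symm hfz))
    have hd := det3_uv x y c hc t0 a b z
    have e1 : (y b / (x b - c) - t0 * (1 / (x b - c))) -
        (y a / (x a - c) - t0 * (1 / (x a - c))) = 0 := by
      simp only [hu_def, hv_def] at hfab ⊢; linarith only [hfab]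
    rw [e1] at hd
    have hd2 : det3 (lift x y a) (lift x y b) (lift x y z) = ((x a - c) * (x b - c)) *
        ((u a - u b) * ((x z - c) * ((v z - t0 * u z) - (v a - t0 * u a)))) := by
      rw [hd]; simp only [hu_def, hv_def]; ring
    rcases hcor with ⟨c0, c1, c2⟩ | ⟨c0, c1, c2⟩
    · rw [c1, c2] at c0 ⊢
      have h1 : 0 < (x a - c) * (x b - c) := by
        by_cases hb : blue b
        · exact mul_pos_of_neg_of_neg ((hblue a).1 (c0.1 hb)) ((hblue b).1 hb)
        · exact mul_pos ((hred a).1 (fun hh => hb (c0.2 hh))) ((hred b).1 hb)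
      have h2 : det3 (lift x y b) (lift x y a) (lift x y z) =
          - det3 (lift x y a) (lift x y b) (lift x y z) := by
        rw [det3_lift, det3_lift]; ring
      show 0 < det3 (lift x y b) (lift x y a) (lift x y z)
      rw [h2, hd2]
      have := mul_neg_of_pos_of_neg h1 key
      linarith only [this]
    · rw [c1, c2] at c0 ⊢
      have h1 : (x a - c) * (x b - c) < 0 := by
        by_cases ha : blue a
        · have hb : ¬ blue b := fun hb => c0 (iff_of_true ha hb)
          exact mul_neg_of_neg_of_pos ((hblue a).1 ha) ((hred b).1 hb)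
        · have hb : blue b := by
            by_contra hb; exact c0 (iff_of_false ha hb)
          exact mul_neg_of_pos_of_neg ((hred a).1 ha) ((hblue b).1 hb)
      show 0 < det3 (lift x y a) (lift x y b) (lift x y z)
      rw [hd2]
      exact mul_pos_of_neg_of_neg h1 key
  · rw [hP3, hS]
    have h1 := hτ.sum (fun a b => if ¬ (blue a ↔ blue b) then 1 else 0)
      (fun a b => by
        by_cases g1 : blue a <;> by_cases g2 : blue b <;> simp [g1, g2]) S.e1 S.e2 hpairs'
    have h2 := mixed_count blue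
    have h4 : (Finset.univ.filter (fun i => ¬ blue i)).card = h + 1 := by
      refine Eq.trans ?_ hcr
      unfold Sweep.cnt
      congr 1
      ext i
      simp
    rw [hcb1, h4] at h2
    refine Eq.trans ?_ h2
    refine Eq.trans ?_ h1
    apply Finset.sum_congr rfl
    intro s _
    congr
  · intro f hf
    have h1 := hP2 f hf
    rw [hS, hτ.sum f hf S.e1 S.e2 hpairs'] at h1
    exact h1

end Vale.Agent.P040.Zar
end
end
end

section

/-!
# Counting crossings by forced pairs of edges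
-/

namespace Vale.Agent.P040

open Finset

namespace Mono

theorem count_crossings {m n : ℕ} (D : Drawing (completeBipartiteGraph (Fin m) (Fin n)))
    (σ : Equiv.Perm (Fin m)) (τ : Equiv.Perm (Fin n)) {α : Type*} [LinearOrder α]
    (i : Fin m → ℕ) (κ : Fin m → Fin n → α) (U : Fin m → Fin m → Fin n → Prop)
    (hF : ∀ a a' k l, a < a' → Forced (i a) (i a') (κ a) (κ a') (U a a') (U a' a) k l →
      k ≠ l ∧ (D.arc s(Sum.inl (σ a), Sum.inr (τ k)) ∩
        D.arc s(Sum.inl (σ a'), Sum.inr (τ l))).Nonempty) :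
    (∑ p ∈ univ.filter (fun p : Fin m × Fin m => p.1 < p.2),
        Mono.forced (i p.1) (i p.2) (κ p.1) (κ p.2) (U p.1 p.2) (U p.2 p.1)) ≤ D.crossings := by
  classical
  let ed : Fin m → Fin n → Sym2 (Fin m ⊕ Fin n) := fun a b => s(Sum.inl (σ a), Sum.inr (τ b))
  have hadj : ∀ a b, (completeBipartiteGraph (Fin m) (Fin n)).Adj (Sum.inl (σ a))
      (Sum.inr (τ b)) := by
    intro a b
    simp
  have hedge : ∀ a b, ed a b ∈ (completeBipartiteGraph (Fin m) (Fin n)).edgeSet := by
    intro a b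
    exact hadj a b
  have hedinj : ∀ a b a' b', ed a b = ed a' b' → a = a' ∧ b = b' := by
    intro a b a' b' h
    simp only [ed, Sym2.eq_iff, Sum.inl.injEq, Sum.inr.injEq, EmbeddingLike.apply_eq_iff_eq,
      reduceCtorEq, false_and, or_false] at h
    exact h
  let R : (Σ _ : Fin m × Fin m, Fin n × Fin n) → Plane → Prop := fun t p =>
    p ∉ Set.range D.pos ∧ p ∈ D.arc (ed t.1.1 t.2.1) ∧ p ∈ D.arc (ed t.1.2 t.2.2)
  let T : Finset (Σ _ : Fin m × Fin m, Fin n × Fin n) :=
    (univ.filter (fun p : Fin m × Fin m => p.1 < p.2)).sigma (fun p =>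
      univ.filter (fun s : Fin n × Fin n =>
        Forced (i p.1) (i p.2) (κ p.1) (κ p.2) (U p.1 p.2) (U p.2 p.1) s.1 s.2))
  have hT : ∑ p ∈ univ.filter (fun p : Fin m × Fin m => p.1 < p.2),
      Mono.forced (i p.1) (i p.2) (κ p.1) (κ p.2) (U p.1 p.2) (U p.2 p.1) = #T := by
    rw [card_sigma]
    apply sum_congr rfl
    intro p _
    unfold forced
    congr
  have hTmem : ∀ t ∈ T, t.1.1 < t.1.2 ∧ Forced (i t.1.1) (i t.1.2) (κ t.1.1) (κ t.1.2)
      (U t.1.1 t.1.2) (U t.1.2 t.1.1) t.2.1 t.2.2 := by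
    intro t ht
    simpa [T] using ht
  have hex : ∀ t ∈ T, ∃ p, R t p := by
    intro t ht
    obtain ⟨hlt, hFt⟩ := hTmem t ht
    obtain ⟨⟨a, a'⟩, ⟨k, l⟩⟩ := t
    simp only at hlt hFt
    obtain ⟨hkl, hne⟩ := hF a a' k l hlt hFt
    obtain ⟨p, hp1, hp2, hp3⟩ := D.exists_crossing (hedge a k) (hedge a' l) (by
      intro v hv hv'
      simp only [ed, Sym2.mem_iff] at hv hv'
      rcases hv with rfl | rfl
      · rcases hv' with h | h
        · rw [Sum.inl.injEq, EmbeddingLike.apply_eq_iff_eq] at h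
          exact hlt.ne h
        · exact absurd h (by simp)
      · rcases hv' with h | h
        · exact absurd h (by simp)
        · rw [Sum.inr.injEq, EmbeddingLike.apply_eq_iff_eq] at h
          exact hkl h) hne
    exact ⟨p, hp1, hp2, hp3⟩
  have hRinj : ∀ t ∈ T, ∀ t' ∈ T, ∀ p, R t p → R t' p → t = t' := by
    intro t ht t' ht' p hp hp'
    have hlt := (hTmem t ht).1
    have hlt' := (hTmem t' ht').1
    obtain ⟨⟨a, a'⟩, ⟨k, l⟩⟩ := t
    obtain ⟨⟨b, b'⟩, ⟨k', l'⟩⟩ := t'
    simp only [R] at hp hp' hlt hlt'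
    obtain ⟨hv, hc, hc'⟩ := hp
    obtain ⟨_, hd, hd'⟩ := hp'
    have hne1 : ed a k ≠ ed a' l := fun h => hlt.ne (hedinj _ _ _ _ h).1
    have hne2 : ed b k' ≠ ed b' l' := fun h => hlt'.ne (hedinj _ _ _ _ h).1
    rcases D.pair_unique hv (hedge a k) (hedge a' l) (hedge b k') (hedge b' l') hne1 hne2
      hc hc' hd hd' with ⟨h1, h2⟩ | ⟨h1, h2⟩
    · obtain ⟨e1, e3⟩ := hedinj _ _ _ _ h1
      obtain ⟨e2, e4⟩ := hedinj _ _ _ _ h2
      rw [e1, e2, e3, e4]
    · have e1 := (hedinj _ _ _ _ h1).1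
      have e2 := (hedinj _ _ _ _ h2).1
      subst e1 e2
      exact absurd (hlt.trans hlt') (lt_irrefl _)
  rw [hT]
  have hchoose : ∀ t : (Σ _ : Fin m × Fin m, Fin n × Fin n), ∃ p : Plane, t ∈ T → R t p := by
    intro t
    by_cases ht : t ∈ T
    · obtain ⟨p, hp⟩ := hex t ht
      exact ⟨p, fun _ => hp⟩
    · exact ⟨0, fun h => absurd h ht⟩
  choose pt hpt using hchoose
  unfold Drawing.crossings
  rw [Set.ncard_eq_toFinset_card _ D.crossingSet_finite]
  apply card_le_card_of_injOn pt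
  · intro t ht
    rw [mem_coe] at ht
    simp only [Set.Finite.coe_toFinset]
    obtain ⟨hv, hc, hc'⟩ := hpt t ht
    refine ⟨hv, ed t.1.1 t.2.1, hedge _ _, ed t.1.2 t.2.2, hedge _ _, ?_, hc, hc'⟩
    intro h
    exact (hTmem t ht).1.ne (hedinj _ _ _ _ h).1
  · intro t ht t' ht' heq
    rw [mem_coe] at ht ht'
    exact hRinj t ht t' ht' (pt t) (hpt t ht) (heq ▸ hpt t' ht')

end Mono

end Vale.Agent.P040
end

section

/-!
# The token process started with tokens of unknown past
-/

namespace Vale.Agent.P040.Zar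

namespace Sweep

variable {B : Type*} (S : Sweep B) [Fintype B] (blue : B → Prop)

open Classical in
/-- the tokens alive at time `0`, with a trivial record -/
noncomputable def hist0 : B × B → Option (Tok B) := fun P =>
  if S.M blue 0 P then some ⟨P.1, P.2, [P.1], [P.2]⟩ else none

/-- the histories of the alive tokens at time `t` -/
noncomputable def histG (t : ℕ) : B × B → Option (Tok B) :=
  Nat.rec (S.hist0 blue) (fun t h => S.step blue t h) t

theorem histG_zero : S.histG blue 0 = S.hist0 blue := rfl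

theorem histG_succ (t : ℕ) : S.histG blue (t + 1) = S.step blue t (S.histG blue t) := rfl

open Classical in
/-- the polygons finished before time `t` -/
noncomputable def finG (t : ℕ) : List (List B) :=
  Nat.rec [] (fun t l => if S.Low blue t ∧ blue (S.e1 t) ∧ ¬ blue (S.e2 t) then
    ((S.histG blue t (S.e1 t, S.e2 t)).map (fun T => T.ys.reverse ++ T.xs)).toList ++ l
    else l) t

theorem finG_zero : S.finG blue 0 = [] := rfl

open Classical in
theorem finG_succ (t : ℕ) : S.finG blue (t + 1) =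
    if S.Low blue t ∧ blue (S.e1 t) ∧ ¬ blue (S.e2 t) then
    ((S.histG blue t (S.e1 t, S.e2 t)).map (fun T => T.ys.reverse ++ T.xs)).toList
      ++ S.finG blue t
    else S.finG blue t := rfl

/-- the shape of a record -/
def Sh (P : B × B) (T : Tok B) : Prop :=
  (∃ l, T.ys = P.1 :: l) ∧ (∃ l, T.xs = P.2 :: l) ∧ (∃ l, T.ys = l ++ [T.y0]) ∧
    (∃ l, T.xs = l ++ [T.x0])

/-- the invariant of a token alive at time `0` -/
structure Ghost (t : ℕ) (P : B × B) (T : Tok B) : Prop where
  M0 : S.M blue 0 (T.y0, T.x0)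
  sh : Sh P T
  cy : ∀ s ∈ conseq T.ys, ∃ τ, τ < t ∧ S.e1 τ = s.1 ∧ S.e2 τ = s.2
  cx : ∀ s ∈ conseq T.xs, ∃ τ, τ < t ∧ S.e1 τ = s.2 ∧ S.e2 τ = s.1

variable {blue} {S}

theorem Ghost.lt_H {t : ℕ} {P : B × B} {T : Tok B} (h : S.Ghost blue t P T) (hM : S.M blue t P)
    (ht : t ≤ S.H) : t < S.H := by
  rcases lt_or_eq_of_le ht with h1 | h1
  · exact h1
  exfalso
  obtain ⟨⟨l1, s1⟩, ⟨l2, s2⟩, ⟨l3, s3⟩, ⟨l4, s4⟩⟩ := h.sh
  have cyR : ∀ s ∈ conseq T.ys, S.lt t s.2 s.1 := by
    intro s hs
    obtain ⟨τ, h2, h3, h4⟩ := h.cy s hs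
    rw [← h3, ← h4]
    exact S.window τ t h2 (by omega)
  have cxR : ∀ s ∈ conseq T.xs, S.lt t s.1 s.2 := by
    intro s hs
    obtain ⟨τ, h2, h3, h4⟩ := h.cx s hs
    rw [← h3, ← h4]
    exact S.window τ t h2 (by omega)
  have hy : T.y0 = P.1 ∨ S.lt t T.y0 P.1 := by
    rw [s1] at cyR
    have := chain_head (R := fun a b => S.lt t b a)
      (fun a b c hab hbc => S.trans _ _ _ _ hbc hab) P.1 l1 cyR
    rw [← s1] at this
    exact this T.y0 (by rw [s3]; simp)
  have hx : T.x0 = P.2 ∨ S.lt t P.2 T.x0 := by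
    rw [s2] at cxR
    have := chain_head (R := fun a b => S.lt t a b)
      (fun a b c hab hbc => S.trans _ _ _ _ hab hbc) P.2 l2 cxR
    rw [← s2] at this
    exact this T.x0 (by rw [s4]; simp)
  have h5 : S.lt t T.y0 T.x0 := by
    have h6 : S.lt t T.y0 P.2 := by
      rcases hy with h7 | h7
      · rw [h7]; exact hM.2.2.1
      · exact S.trans _ _ _ _ h7 hM.2.2.1
    rcases hx with h7 | h7
    · rw [h7]; exact h6
    · exact S.trans _ _ _ _ h6 h7
  have h8 : S.lt 0 T.x0 T.y0 := by
    have := S.anti 0 T.y0 T.x0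
    rw [Nat.zero_add, ← h1] at this
    exact this.1 h5
  exact S.asymm h8 h.M0.2.2.1

theorem Ghost.stay {t : ℕ} {P : B × B} {T : Tok B} (h : S.Ghost blue t P T) :
    S.Ghost blue (t + 1) P T where
  M0 := h.M0
  sh := h.sh
  cy := fun s hs => by
    obtain ⟨τ, h1, h2⟩ := h.cy s hs
    exact ⟨τ, by omega, h2⟩
  cx := fun s hs => by
    obtain ⟨τ, h1, h2⟩ := h.cx s hs
    exact ⟨τ, by omega, h2⟩

theorem Ghost.moveB {t : ℕ} {P : B × B} {T : Tok B} (h : S.Ghost blue t P T)
    (he2 : P.1 = S.e2 t) :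
    S.Ghost blue (t + 1) (S.e1 t, P.2) ⟨T.y0, T.x0, S.e1 t :: T.ys, T.xs⟩ where
  M0 := h.M0
  sh := by
    obtain ⟨⟨l1, s1⟩, ⟨l2, s2⟩, ⟨l3, s3⟩, ⟨l4, s4⟩⟩ := h.sh
    exact ⟨⟨T.ys, rfl⟩, ⟨l2, s2⟩, ⟨S.e1 t :: l3, by simp only; rw [s3]; simp⟩, ⟨l4, s4⟩⟩
  cy := by
    intro s hs
    obtain ⟨⟨l1, s1⟩, _⟩ := h.sh
    simp only at hs
    rw [s1, conseq_cons_cons, List.mem_cons] at hs
    rcases hs with hs | hs
    · exact ⟨t, by omega, by rw [hs], by rw [hs]; exact he2.symm⟩
    · rw [← s1] at hs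
      obtain ⟨τ, h1, h2⟩ := h.cy s hs
      exact ⟨τ, by omega, h2⟩
  cx := fun s hs => by
    obtain ⟨τ, h1, h2⟩ := h.cx s hs
    exact ⟨τ, by omega, h2⟩

theorem Ghost.moveR {t : ℕ} {P : B × B} {T : Tok B} (h : S.Ghost blue t P T)
    (he1 : P.2 = S.e1 t) :
    S.Ghost blue (t + 1) (P.1, S.e2 t) ⟨T.y0, T.x0, T.ys, S.e2 t :: T.xs⟩ where
  M0 := h.M0
  sh := by
    obtain ⟨⟨l1, s1⟩, ⟨l2, s2⟩, ⟨l3, s3⟩, ⟨l4, s4⟩⟩ := h.sh
    exact ⟨⟨l1, s1⟩, ⟨T.xs, rfl⟩, ⟨l3, s3⟩, ⟨S.e2 t :: l4, by simp only; rw [s4]; simp⟩⟩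
  cy := fun s hs => by
    obtain ⟨τ, h1, h2⟩ := h.cy s hs
    exact ⟨τ, by omega, h2⟩
  cx := by
    intro s hs
    obtain ⟨_, ⟨l2, s2⟩, _⟩ := h.sh
    simp only at hs
    rw [s2, conseq_cons_cons, List.mem_cons] at hs
    rcases hs with hs | hs
    · exact ⟨t, by omega, by rw [hs]; exact he1.symm, by rw [hs]⟩
    · rw [← s2] at hs
      obtain ⟨τ, h1, h2⟩ := h.cx s hs
      exact ⟨τ, by omega, h2⟩

/-- the invariant of a token, real or ghost -/
def Inv2 (S : Sweep B) (blue : B → Prop) (t : ℕ) (P : B × B) (T : Tok B) : Prop :=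
  (∃ tb, S.Inv blue t tb P T) ∨ (S.Ghost blue t P T ∧ t ≤ S.H)

theorem Inv2.sh {t : ℕ} {P : B × B} {T : Tok B} (h : S.Inv2 blue t P T) : Sh P T := by
  rcases h with ⟨tb, h⟩ | ⟨h, _⟩
  · exact ⟨h.hdy, h.hdx, h.lasty, h.lastx⟩
  · exact h.sh

theorem Inv2.stay {t : ℕ} {P : B × B} {T : Tok B} (h : S.Inv2 blue t P T) (hM : S.M blue t P)
    (hcnt : cnt blue < cnt (fun y => ¬ blue y)) : S.Inv2 blue (t + 1) P T := by
  rcases h with ⟨tb, h⟩ | ⟨h, ht⟩
  · exact Or.inl ⟨tb, h.stay (h.lt_H hM hcnt)⟩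
  · exact Or.inr ⟨h.stay, h.lt_H hM ht⟩

theorem Inv2.moveB {t : ℕ} {P : B × B} {T : Tok B} (h : S.Inv2 blue t P T) (hM : S.M blue t P)
    (hcnt : cnt blue < cnt (fun y => ¬ blue y)) (he2 : P.1 = S.e2 t) (hb : blue (S.e1 t)) :
    S.Inv2 blue (t + 1) (S.e1 t, P.2) ⟨T.y0, T.x0, S.e1 t :: T.ys, T.xs⟩ := by
  rcases h with ⟨tb, h⟩ | ⟨h, ht⟩
  · exact Or.inl ⟨tb, h.moveB hM (h.lt_H hM hcnt) he2 hb⟩
  · exact Or.inr ⟨h.moveB he2, h.lt_H hM ht⟩

theorem Inv2.moveR {t : ℕ} {P : B × B} {T : Tok B} (h : S.Inv2 blue t P T) (hM : S.M blue t P)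
    (hcnt : cnt blue < cnt (fun y => ¬ blue y)) (he1 : P.2 = S.e1 t) (hr : ¬ blue (S.e2 t)) :
    S.Inv2 blue (t + 1) (P.1, S.e2 t) ⟨T.y0, T.x0, T.ys, S.e2 t :: T.xs⟩ := by
  rcases h with ⟨tb, h⟩ | ⟨h, ht⟩
  · exact Or.inl ⟨tb, h.moveR hM (h.lt_H hM hcnt) he1 hr⟩
  · exact Or.inr ⟨h.moveR he1, h.lt_H hM ht⟩

section steps

theorem histG_idle {t : ℕ} (hl : ¬ S.Low blue t) : S.histG blue (t + 1) = S.histG blue t := by
  simp [histG_succ, step, hl]

theorem finG_idle {t : ℕ} (hl : ¬ (S.Low blue t ∧ blue (S.e1 t) ∧ ¬ blue (S.e2 t))) :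
    S.finG blue (t + 1) = S.finG blue t := by
  rw [finG_succ, if_neg hl]

end steps

variable (S) (blue)

/-- the full invariant of the process -/
structure State2 (t : ℕ) : Prop where
  supp : ∀ P, (S.histG blue t P).isSome ↔ S.M blue t P
  inv : ∀ P T, S.histG blue t P = some T → S.Inv2 blue t P T
  sum : ∀ f : B → B → ℕ, (∀ a b, f a b = f b a) →
    ∑ P, (S.histG blue t P).elim 0 (Tok.val f) + ((S.finG blue t).map (ssum f)).sum =
      ∑ P, (S.hist0 blue P).elim 0 (Tok.val f) +
      ∑ s ∈ Finset.range t, by classical exact if S.Low blue s then f (S.e1 s) (S.e2 s) else 0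
  count : ∑ P, (S.histG blue t P).elim 0 (fun _ => 1) + 2 * (S.finG blue t).length =
      ∑ P, (S.hist0 blue P).elim 0 (fun _ => 1) +
      ∑ s ∈ Finset.range t, by
        classical exact if S.Low blue s ∧ ¬ (blue (S.e1 s) ↔ blue (S.e2 s)) then 1 else 0

variable {blue}

theorem State2.step_idle {t : ℕ} (h : S.State2 blue t) (hl : ¬ S.Low blue t)
    (hM : ∀ P, S.M blue (t + 1) P ↔ S.M blue t P)
    (hcnt : cnt blue < cnt (fun y => ¬ blue y)) : S.State2 blue (t + 1) where
  supp := by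
    intro P; rw [histG_idle hl, hM]; exact h.supp P
  inv := by
    intro P T hT
    rw [histG_idle hl] at hT
    have : S.M blue t P := (h.supp P).1 (by rw [hT]; rfl)
    exact (h.inv P T hT).stay this hcnt
  sum := by
    intro f hf
    rw [histG_idle hl, finG_idle (by tauto), Finset.sum_range_succ, ← add_assoc, ← h.sum f hf]
    simp only [hl, ↓reduceIte, add_zero, Nat.add_left_cancel_iff]
  count := by
    rw [histG_idle hl, finG_idle (by tauto), Finset.sum_range_succ, ← add_assoc, ← h.count]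
    simp only [hl, false_and, ↓reduceIte, add_zero, Nat.add_left_cancel_iff]

theorem State2.step_birth {t : ℕ} (h : S.State2 blue t) (hl : S.Low blue t)
    (h1 : ¬ blue (S.e1 t)) (h2 : blue (S.e2 t)) (hH : 0 < S.H)
    (hcnt : cnt blue < cnt (fun y => ¬ blue y)) : S.State2 blue (t + 1) := by
  classical
  obtain ⟨m1, m2, m3⟩ := S.M_RB h1 h2
  have hh : S.histG blue (t + 1) = Function.update (S.histG blue t) (S.e2 t, S.e1 t)
      (some ⟨S.e2 t, S.e1 t, [S.e2 t], [S.e1 t]⟩) := by
    simp only [histG_succ, step, hl, h1, h2, if_true, if_false]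
  have hf : S.finG blue (t + 1) = S.finG blue t := finG_idle (by tauto)
  have hnone : S.histG blue t (S.e2 t, S.e1 t) = none := by
    have := h.supp (S.e2 t, S.e1 t)
    rw [← Option.not_isSome_iff_eq_none, this]; exact m1
  constructor
  · intro P
    rw [hh]
    by_cases hP : P = (S.e2 t, S.e1 t)
    · rw [hP, Function.update_self]; simp [m2, hl]
    · rw [Function.update_of_ne hP, h.supp, m3 P hP]
  · intro P T hT
    rw [hh] at hT
    by_cases hP : P = (S.e2 t, S.e1 t)
    · rw [hP, Function.update_self] at hT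
      have hT' := Option.some.inj hT
      rw [hP, ← hT']
      exact Or.inl ⟨t, Inv.birth S hH h1 h2 hl⟩
    · rw [Function.update_of_ne hP] at hT
      have : S.M blue t P := (h.supp P).1 (by rw [hT]; rfl)
      exact (h.inv P T hT).stay this hcnt
  · intro f hff
    rw [hf, Finset.sum_range_succ, ← add_assoc, ← h.sum f hff, hh]
    have := sum_upd (fun o : Option (Tok B) => o.elim 0 (Tok.val f)) (S.histG blue t)
      (S.e2 t, S.e1 t) (some ⟨S.e2 t, S.e1 t, [S.e2 t], [S.e1 t]⟩)
    simp only [hnone, Option.elim_none, Option.elim_some] at this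
    simp only [hl, if_true]
    have h3 : Tok.val f ⟨S.e2 t, S.e1 t, [S.e2 t], [S.e1 t]⟩ = f (S.e1 t) (S.e2 t) := by
      simp [Tok.val, csum]
    rw [h3] at this
    try simp only [Option.elim_none, Option.elim_some]
    omega
  · rw [hf, Finset.sum_range_succ, ← add_assoc, ← h.count, hh]
    have := sum_upd (fun o : Option (Tok B) => o.elim 0 (fun _ => 1)) (S.histG blue t)
      (S.e2 t, S.e1 t) (some ⟨S.e2 t, S.e1 t, [S.e2 t], [S.e1 t]⟩)
    simp only [hnone, Option.elim_none, Option.elim_some] at this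
    simp only [hl, h1, h2, true_and, false_iff, not_true, not_false_eq_true, if_true]
    try simp only [Option.elim_none, Option.elim_some]
    omega

theorem State2.step_death {t : ℕ} (h : S.State2 blue t) (hl : S.Low blue t)
    (h1 : blue (S.e1 t)) (h2 : ¬ blue (S.e2 t))
    (hcnt : cnt blue < cnt (fun y => ¬ blue y)) : S.State2 blue (t + 1) := by
  classical
  obtain ⟨m1, m2, m3⟩ := S.M_BR h1 h2
  have hh : S.histG blue (t + 1) = Function.update (S.histG blue t) (S.e1 t, S.e2 t) none := by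
    simp only [histG_succ, step, hl, h1, h2, if_true, if_false]
  have hMt : S.M blue t (S.e1 t, S.e2 t) := m2.2 hl
  obtain ⟨T, hT⟩ : ∃ T, S.histG blue t (S.e1 t, S.e2 t) = some T := by
    have := (h.supp (S.e1 t, S.e2 t)).2 hMt
    exact Option.isSome_iff_exists.1 this
  have hf : S.finG blue (t + 1) = (T.ys.reverse ++ T.xs) :: S.finG blue t := by
    rw [finG_succ, if_pos ⟨hl, h1, h2⟩, hT]; rfl
  have hI := h.inv _ _ hT
  constructor
  · intro P
    rw [hh]
    by_cases hP : P = (S.e1 t, S.e2 t)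
    · rw [hP, Function.update_self]; simp [m1]
    · rw [Function.update_of_ne hP, h.supp, m3 P hP]
  · intro P T' hT'
    rw [hh] at hT'
    by_cases hP : P = (S.e1 t, S.e2 t)
    · rw [hP, Function.update_self] at hT'
      exact absurd hT' (by simp)
    · rw [Function.update_of_ne hP] at hT'
      have : S.M blue t P := (h.supp P).1 (by rw [hT']; rfl)
      exact (h.inv P T' hT').stay this hcnt
  · intro f hff
    rw [hf, Finset.sum_range_succ, ← add_assoc, ← h.sum f hff, hh]
    have := sum_upd (fun o : Option (Tok B) => o.elim 0 (Tok.val f)) (S.histG blue t)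
      (S.e1 t, S.e2 t) none
    simp only [hT, Option.elim_none, Option.elim_some] at this
    simp only [hl, if_true]
    obtain ⟨⟨l, hl1⟩, ⟨l', hl'⟩, ⟨k, hk⟩, ⟨k', hk'⟩⟩ := hI.sh
    have h3 := ssum_poly f hff (S.e1 t) (S.e2 t) T.y0 T.x0 T.ys T.xs l l' k k' hl1 hl' hk hk'
    have h4 : Tok.val f T = csum f T.ys + csum f T.xs + f T.x0 T.y0 := rfl
    simp only [Option.elim_none, Option.elim_some, List.map_cons, List.sum_cons]
    omega
  · rw [hf, Finset.sum_range_succ, ← add_assoc, ← h.count, hh]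
    have := sum_upd (fun o : Option (Tok B) => o.elim 0 (fun _ => 1)) (S.histG blue t)
      (S.e1 t, S.e2 t) none
    simp only [hT, Option.elim_none, Option.elim_some] at this
    simp only [hl, h1, h2, true_and, iff_false, not_true, not_false_eq_true, if_true]
    simp only [Option.elim_none, Option.elim_some, List.length_cons]
    omega

theorem State2.step_BB {t : ℕ} (h : S.State2 blue t) (hl : S.Low blue t)
    (h1 : blue (S.e1 t)) (h2 : blue (S.e2 t))
    (hcnt : cnt blue < cnt (fun y => ¬ blue y)) : S.State2 blue (t + 1) := by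
  classical
  obtain ⟨x, hx, hxr, m1, m2, m3, m4, m5⟩ := S.M_BB_low (le_of_lt hcnt) h1 h2 hl
  have hxs := S.xst_eq hx hxr
  have hh : S.histG blue (t + 1) =
      Function.update (Function.update (S.histG blue t) (S.e2 t, x) none) (S.e1 t, x)
        ((S.histG blue t (S.e2 t, x)).map (fun T => ⟨T.y0, T.x0, S.e1 t :: T.ys, T.xs⟩)) := by
    simp only [histG_succ, step, hl, h1, h2, if_true, hxs]
  obtain ⟨T, hT⟩ : ∃ T, S.histG blue t (S.e2 t, x) = some T :=
    Option.isSome_iff_exists.1 ((h.supp _).2 m1)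
  have hnone : S.histG blue t (S.e1 t, x) = none := by
    rw [← Option.not_isSome_iff_eq_none, h.supp]; exact m2
  rw [hT] at hh
  simp only [Option.map_some] at hh
  have hf : S.finG blue (t + 1) = S.finG blue t := finG_idle (by (clear * - h2; tauto))
  have hI := h.inv _ _ hT
  have hne : (S.e1 t, x) ≠ (S.e2 t, x) := by
    intro hc; exact S.e_ne t (congrArg Prod.fst hc)
  constructor
  · intro P
    rw [hh]
    by_cases hP : P = (S.e1 t, x)
    · rw [hP, Function.update_self]; simp [m3]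
    · rw [Function.update_of_ne hP]
      by_cases hP2 : P = (S.e2 t, x)
      · rw [hP2, Function.update_self]; simp [m4]
      · rw [Function.update_of_ne hP2, h.supp, m5 P hP hP2]
  · intro P T' hT'
    rw [hh] at hT'
    by_cases hP : P = (S.e1 t, x)
    · rw [hP, Function.update_self] at hT'
      have hT'' := Option.some.inj hT'
      rw [hP, ← hT'']
      exact hI.moveB m1 hcnt rfl h1
    · rw [Function.update_of_ne hP] at hT'
      by_cases hP2 : P = (S.e2 t, x)
      · rw [hP2, Function.update_self] at hT'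
        exact absurd hT' (by simp)
      · rw [Function.update_of_ne hP2] at hT'
        have : S.M blue t P := (h.supp P).1 (by rw [hT']; rfl)
        exact (h.inv P T' hT').stay this hcnt
  · intro f hff
    rw [hf, Finset.sum_range_succ, ← add_assoc, ← h.sum f hff, hh]
    have s1 := sum_upd (fun o : Option (Tok B) => o.elim 0 (Tok.val f))
      (Function.update (S.histG blue t) (S.e2 t, x) none)
      (S.e1 t, x) (some ⟨T.y0, T.x0, S.e1 t :: T.ys, T.xs⟩)
    have s2 := sum_upd (fun o : Option (Tok B) => o.elim 0 (Tok.val f)) (S.histG blue t)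
      (S.e2 t, x) none
    rw [Function.update_of_ne hne, hnone] at s1
    rw [hT] at s2
    simp only [Option.elim_none, Option.elim_some] at s1 s2
    simp only [hl, if_true]
    obtain ⟨⟨l, hl1⟩, _⟩ := hI.sh
    have h3 : Tok.val f ⟨T.y0, T.x0, S.e1 t :: T.ys, T.xs⟩ =
        f (S.e1 t) (S.e2 t) + Tok.val f T := by
      simp only [Tok.val]
      rw [hl1, csum_cons_cons]
      ring
    rw [h3] at s1
    try simp only [Option.elim_none, Option.elim_some]
    omega
  · rw [hf, Finset.sum_range_succ, ← add_assoc, ← h.count, hh]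
    have s1 := sum_upd (fun o : Option (Tok B) => o.elim 0 (fun _ => 1))
      (Function.update (S.histG blue t) (S.e2 t, x) none)
      (S.e1 t, x) (some ⟨T.y0, T.x0, S.e1 t :: T.ys, T.xs⟩)
    have s2 := sum_upd (fun o : Option (Tok B) => o.elim 0 (fun _ => 1)) (S.histG blue t)
      (S.e2 t, x) none
    rw [Function.update_of_ne hne, hnone] at s1
    rw [hT] at s2
    simp only [Option.elim_none, Option.elim_some] at s1 s2
    simp only [hl, h1, h2, not_true, and_false, if_false]
    try simp only [Option.elim_none, Option.elim_some]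
    omega

theorem State2.step_RR {t : ℕ} (h : S.State2 blue t) (hl : S.Low blue t)
    (h1 : ¬ blue (S.e1 t)) (h2 : ¬ blue (S.e2 t))
    (hcnt : cnt blue < cnt (fun y => ¬ blue y)) : S.State2 blue (t + 1) := by
  classical
  obtain ⟨y, hy, hyr, m1, m2, m3, m4, m5⟩ := S.M_RR_low h1 h2 hl
  have hys := S.yst_eq hy hyr
  have hh : S.histG blue (t + 1) =
      Function.update (Function.update (S.histG blue t) (y, S.e1 t) none) (y, S.e2 t)
        ((S.histG blue t (y, S.e1 t)).map (fun T => ⟨T.y0, T.x0, T.ys, S.e2 t :: T.xs⟩)) := by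
    simp only [histG_succ, step, hl, h1, h2, if_true, if_false, hys]
  obtain ⟨T, hT⟩ : ∃ T, S.histG blue t (y, S.e1 t) = some T :=
    Option.isSome_iff_exists.1 ((h.supp _).2 m1)
  have hnone : S.histG blue t (y, S.e2 t) = none := by
    rw [← Option.not_isSome_iff_eq_none, h.supp]; exact m2
  rw [hT] at hh
  simp only [Option.map_some] at hh
  have hf : S.finG blue (t + 1) = S.finG blue t := finG_idle (by tauto)
  have hI := h.inv _ _ hT
  have hne : (y, S.e2 t) ≠ (y, S.e1 t) := by
    intro hc; exact S.e_ne t (congrArg Prod.snd hc).symm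
  constructor
  · intro P
    rw [hh]
    by_cases hP : P = (y, S.e2 t)
    · rw [hP, Function.update_self]; simp [m3]
    · rw [Function.update_of_ne hP]
      by_cases hP2 : P = (y, S.e1 t)
      · rw [hP2, Function.update_self]; simp [m4]
      · rw [Function.update_of_ne hP2, h.supp, m5 P hP2 hP]
  · intro P T' hT'
    rw [hh] at hT'
    by_cases hP : P = (y, S.e2 t)
    · rw [hP, Function.update_self] at hT'
      have hT'' := Option.some.inj hT'
      rw [hP, ← hT'']
      exact hI.moveR m1 hcnt rfl h2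
    · rw [Function.update_of_ne hP] at hT'
      by_cases hP2 : P = (y, S.e1 t)
      · rw [hP2, Function.update_self] at hT'
        exact absurd hT' (by simp)
      · rw [Function.update_of_ne hP2] at hT'
        have : S.M blue t P := (h.supp P).1 (by rw [hT']; rfl)
        exact (h.inv P T' hT').stay this hcnt
  · intro f hff
    rw [hf, Finset.sum_range_succ, ← add_assoc, ← h.sum f hff, hh]
    have s1 := sum_upd (fun o : Option (Tok B) => o.elim 0 (Tok.val f))
      (Function.update (S.histG blue t) (y, S.e1 t) none)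
      (y, S.e2 t) (some ⟨T.y0, T.x0, T.ys, S.e2 t :: T.xs⟩)
    have s2 := sum_upd (fun o : Option (Tok B) => o.elim 0 (Tok.val f)) (S.histG blue t)
      (y, S.e1 t) none
    rw [Function.update_of_ne hne, hnone] at s1
    rw [hT] at s2
    simp only [Option.elim_none, Option.elim_some] at s1 s2
    simp only [hl, if_true]
    obtain ⟨_, ⟨l, hl1⟩, _⟩ := hI.sh
    have h3 : Tok.val f ⟨T.y0, T.x0, T.ys, S.e2 t :: T.xs⟩ =
        f (S.e1 t) (S.e2 t) + Tok.val f T := by
      simp only [Tok.val]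
      rw [hl1, csum_cons_cons, hff (S.e2 t)]
      ring
    rw [h3] at s1
    try simp only [Option.elim_none, Option.elim_some]
    omega
  · rw [hf, Finset.sum_range_succ, ← add_assoc, ← h.count, hh]
    have s1 := sum_upd (fun o : Option (Tok B) => o.elim 0 (fun _ => 1))
      (Function.update (S.histG blue t) (y, S.e1 t) none)
      (y, S.e2 t) (some ⟨T.y0, T.x0, T.ys, S.e2 t :: T.xs⟩)
    have s2 := sum_upd (fun o : Option (Tok B) => o.elim 0 (fun _ => 1)) (S.histG blue t)
      (y, S.e1 t) none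
    rw [Function.update_of_ne hne, hnone] at s1
    rw [hT] at s2
    simp only [Option.elim_none, Option.elim_some] at s1 s2
    simp only [hl, h1, h2, not_true, and_false, if_false]
    try simp only [Option.elim_none, Option.elim_some]
    omega

/-- the state at all times -/
theorem state2 (hH : 0 < S.H) (hcnt : cnt blue < cnt (fun y => ¬ blue y)) (t : ℕ) :
    S.State2 blue t := by
  induction t with
  | zero =>
    constructor
    · intro P
      rw [histG_zero]
      unfold hist0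
      by_cases hP : S.M blue 0 P <;> simp [hP]
    · intro P T hT
      rw [histG_zero] at hT
      unfold hist0 at hT
      by_cases hP : S.M blue 0 P
      · simp only [hP, if_true, Option.some.injEq] at hT
        right
        refine ⟨?_, Nat.zero_le _⟩
        subst hT
        exact ⟨hP, ⟨⟨[], rfl⟩, ⟨[], rfl⟩, ⟨[], rfl⟩, ⟨[], rfl⟩⟩, by simp, by simp⟩
      · simp [hP] at hT
    · intro f _; simp only [histG_zero, finG_zero, List.map_nil, List.sum_nil, add_zero, Finset.range_zero, Finset.sum_empty]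
    · simp only [histG_zero, finG_zero, List.length_nil, mul_zero, add_zero, Finset.range_zero, Finset.sum_boole, Finset.filter_empty, Finset.card_empty, CharP.cast_eq_zero]
  | succ t ih =>
    by_cases hl : S.Low blue t
    · by_cases h1 : blue (S.e1 t)
      · by_cases h2 : blue (S.e2 t)
        · exact ih.step_BB S hl h1 h2 hcnt
        · exact ih.step_death S hl h1 h2 hcnt
      · by_cases h2 : blue (S.e2 t)
        · exact ih.step_birth S hl h1 h2 hH hcnt
        · exact ih.step_RR S hl h1 h2 hcnt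
    · refine ih.step_idle S hl ?_ hcnt
      by_cases h1 : blue (S.e1 t)
      · by_cases h2 : blue (S.e2 t)
        · exact S.M_BB_high h1 h2 hl
        · obtain ⟨m1, m2, m3⟩ := S.M_BR h1 h2
          intro P
          by_cases hP : P = (S.e1 t, S.e2 t)
          · rw [hP]; simp [m1, m2, hl]
          · exact m3 P hP
      · by_cases h2 : blue (S.e2 t)
        · obtain ⟨m1, m2, m3⟩ := S.M_RB h1 h2
          intro P
          by_cases hP : P = (S.e2 t, S.e1 t)
          · rw [hP]; simp [m1, m2, hl]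
          · exact m3 P hP
        · exact S.M_RR_high h1 h2 hl

/-- after half a period all alive tokens are real -/
theorem real_of_ge (hH : 0 < S.H) (hcnt : cnt blue < cnt (fun y => ¬ blue y)) {t : ℕ}
    (ht : S.H ≤ t) {P : B × B} {T : Tok B} (hT : S.histG blue t P = some T) :
    ∃ tb, S.Inv blue t tb P T := by
  have hst := S.state2 hH hcnt t
  rcases hst.inv P T hT with h | ⟨h, h2⟩
  · exact h
  · exfalso
    have hM : S.M blue t P := (hst.supp P).1 (by rw [hT]; rfl)
    have := h.lt_H hM h2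
    omega

/-- the polygons finished after half a period are good -/
theorem fin_good (hH : 0 < S.H) (hcnt : cnt blue < cnt (fun y => ¬ blue y)) (k : ℕ) :
    ∃ Ls, S.finG blue (S.H + k) = Ls ++ S.finG blue S.H ∧ ∀ L ∈ Ls, S.PolyGood blue L := by
  induction k with
  | zero => exact ⟨[], by simp, by simp⟩
  | succ k ih =>
    obtain ⟨Ls, h1, h2⟩ := ih
    by_cases hd : S.Low blue (S.H + k) ∧ blue (S.e1 (S.H + k)) ∧ ¬ blue (S.e2 (S.H + k))
    · have hst := S.state2 hH hcnt (S.H + k)
      obtain ⟨m1, m2, m3⟩ := S.M_BR hd.2.1 hd.2.2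
      have hMt : S.M blue (S.H + k) (S.e1 (S.H + k), S.e2 (S.H + k)) := m2.2 hd.1
      obtain ⟨T, hT⟩ : ∃ T, S.histG blue (S.H + k) (S.e1 (S.H + k), S.e2 (S.H + k)) = some T :=
        Option.isSome_iff_exists.1 ((hst.supp _).2 hMt)
      obtain ⟨tb, hI⟩ := S.real_of_ge hH hcnt (by omega) hT
      refine ⟨(T.ys.reverse ++ T.xs) :: Ls, ?_, ?_⟩
      · rw [← add_assoc, finG_succ, if_pos hd, hT, h1]; rfl
      · intro L hL
        rw [List.mem_cons] at hL
        rcases hL with hL | hL
        · rw [hL]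
          exact S.polyGood_of_inv hI hMt (hI.lt_H hMt hcnt)
        · exact h2 L hL
    · refine ⟨Ls, ?_, h2⟩
      rw [← add_assoc, finG_idle hd, h1]

end Sweep

end Vale.Agent.P040.Zar
end
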