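import Vale.Agent.P040.MathlibUsed
import Vale.Agent.P040.Drawing
attribute [-instance] ProperSMul.toContinuousSMul IsTopologicalTorsor.toContinuousSMul IdemSemiring.toCanonicallyOrderedAdd IdemSemiring.toMulLeftMono IdemSemiring.toMulRightMono AddQuantale.instAddLeftMono AddQuantale.instAddRightMono Quantale.instMulLeftMono Quantale.instMulRightMono FiniteDimensional.rclike_to_real IsScalarTower.complexToReal FiniteDimensional.complexToReal

set_option linter.all false

section

/-!
# Cyclic orders, circulations and the duality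
-/

namespace Vale.Agent.P040.Gen

open Finset

/-- Half the sign of `ρ k - ρ b`. -/
noncomputable def sg {n : ℕ} (ρ : Equiv.Perm (Fin n)) (b k : Fin n) : ℝ :=
  if ρ b < ρ k then 1 / 2 else if ρ k < ρ b then -(1 / 2) else 0

theorem sg_anti {n : ℕ} (ρ : Equiv.Perm (Fin n)) (b k : Fin n) : sg ρ k b = - sg ρ b k := by
  unfold sg
  rcases lt_trichotomy (ρ b) (ρ k) with h | h | h
  · rw [if_neg (not_lt.2 h.le), if_pos h, if_pos h]
  · rw [h]; simp
  · rw [if_pos h, if_neg (not_lt.2 h.le), if_pos h]; ring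

/-- `1 - 2 j / n`, where `j` is the distance from `b` to `k` in the cyclic order. -/
noncomputable def av {n : ℕ} (ρ : Equiv.Perm (Fin n)) (b k : Fin n) : ℝ :=
  2 * sg ρ b k - 2 / n * ((ρ k : ℝ) - (ρ b : ℝ))

theorem av_anti {n : ℕ} (ρ : Equiv.Perm (Fin n)) (b k : Fin n) : av ρ k b = - av ρ b k := by
  unfold av
  rw [sg_anti ρ b k]
  ring

theorem exists_rank {n : ℕ} {β : Fin n → ℝ} (hβ : Function.Injective β) :
    ∃ ρ : Equiv.Perm (Fin n), ∀ b k, ρ b < ρ k ↔ β b < β k := by
  refine ⟨(Tuple.sort β)⁻¹, ?_⟩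
  have hm : StrictMono (β ∘ Tuple.sort β) :=
    (Tuple.monotone_sort β).strictMono_of_injective (hβ.comp (Tuple.sort β).injective)
  intro b k
  have := hm.lt_iff_lt (a := (Tuple.sort β)⁻¹ b) (b := (Tuple.sort β)⁻¹ k)
  simpa only [Equiv.Perm.coe_inv, Function.comp_apply, Equiv.apply_symm_apply] using this.symm

/-- Sum over a row of a function of the cyclic distance. -/
theorem row_sum {n : ℕ} (ρ : Equiv.Perm (Fin n)) (F : ℝ → ℝ) (b : Fin n) :
    ∑ k, F (av ρ b k) = F 0 + ∑ j ∈ Finset.Ico 1 n, F (1 - 2 * j / n) := by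
  have hn : (n : ℝ) ≠ 0 := by
    have : 0 < n := lt_of_le_of_lt (Nat.zero_le _) b.2
    exact_mod_cast this.ne'
  obtain ⟨i, hi⟩ : ∃ i : ℕ, i = (ρ b : ℕ) := ⟨_, rfl⟩
  have hin : i < n := hi ▸ (ρ b).2
  have h1 : ∑ k, F (av ρ b k) = ∑ k : Fin n, F (if i < k then 1 - 2 * ((k : ℕ) - (i : ℕ) : ℝ) / n
      else if (k : ℕ) < i then -1 + 2 * ((i : ℕ) - (k : ℕ) : ℝ) / n else 0) := by
    rw [← Equiv.sum_comp ρ (fun k : Fin n => F (if i < k then 1 - 2 * ((k : ℕ) - (i : ℕ) : ℝ) / n
      else if (k : ℕ) < i then -1 + 2 * ((i : ℕ) - (k : ℕ) : ℝ) / n else 0))]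
    apply Finset.sum_congr rfl
    intro k _
    congr 1
    unfold av sg
    simp only [hi, Fin.lt_def]
    rcases lt_trichotomy (ρ b : ℕ) (ρ k : ℕ) with h | h | h
    · rw [if_pos h, if_pos h]; ring
    · rw [if_neg (by omega), if_neg (by omega), if_neg (by omega), if_neg (by omega), h]; ring
    · rw [if_neg (by omega), if_pos h, if_neg (by omega), if_pos h]; ring
  rw [h1, Fin.sum_univ_eq_sum_range (fun k => F (if i < k then 1 - 2 * ((k : ℕ) - (i : ℕ) : ℝ) / n
      else if (k : ℕ) < i then -1 + 2 * ((i : ℕ) - (k : ℕ) : ℝ) / n else 0)) n,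
    ← Finset.sum_range_add_sum_Ico _ hin.le, Finset.sum_eq_sum_Ico_succ_bot hin]
  have h2 : ∑ k ∈ Finset.range i, F (if i < k then 1 - 2 * ((k : ℕ) - (i : ℕ) : ℝ) / n
      else if (k : ℕ) < i then -1 + 2 * ((i : ℕ) - (k : ℕ) : ℝ) / n else 0) =
      ∑ j ∈ Finset.Ico (n - i) n, F (1 - 2 * j / n) := by
    rw [Finset.sum_Ico_eq_sum_range, show n - (n - i) = i by omega]
    apply Finset.sum_congr rfl
    intro k hk
    rw [Finset.mem_range] at hk
    rw [if_neg (by omega), if_pos hk]
    congr 1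
    push_cast [Nat.cast_sub hin.le]
    field_simp
    ring
  have h3 : ∑ k ∈ Finset.Ico (i + 1) n, F (if i < k then 1 - 2 * ((k : ℕ) - (i : ℕ) : ℝ) / n
      else if (k : ℕ) < i then -1 + 2 * ((i : ℕ) - (k : ℕ) : ℝ) / n else 0) =
      ∑ j ∈ Finset.Ico 1 (n - i), F (1 - 2 * j / n) := by
    have h4 := Finset.sum_Ico_add' (fun x : ℕ => F (1 - 2 * ((x : ℕ) - (i : ℕ) : ℝ) / n)) 1 (n - i) i
    rw [show 1 + i = i + 1 by omega, show n - i + i = n by omega] at h4
    rw [show ∑ j ∈ Finset.Ico 1 (n - i), F (1 - 2 * j / n) = ∑ x ∈ Finset.Ico 1 (n - i),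
      (fun x : ℕ => F (1 - 2 * ((x : ℕ) - (i : ℕ) : ℝ) / n)) (x + i) from ?_, h4]
    · apply Finset.sum_congr rfl
      intro k hk
      rw [Finset.mem_Ico] at hk
      rw [if_pos (by omega)]
    · apply Finset.sum_congr rfl
      intro k _
      simp only
      congr 1
      push_cast
      ring
  rw [h2, h3, if_neg (by omega), if_neg (by omega),
    ← Finset.sum_Ico_consecutive (fun j : ℕ => F (1 - 2 * j / n)) (show 1 ≤ n - i by omega)
      (show n - i ≤ n by omega)]
  ring

/-- The sum of an odd function over a row vanishes. -/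
theorem row_odd {n : ℕ} (ρ : Equiv.Perm (Fin n)) {F : ℝ → ℝ} (hF : ∀ u, F (-u) = - F u)
    (b : Fin n) : ∑ k, F (av ρ b k) = 0 := by
  have hn : (n : ℝ) ≠ 0 := by
    have : 0 < n := lt_of_le_of_lt (Nat.zero_le _) b.2
    exact_mod_cast this.ne'
  have hn0 : 0 < n := lt_of_le_of_lt (Nat.zero_le _) b.2
  rw [row_sum]
  have h0 : F 0 = 0 := by
    have := hF 0
    rw [neg_zero] at this
    linarith only [this]
  have h1 := Finset.sum_Ico_reflect (fun j : ℕ => F (1 - 2 * j / n)) 1 (m := n) (n := n) (by omega)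
  rw [show n + 1 - n = 1 by omega, show n + 1 - 1 = n by omega] at h1
  have h2 : ∑ j ∈ Finset.Ico 1 n, F (1 - 2 * ((n - j : ℕ) : ℝ) / n) =
      - ∑ j ∈ Finset.Ico 1 n, F (1 - 2 * j / n) := by
    rw [← Finset.sum_neg_distrib]
    apply Finset.sum_congr rfl
    intro j hj
    rw [Finset.mem_Ico] at hj
    rw [← hF]
    congr 1
    rw [Nat.cast_sub hj.2.le]
    field_simp
    ring
  rw [h2] at h1
  linarith only [h0, h1]

section dual

variable {n : ℕ}

theorem floor_fract_sub {u v : ℝ} (h : ∀ k : ℤ, v - u ≠ k) :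
    (⌊v - u⌋ : ℝ) = ⌊v⌋ - ⌊u⌋ + (if Int.fract u < Int.fract v then 0 else -1) := by
  have e : v - u = Int.fract v - Int.fract u + ((⌊v⌋ - ⌊u⌋ : ℤ) : ℝ) := by
    unfold Int.fract
    push_cast
    ring
  have hf0 := Int.fract_nonneg u
  have hf1 := Int.fract_lt_one u
  have hg0 := Int.fract_nonneg v
  have hg1 := Int.fract_lt_one v
  have h1 : ⌊v - u⌋ = ⌊Int.fract v - Int.fract u⌋ + (⌊v⌋ - ⌊u⌋) := by
    rw [e, Int.floor_add_intCast]
  rw [h1]
  split_ifs with h2
  · have : ⌊Int.fract v - Int.fract u⌋ = 0 := by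
      rw [Int.floor_eq_zero_iff]
      exact ⟨by linarith only [h2], by linarith only [hf0, hg1]⟩
    rw [this]; push_cast; ring
  · have h3 : Int.fract v ≠ Int.fract u := by
      intro h4
      apply h (⌊v⌋ - ⌊u⌋)
      rw [e, h4]
      push_cast; ring
    have : ⌊Int.fract v - Int.fract u⌋ = -1 := by
      rw [Int.floor_eq_iff]
      push Not at h2
      have := lt_of_le_of_ne h2 h3
      push_cast
      exact ⟨by linarith only [hf1, hg0], by linarith only [this]⟩
    rw [this]; push_cast; ring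

theorem pot_sum {s : Fin n → Fin n → ℝ} (hs : ∀ b k, s k b = - s b k)
    (hrow : ∀ b, ∑ k, s b k = 0) (P : Fin n → ℝ) : ∑ b, ∑ k, (P k - P b) * s b k = 0 := by
  have h1 : ∑ b, ∑ k, P b * s b k = 0 := by
    apply Finset.sum_eq_zero
    intro b _
    rw [← Finset.mul_sum, hrow, mul_zero]
  have h2 : ∑ b, ∑ k, P k * s b k = 0 := by
    rw [Finset.sum_comm]
    apply Finset.sum_eq_zero
    intro k _
    rw [← Finset.mul_sum]
    have : ∑ b, s b k = - ∑ b, s k b := by
      rw [← Finset.sum_neg_distrib]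
      exact Finset.sum_congr rfl (fun b _ => hs k b)
    rw [this, hrow, neg_zero, mul_zero]
  have h3 : ∑ b, ∑ k, (P k - P b) * s b k = ∑ b, ∑ k, P k * s b k - ∑ b, ∑ k, P b * s b k := by
    rw [← Finset.sum_sub_distrib]
    apply Finset.sum_congr rfl
    intro b _
    rw [← Finset.sum_sub_distrib]
    apply Finset.sum_congr rfl
    intro k _
    ring
  rw [h3, h1, h2, sub_zero]

/-- The duality for a pair of stars. -/
theorem dual {α α' X Y : Fin n → ℝ} {c c' : ℝ} (hα : ∀ b b', b ≠ b' → ∀ k : ℤ, α b' - α b ≠ k)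
    (hα' : ∀ b b', b ≠ b' → ∀ k : ℤ, α' b' - α' b ≠ k) (hX : ∀ b, ∃ k : ℤ, X b = α b + c + k)
    (hY : ∀ b, ∃ k : ℤ, Y b = c' - α' b + k) {N : Fin n → Fin n → ℕ}
    (hN : ∀ b b', b ≠ b' → |⌊X b' - X b⌋ - ⌊Y b' - Y b⌋| ≤ (N b b' : ℤ))
    {ρ ρ' : Equiv.Perm (Fin n)} (hρ : ∀ b k, ρ b < ρ k ↔ Int.fract (α b) < Int.fract (α k))
    (hρ' : ∀ b k, ρ' b < ρ' k ↔ Int.fract (α' b) < Int.fract (α' k))
    {s : Fin n → Fin n → ℝ} (hs : ∀ b k, s k b = - s b k) (hrow : ∀ b, ∑ k, s b k = 0)
    (hb : ∀ b k, |s b k| ≤ 1) :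
    ∑ b, ∑ k, (av ρ b k + av ρ' b k) * s b k ≤
      2 * ∑ b, ∑ k ∈ Finset.univ.filter (fun k => b ≠ k), (N b k : ℝ) := by
  classical
  choose p hp using hX
  choose q hq using hY
  have hss : ∀ b, s b b = 0 := fun b => by linarith only [hs b b]
  -- the floors in terms of the ranks
  have e1 : ∀ b k, b ≠ k → (⌊X k - X b⌋ : ℝ) =
      (((p k : ℝ) + ⌊α k⌋) - (p b + ⌊α b⌋)) + (sg ρ b k - 1 / 2) := by
    intro b k hbk
    have h1 : X k - X b = (α k - α b) + ((p k - p b : ℤ) : ℝ) := by
      rw [hp, hp]; push_cast; ring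
    rw [h1, Int.floor_add_intCast]
    push_cast
    rw [floor_fract_sub (hα b k hbk)]
    unfold sg
    have hne : ρ b ≠ ρ k := fun h => hbk (ρ.injective h)
    by_cases h2 : ρ b < ρ k
    · rw [if_pos h2, if_pos ((hρ b k).1 h2)]; ring
    · rw [if_neg h2, if_neg (fun h => h2 ((hρ b k).2 h)),
        if_pos (lt_of_le_of_ne (not_lt.1 h2) hne.symm)]
      ring
  have e2 : ∀ b k, b ≠ k → (⌊Y k - Y b⌋ : ℝ) =
      (((q k : ℝ) - ⌊α' k⌋) - (q b - ⌊α' b⌋)) - (sg ρ' b k + 1 / 2) := by
    intro b k hbk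
    have h1 : Y k - Y b = (α' b - α' k) + ((q k - q b : ℤ) : ℝ) := by
      rw [hq, hq]; push_cast; ring
    rw [h1, Int.floor_add_intCast]
    push_cast
    rw [floor_fract_sub (hα' k b hbk.symm)]
    unfold sg
    have hne : ρ' b ≠ ρ' k := fun h => hbk (ρ'.injective h)
    by_cases h2 : ρ' b < ρ' k
    · have h3 := (hρ' b k).1 h2
      rw [if_pos h2, if_neg (not_lt.2 h3.le)]; ring
    · have h4 : ρ' k < ρ' b := lt_of_le_of_ne (not_lt.1 h2) hne.symm
      rw [if_neg h2, if_pos h4, if_pos ((hρ' k b).1 h4)]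
      ring
  set P : Fin n → ℝ := fun b => ((p b : ℝ) + ⌊α b⌋) - (q b - ⌊α' b⌋) with hP
  have key : ∀ b k, (sg ρ b k + sg ρ' b k) * s b k ≤
      (if b ≠ k then (N b k : ℝ) else 0) - (P k - P b) * s b k := by
    intro b k
    by_cases hbk : b = k
    · subst hbk
      simp [hss]
    · rw [if_pos hbk]
      have h1 : (sg ρ b k + sg ρ' b k) =
          ((⌊X k - X b⌋ : ℝ) - ⌊Y k - Y b⌋) - (P k - P b) := by
        rw [e1 b k hbk, e2 b k hbk, hP]
        ring
      have h2 : ((⌊X k - X b⌋ : ℝ) - ⌊Y k - Y b⌋) * s b k ≤ (N b k : ℝ) := by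
        have h3 : |((⌊X k - X b⌋ : ℝ) - ⌊Y k - Y b⌋)| ≤ (N b k : ℝ) := by
          exact_mod_cast hN b k hbk
        calc ((⌊X k - X b⌋ : ℝ) - ⌊Y k - Y b⌋) * s b k
            ≤ |((⌊X k - X b⌋ : ℝ) - ⌊Y k - Y b⌋) * s b k| := le_abs_self _
          _ = |((⌊X k - X b⌋ : ℝ) - ⌊Y k - Y b⌋)| * |s b k| := abs_mul _ _
          _ ≤ (N b k : ℝ) * 1 := mul_le_mul h3 (hb b k) (abs_nonneg _) (Nat.cast_nonneg _)
          _ = (N b k : ℝ) := mul_one _
      rw [h1]
      linarith only [h2]
  have h1 : ∑ b, ∑ k, (sg ρ b k + sg ρ' b k) * s b k ≤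
      ∑ b, ∑ k ∈ Finset.univ.filter (fun k => b ≠ k), (N b k : ℝ) := by
    calc ∑ b, ∑ k, (sg ρ b k + sg ρ' b k) * s b k
        ≤ ∑ b, ∑ k, ((if b ≠ k then (N b k : ℝ) else 0) - (P k - P b) * s b k) :=
          Finset.sum_le_sum fun b _ => Finset.sum_le_sum fun k _ => key b k
      _ = ∑ b, ∑ k ∈ Finset.univ.filter (fun k => b ≠ k), (N b k : ℝ)
          - ∑ b, ∑ k, (P k - P b) * s b k := by
          rw [← Finset.sum_sub_distrib]
          apply Finset.sum_congr rfl
          intro b _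
          rw [Finset.sum_sub_distrib, Finset.sum_filter]
      _ = _ := by rw [pot_sum hs hrow, sub_zero]
  have h2 : ∑ b, ∑ k, (av ρ b k + av ρ' b k) * s b k =
      2 * ∑ b, ∑ k, (sg ρ b k + sg ρ' b k) * s b k := by
    have h3 := pot_sum hs hrow (fun b => 2 / n * ((ρ b : ℝ) + (ρ' b : ℝ)))
    calc ∑ b, ∑ k, (av ρ b k + av ρ' b k) * s b k
        = ∑ b, ∑ k, (2 * ((sg ρ b k + sg ρ' b k) * s b k) -
          ((2 / n * ((ρ k : ℝ) + (ρ' k : ℝ))) - (2 / n * ((ρ b : ℝ) + (ρ' b : ℝ)))) * s b k) := by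
          apply Finset.sum_congr rfl
          intro b _
          apply Finset.sum_congr rfl
          intro k _
          unfold av
          ring
      _ = 2 * ∑ b, ∑ k, (sg ρ b k + sg ρ' b k) * s b k - ∑ b, ∑ k,
          ((2 / n * ((ρ k : ℝ) + (ρ' k : ℝ))) - (2 / n * ((ρ b : ℝ) + (ρ' b : ℝ)))) * s b k := by
          rw [Finset.mul_sum, ← Finset.sum_sub_distrib]
          apply Finset.sum_congr rfl
          intro b _
          rw [Finset.mul_sum, ← Finset.sum_sub_distrib]
      _ = _ := by rw [h3, sub_zero]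
  rw [h2]
  linarith

end dual

end Vale.Agent.P040.Gen
end

section

/-!
# The kernel and its sums
-/

namespace Vale.Agent.P040.Gen

open Finset

/-- The clipped linear function. -/
noncomputable def gcl (u : ℝ) : ℝ := max (-(1 / 2)) (min (1 / 2) (12 / 5 * u))

theorem gcl_neg (u : ℝ) : gcl (-u) = - gcl u := by
  unfold gcl
  rcases le_total (12 / 5 * u) (-(1 / 2)) with h | h
  · rw [min_eq_right (by linarith : 12 / 5 * u ≤ 1 / 2), max_eq_left h,
      min_eq_left (by linarith only [h] : 1 / 2 ≤ 12 / 5 * -u), max_eq_right (by norm_num)]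
    ring
  · rcases le_total (12 / 5 * u) (1 / 2) with h2 | h2
    · rw [min_eq_right h2, max_eq_right h, min_eq_right (by linarith only [h] : 12 / 5 * -u ≤ 1 / 2),
        max_eq_right (by linarith only [h2])]
      ring
    · rw [min_eq_left h2, max_eq_right (by norm_num : -(1 / 2 : ℝ) ≤ 1 / 2),
        min_eq_right (by linarith only [h2] : 12 / 5 * -u ≤ 1 / 2),
        max_eq_left (by linarith : 12 / 5 * -u ≤ -(1 / 2))]

theorem abs_gcl (u : ℝ) : |gcl u| ≤ 1 / 2 := by
  unfold gcl
  rw [abs_le]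
  exact ⟨le_max_left _ _, max_le (by norm_num) (min_le_left _ _)⟩

/-- The diagonal part of the lower bound for the kernel. -/
noncomputable def psi (u : ℝ) : ℝ := 3 * u * gcl u - 2 / 5 * u ^ 2 - 5 / 8 * gcl u ^ 2

theorem psi_neg (u : ℝ) : psi (-u) = psi u := by
  unfold psi
  rw [gcl_neg]
  ring

theorem psi_zero : psi 0 = 0 := by
  have := gcl_neg 0
  rw [neg_zero] at this
  have h0 : gcl 0 = 0 := by linarith only [this]
  unfold psi
  rw [h0]
  norm_num

theorem psi_ge {u : ℝ} (hu : 0 ≤ u) :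
    3 / 2 * u - 2 / 5 * u ^ 2 - 5 / 32 + 18 / 5 * max 0 (5 / 24 - u) ^ 2 ≤ psi u := by
  unfold psi gcl
  rcases le_total (5 / 24) u with h | h
  · rw [min_eq_left (by linarith : 1 / 2 ≤ 12 / 5 * u),
      max_eq_right (by norm_num : -(1 / 2 : ℝ) ≤ 1 / 2),
      max_eq_left (by linarith : 5 / 24 - u ≤ 0)]
    linarith
  · rw [min_eq_right (by linarith : 12 / 5 * u ≤ 1 / 2),
      max_eq_right (by linarith : -(1 / 2) ≤ 12 / 5 * u),
      max_eq_right (by linarith : 0 ≤ 5 / 24 - u)]
    nlinarith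

theorem mul_gcl_le (u : ℝ) : u * gcl u ≤ |u| / 2 := by
  calc u * gcl u ≤ |u * gcl u| := le_abs_self _
    _ = |u| * |gcl u| := abs_mul _ _
    _ ≤ |u| * (1 / 2) := mul_le_mul_of_nonneg_left (abs_gcl u) (abs_nonneg u)
    _ = |u| / 2 := by ring

/-- The quadratic form inequality. -/
theorem quad {m : ℕ} (u G : Fin m → ℝ) :
    (m : ℝ) * ∑ x, (3 * u x * G x - 2 / 5 * u x ^ 2 - 5 / 8 * G x ^ 2) ≤
      ∑ x, ∑ y, (u x + u y) * (G x + G y) := by
  have h1 : ∑ x, ∑ y, (u x + u y) * (G x + G y) =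
      2 * m * ∑ x, u x * G x + 2 * (∑ x, u x) * ∑ x, G x := by
    have e : ∀ x, ∑ y, (u x + u y) * (G x + G y) =
        m * (u x * G x) + u x * ∑ y, G y + G x * ∑ y, u y + ∑ y, u y * G y := by
      intro x
      rw [Finset.mul_sum, Finset.mul_sum, show (m : ℝ) * (u x * G x) = ∑ _y : Fin m, u x * G x by
        rw [Finset.sum_const, Finset.card_univ, Fintype.card_fin, nsmul_eq_mul],
        ← Finset.sum_add_distrib, ← Finset.sum_add_distrib, ← Finset.sum_add_distrib]
      apply Finset.sum_congr rfl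
      intro y _
      ring
    rw [Finset.sum_congr rfl (fun x _ => e x), Finset.sum_add_distrib, Finset.sum_add_distrib,
      Finset.sum_add_distrib, ← Finset.mul_sum, ← Finset.sum_mul, ← Finset.sum_mul,
      Finset.sum_const, Finset.card_univ, Fintype.card_fin, nsmul_eq_mul]
    ring
  have h2 : (∑ x, (4 / 5 * u x - G x)) ^ 2 ≤ m * ∑ x, (4 / 5 * u x - G x) ^ 2 := by
    have := sq_sum_le_card_mul_sum_sq (s := (Finset.univ : Finset (Fin m)))
      (f := fun x => 4 / 5 * u x - G x)
    simpa only [sum_sub_distrib, ge_iff_le, card_univ, Fintype.card_fin] using this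
  have h3 : ∑ x, (4 / 5 * u x - G x) = 4 / 5 * ∑ x, u x - ∑ x, G x := by
    rw [Finset.mul_sum, ← Finset.sum_sub_distrib]
  have h4 : ∑ x, (3 * u x * G x - 2 / 5 * u x ^ 2 - 5 / 8 * G x ^ 2) =
      2 * ∑ x, u x * G x - 5 / 8 * ∑ x, (4 / 5 * u x - G x) ^ 2 := by
    rw [Finset.mul_sum, Finset.mul_sum, ← Finset.sum_sub_distrib]
    apply Finset.sum_congr rfl
    intro x _
    ring
  rw [h1, h4]
  rw [h3] at h2
  nlinarith only [h2, sq_nonneg (4 / 5 * ∑ x, u x + ∑ x, G x)]

theorem cube {w δ : ℝ} (hδ : 0 < δ) :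
    max 0 (w + δ) ^ 3 - max 0 (w - δ) ^ 3 ≤ 6 * δ * max 0 w ^ 2 + 8 * δ ^ 3 := by
  have hδ3 : 0 < δ ^ 3 := by positivity
  rcases le_total δ w with h1 | h1
  · rw [max_eq_right (by linarith), max_eq_right (by linarith), max_eq_right (by linarith)]
    linarith
  · rcases le_total 0 w with h2 | h2
    · rw [max_eq_right (by linarith only [hδ, h2]), max_eq_left (by linarith), max_eq_right (by linarith)]
      have a1 : w ^ 3 ≤ δ * w ^ 2 := by nlinarith only [h1]
      have a2 : w * δ ^ 2 ≤ δ ^ 3 := by nlinarith only [h1]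
      nlinarith only [a1, a2, hδ]
    · rw [max_eq_left (show w - δ ≤ 0 by linarith), max_eq_left h2]
      rcases le_total 0 (w + δ) with h3 | h3
      · rw [max_eq_right h3]
        have : (w + δ) ^ 3 ≤ δ ^ 3 := pow_le_pow_left₀ h3 (by linarith) 3
        nlinarith only [hδ3, this]
      · rw [max_eq_left h3]
        linarith

theorem sum_odd (h : ℕ) : ∑ i ∈ Finset.range h, (2 * (i : ℝ) + 1) = (h : ℝ) ^ 2 := by
  induction h with
  | zero => simp only [range_zero, sum_empty, CharP.cast_eq_zero, ne_eq, OfNat.ofNat_ne_zero, not_false_eq_true, zero_pow]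
  | succ k ih => rw [Finset.sum_range_succ, ih]; push_cast; ring

theorem sum_odd_sq (h : ℕ) :
    ∑ i ∈ Finset.range h, (2 * (i : ℝ) + 1) ^ 2 = (h : ℝ) * (4 * (h : ℝ) ^ 2 - 1) / 3 := by
  induction h with
  | zero => simp only [range_zero, sum_empty, CharP.cast_eq_zero, ne_eq, OfNat.ofNat_ne_zero, not_false_eq_true, zero_pow, mul_zero, zero_sub, mul_neg, mul_one, neg_zero, zero_div]
  | succ k ih => rw [Finset.sum_range_succ, ih]; push_cast; ring

/-- The sum of an even function over the values `1 - 2 j / n`. -/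
theorem sum_even {F : ℝ → ℝ} (hF : ∀ u, F (-u) = F u) (h : ℕ) :
    ∑ j ∈ Finset.Ico 1 (2 * h + 1), F (1 - 2 * j / ((2 * h + 1 : ℕ) : ℝ)) =
      2 * ∑ i ∈ Finset.range h, F ((2 * i + 1) / (2 * h + 1)) := by
  have hn : (2 * (h : ℝ) + 1) ≠ 0 := by positivity
  rw [← Finset.sum_Ico_consecutive _ (show 1 ≤ h + 1 by omega) (show h + 1 ≤ 2 * h + 1 by omega)]
  have e1 : ∑ j ∈ Finset.Ico 1 (h + 1), F (1 - 2 * j / ((2 * h + 1 : ℕ) : ℝ)) =
      ∑ i ∈ Finset.range h, F ((2 * i + 1) / (2 * h + 1)) := by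
    rw [← Finset.sum_range_reflect, Finset.sum_Ico_eq_sum_range, show h + 1 - 1 = h by omega]
    apply Finset.sum_congr rfl
    intro j hj
    rw [Finset.mem_range] at hj
    congr 1
    have : ((h - 1 - j : ℕ) : ℝ) = h - 1 - j := by
      rw [Nat.cast_sub (by omega), Nat.cast_sub (by omega)]; simp only [Nat.cast_one]
    rw [this]
    push_cast
    field_simp
    ring
  have e2 : ∑ j ∈ Finset.Ico (h + 1) (2 * h + 1), F (1 - 2 * j / ((2 * h + 1 : ℕ) : ℝ)) =
      ∑ i ∈ Finset.range h, F ((2 * i + 1) / (2 * h + 1)) := by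
    rw [Finset.sum_Ico_eq_sum_range, show 2 * h + 1 - (h + 1) = h by (clear * -; omega)]
    apply Finset.sum_congr rfl
    intro j hj
    rw [← hF]
    congr 1
    push_cast
    field_simp
    ring
  rw [e1, e2]
  ring

/-- The lower bound for the diagonal part. -/
theorem psi_sum (h : ℕ) : 5429 / 2880 * (h : ℝ) ^ 2 - h - 5 ≤
    (2 * h + 1) * ∑ j ∈ Finset.Ico 1 (2 * h + 1), psi (1 - 2 * j / ((2 * h + 1 : ℕ) : ℝ)) := by
  rw [sum_even psi_neg]
  rcases Nat.eq_zero_or_pos h with h0 | hpos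
  · subst h0
    simp
  have hh : (1 : ℝ) ≤ h := by exact_mod_cast hpos
  set n : ℝ := 2 * h + 1 with hn
  have hn0 : 0 < n := by positivity
  have hsum : ∑ i ∈ Finset.range h, (3 / 2 * ((2 * (i : ℝ) + 1) / n) -
      2 / 5 * ((2 * (i : ℝ) + 1) / n) ^ 2 - 5 / 32 +
      18 / 5 * max 0 (5 / 24 - (2 * (i : ℝ) + 1) / n) ^ 2) ≤
      ∑ i ∈ Finset.range h, psi ((2 * i + 1) / n) := by
    apply Finset.sum_le_sum
    intro i _
    exact psi_ge (by positivity)
  have hr : (5 / 24 : ℝ) ^ 3 ≤ 6 / n * ∑ i ∈ Finset.range h,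
      max 0 (5 / 24 - (2 * (i : ℝ) + 1) / n) ^ 2 + h * (8 / n ^ 3) := by
    have ht := Finset.sum_range_sub' (fun i : ℕ => max 0 (5 / 24 - 2 * (i : ℝ) / n) ^ 3) h
    have hle : ∑ i ∈ Finset.range h, (max 0 (5 / 24 - 2 * (i : ℝ) / n) ^ 3 -
        max 0 (5 / 24 - 2 * ((i + 1 : ℕ) : ℝ) / n) ^ 3) ≤ ∑ i ∈ Finset.range h,
        (6 / n * max 0 (5 / 24 - (2 * (i : ℝ) + 1) / n) ^ 2 + 8 / n ^ 3) := by
      apply Finset.sum_le_sum
      intro i _
      have := cube (w := 5 / 24 - (2 * (i : ℝ) + 1) / n) (δ := 1 / n) (by positivity)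
      rw [show 5 / 24 - (2 * (i : ℝ) + 1) / n + 1 / n = 5 / 24 - 2 * (i : ℝ) / n by ring,
        show 5 / 24 - (2 * (i : ℝ) + 1) / n - 1 / n = 5 / 24 - 2 * ((i + 1 : ℕ) : ℝ) / n by
          push_cast; ring] at this
      calc _ ≤ _ := this
        _ = _ := by ring
    rw [ht] at hle
    have hlast : max 0 (5 / 24 - 2 * (h : ℝ) / n) = 0 := by
      apply max_eq_left
      have : 5 / 24 ≤ 2 * (h : ℝ) / n := by
        rw [le_div_iff₀ hn0, hn]
        linarith only [hh]
      linarith only [this]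
    rw [hlast] at hle
    rw [Finset.sum_add_distrib, ← Finset.mul_sum, Finset.sum_const, Finset.card_range,
      nsmul_eq_mul] at hle
    have h5 : max 0 (5 / 24 - 2 * ((0 : ℕ) : ℝ) / n) = 5 / 24 := by
      rw [Nat.cast_zero, mul_zero, zero_div, sub_zero]
      exact max_eq_right (by norm_num)
    rw [h5] at hle
    linarith only [hle]
  set R := ∑ i ∈ Finset.range h, max 0 (5 / 24 - (2 * (i : ℝ) + 1) / n) ^ 2 with hR
  have hsum2 : ∑ i ∈ Finset.range h, (3 / 2 * ((2 * (i : ℝ) + 1) / n) -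
      2 / 5 * ((2 * (i : ℝ) + 1) / n) ^ 2 - 5 / 32 +
      18 / 5 * max 0 (5 / 24 - (2 * (i : ℝ) + 1) / n) ^ 2) =
      3 / 2 * (h ^ 2 / n) - 2 / 5 * (h * (4 * h ^ 2 - 1) / 3 / n ^ 2) - 5 / 32 * h + 18 / 5 * R := by
    rw [← sum_odd_sq h, ← sum_odd h, hR, Finset.mul_sum, Finset.sum_add_distrib,
      Finset.sum_sub_distrib, Finset.sum_sub_distrib, Finset.sum_const, Finset.card_range,
      nsmul_eq_mul, Finset.sum_div, Finset.sum_div, Finset.mul_sum, Finset.mul_sum]
    congr 1
    congr 1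
    · congr 1
      apply Finset.sum_congr rfl
      intro i _
      rw [div_pow]
    · ring
  rw [hsum2] at hsum
  -- the remaining arithmetic
  have hRlow : n ^ 2 * (5 / 24) ^ 3 / 6 - 2 / 3 ≤ n * R := by
    have h1 : (5 / 24 : ℝ) ^ 3 * n ^ 2 ≤ 6 * (n * R) + 8 * h / n := by
      have h2 := mul_le_mul_of_nonneg_right hr (by positivity : (0 : ℝ) ≤ n ^ 2)
      calc (5 / 24 : ℝ) ^ 3 * n ^ 2 ≤ (6 / n * R + h * (8 / n ^ 3)) * n ^ 2 := h2
        _ = 6 * (n * R) + 8 * h / n := by (clear * - hn0; field_simp)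
    have h3 : 8 * (h : ℝ) / n ≤ 4 := by
      rw [div_le_iff₀ hn0, hn]
      linarith only []
    linarith only [h1, h3]
  have hfin : n * (2 * (3 / 2 * (h ^ 2 / n) - 2 / 5 * (h * (4 * h ^ 2 - 1) / 3 / n ^ 2)
      - 5 / 32 * h + 18 / 5 * R)) =
      3 * (h : ℝ) ^ 2 - 4 / 15 * (h * (2 * h - 1)) - 5 / 16 * (h * n) + 36 / 5 * (n * R) := by
    have e : (h : ℝ) * (4 * h ^ 2 - 1) / 3 / n ^ 2 = h * (2 * h - 1) / 3 / n := by
      rw [show (h : ℝ) * (4 * h ^ 2 - 1) = h * (2 * h - 1) * n by rw [hn]; ring]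
      (clear * - hn0 hpos; field_simp)
    rw [e]
    field_simp
    ring
  calc 5429 / 2880 * (h : ℝ) ^ 2 - h - 5
      ≤ 3 * (h : ℝ) ^ 2 - 4 / 15 * (h * (2 * h - 1)) - 5 / 16 * (h * n) +
        36 / 5 * (n ^ 2 * (5 / 24) ^ 3 / 6 - 2 / 3) := by
        rw [hn]
        nlinarith only []
    _ ≤ 3 * (h : ℝ) ^ 2 - 4 / 15 * (h * (2 * h - 1)) - 5 / 16 * (h * n) + 36 / 5 * (n * R) := by
        linarith only [hRlow]
    _ = _ := hfin.symm
    _ ≤ _ := by
        apply mul_le_mul_of_nonneg_left _ hn0.le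
        linarith only [hsum]

/-- The sum of the absolute values over a row. -/
theorem abs_sum (h : ℕ) :
    (2 * h + 1) * ∑ j ∈ Finset.Ico 1 (2 * h + 1), |1 - 2 * j / ((2 * h + 1 : ℕ) : ℝ)| =
      2 * (h : ℝ) ^ 2 := by
  rw [sum_even (F := fun u => |u|) (fun u => abs_neg u)]
  have hn : (2 * (h : ℝ) + 1) ≠ 0 := by positivity
  rw [← sum_odd h, show ∑ i ∈ Finset.range h, |(2 * (i : ℝ) + 1) / (2 * h + 1)| =
    (∑ i ∈ Finset.range h, (2 * (i : ℝ) + 1)) / (2 * h + 1) by
      rw [Finset.sum_div]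
      apply Finset.sum_congr rfl
      intro i _
      exact abs_of_nonneg (by (clear * -; positivity))]
  (clear * - hn; field_simp)

end Vale.Agent.P040.Gen
end

section

/-!
# Arc calculus in the plane: sub-arcs, concatenation, germs, crossings and germs
-/

namespace Vale.Agent.P040

open Set Filter Topology

theorem IsArc.isCompact {S : Set Plane} {p q : Plane} (h : IsArc S p q) : IsCompact S := by
  obtain ⟨γ, h1, -, -, -, h5⟩ := h
  rw [← h5]
  exact isCompact_Icc.image_of_continuousOn h1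

theorem IsArc.isClosed {S : Set Plane} {p q : Plane} (h : IsArc S p q) : IsClosed S :=
  h.isCompact.isClosed

namespace Unc

/-- A continuous injective image of a compact interval is an arc. -/
theorem isArc_image {γ : ℝ → Plane} {s t : ℝ} (hst : s < t) (hc : ContinuousOn γ (Icc s t))
    (hi : InjOn γ (Icc s t)) : IsArc (γ '' Icc s t) (γ s) (γ t) := by
  have hm : MapsTo (fun u : ℝ => s + u * (t - s)) (Icc 0 1) (Icc s t) := by
    intro u hu
    constructor
    · nlinarith only [hst, hu.1]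
    · nlinarith [hu.1, hu.2]
  refine ⟨fun u => γ (s + u * (t - s)), hc.comp (by fun_prop) hm, ?_, by simp, by simp, ?_⟩
  · intro u hu v hv huv
    have h := hi (hm hu) (hm hv) huv
    simp only at h
    have h2 : (u - v) * (t - s) = 0 := by linarith only [h]
    rcases mul_eq_zero.1 h2 with h3 | h3
    · linarith
    · linarith
  · ext y
    constructor
    · rintro ⟨u, hu, rfl⟩
      exact ⟨_, hm hu, rfl⟩
    · rintro ⟨w, hw, rfl⟩
      refine ⟨(w - s) / (t - s), ⟨div_nonneg (by linarith [hw.1]) (by linarith), ?_⟩, ?_⟩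
      · rw [div_le_one (by linarith)]; linarith [hw.2]
      · have : t - s ≠ 0 := by linarith
        simp only
        congr 1
        field_simp
        ring

theorem isClosed_image {γ : ℝ → Plane} {s t : ℝ} (hc : ContinuousOn γ (Icc s t)) :
    IsClosed (γ '' Icc s t) :=
  (isCompact_Icc.image_of_continuousOn hc).isClosed

/-- Concatenation of arcs which meet only in the common end. -/
theorem _root_.Vale.Agent.P040.IsArc.concat {A B : Set Plane} {p q r : Plane} (hA : IsArc A p q)
    (hB : IsArc B q r) (hAB : ∀ y ∈ A, y ∈ B → y = q) : IsArc (A ∪ B) p r := by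
  obtain ⟨γ, h1, h2, h3, h4, h5⟩ := hA
  obtain ⟨δ, k1, k2, k3, k4, k5⟩ := hB
  set η : ℝ → Plane := fun t => if t ≤ 1 then γ t else δ (t - 1) with hη
  have e1 : EqOn η γ (Icc 0 1) := by
    intro t ht
    simp only [hη, if_pos ht.2]
  have e2 : EqOn η (fun t => δ (t - 1)) (Icc 1 2) := by
    intro t ht
    rcases ht.1.eq_or_lt with h | h
    · subst h
      simp only [hη, le_refl, if_true, sub_self]
      rw [h4, k3]
    · simp only [hη, if_neg (not_le.2 h)]
  have hm : MapsTo (fun t : ℝ => t - 1) (Icc 1 2) (Icc 0 1) := by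
    intro t ht
    exact ⟨by linarith [ht.1], by linarith only [ht.2]⟩
  have c1 : ContinuousOn η (Icc 0 1) := h1.congr e1
  have c2 : ContinuousOn η (Icc 1 2) := (k1.comp (by fun_prop) hm).congr e2
  have hU : Icc (0 : ℝ) 1 ∪ Icc 1 2 = Icc 0 2 := Icc_union_Icc_eq_Icc (by norm_num) (by norm_num)
  have c3 : ContinuousOn η (Icc 0 2) := by
    rw [← hU]
    exact c1.union_of_isClosed c2 isClosed_Icc isClosed_Icc
  have i1 : InjOn η (Icc 0 2) := by
    have key : ∀ s ∈ Icc (0 : ℝ) 1, ∀ t ∈ Icc (1 : ℝ) 2, η s = η t → s = t := by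
      intro s hs t ht hst
      have ha : η s ∈ A := by rw [e1 hs, ← h5]; exact ⟨s, hs, rfl⟩
      have hb : η s ∈ B := by rw [hst, e2 ht, ← k5]; exact ⟨t - 1, hm ht, rfl⟩
      have hq := hAB _ ha hb
      have hs1 : s = 1 := by
        apply h2 hs (by simp only [mem_Icc, zero_le_one, Std.le_refl, and_self])
        rw [← e1 hs, hq, h4]
      have ht1 : t - 1 = 0 := by
        apply k2 (hm ht) (by simp only [mem_Icc, Std.le_refl, zero_le_one, and_self])
        have := e2 ht
        simp only at this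
        rw [← this, ← hst, hq, k3]
      linarith only [hs1, ht1]
    intro s hs t ht hst
    rw [← hU] at hs ht
    rcases hs with hs | hs <;> rcases ht with ht | ht
    · apply h2 hs ht
      rw [← e1 hs, ← e1 ht, hst]
    · exact key s hs t ht hst
    · exact (key t ht s hs hst.symm).symm
    · have := k2 (hm hs) (hm ht) (by
        have a1 := e2 hs
        have a2 := e2 ht
        simp only at a1 a2
        simp only
        rw [← a1, ← a2, hst])
      linarith only [this]
  have h := isArc_image (by norm_num : (0 : ℝ) < 2) c3 i1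
  have hp : η 0 = p := by rw [e1 (by simp only [mem_Icc, Std.le_refl, zero_le_one, and_self]), h3]
  have hr : η 2 = r := by
    rw [e2 (by constructor <;> norm_num)]
    simp only
    rw [← k4]; norm_num
  rw [hp, hr, ← hU, image_union] at h
  have hA' : η '' Icc 0 1 = A := by rw [e1.image_eq, h5]
  have hB' : η '' Icc 1 2 = B := by
    rw [e2.image_eq, ← k5]
    ext y
    constructor
    · rintro ⟨t, ht, rfl⟩; exact ⟨t - 1, hm ht, rfl⟩
    · rintro ⟨t, ht, rfl⟩
      exact ⟨t + 1, ⟨by linarith [ht.1], by linarith [ht.2]⟩, by simp⟩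
  rwa [hA', hB'] at h

/-- Two sets coincide near a point. -/
def Germ (S T : Set Plane) (x : Plane) : Prop := ∀ᶠ y in 𝓝 x, (y ∈ S ↔ y ∈ T)

theorem Germ.refl (S : Set Plane) (x : Plane) : Germ S S x := Eventually.of_forall fun _ => Iff.rfl

theorem Germ.symm {S T : Set Plane} {x : Plane} (h : Germ S T x) : Germ T S x :=
  h.mono fun _ hy => hy.symm

theorem Germ.trans {S T U : Set Plane} {x : Plane} (h : Germ S T x) (h' : Germ T U x) :
    Germ S U x := by
  filter_upwards [h, h'] with y h1 h2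
  exact h1.trans h2

theorem Germ.mem {S T : Set Plane} {x : Plane} (h : Germ S T x) : x ∈ S ↔ x ∈ T :=
  Eventually.self_of_nhds (p := fun y => (y ∈ S ↔ y ∈ T)) h

theorem germ_union_left {A B : Set Plane} {x : Plane} (hB : IsClosed B) (hx : x ∉ B) :
    Germ (A ∪ B) A x := by
  filter_upwards [hB.isOpen_compl.mem_nhds hx] with y hy
  simp only [mem_union]
  exact ⟨fun h => h.resolve_right hy, Or.inl⟩

theorem germ_union_right {A B : Set Plane} {x : Plane} (hA : IsClosed A) (hx : x ∉ A) :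
    Germ (A ∪ B) B x := by
  rw [union_comm]; exact germ_union_left hA hx

theorem _root_.Vale.Agent.P040.CrossAt.germ {S T S' T' : Set Plane} {x : Plane}
    (h : CrossAt S T x) (hS : Germ S' S x) (hT : Germ T' T x) : CrossAt S' T' x := by
  obtain ⟨φ, h1, h2, h3, h4⟩ := h
  obtain ⟨U, hU, hUo, hxU⟩ := eventually_nhds_iff.1 (hS.and hT)
  refine ⟨φ.restrOpen U hUo, ?_, ?_, ?_, ?_⟩
  · simp [h1, hxU]
  · simpa using h2
  · intro y hy
    rw [OpenPartialHomeomorph.restrOpen_source] at hy
    rw [(hU y hy.2).1]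
    simpa using h3 y hy.1
  · intro y hy
    rw [OpenPartialHomeomorph.restrOpen_source] at hy
    rw [(hU y hy.2).2]
    simpa using h4 y hy.1

end Unc

end Vale.Agent.P040
end

section

/-!
# The uncrossing surgery for two arcs with a common end
-/

namespace Vale.Agent.P040.Unc

open Set Filter Topology

/-- The outcome of the surgery at two arcs `S` (from `x` to `a`) and `T` (from `x` to `b`). -/
structure Surg (S T : Set Plane) (x a b : Plane) (O S' T' N : Set Plane) (p : Plane) : Prop where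
  arcS : IsArc S' x a
  arcT : IsArc T' x b
  subN : N ⊆ O
  pS : p ∈ S
  pT : p ∈ T
  px : p ≠ x
  germS : ∀ y ∈ S', y ∉ N → (y ∈ S ∧ y ∈ T) ∨ Germ S' S y ∨ Germ S' T y
  germT : ∀ y ∈ T', y ∉ N → (y ∈ S ∧ y ∈ T) ∨ Germ T' S y ∨ Germ T' T y
  inter : ∀ y ∈ S', y ∈ T' → y = x ∨ (y ≠ p ∧ Germ S' S y ∧ Germ T' T y)
  bS : b ∉ S'
  aT : a ∉ T'

section sub

variable {γ : ℝ → Plane} (hγ : ContinuousOn γ (Icc 0 1)) (hγi : InjOn γ (Icc 0 1))

include hγi

theorem mem_sub {s c d : ℝ} (hs : s ∈ Icc (0 : ℝ) 1) (hc : 0 ≤ c) (hd : d ≤ 1)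
    (h : γ s ∈ γ '' Icc c d) : s ∈ Icc c d := by
  obtain ⟨t, ht, hts⟩ := h
  rwa [← hγi ⟨hc.trans ht.1, ht.2.trans hd⟩ hs hts]

include hγ

theorem arc_sub {c d : ℝ} (hc : 0 ≤ c) (hcd : c < d) (hd : d ≤ 1) :
    IsArc (γ '' Icc c d) (γ c) (γ d) :=
  isArc_image hcd (hγ.mono (Icc_subset_Icc hc hd)) (hγi.mono (Icc_subset_Icc hc hd))

omit hγi in
theorem closed_sub {c d : ℝ} (hc : 0 ≤ c) (hd : d ≤ 1) : IsClosed (γ '' Icc c d) :=
  isClosed_image (hγ.mono (Icc_subset_Icc hc hd))

theorem germ_right {s c : ℝ} (hs : s ∈ Icc (0 : ℝ) 1) (hc : 0 ≤ c) (hcs : c < s) :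
    Germ (γ '' Icc c 1) (γ '' Icc 0 1) (γ s) := by
  have hc1 : c ≤ 1 := hcs.le.trans hs.2
  rw [← Icc_union_Icc_eq_Icc hc hc1, image_union]
  apply Germ.symm
  apply germ_union_right (closed_sub hγ le_rfl hc1)
  intro h
  exact absurd (mem_sub hγi hs le_rfl hc1 h).2 (not_le.2 hcs)

theorem germ_left {s c : ℝ} (hs : s ∈ Icc (0 : ℝ) 1) (hc : c ≤ 1) (hcs : s < c) :
    Germ (γ '' Icc 0 c) (γ '' Icc 0 1) (γ s) := by
  have hc0 : 0 ≤ c := hs.1.trans hcs.le
  rw [← Icc_union_Icc_eq_Icc hc0 hc, image_union]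
  apply Germ.symm
  apply germ_union_left (closed_sub hγ hc0 le_rfl)
  intro h
  exact absurd (mem_sub hγi hs hc0 le_rfl h).1 (not_le.2 hcs)

end sub

variable {γ δ : ℝ → Plane}

/-- The case in which the two switching points are different. -/
theorem surgery_ne (hγ : ContinuousOn γ (Icc 0 1)) (hγi : InjOn γ (Icc 0 1))
    (hδ : ContinuousOn δ (Icc 0 1)) (hδi : InjOn δ (Icc 0 1)) (h0 : δ 0 = γ 0)
    (ha : γ 1 ∉ δ '' Icc 0 1) (hb : δ 1 ∉ γ '' Icc 0 1) {sp tp sq tq : ℝ}
    (hsp : 0 < sp) (hspq : sp < sq) (hsq : sq < 1) (htq : 0 < tq) (htqp : tq < tp) (htp : tp < 1)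
    (hp : γ sp = δ tp) (hq : γ sq = δ tq)
    (P1 : ∀ s, 0 < s → s < sp → γ s ∉ δ '' Icc 0 1)
    (P2 : ∀ s, sq < s → s ≤ 1 → γ s ∉ δ '' Icc 0 tp) (O : Set Plane) :
    Surg (γ '' Icc 0 1) (δ '' Icc 0 1) (γ 0) (γ 1) (δ 1) O (δ '' Icc 0 tq ∪ γ '' Icc sq 1)
      (γ '' Icc 0 sp ∪ δ '' Icc tp 1) ∅ (γ sp) := by
  have subT : ∀ {c d : ℝ}, 0 ≤ c → d ≤ 1 → δ '' Icc c d ⊆ δ '' Icc 0 1 := fun hc hd =>
    image_mono (Icc_subset_Icc hc hd)
  have subS : ∀ {c d : ℝ}, 0 ≤ c → d ≤ 1 → γ '' Icc c d ⊆ γ '' Icc 0 1 := fun hc hd =>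
    image_mono (Icc_subset_Icc hc hd)
  have clS : ∀ {c d : ℝ}, 0 ≤ c → d ≤ 1 → IsClosed (γ '' Icc c d) := fun hc hd =>
    closed_sub hγ hc hd
  have clT : ∀ {c d : ℝ}, 0 ≤ c → d ≤ 1 → IsClosed (δ '' Icc c d) := fun hc hd =>
    closed_sub hδ hc hd
  have iS : ∀ s, 0 ≤ s → s ≤ 1 → ∀ s', 0 ≤ s' → s' ≤ 1 → γ s = γ s' → s = s' :=
    fun s h1 h2 s' h3 h4 h => hγi ⟨h1, h2⟩ ⟨h3, h4⟩ h
  have iT : ∀ s, 0 ≤ s → s ≤ 1 → ∀ s', 0 ≤ s' → s' ≤ 1 → δ s = δ s' → s = s' :=
    fun s h1 h2 s' h3 h4 h => hδi ⟨h1, h2⟩ ⟨h3, h4⟩ h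
  refine ⟨?_, ?_, empty_subset _, ⟨sp, ⟨by linarith, by linarith⟩, rfl⟩,
    ⟨tp, ⟨by linarith, by linarith⟩, hp.symm⟩, ?_, ?_, ?_, ?_, ?_, ?_⟩
  · -- the arc `S'`
    have e1 := arc_sub hδ hδi le_rfl htq (by linarith)
    have e2 := arc_sub hγ hγi (c := sq) (d := 1) (by linarith) hsq le_rfl
    rw [h0] at e1
    rw [hq] at e2
    apply e1.concat e2
    rintro y hy ⟨s, hs, rfl⟩
    rcases hs.1.eq_or_lt with h | h
    · rw [← h, hq]
    · exact absurd (image_mono (Icc_subset_Icc_right htqp.le) hy) (P2 s h hs.2)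
  · -- the arc `T'`
    have e1 := arc_sub hγ hγi le_rfl hsp (by linarith)
    have e2 := arc_sub hδ hδi (c := tp) (d := 1) (by linarith) htp le_rfl
    rw [hp] at e1
    apply e1.concat e2
    rintro y ⟨s, hs, rfl⟩ hy
    rcases hs.2.eq_or_lt with h | h
    · rw [h, hp]
    · rcases hs.1.eq_or_lt with h' | h'
      · exfalso
        rw [← h', ← h0] at hy
        have := mem_sub hδi (s := 0) (by simp only [mem_Icc, Std.le_refl, zero_le_one, and_self]) (by linarith) le_rfl hy
        linarith only [htq, htqp, this.1]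
      · exact absurd (subT (by linarith) le_rfl hy) (P1 s h' h)
  · intro h
    have := iS sp (by linarith) (by linarith) 0 le_rfl zero_le_one h
    linarith only [hsp, this]
  · -- germs of `S'`
    rintro y (⟨t, ht, rfl⟩ | ⟨s, hs, rfl⟩) -
    · by_cases hyS : δ t ∈ γ '' Icc 0 1
      · left
        exact ⟨hyS, subT le_rfl (by linarith only [htqp, htp]) ⟨t, ht, rfl⟩⟩
      · right; right
        have hne : t < tq := by
          rcases ht.2.eq_or_lt with h | h
          · exact absurd (h ▸ hq ▸ ⟨sq, ⟨by linarith, by linarith⟩, rfl⟩) hyS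
          · exact h
        refine (germ_union_left (clS (by linarith) le_rfl) ?_).trans
          (germ_left hδ hδi ⟨ht.1, by linarith only [htqp, htp, hne]⟩ (by linarith) hne)
        intro h
        exact hyS (subS (by linarith) le_rfl h)
    · by_cases hyT : γ s ∈ δ '' Icc 0 1
      · left
        exact ⟨⟨s, ⟨by linarith only [hsp, hspq, hs.1], hs.2⟩, rfl⟩, hyT⟩
      · right; left
        have hne : sq < s := by
          rcases hs.1.eq_or_lt with h | h
          · exact absurd (h ▸ hq ▸ ⟨tq, ⟨by linarith only [htq], by linarith only [htqp, htp]⟩, rfl⟩) hyT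
          · exact h
        refine (germ_union_right (clT le_rfl (by linarith only [htqp, htp])) ?_).trans
          (germ_right hγ hγi ⟨by linarith only [hsp, hspq, hne], hs.2⟩ (by linarith) hne)
        intro h
        exact hyT (subT le_rfl (by linarith) h)
  · -- germs of `T'`
    rintro y (⟨s, hs, rfl⟩ | ⟨t, ht, rfl⟩) -
    · by_cases hyT : γ s ∈ δ '' Icc 0 1
      · left
        exact ⟨⟨s, ⟨hs.1, by linarith [hs.2]⟩, rfl⟩, hyT⟩
      · right; left
        have hne : s < sp := by
          rcases hs.2.eq_or_lt with h | h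
          · exact absurd (h ▸ hp ▸ ⟨tp, ⟨by linarith, by linarith⟩, rfl⟩) hyT
          · exact h
        refine (germ_union_left (clT (by linarith) le_rfl) ?_).trans
          (germ_left hγ hγi ⟨hs.1, by linarith [hs.2]⟩ (by linarith) hne)
        intro h
        exact hyT (subT (by linarith) le_rfl h)
    · by_cases hyS : δ t ∈ γ '' Icc 0 1
      · left
        exact ⟨hyS, ⟨t, ⟨by linarith [ht.1], ht.2⟩, rfl⟩⟩
      · right; right
        have hne : tp < t := by
          rcases ht.1.eq_or_lt with h | h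
          · exact absurd (h ▸ hp ▸ ⟨sp, ⟨by linarith, by linarith⟩, rfl⟩) hyS
          · exact h
        refine (germ_union_right (clS le_rfl (by linarith)) ?_).trans
          (germ_right hδ hδi ⟨by linarith [ht.1], ht.2⟩ (by linarith) hne)
        intro h
        exact hyS (subS le_rfl (by linarith) h)
  · -- intersections
    rintro y (⟨t, ht, rfl⟩ | ⟨s, hs, rfl⟩) (⟨s', hs', he⟩ | ⟨t', ht', he⟩)
    · left
      rcases hs'.1.eq_or_lt with h | h
      · rw [← he, ← h]
      · rcases hs'.2.eq_or_lt with h' | h'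
        · exfalso
          rw [h', hp] at he
          have := iT tp (by linarith) (by linarith) t ht.1 (by linarith [ht.2]) he
          linarith only [htqp, this, ht.2]
        · exact absurd (he ▸ ⟨t, ⟨ht.1, by linarith [ht.2]⟩, rfl⟩) (P1 s' h h')
    · exfalso
      have := iT t' (by linarith [ht'.1]) ht'.2 t ht.1 (by linarith [ht.2]) he
      linarith only [htqp, this, ht.2, ht'.1]
    · exfalso
      have := iS s' hs'.1 (by linarith [hs'.2]) s (by linarith [hs.1]) hs.2 he
      linarith only [hspq, this, hs.1, hs'.2]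
    · right
      have h1 : sq < s := by
        rcases hs.1.eq_or_lt with h | h
        · exfalso
          rw [← h, hq] at he
          have := iT t' (by linarith [ht'.1]) ht'.2 tq (by linarith) (by linarith) he
          linarith only [htqp, this, ht'.1]
        · exact h
      have h2 : tp < t' := by
        rcases ht'.1.eq_or_lt with h | h
        · exfalso
          rw [← h, ← hp] at he
          have := iS sp (by linarith) (by linarith) s (by linarith) hs.2 he
          linarith only [hspq, h1, this]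
        · exact h
      refine ⟨?_, ?_, ?_⟩
      · intro h
        have := iS s (by linarith) hs.2 sp (by linarith) (by linarith) h
        linarith only [hspq, h1, this]
      · refine (germ_union_right (clT le_rfl (by linarith)) ?_).trans
          (germ_right hγ hγi ⟨by linarith [hs.1], hs.2⟩ (by linarith only [hsp, hspq]) h1)
        rw [← he]
        intro h
        have := mem_sub hδi (s := t') ⟨by linarith, ht'.2⟩ le_rfl (by linarith) h
        linarith only [htqp, h2, this.2]
      · rw [← he]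
        refine (germ_union_right (clS le_rfl (by linarith)) ?_).trans
          (germ_right hδ hδi ⟨by linarith [ht'.1], ht'.2⟩ (by linarith) h2)
        rw [he]
        intro h
        have := mem_sub hγi (s := s) ⟨by linarith, hs.2⟩ le_rfl (by linarith) h
        linarith only [hspq, h1, this.2]
  · rintro (h | h)
    · have := mem_sub hδi (s := 1) (by simp) le_rfl (by linarith) h
      linarith only [htqp, htp, this.2]
    · exact hb (subS (by linarith) le_rfl h)
  · rintro (h | h)
    · have := mem_sub hγi (s := 1) (by simp) le_rfl (by linarith) h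
      linarith only [hspq, hsq, this.2]
    · exact ha (subT (by linarith) le_rfl h)

end Vale.Agent.P040.Unc
end

section

/-!
# The uncrossing surgery for two arcs with a common end, second case
-/

namespace Vale.Agent.P040.Unc

open Set Filter Topology

variable {γ δ : ℝ → Plane}

/-- The case in which the two switching points coincide: the corners are replaced by chords of the
chart. -/
theorem surgery_eq (hγ : ContinuousOn γ (Icc 0 1)) (hγi : InjOn γ (Icc 0 1))
    (hδ : ContinuousOn δ (Icc 0 1)) (hδi : InjOn δ (Icc 0 1)) (h0 : δ 0 = γ 0)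
    (ha : γ 1 ∉ δ '' Icc 0 1) (hb : δ 1 ∉ γ '' Icc 0 1) {sp tp : ℝ}
    (hsp : 0 < sp) (hsp1 : sp < 1) (htp0 : 0 < tp) (htp : tp < 1)
    (hp : γ sp = δ tp)
    (P1 : ∀ s, 0 < s → s < sp → γ s ∉ δ '' Icc 0 1)
    (P2 : ∀ s, sp < s → s ≤ 1 → γ s ∉ δ '' Icc 0 tp) {O : Set Plane}
    {ε : ℝ} (hε : 0 < ε) {H : Plane → Plane} {h k : ℝ → ℝ}
    (hHc : ContinuousOn H (Metric.closedBall 0 ε)) (hHi : InjOn H (Metric.closedBall 0 ε))
    (hHO : H '' Metric.closedBall 0 ε ⊆ O) (hH0 : H (0, 0) = γ sp)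
    (hHS : ∀ z ∈ Metric.closedBall (0 : Plane) ε, (H z ∈ γ '' Icc 0 1 ↔ z.2 = 0))
    (hHT : ∀ z ∈ Metric.closedBall (0 : Plane) ε, (H z ∈ δ '' Icc 0 1 ↔ z.1 = 0))
    (hh : StrictMonoOn h (Icc (-ε) ε)) (hk : StrictMonoOn k (Icc (-ε) ε))
    (hhγ : ∀ u ∈ Icc (-ε) ε, h u ∈ Icc (0 : ℝ) 1 ∧ γ (h u) = H (u, 0))
    (hkδ : ∀ u ∈ Icc (-ε) ε, k u ∈ Icc (0 : ℝ) 1 ∧ δ (k u) = H (0, u))
    (hx : γ 0 ∉ O) (ha' : γ 1 ∉ O) (hb' : δ 1 ∉ O) :
    Surg (γ '' Icc 0 1) (δ '' Icc 0 1) (γ 0) (γ 1) (δ 1) O
      (δ '' Icc 0 (k (-ε)) ∪ (fun u => H (u, u - ε)) '' Icc 0 ε ∪ γ '' Icc (h ε) 1)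
      (γ '' Icc 0 (h (-ε)) ∪ (fun u => H (u - ε, u)) '' Icc 0 ε ∪ δ '' Icc (k ε) 1)
      (H '' Metric.closedBall 0 ε) (γ sp) := by
  have subT : ∀ {c d : ℝ}, 0 ≤ c → d ≤ 1 → δ '' Icc c d ⊆ δ '' Icc 0 1 := fun hc hd =>
    image_mono (Icc_subset_Icc hc hd)
  have subS : ∀ {c d : ℝ}, 0 ≤ c → d ≤ 1 → γ '' Icc c d ⊆ γ '' Icc 0 1 := fun hc hd =>
    image_mono (Icc_subset_Icc hc hd)
  have clS : ∀ {c d : ℝ}, 0 ≤ c → d ≤ 1 → IsClosed (γ '' Icc c d) := fun hc hd =>
    closed_sub hγ hc hd
  have clT : ∀ {c d : ℝ}, 0 ≤ c → d ≤ 1 → IsClosed (δ '' Icc c d) := fun hc hd =>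
    closed_sub hδ hc hd
  have iS : ∀ s, 0 ≤ s → s ≤ 1 → ∀ s', 0 ≤ s' → s' ≤ 1 → γ s = γ s' → s = s' :=
    fun s h1 h2 s' h3 h4 h => hγi ⟨h1, h2⟩ ⟨h3, h4⟩ h
  have iT : ∀ s, 0 ≤ s → s ≤ 1 → ∀ s', 0 ≤ s' → s' ≤ 1 → δ s = δ s' → s = s' :=
    fun s h1 h2 s' h3 h4 h => hδi ⟨h1, h2⟩ ⟨h3, h4⟩ h
  -- membership in the ball
  have mB : ∀ {u v : ℝ}, -ε ≤ u → u ≤ ε → -ε ≤ v → v ≤ ε →
      ((u, v) : Plane) ∈ Metric.closedBall (0 : Plane) ε := by
    intro u v h1 h2 h3 h4
    simp only [mem_closedBall_zero_iff, Prod.norm_mk, Real.norm_eq_abs]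
    exact max_le (abs_le.2 ⟨h1, h2⟩) (abs_le.2 ⟨h3, h4⟩)
  have mI : ∀ {u : ℝ}, -ε ≤ u → u ≤ ε → u ∈ Icc (-ε) ε := fun h1 h2 => ⟨h1, h2⟩
  have n1 : -ε ≤ -ε := le_rfl
  have n2 : -ε ≤ ε := by linarith
  have n3 : -ε ≤ 0 := by linarith only [hε]
  have n4 : (0 : ℝ) ≤ ε := hε.le
  have n5 : ε ≤ ε := le_rfl
  -- parameters
  have hh0 : h 0 = sp := by
    have := hhγ 0 (mI n3 n4)
    exact hγi this.1 ⟨hsp.le, hsp1.le⟩ (this.2.trans hH0)
  have hk0 : k 0 = tp := by
    have := hkδ 0 (mI n3 n4)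
    exact hδi this.1 ⟨htp0.le, htp.le⟩ (this.2.trans (hH0.trans hp))
  obtain ⟨hsm, esm⟩ := hhγ (-ε) (mI n1 n2)
  obtain ⟨hsP, esP⟩ := hhγ ε (mI n2 n5)
  obtain ⟨htm, etm⟩ := hkδ (-ε) (mI n1 n2)
  obtain ⟨htP, etP⟩ := hkδ ε (mI n2 n5)
  have lt1 : h (-ε) < sp := by
    rw [← hh0]; exact hh (mI n1 n2) (mI n3 n4) (by linarith only [hε])
  have lt2 : sp < h ε := by
    rw [← hh0]; exact hh (mI n3 n4) (mI n2 n5) hε
  have lt3 : k (-ε) < tp := by
    rw [← hk0]; exact hk (mI n1 n2) (mI n3 n4) (by linarith)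
  have lt4 : tp < k ε := by
    rw [← hk0]; exact hk (mI n3 n4) (mI n2 n5) hε
  set sm := h (-ε)
  set sP := h ε
  set tm := k (-ε)
  set tP := k ε
  have inN : ∀ {u v : ℝ}, -ε ≤ u → u ≤ ε → -ε ≤ v → v ≤ ε →
      H (u, v) ∈ H '' Metric.closedBall 0 ε := fun h1 h2 h3 h4 => ⟨_, mB h1 h2 h3 h4, rfl⟩
  have smN : γ sm ∈ H '' Metric.closedBall 0 ε := by rw [esm]; exact inN n1 n2 n3 n4
  have sPN : γ sP ∈ H '' Metric.closedBall 0 ε := by rw [esP]; exact inN n2 n5 n3 n4
  have tmN : δ tm ∈ H '' Metric.closedBall 0 ε := by rw [etm]; exact inN n3 n4 n1 n2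
  have tPN : δ tP ∈ H '' Metric.closedBall 0 ε := by rw [etP]; exact inN n3 n4 n2 n5
  have sm0 : 0 < sm := by
    rcases hsm.1.eq_or_lt with e | e
    · exfalso; rw [← e] at smN; exact hx (hHO smN)
    · exact e
  have tm0 : 0 < tm := by
    rcases htm.1.eq_or_lt with e | e
    · exfalso; rw [← e, h0] at tmN; exact hx (hHO tmN)
    · exact e
  have sP1 : sP < 1 := by
    rcases hsP.2.eq_or_lt with e | e
    · exfalso; rw [e] at sPN; exact ha' (hHO sPN)
    · exact e
  have tP1 : tP < 1 := by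
    rcases htP.2.eq_or_lt with e | e
    · exfalso; rw [e] at tPN; exact hb' (hHO tPN)
    · exact e
  -- points of the chords on the arcs
  have C1S : ∀ u ∈ Icc 0 ε, H (u, u - ε) ∈ γ '' Icc 0 1 → H (u, u - ε) = γ sP := by
    intro u hu hm
    have := (hHS _ (mB (by linarith [hu.1]) hu.2 (by linarith [hu.1]) (by linarith [hu.2]))).1 hm
    simp only at this
    have hue : u = ε := by linarith only [this]
    rw [esP, hue, sub_self]
  have C1T : ∀ u ∈ Icc 0 ε, H (u, u - ε) ∈ δ '' Icc 0 1 → H (u, u - ε) = δ tm := by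
    intro u hu hm
    have := (hHT _ (mB (by linarith [hu.1]) hu.2 (by linarith only [hu.1]) (by linarith only [hε, hu.2]))).1 hm
    simp only at this
    rw [etm, this, zero_sub]
  have C2S : ∀ u ∈ Icc 0 ε, H (u - ε, u) ∈ γ '' Icc 0 1 → H (u - ε, u) = γ sm := by
    intro u hu hm
    have := (hHS _ (mB (by linarith only [hu.1]) (by linarith only [hε, hu.2]) (by linarith [hu.1]) hu.2)).1 hm
    simp only at this
    rw [esm, this, zero_sub]
  have C2T : ∀ u ∈ Icc 0 ε, H (u - ε, u) ∈ δ '' Icc 0 1 → H (u - ε, u) = δ tP := by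
    intro u hu hm
    have := (hHT _ (mB (by linarith [hu.1]) (by linarith only [hε, hu.2]) (by linarith only [hε, hu.1]) hu.2)).1 hm
    simp only at this
    have hue : u = ε := by linarith only [this]
    rw [etP, hue, sub_self]
  have C1N : (fun u => H (u, u - ε)) '' Icc 0 ε ⊆ H '' Metric.closedBall 0 ε := by
    rintro y ⟨u, hu, rfl⟩
    exact inN (by linarith only [hε, hu.1]) hu.2 (by linarith [hu.1]) (by linarith [hu.2])
  have C2N : (fun u => H (u - ε, u)) '' Icc 0 ε ⊆ H '' Metric.closedBall 0 ε := by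
    rintro y ⟨u, hu, rfl⟩
    exact inN (by linarith [hu.1]) (by linarith [hu.2]) (by linarith [hu.1]) hu.2
  have sPT : γ sP ∉ δ '' Icc 0 1 := by
    rw [esP, hHT _ (mB n2 n5 n3 n4)]; simp only; linarith
  have smT : γ sm ∉ δ '' Icc 0 1 := by
    rw [esm, hHT _ (mB n1 n2 n3 n4)]; simp only; linarith
  have tPS : δ tP ∉ γ '' Icc 0 1 := by
    rw [etP, hHS _ (mB n3 n4 n2 n5)]; simp only; linarith
  have tmS : δ tm ∉ γ '' Icc 0 1 := by
    rw [etm, hHS _ (mB n3 n4 n1 n2)]; simp only; linarith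
  have c1c : ContinuousOn (fun u => H (u, u - ε)) (Icc 0 ε) := by
    apply hHc.comp (by fun_prop)
    intro u hu
    exact mB (by linarith [hu.1]) hu.2 (by linarith [hu.1]) (by linarith [hu.2])
  have c2c : ContinuousOn (fun u => H (u - ε, u)) (Icc 0 ε) := by
    apply hHc.comp (by fun_prop)
    intro u hu
    exact mB (by linarith [hu.1]) (by linarith [hu.2]) (by linarith [hu.1]) hu.2
  have c1i : InjOn (fun u => H (u, u - ε)) (Icc 0 ε) := by
    intro u hu v hv huv
    exact congrArg Prod.fst (hHi (mB (by linarith [hu.1]) hu.2 (by linarith [hu.1])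
      (by linarith [hu.2])) (mB (by linarith [hv.1]) hv.2 (by linarith [hv.1])
      (by linarith [hv.2])) huv)
  have c2i : InjOn (fun u => H (u - ε, u)) (Icc 0 ε) := by
    intro u hu v hv huv
    exact congrArg Prod.snd (hHi (mB (by linarith [hu.1]) (by linarith [hu.2])
      (by linarith [hu.1]) hu.2) (mB (by linarith [hv.1]) (by linarith [hv.2])
      (by linarith [hv.1]) hv.2) huv)
  have cl1 : IsClosed ((fun u => H (u, u - ε)) '' Icc 0 ε) := isClosed_image c1c
  have cl2 : IsClosed ((fun u => H (u - ε, u)) '' Icc 0 ε) := isClosed_image c2c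
  refine ⟨?_, ?_, hHO, ⟨sp, ⟨by linarith, by linarith⟩, rfl⟩,
    ⟨tp, ⟨by linarith, by linarith⟩, hp.symm⟩, ?_, ?_, ?_, ?_, ?_, ?_⟩
  · -- the arc `S'`
    have e1 := arc_sub hδ hδi le_rfl tm0 (by linarith)
    have e2 := isArc_image hε c1c c1i
    have e3 := arc_sub hγ hγi (c := sP) (d := 1) (by linarith) sP1 le_rfl
    simp only [zero_sub, sub_self] at e2
    rw [h0] at e1
    rw [← etm, ← esP] at e2
    refine (e1.concat e2 ?_).concat e3 ?_
    · rintro y hy ⟨u, hu, rfl⟩
      exact C1T u hu (subT le_rfl (by linarith) hy)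
    · rintro y (hy | ⟨u, hu, rfl⟩) ⟨s, hs, hse⟩
      · exfalso
        rw [← hse] at hy
        exact P2 s (by linarith [hs.1]) hs.2 (image_mono (Icc_subset_Icc_right lt3.le) hy)
      · exact C1S u hu ⟨s, ⟨by linarith [hs.1], hs.2⟩, hse⟩
  · -- the arc `T'`
    have e1 := arc_sub hγ hγi le_rfl sm0 (by linarith)
    have e2 := isArc_image hε c2c c2i
    have e3 := arc_sub hδ hδi (c := tP) (d := 1) (by linarith) tP1 le_rfl
    simp only [zero_sub, sub_self] at e2
    rw [← esm, ← etP] at e2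
    refine (e1.concat e2 ?_).concat e3 ?_
    · rintro y hy ⟨u, hu, rfl⟩
      exact C2S u hu (subS le_rfl (by linarith) hy)
    · rintro y (⟨s, hs, hse⟩ | ⟨u, hu, rfl⟩) hy
      · exfalso
        rcases hs.1.eq_or_lt with e | e
        · rw [← hse, ← e, ← h0] at hy
          have := mem_sub hδi (s := 0) (by simp) (by linarith only [lt3, lt4, tm0]) le_rfl hy
          linarith only [lt3, lt4, tm0, this.1]
        · rw [← hse] at hy
          exact P1 s e (by linarith [hs.2]) (subT (by linarith) le_rfl hy)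
      · exact C2T u hu (subT (by linarith) le_rfl hy)
  · intro h
    have := iS sp (by linarith) (by linarith) 0 le_rfl zero_le_one h
    linarith only [lt1, sm0, this]
  · -- germs of `S'`
    rintro y ((⟨t, ht, rfl⟩ | hy) | ⟨s, hs, rfl⟩) hyN
    · by_cases hyS : δ t ∈ γ '' Icc 0 1
      · left
        exact ⟨hyS, subT le_rfl (by linarith only [htp, lt3]) ⟨t, ht, rfl⟩⟩
      · right; right
        have hne : t < tm := by
          rcases ht.2.eq_or_lt with e | e
          · exact absurd (e ▸ tmN) hyN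
          · exact e
        refine (germ_union_left (clS (by linarith) le_rfl) ?_).trans
          ((germ_union_left cl1 fun h' => hyN (C1N h')).trans
          (germ_left hδ hδi ⟨ht.1, by linarith [ht.2]⟩ (by linarith) hne))
        intro h'
        exact hyS (subS (by linarith) le_rfl h')
    · exact absurd (C1N hy) hyN
    · by_cases hyT : γ s ∈ δ '' Icc 0 1
      · left
        exact ⟨⟨s, ⟨by linarith only [lt1, lt2, sm0, hs.1], hs.2⟩, rfl⟩, hyT⟩
      · right; left
        have hne : sP < s := by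
          rcases hs.1.eq_or_lt with e | e
          · exact absurd (e ▸ sPN) hyN
          · exact e
        refine (germ_union_right ((clT le_rfl (by linarith)).union cl1) ?_).trans
          (germ_right hγ hγi ⟨by linarith [hs.1], hs.2⟩ (by linarith) hne)
        rintro (h' | h')
        · exact hyT (subT le_rfl (by linarith) h')
        · exact hyN (C1N h')
  · -- germs of `T'`
    rintro y ((⟨s, hs, rfl⟩ | hy) | ⟨t, ht, rfl⟩) hyN
    · by_cases hyT : γ s ∈ δ '' Icc 0 1
      · left
        exact ⟨subS le_rfl (by linarith only [lt1, lt2, sP1]) ⟨s, hs, rfl⟩, hyT⟩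
      · right; left
        have hne : s < sm := by
          rcases hs.2.eq_or_lt with e | e
          · exact absurd (e ▸ smN) hyN
          · exact e
        refine (germ_union_left (clT (by linarith) le_rfl) ?_).trans
          ((germ_union_left cl2 fun h' => hyN (C2N h')).trans
          (germ_left hγ hγi ⟨hs.1, by linarith [hs.2]⟩ (by linarith) hne))
        intro h'
        exact hyT (subT (by linarith) le_rfl h')
    · exact absurd (C2N hy) hyN
    · by_cases hyS : δ t ∈ γ '' Icc 0 1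
      · left
        exact ⟨hyS, ⟨t, ⟨by linarith only [lt3, lt4, tm0, ht.1], ht.2⟩, rfl⟩⟩
      · right; right
        have hne : tP < t := by
          rcases ht.1.eq_or_lt with e | e
          · exact absurd (e ▸ tPN) hyN
          · exact e
        refine (germ_union_right ((clS le_rfl (by linarith)).union cl2) ?_).trans
          (germ_right hδ hδi ⟨by linarith [ht.1], ht.2⟩ (by linarith) hne)
        rintro (h' | h')
        · exact hyS (subS le_rfl (by linarith) h')
        · exact hyN (C2N h')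
  · -- intersections
    rintro y ((⟨t, ht, rfl⟩ | ⟨u, hu, rfl⟩) | ⟨s, hs, rfl⟩)
      ((⟨s', hs', he⟩ | ⟨u', hu', he⟩) | ⟨t', ht', he⟩)
    · left
      rcases hs'.1.eq_or_lt with e | e
      · rw [← he, ← e]
      · exact absurd (he ▸ ⟨t, ⟨ht.1, by linarith only [htp, lt3, ht.2]⟩, rfl⟩)
          (P1 s' e (by linarith [hs'.2]))
    · exfalso
      simp only at he
      have := C2T u' hu' (he ▸ ⟨t, ⟨ht.1, by linarith [ht.2]⟩, rfl⟩)
      rw [he] at this
      have := iT t ht.1 (by linarith [ht.2]) tP (by linarith) (by linarith) this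
      linarith only [lt3, lt4, this, ht.2]
    · exfalso
      have := iT t' (by linarith [ht'.1]) ht'.2 t ht.1 (by linarith [ht.2]) he
      linarith only [lt3, lt4, this, ht.2, ht'.1]
    · exfalso
      simp only at he
      have := C1S u hu (he ▸ ⟨s', ⟨hs'.1, by linarith [hs'.2]⟩, rfl⟩)
      rw [← he] at this
      have := iS s' hs'.1 (by linarith [hs'.2]) sP (by linarith) (by linarith) this
      linarith only [lt1, lt2, this, hs'.2]
    · exfalso
      have e := hHi (mB (by linarith [hu'.1]) (by linarith [hu'.2]) (by linarith [hu'.1]) hu'.2)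
        (mB (by linarith [hu.1]) hu.2 (by linarith [hu.1]) (by linarith [hu.2])) he
      have e1 := congrArg Prod.fst e
      have e2 := congrArg Prod.snd e
      simp only at e1 e2
      linarith only [hε, e1, e2]
    · exfalso
      simp only at he
      have := C1T u hu (he ▸ ⟨t', ⟨by linarith [ht'.1], ht'.2⟩, rfl⟩)
      rw [← he] at this
      have := iT t' (by linarith [ht'.1]) ht'.2 tm (by linarith) (by linarith) this
      linarith only [lt3, lt4, this, ht'.1]
    · exfalso
      have := iS s' hs'.1 (by linarith [hs'.2]) s (by linarith [hs.1]) hs.2 he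
      linarith only [lt1, lt2, this, hs.1, hs'.2]
    · exfalso
      simp only at he
      have := C2S u' hu' (he ▸ ⟨s, ⟨by linarith only [lt1, lt2, sm0, hs.1], hs.2⟩, rfl⟩)
      rw [he] at this
      have := iS s (by linarith [hs.1]) hs.2 sm (by linarith) (by linarith only [lt1, lt2, sP1]) this
      linarith only [lt1, lt2, this, hs.1]
    · right
      have yT : γ s ∈ δ '' Icc 0 1 := he ▸ ⟨t', ⟨by linarith only [lt3, lt4, tm0, ht'.1], ht'.2⟩, rfl⟩
      have yS : δ t' ∈ γ '' Icc 0 1 := he ▸ ⟨s, ⟨by linarith [hs.1], hs.2⟩, rfl⟩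
      have h1 : sP < s := by
        rcases hs.1.eq_or_lt with e | e
        · exact absurd (e ▸ yT) sPT
        · exact e
      have h2 : tP < t' := by
        rcases ht'.1.eq_or_lt with e | e
        · exact absurd (e ▸ yS) tPS
        · exact e
      refine ⟨?_, ?_, ?_⟩
      · intro h'
        have := iS s (by linarith) hs.2 sp (by linarith only [lt1, sm0]) (by linarith) h'
        linarith only [lt2, h1, this]
      · refine (germ_union_right ((clT le_rfl (by linarith)).union cl1) ?_).trans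
          (germ_right hγ hγi ⟨by linarith [hs.1], hs.2⟩ (by linarith) h1)
        rw [← he]
        rintro (h' | ⟨u, hu, hue⟩)
        · have := mem_sub hδi (s := t') ⟨by linarith, ht'.2⟩ le_rfl (by linarith) h'
          linarith only [lt3, lt4, h2, this.2]
        · simp only at hue
          have := C1S u hu (hue ▸ yS)
          rw [hue, he] at this
          exact sPT (this ▸ yT)
      · rw [← he]
        refine (germ_union_right ((clS le_rfl (by linarith only [lt1, lt2, sP1])).union cl2) ?_).trans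
          (germ_right hδ hδi ⟨by linarith [ht'.1], ht'.2⟩ (by linarith) h2)
        rw [he]
        rintro (h' | ⟨u, hu, hue⟩)
        · have := mem_sub hγi (s := s) ⟨by linarith, hs.2⟩ le_rfl (by linarith) h'
          linarith only [lt1, lt2, h1, this.2]
        · simp only at hue
          have := C2S u hu (by rw [hue]; exact ⟨s, ⟨by linarith only [lt1, lt2, sm0, h1], hs.2⟩, rfl⟩)
          rw [hue] at this
          exact smT (this ▸ yT)
  · rintro ((h' | h') | h')
    · have := mem_sub hδi (s := 1) (by simp) le_rfl (by linarith only [htp, lt3]) h'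
      linarith only [htp, lt3, this.2]
    · exact hb' (hHO (C1N h'))
    · exact hb (subS (by linarith) le_rfl h')
  · rintro ((h' | h') | h')
    · have := mem_sub hγi (s := 1) (by simp only [mem_Icc, zero_le_one, Std.le_refl, and_self]) le_rfl (by linarith only [lt1, lt2, sP1]) h'
      linarith only [lt1, lt2, sP1, this.2]
    · exact ha' (hHO (C2N h'))
    · exact ha (subT (by linarith) le_rfl h')

end Vale.Agent.P040.Unc
end

section

section

/-!
# Order statistics of continuous functions, and the sorted strands of a one-sided star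
-/

namespace Vale.Agent.P040.Mono

open Finset

section ordst

variable {ι : Type*}

/-- The `j`-th smallest value of `h` on `S`. -/
noncomputable def ordst (S : Finset ι) (h : ι → EReal) (j : ℕ) : EReal :=
  (S.powersetCard j).inf (fun T => T.sup h)

theorem ordst_le_iff {S : Finset ι} {h : ι → EReal} {j : ℕ} (hj : j ≤ #S) (t : EReal) :
    ordst S h j ≤ t ↔ j ≤ #{k ∈ S | h k ≤ t} := by
  classical
  rcases eq_or_lt_of_le (le_top : t ≤ ⊤) with ht | ht
  · subst ht
    simp only [le_top, filter_true, hj]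
  · unfold ordst
    rw [Finset.inf_le_iff ht]
    constructor
    · rintro ⟨T, hT, hT2⟩
      rw [mem_powersetCard] at hT
      rw [← hT.2]
      apply card_le_card
      intro k hk
      rw [mem_filter]
      exact ⟨hT.1 hk, (Finset.le_sup hk).trans hT2⟩
    · intro hc
      obtain ⟨T, hT, hT2⟩ := exists_subset_card_eq hc
      refine ⟨T, ?_, ?_⟩
      · rw [mem_powersetCard]
        exact ⟨hT.trans (filter_subset _ _), hT2⟩
      · apply Finset.sup_le
        intro k hk
        exact (mem_filter.1 (hT hk)).2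

theorem ordst_lt_iff {S : Finset ι} {h : ι → EReal} {j : ℕ} (hj : 1 ≤ j) (t : EReal) :
    ordst S h j < t ↔ j ≤ #{k ∈ S | h k < t} := by
  classical
  rcases eq_or_lt_of_le (bot_le : ⊥ ≤ t) with ht | ht
  · subst ht
    simp only [not_lt_bot, filter_false, card_empty, false_iff]
    omega
  · unfold ordst
    rw [Finset.inf_lt_iff]
    constructor
    · rintro ⟨T, hT, hT2⟩
      rw [mem_powersetCard] at hT
      rw [← hT.2]
      apply card_le_card
      intro k hk
      rw [mem_filter]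
      exact ⟨hT.1 hk, (Finset.le_sup hk).trans_lt hT2⟩
    · intro hc
      obtain ⟨T, hT, hT2⟩ := exists_subset_card_eq hc
      refine ⟨T, ?_, ?_⟩
      · rw [mem_powersetCard]
        exact ⟨hT.trans (filter_subset _ _), hT2⟩
      · rw [Finset.sup_lt_iff ht]
        intro k hk
        exact (mem_filter.1 (hT hk)).2

theorem ordst_continuous {S : Finset ι} {F : ι → ℝ → EReal} (hF : ∀ b ∈ S, Continuous (F b))
    (j : ℕ) : Continuous (fun x => ordst S (fun b => F b x) j) := by
  unfold ordst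
  have : (fun x => (S.powersetCard j).inf (fun T => T.sup (fun b => F b x))) =
      (S.powersetCard j).inf (fun T => (T.sup F)) := by
    funext x
    rw [Finset.inf_apply]
    congr 1
    funext T
    rw [Finset.sup_apply]
  rw [this]
  apply Continuous.finset_inf
  intro T hT
  apply Continuous.finset_sup
  intro b hb
  exact hF b ((mem_powersetCard.1 hT).1 hb)

/-- The rank from below: larger keys are lower. -/
noncomputable def rho (S : Finset ι) (κ : ι → ℝ) (b : ι) : ℕ := by
  classical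
  exact #{k ∈ S | κ b ≤ κ k}

theorem rho_def (S : Finset ι) (κ : ι → ℝ) (b : ι) [DecidablePred (fun k => κ b ≤ κ k)] :
    rho S κ b = #{k ∈ S | κ b ≤ κ k} := by
  unfold rho
  congr

theorem rho_pos {S : Finset ι} {κ : ι → ℝ} {b : ι} (hb : b ∈ S) : 1 ≤ rho S κ b := by
  classical
  rw [rho_def, Nat.one_le_iff_ne_zero, ← Nat.pos_iff_ne_zero, card_pos]
  exact ⟨b, by simp [hb]⟩

theorem rho_le (S : Finset ι) (κ : ι → ℝ) (b : ι) : rho S κ b ≤ #S := by
  classical
  rw [rho_def]
  exact card_le_card (filter_subset _ _)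

theorem rho_lt {S : Finset ι} {κ : ι → ℝ} {b c : ι} (hb : b ∈ S) (h : κ b < κ c) :
    rho S κ c < rho S κ b := by
  classical
  rw [rho_def, rho_def]
  apply card_lt_card
  rw [ssubset_iff_of_subset]
  · exact ⟨b, by simp [hb], by simp only [mem_filter, not_and, not_le, h, implies_true]⟩
  · intro k hk
    rw [mem_filter] at hk ⊢
    exact ⟨hk.1, h.le.trans hk.2⟩

theorem rho_injOn {S : Finset ι} {κ : ι → ℝ} (hκ : Set.InjOn κ S) :
    Set.InjOn (rho S κ) S := by
  intro b hb c hc h
  rcases lt_trichotomy (κ b) (κ c) with h1 | h1 | h1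
  · have := rho_lt (S := S) hb h1
    omega
  · exact hκ hb hc h1
  · have := rho_lt (S := S) hc h1
    omega

theorem rho_image {S : Finset ι} {κ : ι → ℝ} (hκ : Set.InjOn κ S) :
    S.image (rho S κ) = Icc 1 #S := by
  apply eq_of_subset_of_card_le
  · intro j hj
    rw [mem_image] at hj
    obtain ⟨b, hb, rfl⟩ := hj
    rw [mem_Icc]
    exact ⟨rho_pos hb, rho_le _ _ _⟩
  · rw [card_image_of_injOn (rho_injOn hκ)]
    simp only [Nat.card_Icc, add_tsub_cancel_right, Std.le_refl]

theorem card_rho_le {S : Finset ι} {κ : ι → ℝ} (hκ : Set.InjOn κ S) {M : ℕ} (hM : M ≤ #S) :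
    #{b ∈ S | rho S κ b ≤ M} = M := by
  have h1 : #{b ∈ S | rho S κ b ≤ M} = #(({b ∈ S | rho S κ b ≤ M}).image (rho S κ)) := by
    rw [card_image_of_injOn]
    apply (rho_injOn hκ).mono
    intro b hb
    exact (mem_filter.1 hb).1
  have h2 : ({b ∈ S | rho S κ b ≤ M}).image (rho S κ) = Icc 1 M := by
    ext j
    rw [mem_image, mem_Icc]
    constructor
    · rintro ⟨b, hb, rfl⟩
      rw [mem_filter] at hb
      exact ⟨rho_pos hb.1, hb.2⟩
    · rintro ⟨hj1, hj2⟩
      have : j ∈ S.image (rho S κ) := by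
        rw [rho_image hκ, mem_Icc]
        exact ⟨hj1, hj2.trans hM⟩
      rw [mem_image] at this
      obtain ⟨b, hb, rfl⟩ := this
      exact ⟨b, by simp only [mem_filter, hb, hj2, and_self], rfl⟩
  rw [h1, h2]
  simp only [Nat.card_Icc, add_tsub_cancel_right]

/-- Sorting does not change the multiset of values. -/
theorem card_ordst_eq {S : Finset ι} {κ : ι → ℝ} (hκ : Set.InjOn κ S) (h : ι → EReal)
    (y : EReal) : #{b ∈ S | ordst S h (rho S κ b) = y} = #{k ∈ S | h k = y} := by
  classical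
  have h1 : #{b ∈ S | ordst S h (rho S κ b) ≤ y} = #{k ∈ S | h k ≤ y} := by
    have : {b ∈ S | ordst S h (rho S κ b) ≤ y} = {b ∈ S | rho S κ b ≤ #{k ∈ S | h k ≤ y}} := by
      apply filter_congr
      intro b hb
      exact ordst_le_iff (rho_le _ _ _) _
    rw [this, card_rho_le hκ (card_le_card (filter_subset _ _))]
  have h2 : #{b ∈ S | ordst S h (rho S κ b) < y} = #{k ∈ S | h k < y} := by
    have : {b ∈ S | ordst S h (rho S κ b) < y} = {b ∈ S | rho S κ b ≤ #{k ∈ S | h k < y}} := by
      apply filter_congr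
      intro b hb
      exact ordst_lt_iff (rho_pos hb) _
    rw [this, card_rho_le hκ (card_le_card (filter_subset _ _))]
  have key : ∀ f : ι → EReal, #{b ∈ S | f b ≤ y} = #{b ∈ S | f b < y} + #{b ∈ S | f b = y} := by
    intro f
    rw [← card_union_of_disjoint]
    · congr 1
      ext b
      simp only [mem_filter, mem_union, le_iff_lt_or_eq]
      (clear * -; tauto)
    · rw [disjoint_left]
      intro b hb hb2
      rw [mem_filter] at hb hb2
      exact absurd hb2.2 hb.2.ne
  have k1 := key h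
  have k2 := key (fun b => ordst S h (rho S κ b))
  omega

/-- If `h` is already sorted then sorting does nothing. -/
theorem ordst_rho_of_sorted {S : Finset ι} {κ : ι → ℝ} (hκ : Set.InjOn κ S) {h : ι → EReal}
    (hs : ∀ b ∈ S, ∀ c ∈ S, κ b < κ c → h c ≤ h b) {b : ι} (hb : b ∈ S) :
    ordst S h (rho S κ b) = h b := by
  classical
  have hs' : ∀ b ∈ S, ∀ c ∈ S, κ b ≤ κ c → h c ≤ h b := by
    intro b hb c hc hbc
    rcases eq_or_lt_of_le hbc with h1 | h1
    · rw [hκ hb hc h1]
    · exact hs b hb c hc h1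
  apply le_antisymm
  · rw [ordst_le_iff (rho_le _ _ _), rho_def]
    apply card_le_card
    intro k hk
    rw [mem_filter] at hk ⊢
    exact ⟨hk.1, hs' b hb k hk.1 hk.2⟩
  · by_contra hlt
    rw [not_le, ordst_lt_iff (rho_pos hb), rho_def] at hlt
    have h1 : ({k ∈ S | h k < h b} : Finset ι) ⊂ {k ∈ S | κ b ≤ κ k} := by
      rw [ssubset_iff_of_subset]
      · exact ⟨b, by simp only [mem_filter, hb, Std.le_refl, and_self], by simp⟩
      · intro k hk
        rw [mem_filter] at hk ⊢
        refine ⟨hk.1, ?_⟩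
        by_contra h2
        rw [not_le] at h2
        exact absurd (hs k hk.1 b hb h2) (not_le.2 hk.2)
    have := card_lt_card h1
    omega

theorem ordst_mono {S : Finset ι} {h : ι → EReal} {i j : ℕ} (hij : i ≤ j) (hj : j ≤ #S) :
    ordst S h i ≤ ordst S h j := by
  rw [ordst_le_iff (hij.trans hj)]
  have := (ordst_le_iff (S := S) (h := h) hj (ordst S h j)).1 le_rfl
  omega

end ordst

/-- The sorted strands of a star all of whose leaves are on the right. -/
theorem exists_strands {ι : Type*} [DecidableEq ι] (X : ι → ℝ) (φ : ι → ℝ → ℝ) (S : Finset ι)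
    (hφ : ∀ b ∈ S, Continuous (φ b))
    (hne : ∀ b ∈ S, ∀ c ∈ S, b ≠ c → X c ≤ X b → φ b (X c) ≠ φ c (X c)) :
    ∃ (F : ι → ℝ → EReal) (κ : ι → ℝ), Set.InjOn κ S ∧ (∀ b ∈ S, Continuous (F b)) ∧
      (∀ b ∈ S, F b (X b) = φ b (X b)) ∧
      (∀ x y, #{b ∈ S | x ≤ X b ∧ F b x = y} = #{b ∈ S | x ≤ X b ∧ (φ b x : EReal) = y}) ∧
      (∀ b ∈ S, ∀ c ∈ S, κ b < κ c → ∀ x, F c x ≤ F b x) := by
  classical
  induction S using Finset.induction_on_min_value X with
  | empty => exact ⟨fun _ _ => 0, fun _ => 0, by simp only [coe_empty, Set.injOn_empty, notMem_empty, IsEmpty.forall_iff, implies_true, filter_empty, card_empty, lt_self_iff_false, Std.le_refl, and_self]⟩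
  | insert c S hcS hmin ih =>
    obtain ⟨F, κ, hκ, hFc, hFX, hFm, hFs⟩ := ih (fun b hb => hφ b (mem_insert_of_mem hb))
      (fun b hb c' hc' => hne b (mem_insert_of_mem hb) c' (mem_insert_of_mem hc'))
    -- no strand passes through the new leaf
    have hFne : ∀ b ∈ S, F b (X c) ≠ φ c (X c) := by
      intro b hb heq
      have h1 := hFm (X c) (φ c (X c))
      have h2 : #{b ∈ S | X c ≤ X b ∧ (φ b (X c) : EReal) = φ c (X c)} = 0 := by
        rw [card_eq_zero, filter_eq_empty_iff]
        rintro k hk ⟨hk1, hk2⟩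
        refine hne k (mem_insert_of_mem hk) c (mem_insert_self _ _) ?_ hk1 ?_
        · rintro rfl
          exact hcS hk
        · exact_mod_cast hk2
      rw [h2, card_eq_zero, filter_eq_empty_iff] at h1
      exact h1 hb ⟨hmin b hb, heq⟩
    set Y : EReal := ((φ c (X c) : ℝ) : EReal) with hY
    set U := {b ∈ S | Y < F b (X c)} with hU
    set L := {b ∈ S | F b (X c) < Y} with hL
    have hUL : ∀ b ∈ U, ∀ b' ∈ L, κ b < κ b' := by
      intro b hb b' hb'
      rw [hU, mem_filter] at hb
      rw [hL, mem_filter] at hb'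
      by_contra hlt
      rw [not_lt] at hlt
      rcases eq_or_lt_of_le hlt with h1 | h1
      · have := hκ hb'.1 hb.1 h1
        subst this
        exact absurd (hb.2.trans hb'.2) (lt_irrefl _)
      · have := hFs b' hb'.1 b hb.1 h1 (X c)
        exact absurd ((hb.2.trans_le this).trans hb'.2) (lt_irrefl _)
    obtain ⟨r, hr1, hr2⟩ := Order.exists_between_finsets (U.image κ) (L.image κ) (by
      intro x hx y hy
      rw [mem_image] at hx hy
      obtain ⟨b, hb, rfl⟩ := hx
      obtain ⟨b', hb', rfl⟩ := hy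
      exact hUL b hb b' hb')
    have hr1' : ∀ b ∈ U, κ b < r := fun b hb => hr1 _ (mem_image_of_mem _ hb)
    have hr2' : ∀ b ∈ L, r < κ b := fun b hb => hr2 _ (mem_image_of_mem _ hb)
    have hcov : ∀ b ∈ S, b ∈ U ∨ b ∈ L := by
      intro b hb
      rcases lt_or_gt_of_ne (hFne b hb) with h1 | h1
      · right; rw [hL, mem_filter]; exact ⟨hb, h1⟩
      · left; rw [hU, mem_filter]; exact ⟨hb, h1⟩
    have hUS : ∀ b ∈ U, b ∈ S := fun b hb => (mem_filter.1 hb).1
    have hLS : ∀ b ∈ L, b ∈ S := fun b hb => (mem_filter.1 hb).1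
    -- the virtual extension of the new edge
    set ψ : ℝ → EReal := fun x => if x ≤ X c then (φ c x : EReal) else
      max (L.sup F x) (min (U.inf F x) Y) with hψ
    have hψc : Continuous ψ := by
      rw [hψ]
      apply Continuous.if_le
      · exact continuous_coe_real_ereal.comp (hφ c (mem_insert_self _ _))
      · apply Continuous.max
        · exact Continuous.finset_sup (fun b hb => hFc b (hLS b hb))
        · apply Continuous.min
          · exact Continuous.finset_inf (fun b hb => hFc b (hUS b hb))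
          · exact continuous_const
      · exact continuous_id
      · exact continuous_const
      · intro x hx
        rw [hx]
        rw [min_eq_right, max_eq_right]
        · rw [Finset.sup_apply]
          apply Finset.sup_le
          intro b hb
          exact (mem_filter.1 hb).2.le
        · rw [Finset.inf_apply]
          apply Finset.le_inf
          intro b hb
          exact (mem_filter.1 hb).2.le
    set Ft : ι → ℝ → EReal := Function.update F c ψ with hFt
    set κ' : ι → ℝ := Function.update κ c r with hκ'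
    have hFtc : Ft c = ψ := by rw [hFt, Function.update_self]
    have hFtS : ∀ b ∈ S, Ft b = F b := by
      intro b hb
      rw [hFt, Function.update_of_ne]
      rintro rfl
      exact hcS hb
    have hκc : κ' c = r := by rw [hκ', Function.update_self]
    have hκS : ∀ b ∈ S, κ' b = κ b := by
      intro b hb
      rw [hκ', Function.update_of_ne]
      rintro rfl
      exact hcS hb
    have hκne : ∀ b ∈ S, κ b ≠ r := by
      intro b hb
      rcases hcov b hb with h1 | h1
      · exact (hr1' b h1).ne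
      · exact (hr2' b h1).ne'
    have hκ'inj : Set.InjOn κ' (insert c S : Finset ι) := by
      intro b hb b' hb' heq
      rw [mem_coe, mem_insert] at hb hb'
      rcases hb with rfl | hb <;> rcases hb' with rfl | hb'
      · rfl
      · rw [hκc, hκS b' hb'] at heq
        exact absurd heq.symm (hκne b' hb')
      · rw [hκc, hκS b hb] at heq
        exact absurd heq (hκne b hb)
      · rw [hκS b hb, hκS b' hb'] at heq
        exact hκ hb hb' heq
    -- to the right of the new leaf everything is sorted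
    have hsorted : ∀ x, X c ≤ x → ∀ b ∈ insert c S, ∀ b' ∈ insert c S, κ' b < κ' b' →
        Ft b' x ≤ Ft b x := by
      intro x hx b hb b' hb' hlt
      have hψx : ψ x = max (L.sup F x) (min (U.inf F x) Y) := by
        rcases eq_or_lt_of_le hx with h1 | h1
        · subst h1
          rw [hψ]
          simp only [le_refl, if_true]
          rw [min_eq_right, max_eq_right]
          · rw [Finset.sup_apply]
            apply Finset.sup_le
            intro b hb
            exact (mem_filter.1 hb).2.le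
          · rw [Finset.inf_apply]
            apply Finset.le_inf
            intro b hb
            exact (mem_filter.1 hb).2.le
        · rw [hψ]
          simp only [not_le.2 h1, if_false]
      rw [mem_insert] at hb hb'
      rcases hb with rfl | hb <;> rcases hb' with rfl | hb'
      · exact le_rfl
      · rw [hκc, hκS b' hb'] at hlt
        rw [hFtc, hFtS b' hb', hψx]
        have : b' ∈ L := by
          rcases hcov b' hb' with h1 | h1
          · exact absurd (hr1' b' h1) (not_lt.2 hlt.le)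
          · exact h1
        apply le_max_of_le_left
        rw [Finset.sup_apply]
        exact Finset.le_sup (f := fun b => F b x) this
      · rw [hκc, hκS b hb] at hlt
        rw [hFtc, hFtS b hb, hψx]
        have hbU : b ∈ U := by
          rcases hcov b hb with h1 | h1
          · exact h1
          · exact absurd (hr2' b h1) (not_lt.2 hlt.le)
        apply max_le
        · rw [Finset.sup_apply]
          apply Finset.sup_le
          intro l hl
          exact hFs b hb l (hLS l hl) (hUL b hbU l hl) x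
        · apply min_le_of_left_le
          rw [Finset.inf_apply]
          exact Finset.inf_le (f := fun b => F b x) hbU
      · rw [hκS b hb, hκS b' hb'] at hlt
        rw [hFtS b hb, hFtS b' hb']
        exact hFs b hb b' hb' hlt x
    refine ⟨fun b x => ordst (insert c S) (fun k => Ft k x) (rho (insert c S) κ' b), κ', hκ'inj,
      ?_, ?_, ?_, ?_⟩
    · intro b _
      apply ordst_continuous
      intro k hk
      rw [mem_insert] at hk
      rcases hk with rfl | hk
      · rw [hFtc]; exact hψc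
      · rw [hFtS k hk]; exact hFc k hk
    · intro b hb
      have hXb : X c ≤ X b := by
        rw [mem_insert] at hb
        rcases hb with rfl | hb
        · exact le_rfl
        · exact hmin b hb
      show ordst (insert c S) (fun k => Ft k (X b)) (rho (insert c S) κ' b) = _
      rw [ordst_rho_of_sorted hκ'inj (hsorted (X b) hXb) hb]
      rw [mem_insert] at hb
      rcases hb with rfl | hb
      · rw [hFtc, hψ]
        simp
      · rw [hFtS b hb]
        exact hFX b hb
    · intro x y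
      rcases lt_or_ge (X c) x with hx | hx
      · have e1 : {b ∈ insert c S | x ≤ X b ∧
            ordst (insert c S) (fun k => Ft k x) (rho (insert c S) κ' b) = y} =
            {b ∈ S | x ≤ X b ∧ F b x = y} := by
          ext b
          simp only [mem_filter, mem_insert]
          constructor
          · rintro ⟨hb, hxb, hy⟩
            rcases hb with rfl | hb
            · exact absurd hxb (not_le.2 hx)
            · refine ⟨hb, hxb, ?_⟩
              rw [ordst_rho_of_sorted hκ'inj (hsorted x hx.le) (mem_insert_of_mem hb),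
                hFtS b hb] at hy
              exact hy
          · rintro ⟨hb, hxb, hy⟩
            refine ⟨Or.inr hb, hxb, ?_⟩
            rw [ordst_rho_of_sorted hκ'inj (hsorted x hx.le) (mem_insert_of_mem hb),
                hFtS b hb]
            exact hy
        have e2 : {b ∈ insert c S | x ≤ X b ∧ (φ b x : EReal) = y} =
            {b ∈ S | x ≤ X b ∧ (φ b x : EReal) = y} := by
          ext b
          simp only [mem_filter, mem_insert]
          constructor
          · rintro ⟨hb, hxb, hy⟩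
            rcases hb with rfl | hb
            · exact absurd hxb (not_le.2 hx)
            · exact ⟨hb, hxb, hy⟩
          · rintro ⟨hb, hxb, hy⟩
            exact ⟨Or.inr hb, hxb, hy⟩
        rw [e1, e2]
        exact hFm x y
      · have hall : ∀ b ∈ insert c S, x ≤ X b := by
          intro b hb
          rw [mem_insert] at hb
          rcases hb with rfl | hb
          · exact hx
          · exact hx.trans (hmin b hb)
        have e1 : {b ∈ insert c S | x ≤ X b ∧
            ordst (insert c S) (fun k => Ft k x) (rho (insert c S) κ' b) = y} =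
            {b ∈ insert c S |
              ordst (insert c S) (fun k => Ft k x) (rho (insert c S) κ' b) = y} := by
          apply filter_congr
          intro b hb
          simp [hall b hb]
        have e2 : {b ∈ insert c S | x ≤ X b ∧ (φ b x : EReal) = y} =
            {b ∈ insert c S | (φ b x : EReal) = y} := by
          apply filter_congr
          intro b hb
          simp [hall b hb]
        rw [e1, e2, card_ordst_eq hκ'inj]
        have e3 : {b ∈ S | x ≤ X b ∧ F b x = y} = {b ∈ S | F b x = y} := by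
          apply filter_congr
          intro b hb
          simp [hall b (mem_insert_of_mem hb)]
        have e4 : {b ∈ S | x ≤ X b ∧ (φ b x : EReal) = y} = {b ∈ S | (φ b x : EReal) = y} := by
          apply filter_congr
          intro b hb
          simp [hall b (mem_insert_of_mem hb)]
        have hm := hFm x y
        rw [e3, e4] at hm
        have e5 : {b ∈ S | Ft b x = y} = {b ∈ S | F b x = y} := by
          apply filter_congr
          intro b hb
          rw [hFtS b hb]
        have hψx : ψ x = φ c x := by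
          rw [hψ]; simp [hx]
        rw [filter_insert, filter_insert, hFtc, hψx, e5]
        split_ifs with hc
        · rw [card_insert_of_notMem, card_insert_of_notMem, hm]
          · simp [hcS]
          · simp [hcS]
        · exact hm
    · intro b hb b' hb' hlt x
      exact ordst_mono (rho_lt hb hlt).le (rho_le _ _ _)

end Vale.Agent.P040.Mono
end
end

section

/-!
# Segments joining the two coordinate axes
-/

namespace Vale.Agent.P040.Upper

open Set

theorem seg_iff {u v : ℝ} (hu : u ≠ 0) (hv : v ≠ 0) (y : Plane) :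
    y ∈ segment ℝ ((u⁻¹, 0) : Plane) (0, v⁻¹) ↔
      0 ≤ u * y.1 ∧ 0 ≤ v * y.2 ∧ u * y.1 + v * y.2 = 1 := by
  constructor
  · rintro ⟨a, b, ha, hb, hab, rfl⟩
    simp only [Prod.smul_mk, smul_eq_mul, mul_zero, Prod.mk_add_mk, add_zero, zero_add]
    have e1 : u * (a * u⁻¹) = a := by field_simp
    have e2 : v * (b * v⁻¹) = b := by (clear * - hv; field_simp)
    rw [e1, e2]
    exact ⟨ha, hb, hab⟩
  · rintro ⟨h1, h2, h3⟩
    refine ⟨u * y.1, v * y.2, h1, h2, h3, ?_⟩
    apply Prod.ext
    · simp only [Prod.smul_mk, smul_eq_mul, mul_zero, Prod.mk_add_mk, add_zero]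
      (clear * - hu; field_simp)
    · simp only [Prod.smul_mk, smul_eq_mul, mul_zero, Prod.mk_add_mk, zero_add]
      field_simp

theorem isArc_segment {p q : Plane} (h : p ≠ q) : IsArc (segment ℝ p q) p q := by
  refine ⟨fun t => AffineMap.lineMap p q t, by (clear * -; fun_prop), ?_, by simp, by simp, ?_⟩
  · intro s _ t _ hst
    exact (AffineMap.lineMap_injective ℝ h) hst
  · rw [segment_eq_image_lineMap]

/-- Affine coordinates given by two lines. -/
noncomputable def twoLines (u v u' v' : ℝ) (hd : u * v' - u' * v ≠ 0) : Plane ≃ₜ Plane where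
  toFun := fun y => (u' * y.1 + v' * y.2 - 1, u * y.1 + v * y.2 - 1)
  invFun := fun z => ((v' * (z.2 + 1) - v * (z.1 + 1)) / (u * v' - u' * v),
    (u * (z.1 + 1) - u' * (z.2 + 1)) / (u * v' - u' * v))
  left_inv := by
    intro y
    apply Prod.ext
    · simp only
      rw [div_eq_iff hd]
      ring
    · simp only
      rw [div_eq_iff hd]
      ring
  right_inv := by
    intro z
    have h1 : u' * ((v' * (z.2 + 1) - v * (z.1 + 1)) / (u * v' - u' * v)) +
        v' * ((u * (z.1 + 1) - u' * (z.2 + 1)) / (u * v' - u' * v)) = z.1 + 1 := by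
      rw [← mul_div_assoc, ← mul_div_assoc, ← add_div, div_eq_iff hd]
      ring
    have h2 : u * ((v' * (z.2 + 1) - v * (z.1 + 1)) / (u * v' - u' * v)) +
        v * ((u * (z.1 + 1) - u' * (z.2 + 1)) / (u * v' - u' * v)) = z.2 + 1 := by
      rw [← mul_div_assoc, ← mul_div_assoc, ← add_div, div_eq_iff hd]
      ring
    apply Prod.ext
    · simp only
      rw [h1]
      ring
    · simp only
      rw [h2]
      ring
  continuous_toFun := by fun_prop
  continuous_invFun := by fun_prop

theorem crossAt_seg {u v u' v' : ℝ} (hu : u ≠ 0) (hv : v ≠ 0) (hu' : u' ≠ 0) (hv' : v' ≠ 0)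
    (hd : u * v' - u' * v ≠ 0) {x : Plane} (h1 : 0 < u * x.1) (h2 : 0 < v * x.2)
    (h3 : u * x.1 + v * x.2 = 1) (h1' : 0 < u' * x.1) (h2' : 0 < v' * x.2)
    (h3' : u' * x.1 + v' * x.2 = 1) :
    CrossAt (segment ℝ ((u⁻¹, 0) : Plane) (0, v⁻¹)) (segment ℝ ((u'⁻¹, 0) : Plane) (0, v'⁻¹)) x := by
  have hO : IsOpen {y : Plane | 0 < u * y.1 ∧ 0 < v * y.2 ∧ 0 < u' * y.1 ∧ 0 < v' * y.2} := by
    apply IsOpen.and (isOpen_lt continuous_const (by fun_prop))
    apply IsOpen.and (isOpen_lt continuous_const (by fun_prop))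
    apply IsOpen.and (isOpen_lt continuous_const (by fun_prop))
    exact isOpen_lt continuous_const (by fun_prop)
  refine ⟨(twoLines u v u' v' hd).toOpenPartialHomeomorph.restrOpen _ hO, ?_, ?_, ?_, ?_⟩
  · simp only [OpenPartialHomeomorph.restrOpen_source, Homeomorph.toOpenPartialHomeomorph_source,
      univ_inter]
    exact ⟨h1, h2, h1', h2'⟩
  · show (u' * x.1 + v' * x.2 - 1, u * x.1 + v * x.2 - 1) = ((0, 0) : Plane)
    rw [h3, h3', sub_self]
  · intro y hy
    simp only [OpenPartialHomeomorph.restrOpen_source, Homeomorph.toOpenPartialHomeomorph_source,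
      univ_inter] at hy
    obtain ⟨a1, a2, a3, a4⟩ := hy
    rw [seg_iff hu hv]
    show _ ↔ u * y.1 + v * y.2 - 1 = 0
    constructor
    · rintro ⟨-, -, h⟩
      rw [h, sub_self]
    · intro h
      exact ⟨a1.le, a2.le, by linarith only [h]⟩
  · intro y hy
    simp only [OpenPartialHomeomorph.restrOpen_source, Homeomorph.toOpenPartialHomeomorph_source,
      univ_inter] at hy
    obtain ⟨a1, a2, a3, a4⟩ := hy
    rw [seg_iff hu' hv']
    show _ ↔ u' * y.1 + v' * y.2 - 1 = 0
    constructor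
    · rintro ⟨-, -, h⟩
      rw [h, sub_self]
    · intro h
      exact ⟨a3.le, a4.le, by linarith only [h]⟩

end Vale.Agent.P040.Upper
end
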