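import Vale.Agent.P040.MathlibUsed
import Vale.Agent.P040.Bdl.B1
import Vale.Agent.P040.Bdl.B2
import Vale.Agent.P040.DrawingClasses
import Vale.Agent.P040.Bdl.B3
attribute [-instance] ProperSMul.toContinuousSMul IsTopologicalTorsor.toContinuousSMul IdemSemiring.toCanonicallyOrderedAdd IdemSemiring.toMulLeftMono IdemSemiring.toMulRightMono AddQuantale.instAddLeftMono AddQuantale.instAddRightMono Quantale.instMulLeftMono Quantale.instMulRightMono FiniteDimensional.rclike_to_real IsScalarTower.complexToReal FiniteDimensional.complexToReal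

set_option linter.all false

section

/-!
# Two paths in a strip which change order meet
-/

namespace Vale.Agent.P040.Gen

open Set Complex

/-- A continuous function which avoids two values stays between them. -/
theorem stay {θ : ℝ → ℝ} {a b p q : ℝ} (hθ : ContinuousOn θ (uIcc a b))
    (hp : ∀ s ∈ uIcc a b, θ s ≠ p) (hq : ∀ s ∈ uIcc a b, θ s ≠ q) (ha : p < θ a) (ha' : θ a < q) :
    p < θ b ∧ θ b < q := by
  have hiv := intermediate_value_uIcc hθ
  constructor
  · by_contra h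
    push Not at h
    obtain ⟨s, hs1, hs2⟩ := hiv (show p ∈ uIcc (θ a) (θ b) by
      rw [uIcc_of_ge (h.trans ha.le)]; exact ⟨h, ha.le⟩)
    exact hp s hs1 hs2
  · by_contra h
    push Not at h
    obtain ⟨s, hs1, hs2⟩ := hiv (show q ∈ uIcc (θ a) (θ b) by
      rw [uIcc_of_le (ha'.le.trans h)]; exact ⟨ha'.le, h⟩)
    exact hq s hs1 hs2

/-- The logarithm of the odds. -/
noncomputable def lo (t : ℝ) : ℝ := Real.log (t / (1 - t))

theorem lo_one_sub (t : ℝ) : lo (1 - t) = - lo t := by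
  unfold lo
  rw [← Real.log_inv]
  congr 1
  rw [inv_div]
  congr 1
  ring

theorem lo_mono {s t : ℝ} (hs : 0 < s) (hst : s ≤ t) (ht : t < 1) : lo s ≤ lo t := by
  unfold lo
  apply Real.log_le_log (div_pos hs (by linarith only [hst, ht]))
  apply div_le_div₀ (by linarith only [hs, hst]) hst (by linarith) (by linarith)

theorem exp_lo {t : ℝ} (h0 : 0 < t) (h1 : t < 1) : Real.exp (lo t) = t / (1 - t) :=
  Real.exp_log (div_pos h0 (by linarith))

theorem continuousOn_lo : ContinuousOn lo (Ioo 0 1) := by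
  unfold lo
  apply ContinuousOn.log
  · apply ContinuousOn.div continuousOn_id (by (clear * -; fun_prop))
    intro x hx
    linarith [hx.2]
  · intro x hx
    exact (div_pos hx.1 (by linarith only [hx.2])).ne'

/-- There are points near zero with small logarithm of odds. -/
theorem exists_lo_lt (δ : ℝ) (hδ : 0 < δ) (hδ' : δ < 1) (B : ℝ) :
    ∃ ε, 0 < ε ∧ ε < δ ∧ lo ε + B < lo δ := by
  have hq : 0 < δ / (1 - δ) := div_pos hδ (by linarith only [hδ'])
  set c := δ / (1 - δ) * Real.exp (-B) / 2 with hc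
  have hcp : 0 < c := by positivity
  refine ⟨min (δ / 2) (c / (1 + c)), ?_, ?_, ?_⟩
  · apply lt_min (by linarith only [hδ]) (by positivity)
  · exact (min_le_left _ _).trans_lt (by linarith only [hδ])
  · have h1 : lo (min (δ / 2) (c / (1 + c))) ≤ lo (c / (1 + c)) := by
      apply lo_mono (lt_min (by linarith only [hδ]) (by positivity)) (min_le_right _ _)
      rw [div_lt_one (by positivity)]; linarith only []
    have h2 : lo (c / (1 + c)) = Real.log c := by
      unfold lo
      congr 1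
      have : (1 + c) ≠ 0 := by positivity
      field_simp
      ring
    have h3 : Real.log c < lo δ - B := by
      rw [hc, Real.log_div (by positivity) (by norm_num), Real.log_mul hq.ne' (Real.exp_pos _).ne',
        Real.log_exp]
      have := Real.log_pos (show (1 : ℝ) < 2 by norm_num)
      unfold lo
      linarith only [this]
    linarith only [h1, h2, h3]

theorem sin_of {r x y : ℝ} (hr : 0 < r) (h : x = r * y) : (0 < x ↔ 0 < y) ∧ (x < 0 ↔ y < 0) := by
  subst h
  refine ⟨mul_pos_iff_of_pos_left hr, ?_⟩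
  constructor
  · intro h
    by_contra h2
    push Not at h2
    linarith only [h, mul_nonneg hr.le h2]
  · intro h
    exact mul_neg_of_pos_of_neg hr h

/-- Two paths in a strip, coming from minus infinity and going to plus infinity, which change
their order meet. -/
theorem strip_cross {ℓ μ : ℝ → ℂ} (hℓ : ContinuousOn ℓ (Icc 0 1)) (hμ : ContinuousOn μ (Icc 0 1))
    (h0 : (ℓ 0).im < (μ 0).im) (h1 : (μ 1).im < (ℓ 1).im) :
    ∃ s ∈ Ioo (0 : ℝ) 1, ∃ t ∈ Ioo (0 : ℝ) 1, ℓ s + (lo s : ℂ) = μ t + (lo t : ℂ) := by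
  by_contra hne
  push Not at hne
  have m0 : (0 : ℝ) ∈ Icc (0 : ℝ) 1 := by simp only [mem_Icc, Std.le_refl, zero_le_one, and_self]
  have m1 : (1 : ℝ) ∈ Icc (0 : ℝ) 1 := by simp only [mem_Icc, zero_le_one, Std.le_refl, and_self]
  -- bounds for the real parts
  obtain ⟨B1, hB1⟩ := isCompact_Icc.exists_bound_of_continuousOn hℓ
  obtain ⟨B2, hB2⟩ := isCompact_Icc.exists_bound_of_continuousOn hμ
  have hre : ∀ s ∈ Icc (0 : ℝ) 1, ∀ t ∈ Icc (0 : ℝ) 1, |(ℓ s).re - (μ t).re| ≤ B1 + B2 := by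
    intro s hs t ht
    have h1 := (abs_re_le_norm (ℓ s)).trans (hB1 s hs)
    have h2 := (abs_re_le_norm (μ t)).trans (hB2 t ht)
    calc |(ℓ s).re - (μ t).re| ≤ |(ℓ s).re| + |(μ t).re| := abs_sub _ _
      _ ≤ B1 + B2 := add_le_add h1 h2
  -- the order near the ends
  obtain ⟨δ, hδ0, hδ1, hd0, hd1⟩ : ∃ δ : ℝ, 0 < δ ∧ δ < 1 / 2 ∧
      (∀ s ∈ Icc (0 : ℝ) δ, ∀ t ∈ Icc (0 : ℝ) δ, (ℓ s).im < (μ t).im) ∧
      (∀ s ∈ Icc (1 - δ) 1, ∀ t ∈ Icc (1 - δ) 1, (μ t).im < (ℓ s).im) := by
    have hiℓ : ContinuousOn (fun s => (ℓ s).im) (Icc 0 1) := continuous_im.comp_continuousOn hℓ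
    have hiμ : ContinuousOn (fun s => (μ s).im) (Icc 0 1) := continuous_im.comp_continuousOn hμ
    have e1 : ∀ᶠ s in nhdsWithin (0 : ℝ) (Icc 0 1), (ℓ s).im < ((ℓ 0).im + (μ 0).im) / 2 :=
      (hiℓ 0 m0).eventually_lt_const (by linarith)
    have e2 : ∀ᶠ s in nhdsWithin (0 : ℝ) (Icc 0 1), ((ℓ 0).im + (μ 0).im) / 2 < (μ s).im :=
      (hiμ 0 m0).eventually_const_lt (by linarith)
    have e3 : ∀ᶠ s in nhdsWithin (1 : ℝ) (Icc 0 1), ((ℓ 1).im + (μ 1).im) / 2 < (ℓ s).im :=
      (hiℓ 1 m1).eventually_const_lt (by linarith)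
    have e4 : ∀ᶠ s in nhdsWithin (1 : ℝ) (Icc 0 1), (μ s).im < ((ℓ 1).im + (μ 1).im) / 2 :=
      (hiμ 1 m1).eventually_lt_const (by linarith)
    obtain ⟨a, ha, ha'⟩ := Metric.mem_nhdsWithin_iff.1 (e1.and e2)
    obtain ⟨b, hb, hb'⟩ := Metric.mem_nhdsWithin_iff.1 (e3.and e4)
    refine ⟨min (min a b) 1 / 3, by (clear * - ha hb; positivity), ?_, ?_, ?_⟩
    · have := min_le_right (min a b) 1
      linarith only [this]
    · intro s hs t ht
      have hm := min_le_left (min a b) 1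
      have hm1 := min_le_right (min a b) 1
      have hma := min_le_left a b
      have hmp : 0 < min (min a b) 1 := by (clear * - ha hb; positivity)
      have k1 := ha' ⟨show s ∈ Metric.ball 0 a by
        rw [Metric.mem_ball, Real.dist_eq, abs_lt]
        constructor <;> linarith only [ha, hm, hma, hs.2, hs.1], ⟨hs.1, by linarith [hs.2]⟩⟩
      have k2 := ha' ⟨show t ∈ Metric.ball 0 a by
        rw [Metric.mem_ball, Real.dist_eq, abs_lt]
        constructor <;> linarith [ht.1, ht.2], ⟨ht.1, by linarith [ht.2]⟩⟩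
      have k3 : (ℓ s).im < ((ℓ 0).im + (μ 0).im) / 2 := k1.1
      have k4 : ((ℓ 0).im + (μ 0).im) / 2 < (μ t).im := k2.2
      linarith
    · intro s hs t ht
      have hm := min_le_left (min a b) 1
      have hm1 := min_le_right (min a b) 1
      have hma := min_le_right a b
      have hmp : 0 < min (min a b) 1 := by positivity
      have k1 := hb' ⟨show s ∈ Metric.ball 1 b by
        rw [Metric.mem_ball, Real.dist_eq, abs_lt]
        constructor <;> linarith only [hb, hm, hma, hs.1, hs.2], ⟨by linarith [hs.1], hs.2⟩⟩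
      have k2 := hb' ⟨show t ∈ Metric.ball 1 b by
        rw [Metric.mem_ball, Real.dist_eq, abs_lt]
        constructor <;> linarith [ht.1, ht.2], ⟨by linarith [ht.1], ht.2⟩⟩
      have k3 : ((ℓ 1).im + (μ 1).im) / 2 < (ℓ s).im := k1.1
      have k4 : (μ t).im < ((ℓ 1).im + (μ 1).im) / 2 := k2.2
      linarith
  obtain ⟨ε, hε0, hεδ, hεl⟩ := exists_lo_lt δ hδ0 (by linarith) (B1 + B2)
  have hB0 : 0 ≤ B1 + B2 := (abs_nonneg _).trans (hre 0 m0 0 m0)
  -- the rescaled paths
  let r : ℝ → ℝ := fun s => ε + (1 - 2 * ε) * s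
  have hrc : Continuous r := by fun_prop
  have hr0 : r 0 = ε := by simp [r]
  have hr1 : r 1 = 1 - ε := by simp [r]; ring
  have hrI : ∀ s ∈ Icc (0 : ℝ) 1, r s ∈ Icc ε (1 - ε) := by
    intro s hs
    constructor
    · have : 0 ≤ (1 - 2 * ε) * s := mul_nonneg (by linarith only [hδ1, hεδ]) hs.1
      simp only [r]; linarith only [this]
    · have : (1 - 2 * ε) * s ≤ (1 - 2 * ε) * 1 := mul_le_mul_of_nonneg_left hs.2 (by linarith only [hδ1, hεδ])
      simp only [r]; linarith only [this]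
  have hrI1 : ∀ s ∈ Icc (0 : ℝ) 1, r s ∈ Ioo (0 : ℝ) 1 := by
    intro s hs
    have := hrI s hs
    exact ⟨by linarith only [hε0, this.1], by linarith only [hε0, this.2]⟩
  have hrI2 : ∀ s ∈ Icc (0 : ℝ) 1, r s ∈ Icc (0 : ℝ) 1 := fun s hs => Ioo_subset_Icc_self (hrI1 s hs)
  have hαc : ContinuousOn (fun s => ℓ (r s) + (lo (r s) : ℂ)) (Icc 0 1) := by
    apply ContinuousOn.add (hℓ.comp hrc.continuousOn hrI2)
    exact continuous_ofReal.comp_continuousOn (continuousOn_lo.comp hrc.continuousOn hrI1)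
  have hβc : ContinuousOn (fun s => μ (r s) + (lo (r s) : ℂ)) (Icc 0 1) := by
    apply ContinuousOn.add (hμ.comp hrc.continuousOn hrI2)
    exact continuous_ofReal.comp_continuousOn (continuousOn_lo.comp hrc.continuousOn hrI1)
  obtain ⟨θ, hθc, hθ⟩ := Page.exists_angle hαc hβc (by
    intro s hs t ht
    exact hne _ (hrI1 s hs) _ (hrI1 t ht))
  -- signs
  have hcos : ∀ s ∈ Icc (0 : ℝ) 1, ∀ t ∈ Icc (0 : ℝ) 1,
      ((lo (r s) + (B1 + B2) < lo (r t)) → Real.cos (θ (s, t)) < 0) ∧
      ((lo (r t) + (B1 + B2) < lo (r s)) → 0 < Real.cos (θ (s, t))) := by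
    intro s hs t ht
    obtain ⟨ρ, hρ, e1, -⟩ := hθ s hs t ht
    simp only [sub_re, add_re, ofReal_re] at e1
    have h3 := abs_le.1 (hre _ (hrI2 s hs) _ (hrI2 t ht))
    constructor
    · intro h
      exact (sin_of hρ e1).2.1 (by linarith only [h3, h])
    · intro h
      exact (sin_of hρ e1).1.1 (by linarith only [h3, h])
  have hsin : ∀ s ∈ Icc (0 : ℝ) 1, ∀ t ∈ Icc (0 : ℝ) 1,
      ((ℓ (r s)).im < (μ (r t)).im → Real.sin (θ (s, t)) < 0) ∧
      ((μ (r t)).im < (ℓ (r s)).im → 0 < Real.sin (θ (s, t))) := by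
    intro s hs t ht
    obtain ⟨ρ, hρ, -, e1⟩ := hθ s hs t ht
    simp only [sub_im, add_im, ofReal_im, add_zero] at e1
    constructor
    · intro h
      exact (sin_of hρ e1).2.1 (by linarith only [h])
    · intro h
      exact (sin_of hρ e1).1.1 (by linarith only [h])
  have hloδ : lo (1 - δ) = - lo δ := lo_one_sub δ
  have hloε : lo (1 - ε) = - lo ε := lo_one_sub ε
  -- the sides
  have sA : ∀ t ∈ Icc (0 : ℝ) 1, Real.sin (θ (0, t)) < 0 ∨ Real.cos (θ (0, t)) < 0 := by
    intro t ht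
    have hrt := hrI t ht
    rcases le_total (r t) δ with h | h
    · left
      apply (hsin 0 m0 t ht).1
      rw [hr0]
      exact hd0 _ ⟨hε0.le, hεδ.le⟩ _ ⟨by linarith only [hε0, hrt.1], h⟩
    · right
      apply (hcos 0 m0 t ht).1
      rw [hr0]
      have := lo_mono hδ0 h (hrI1 t ht).2
      linarith only [hεl, this]
  have sD : ∀ s ∈ Icc (0 : ℝ) 1, Real.sin (θ (s, 0)) < 0 ∨ 0 < Real.cos (θ (s, 0)) := by
    intro t ht
    have hrt := hrI t ht
    rcases le_total (r t) δ with h | h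
    · left
      apply (hsin t ht 0 m0).1
      rw [hr0]
      exact hd0 _ ⟨by linarith only [hε0, hrt.1], h⟩ _ ⟨hε0.le, hεδ.le⟩
    · right
      apply (hcos t ht 0 m0).2
      rw [hr0]
      have := lo_mono hδ0 h (hrI1 t ht).2
      linarith only [hεl, this]
  have sB : ∀ s ∈ Icc (0 : ℝ) 1, 0 < Real.sin (θ (s, 1)) ∨ Real.cos (θ (s, 1)) < 0 := by
    intro t ht
    have hrt := hrI t ht
    rcases le_total (1 - δ) (r t) with h | h
    · left
      apply (hsin t ht 1 m1).2
      rw [hr1]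
      exact hd1 _ ⟨h, by linarith only [hε0, hrt.2]⟩ _ ⟨by linarith only [hεδ], by linarith only [hε0]⟩
    · right
      apply (hcos t ht 1 m1).1
      rw [hr1]
      have := lo_mono (hrI1 t ht).1 h (by linarith only [hε0, hεδ])
      linarith only [hεl, hloδ, hloε, this]
  have sC : ∀ t ∈ Icc (0 : ℝ) 1, 0 < Real.sin (θ (1, t)) ∨ 0 < Real.cos (θ (1, t)) := by
    intro t ht
    have hrt := hrI t ht
    rcases le_total (1 - δ) (r t) with h | h
    · left
      apply (hsin 1 m1 t ht).2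
      rw [hr1]
      exact hd1 _ ⟨by linarith only [hεδ], by linarith only [hε0]⟩ _ ⟨h, by linarith only [hε0, hrt.2]⟩
    · right
      apply (hcos 1 m1 t ht).2
      rw [hr1]
      have := lo_mono (hrI1 t ht).1 h (by linarith only [hε0, hεδ])
      linarith only [hεl, hloδ, hloε, this]
  -- the corners
  have lo_lt : lo ε + (B1 + B2) < lo (1 - ε) := by
    have h2 : lo δ ≤ 0 := by
      have := lo_mono hδ0 (show δ ≤ 1 - δ by linarith only [hδ1]) (by linarith only [hε0, hεδ])
      linarith only [hloδ, this]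
    linarith only [hεl, hB0, hloε, h2]
  have c00 : Real.sin (θ (0, 0)) < 0 := by
    apply (hsin 0 m0 0 m0).1
    rw [hr0]
    exact hd0 _ ⟨hε0.le, hεδ.le⟩ _ ⟨hε0.le, hεδ.le⟩
  have c11 : 0 < Real.sin (θ (1, 1)) := by
    apply (hsin 1 m1 1 m1).2
    rw [hr1]
    exact hd1 _ ⟨by linarith only [hεδ], by linarith only [hε0]⟩ _ ⟨by linarith only [hεδ], by linarith only [hε0]⟩
  have c01 : Real.cos (θ (0, 1)) < 0 := by
    apply (hcos 0 m0 1 m1).1
    rw [hr0, hr1]
    exact lo_lt
  have c10 : 0 < Real.cos (θ (1, 0)) := by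
    apply (hcos 1 m1 0 m0).2
    rw [hr0, hr1]
    exact lo_lt
  -- normalise
  have hpi := Real.pi_pos
  obtain ⟨c, hcn, hc1, hc2⟩ : ∃ c : ℝ, (∃ k : ℤ, c = k * (2 * Real.pi)) ∧
      Real.pi < θ (0, 0) - c ∧ θ (0, 0) - c < 2 * Real.pi := by
    set k := ⌊θ (0, 0) / (2 * Real.pi)⌋ with hk
    have k1 : (k : ℝ) * (2 * Real.pi) ≤ θ (0, 0) := by
      rw [← le_div_iff₀ (by positivity)]; exact Int.floor_le _
    have k2 : θ (0, 0) < (k + 1 : ℝ) * (2 * Real.pi) := by
      rw [← div_lt_iff₀ (by positivity)]; exact Int.lt_floor_add_one _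
    refine ⟨k * (2 * Real.pi), ⟨k, rfl⟩, ?_, by linarith only [k2]⟩
    by_contra hcon
    push Not at hcon
    have : 0 ≤ Real.sin (θ (0, 0) - k * (2 * Real.pi)) :=
      Real.sin_nonneg_of_nonneg_of_le_pi (by linarith only [k1]) hcon
    rw [Real.sin_sub_int_mul_two_pi] at this
    linarith only [c00, this]
  obtain ⟨k, hk⟩ := hcn
  have hsc : ∀ x, Real.sin (x - c) = Real.sin x := by
    intro x; rw [hk, Real.sin_sub_int_mul_two_pi]
  have hcc : ∀ x, Real.cos (x - c) = Real.cos x := by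
    intro x; rw [hk, Real.cos_sub_int_mul_two_pi]
  have hu10 : uIcc (1 : ℝ) 0 = Icc 0 1 := by rw [uIcc_of_ge zero_le_one]
  have hu01 : uIcc (0 : ℝ) 1 = Icc 0 1 := by rw [uIcc_of_le zero_le_one]
  have s32 : Real.sin (3 * Real.pi / 2) = -1 := by
    rw [show 3 * Real.pi / 2 = Real.pi / 2 + Real.pi by ring, Real.sin_add_pi, Real.sin_pi_div_two]
  have c32 : Real.cos (3 * Real.pi / 2) = 0 := by
    rw [show 3 * Real.pi / 2 = Real.pi / 2 + Real.pi by ring, Real.cos_add_pi,
      Real.cos_pi_div_two, neg_zero]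
  have sm : Real.sin (-(Real.pi / 2)) = -1 := by rw [Real.sin_neg, Real.sin_pi_div_two]
  have cm : Real.cos (-(Real.pi / 2)) = 0 := by rw [Real.cos_neg, Real.cos_pi_div_two]
  -- side A
  have A := stay (θ := fun t => θ (0, t) - c) (a := 0) (b := 1) (p := Real.pi / 2)
    (q := 2 * Real.pi) (by (clear * - hθc; fun_prop))
    (by
      intro s hs h
      rw [hu01] at hs
      have k1 := hsc (θ (0, s)); have k2 := hcc (θ (0, s))
      beta_reduce at h
      rw [h] at k1 k2
      rw [Real.sin_pi_div_two] at k1; rw [Real.cos_pi_div_two] at k2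
      rcases sA s hs with h3 | h3 <;> linarith only [k1, h3, k2])
    (by
      intro s hs h
      rw [hu01] at hs
      have k1 := hsc (θ (0, s)); have k2 := hcc (θ (0, s))
      beta_reduce at h
      rw [h] at k1 k2
      rw [Real.sin_two_pi] at k1; rw [Real.cos_two_pi] at k2
      rcases sA s hs with h3 | h3 <;> linarith only [k1, h3, k2])
    (by beta_reduce; linarith only [hc1, hc2]) (by beta_reduce; linarith only [hc2])
  beta_reduce at A
  have A2 : θ (0, 1) - c < 3 * Real.pi / 2 := by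
    by_contra h
    push Not at h
    have : 0 ≤ Real.cos (θ (0, 1) - c) := by
      rw [← Real.cos_sub_two_pi]
      exact Real.cos_nonneg_of_neg_pi_div_two_le_of_le (by linarith only [h]) (by linarith only [A])
    rw [hcc] at this
    linarith only [c01, this]
  -- side B
  have B := stay (θ := fun s => θ (s, 1) - c) (a := 0) (b := 1) (p := 0)
    (q := 3 * Real.pi / 2) (by fun_prop)
    (by
      intro s hs h
      rw [hu01] at hs
      have k1 := hsc (θ (s, 1)); have k2 := hcc (θ (s, 1))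
      beta_reduce at h
      rw [h] at k1 k2
      rw [Real.sin_zero] at k1; rw [Real.cos_zero] at k2
      rcases sB s hs with h3 | h3 <;> linarith only [k1, h3, k2])
    (by
      intro s hs h
      rw [hu01] at hs
      have k1 := hsc (θ (s, 1)); have k2 := hcc (θ (s, 1))
      beta_reduce at h
      rw [h] at k1 k2
      rw [s32] at k1; rw [c32] at k2
      rcases sB s hs with h3 | h3 <;> linarith only [k1, h3, k2])
    (by beta_reduce; linarith only [A]) (by beta_reduce; exact A2)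
  beta_reduce at B
  have B2' : θ (1, 1) - c < Real.pi := by
    by_contra h
    push Not at h
    have : Real.sin (θ (1, 1) - c) ≤ 0 := by
      rw [← Real.sin_sub_two_pi]
      exact Real.sin_nonpos_of_nonpos_of_neg_pi_le (by linarith only [B]) (by linarith only [h])
    rw [hsc] at this
    linarith only [c11, this]
  -- side C
  have C := stay (θ := fun t => θ (1, t) - c) (a := 1) (b := 0) (p := -(Real.pi / 2))
    (q := Real.pi) (by (clear * - hθc; fun_prop))
    (by
      intro s hs h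
      rw [hu10] at hs
      have k1 := hsc (θ (1, s)); have k2 := hcc (θ (1, s))
      beta_reduce at h
      rw [h] at k1 k2
      rw [sm] at k1; rw [cm] at k2
      rcases sC s hs with h3 | h3 <;> linarith only [k1, h3, k2])
    (by
      intro s hs h
      rw [hu10] at hs
      have k1 := hsc (θ (1, s)); have k2 := hcc (θ (1, s))
      beta_reduce at h
      rw [h] at k1 k2
      rw [Real.sin_pi] at k1; rw [Real.cos_pi] at k2
      rcases sC s hs with h3 | h3 <;> linarith only [k1, h3, k2])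
    (by beta_reduce; linarith only [B]) (by beta_reduce; exact B2')
  beta_reduce at C
  have C2 : θ (1, 0) - c < Real.pi / 2 := by
    by_contra h
    push Not at h
    have : Real.cos (θ (1, 0) - c) ≤ 0 :=
      Real.cos_nonpos_of_pi_div_two_le_of_le h (by linarith only [C])
    rw [hcc] at this
    linarith only [c10, this]
  -- side D
  have D := stay (θ := fun s => θ (s, 0) - c) (a := 1) (b := 0) (p := -Real.pi)
    (q := Real.pi / 2) (by (clear * - hθc; fun_prop))
    (by
      intro s hs h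
      rw [hu10] at hs
      have k1 := hsc (θ (s, 0)); have k2 := hcc (θ (s, 0))
      beta_reduce at h
      rw [h] at k1 k2
      rw [Real.sin_neg, Real.sin_pi] at k1; rw [Real.cos_neg, Real.cos_pi] at k2
      rcases sD s hs with h3 | h3 <;> linarith only [k1, h3, k2])
    (by
      intro s hs h
      rw [hu10] at hs
      have k1 := hsc (θ (s, 0)); have k2 := hcc (θ (s, 0))
      beta_reduce at h
      rw [h] at k1 k2
      rw [Real.sin_pi_div_two] at k1; rw [Real.cos_pi_div_two] at k2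
      rcases sD s hs with h3 | h3 <;> linarith only [k1, h3, k2])
    (by beta_reduce; linarith only [C]) (by beta_reduce; exact C2)
  beta_reduce at D
  linarith only [hc1, D]

end Vale.Agent.P040.Gen
end

section

/-!
# Lifts of paths from one point to another, and the number of their meeting points
-/

namespace Vale.Agent.P040.Gen

open Set Complex

/-- A path without zeros has a continuous logarithm. -/
theorem exists_log {F : ℝ → ℂ} (hF : ContinuousOn F (Icc 0 1)) (h0 : ∀ s ∈ Icc (0 : ℝ) 1, F s ≠ 0) :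
    ∃ ℓ : ℝ → ℂ, ContinuousOn ℓ (Icc 0 1) ∧ ∀ s ∈ Icc (0 : ℝ) 1, exp (ℓ s) = F s := by
  let c : ℝ → ℝ := fun t => (projIcc (0 : ℝ) 1 zero_le_one t : ℝ)
  have hc : Continuous c := continuous_subtype_val.comp continuous_projIcc
  have hcm : ∀ t, c t ∈ Icc (0 : ℝ) 1 := fun t => (projIcc (0 : ℝ) 1 zero_le_one t).2
  have hceq : ∀ t ∈ Icc (0 : ℝ) 1, c t = t := by
    intro t ht
    simp only [c]
    rw [projIcc_of_mem zero_le_one ht]
  have hF' : Continuous (fun t => F (c t)) := hF.comp_continuous hc hcm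
  have hsc : IsSimplyConnected (univ : Set ℝ) := by
    have := (convex_univ : Convex ℝ (univ : Set ℝ)).contractibleSpace univ_nonempty
    unfold IsSimplyConnected
    infer_instance
  obtain ⟨L, hL, hLe⟩ := exists_continuousOn_eqOn_exp_comp hsc isOpen_univ hF'.continuousOn
    (by rintro ⟨p, -, hp⟩; exact h0 _ (hcm p) hp)
  refine ⟨L, hL.mono (subset_univ _), ?_⟩
  intro s hs
  have := hLe (mem_univ s)
  simp only [Function.comp_apply, hceq s hs] at this
  exact this

/-- A path from `x` to `y` which is straight near its ends. -/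
structure Good (x y u v : ℂ) (δ : ℝ) (f : ℝ → ℂ) : Prop where
  cont : ContinuousOn f (Icc 0 1)
  pos : 0 < δ
  lt : δ < 1 / 2
  near0 : ∀ s ∈ Icc 0 δ, f s = x + s * u
  near1 : ∀ s ∈ Icc (1 - δ) 1, f s = y + (1 - s) * v
  ne0 : ∀ s ∈ Ioc (0 : ℝ) 1, f s ≠ x
  ne1 : ∀ s ∈ Ico (0 : ℝ) 1, f s ≠ y
  hu : u ≠ 0
  hv : v ≠ 0
  hxy : x ≠ y

/-- Division by the parameter near the initial point. -/
theorem continuousOn_quot {f : ℝ → ℂ} {u : ℂ} {δ : ℝ} (hf : ContinuousOn f (Icc 0 1))
    (hδ : 0 < δ) (h0 : ∀ s ∈ Icc 0 δ, f s = s * u) :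
    ContinuousOn (fun s : ℝ => if s ≤ δ then u else f s / s) (Icc 0 1) := by
  intro s hs
  rcases lt_or_ge s δ with h | h
  · have : ContinuousWithinAt (fun _ : ℝ => u) (Icc 0 1) s := continuousWithinAt_const
    apply this.congr_of_eventuallyEq _ (by simp [h.le])
    filter_upwards [mem_nhdsWithin_of_mem_nhds (Iio_mem_nhds h)] with t ht
    rw [if_pos (le_of_lt ht)]
  · have hs0 : 0 < s := hδ.trans_le h
    have : ContinuousWithinAt (fun t : ℝ => f t / t) (Icc 0 1) s := by
      apply ContinuousWithinAt.div (hf s hs) continuous_ofReal.continuousWithinAt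
      exact_mod_cast hs0.ne'
    apply this.congr_of_eventuallyEq
    · filter_upwards [self_mem_nhdsWithin, mem_nhdsWithin_of_mem_nhds (Ioi_mem_nhds hs0)]
        with t ht ht'
      have ht' : 0 < t := ht'
      by_cases h3 : t ≤ δ
      · rw [if_pos h3, h0 t ⟨ht.1, h3⟩]
        have : (t : ℂ) ≠ 0 := by exact_mod_cast ht'.ne'
        (clear * - this; field_simp)
      · rw [if_neg h3]
    · by_cases h3 : s ≤ δ
      · simp only [h3, if_true]
        rw [h0 s ⟨hs.1, h3⟩]
        have : (s : ℂ) ≠ 0 := by exact_mod_cast hs0.ne'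
        (clear * - this; field_simp)
      · simp only [h3, if_false]

/-- The lift of a path from `x` to `y`. -/
theorem Good.exists_lift {x y u v : ℂ} {δ : ℝ} {f : ℝ → ℂ} (h : Good x y u v δ f) :
    ∃ ℓ : ℝ → ℂ, ContinuousOn ℓ (Icc 0 1) ∧
      (∀ s ∈ Ioo (0 : ℝ) 1, exp (ℓ s + (lo s : ℂ)) = (f s - x) / (f s - y)) ∧
      exp (ℓ 0) = u / (x - y) ∧ exp (ℓ 1) = (y - x) / v := by
  have hδ := h.pos
  have hδ' := h.lt
  -- the quotient at the beginning
  have p1 : ContinuousOn (fun s : ℝ => if s ≤ δ then u else (f s - x) / s) (Icc 0 1) := by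
    apply continuousOn_quot (f := fun s => f s - x) (h.cont.sub continuousOn_const) hδ
    intro s hs
    rw [h.near0 s hs]; ring
  have hm : MapsTo (fun t : ℝ => 1 - t) (Icc 0 1) (Icc 0 1) := by
    intro t ht
    exact ⟨by linarith only [ht.2], by linarith only [ht.1]⟩
  have q0 : ContinuousOn (fun s : ℝ => if s ≤ δ then v else (f (1 - s) - y) / s) (Icc 0 1) := by
    apply continuousOn_quot (f := fun s => f (1 - s) - y)
      ((h.cont.comp (by fun_prop) hm).sub continuousOn_const) hδ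
    intro s hs
    rw [h.near1 (1 - s) ⟨by linarith only [hs.2], by linarith [hs.1]⟩]
    push_cast; ring
  have q1 : ContinuousOn (fun s : ℝ => if 1 - s ≤ δ then v else (f s - y) / (1 - s : ℝ))
      (Icc 0 1) := by
    have := q0.comp (f := fun t : ℝ => 1 - t) (by fun_prop) hm
    refine this.congr ?_
    intro s hs
    simp only [tsub_le_iff_right, ofReal_sub, ofReal_one, Function.comp_apply, sub_sub_cancel]
  have p2 : ∀ s ∈ Icc (0 : ℝ) 1, (if s ≤ δ then u else (f s - x) / s) ≠ 0 := by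
    intro s hs
    split_ifs with h1
    · exact h.hu
    · push Not at h1
      have : 0 < s := hδ.trans h1
      apply div_ne_zero (sub_ne_zero.2 (h.ne0 s ⟨this, hs.2⟩))
      exact_mod_cast this.ne'
  have q2 : ∀ s ∈ Icc (0 : ℝ) 1, (if 1 - s ≤ δ then v else (f s - y) / (1 - s : ℝ)) ≠ 0 := by
    intro s hs
    split_ifs with h1
    · exact h.hv
    · push Not at h1
      have : 0 < 1 - s := hδ.trans h1
      apply div_ne_zero (sub_ne_zero.2 (h.ne1 s ⟨hs.1, by linarith only [hδ, h1]⟩))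
      exact_mod_cast this.ne'
  have p3 : ∀ s ∈ Ioc (0 : ℝ) 1, (if s ≤ δ then u else (f s - x) / s) = (f s - x) / s := by
    intro s hs
    split_ifs with h1
    · rw [h.near0 s ⟨hs.1.le, h1⟩]
      have : (s : ℂ) ≠ 0 := by exact_mod_cast hs.1.ne'
      field_simp
      ring
    · rfl
  have q3 : ∀ s ∈ Ico (0 : ℝ) 1,
      (if 1 - s ≤ δ then v else (f s - y) / (1 - s : ℝ)) = (f s - y) / (1 - s : ℝ) := by
    intro s hs
    split_ifs with h1
    · rw [h.near1 s ⟨by linarith only [h1], hs.2.le⟩]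
      have : ((1 - s : ℝ) : ℂ) ≠ 0 := by
        have : (0 : ℝ) < 1 - s := by linarith only [hs.2]
        exact_mod_cast this.ne'
      rw [eq_div_iff this]
      push_cast; ring
    · rfl
  obtain ⟨ℓ, h1, h2⟩ := exists_log (F := fun s : ℝ => (if s ≤ δ then u else (f s - x) / s) /
    (if 1 - s ≤ δ then v else (f s - y) / (1 - s : ℝ))) (p1.div q1 q2)
    (fun s hs => div_ne_zero (p2 s hs) (q2 s hs))
  refine ⟨ℓ, h1, ?_, ?_, ?_⟩
  · intro s hs
    have k0 : ((s : ℝ) : ℂ) ≠ 0 := by exact_mod_cast hs.1.ne'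
    have k1 : ((1 - s : ℝ) : ℂ) ≠ 0 := by
      have : (0 : ℝ) < 1 - s := by linarith only [hs.2]
      exact_mod_cast this.ne'
    have k2 : f s - y ≠ 0 := sub_ne_zero.2 (h.ne1 s ⟨hs.1.le, hs.2⟩)
    rw [exp_add, h2 s ⟨hs.1.le, hs.2.le⟩, p3 s ⟨hs.1, hs.2.le⟩, q3 s ⟨hs.1.le, hs.2⟩,
      ← ofReal_exp, exp_lo hs.1 hs.2, ofReal_div]
    (clear * - k0 k1 k2; field_simp)
  · rw [h2 0 (by simp), if_pos hδ.le, q3 0 (by simp only [mem_Ico, Std.le_refl, zero_lt_one, and_self]), h.near0 0 ⟨le_rfl, hδ.le⟩]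
    simp
  · rw [h2 1 (by simp), p3 1 (by simp), if_pos (by linarith),
      h.near1 1 ⟨by linarith, le_rfl⟩]
    simp

/-- The number of meeting points is at least the change of the floor of the difference of the
angles. -/
theorem floor_bound {x y u v u' v' : ℂ} {δ δ' : ℝ} {f g : ℝ → ℂ} (hf : Good x y u v δ f)
    (hg : Good x y u' v' δ' g) {ℓ μ : ℝ → ℂ} (hℓ : ContinuousOn ℓ (Icc 0 1))
    (hμ : ContinuousOn μ (Icc 0 1))
    (hℓf : ∀ s ∈ Ioo (0 : ℝ) 1, exp (ℓ s + (lo s : ℂ)) = (f s - x) / (f s - y))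
    (hμg : ∀ s ∈ Ioo (0 : ℝ) 1, exp (μ s + (lo s : ℂ)) = (g s - x) / (g s - y))
    {X X' Y Y' : ℝ} (hX : (ℓ 0).im = 2 * Real.pi * X) (hX' : (μ 0).im = 2 * Real.pi * X')
    (hY : (ℓ 1).im = 2 * Real.pi * Y) (hY' : (μ 1).im = 2 * Real.pi * Y')
    (hXX : ∀ k : ℤ, X' - X ≠ k) (hYY : ∀ k : ℤ, Y' - Y ≠ k) {C : Set ℂ} (hC : C.Finite)
    (hmeet : ∀ s ∈ Ioo (0 : ℝ) 1, ∀ t ∈ Ioo (0 : ℝ) 1, f s = g t → f s ∈ C)
    (hinj : ∀ s ∈ Ioo (0 : ℝ) 1, ∀ t ∈ Ioo (0 : ℝ) 1, ∀ s' ∈ Ioo (0 : ℝ) 1, ∀ t' ∈ Ioo (0 : ℝ) 1,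
      f s = g t → f s' = g t' → f s = f s' → s = s' ∧ t = t') :
    |⌊X' - X⌋ - ⌊Y' - Y⌋| ≤ (C.ncard : ℤ) := by
  classical
  have hpi := Real.pi_pos
  have hxy : x ≠ y := hf.hxy
  -- equality of the lifts gives a meeting point
  have key : ∀ k : ℤ, (X' - X < k ∧ k < Y' - Y) ∨ (Y' - Y < k ∧ k < X' - X) →
      ∃ s ∈ Ioo (0 : ℝ) 1, ∃ t ∈ Ioo (0 : ℝ) 1,
        ℓ s + (2 * Real.pi * k : ℝ) * I + (lo s : ℂ) = μ t + (lo t : ℂ) := by
    intro k hk
    have hc : ContinuousOn (fun s => ℓ s + (2 * Real.pi * k : ℝ) * I) (Icc 0 1) :=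
      hℓ.add continuousOn_const
    have him : ∀ s, (ℓ s + (2 * Real.pi * k : ℝ) * I).im = (ℓ s).im + 2 * Real.pi * k := by
      intro s
      simp
    rcases hk with ⟨h1, h2⟩ | ⟨h1, h2⟩
    · -- the lift of `f` is above at the beginning
      obtain ⟨s, hs, t, ht, hst⟩ := strip_cross hμ hc
        (by
          rw [him, hX, hX']
          have : 2 * Real.pi * X' < 2 * Real.pi * (X + k) :=
            mul_lt_mul_of_pos_left (by linarith only [h1]) (by positivity)
          linarith)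
        (by
          rw [him, hY, hY']
          have : 2 * Real.pi * (Y + k) < 2 * Real.pi * Y' :=
            mul_lt_mul_of_pos_left (by linarith) (by positivity)
          linarith only [this])
      exact ⟨t, ht, s, hs, hst.symm⟩
    · obtain ⟨s, hs, t, ht, hst⟩ := strip_cross hc hμ
        (by
          rw [him, hX, hX']
          have : 2 * Real.pi * (X + k) < 2 * Real.pi * X' :=
            mul_lt_mul_of_pos_left (by linarith only [h2]) (by positivity)
          linarith only [this])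
        (by
          rw [him, hY, hY']
          have : 2 * Real.pi * Y' < 2 * Real.pi * (Y + k) :=
            mul_lt_mul_of_pos_left (by linarith only [h1]) (by positivity)
          linarith only [this])
      exact ⟨s, hs, t, ht, hst⟩
  have hexp : ∀ k : ℤ, exp ((2 * Real.pi * k : ℝ) * I) = 1 := by
    intro k
    rw [exp_eq_one_iff]
    exact ⟨k, by push_cast; ring⟩
  have meet : ∀ k : ℤ, ∀ s ∈ Ioo (0 : ℝ) 1, ∀ t ∈ Ioo (0 : ℝ) 1,
      ℓ s + (2 * Real.pi * k : ℝ) * I + (lo s : ℂ) = μ t + (lo t : ℂ) → f s = g t := by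
    intro k s hs t ht hst
    have h1 := congrArg exp hst
    rw [hμg t ht, show ℓ s + (2 * Real.pi * k : ℝ) * I + (lo s : ℂ) =
      (ℓ s + (lo s : ℂ)) + (2 * Real.pi * k : ℝ) * I by ring, exp_add, hexp, mul_one,
      hℓf s hs] at h1
    have n1 : f s - y ≠ 0 := sub_ne_zero.2 (hf.ne1 s ⟨hs.1.le, hs.2⟩)
    have n2 : g t - y ≠ 0 := sub_ne_zero.2 (hg.ne1 t ⟨ht.1.le, ht.2⟩)
    rw [div_eq_div_iff n1 n2] at h1
    have h3 : (f s - g t) * (x - y) = 0 := by linear_combination h1
    rcases mul_eq_zero.1 h3 with h4 | h4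
    · exact sub_eq_zero.1 h4
    · exact absurd (sub_eq_zero.1 h4) hxy
  -- the injection
  set S : Finset ℤ := Finset.Ioc (min ⌊X' - X⌋ ⌊Y' - Y⌋) (max ⌊X' - X⌋ ⌊Y' - Y⌋) with hS
  have hSk : ∀ k ∈ S, (X' - X < k ∧ k < Y' - Y) ∨ (Y' - Y < k ∧ k < X' - X) := by
    intro k hk
    rw [hS, Finset.mem_Ioc] at hk
    rcases le_total ⌊X' - X⌋ ⌊Y' - Y⌋ with h | h
    · rw [min_eq_left h, max_eq_right h] at hk
      left
      refine ⟨Int.floor_lt.1 hk.1, lt_of_le_of_ne (Int.le_floor.1 hk.2) ?_⟩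
      exact fun h3 => hYY k h3.symm
    · rw [min_eq_right h, max_eq_left h] at hk
      right
      refine ⟨Int.floor_lt.1 hk.1, lt_of_le_of_ne (Int.le_floor.1 hk.2) ?_⟩
      exact fun h3 => hXX k h3.symm
  choose! s hs t ht hst using fun k => fun hk => key k (hSk k hk)
  have hcard : S.card ≤ C.ncard := by
    rw [Set.ncard_eq_toFinset_card C hC]
    apply Finset.card_le_card_of_injOn (fun k => f (s k))
    · intro k hk
      have := hmeet (s k) (hs k hk) (t k) (ht k hk) (meet k _ (hs k hk) _ (ht k hk) (hst k hk))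
      simpa using this
    · intro k hk k' hk' h
      have hk : k ∈ S := hk
      have hk' : k' ∈ S := hk'
      have h := hinj (s k) (hs k hk) (t k) (ht k hk) (s k') (hs k' hk') (t k') (ht k' hk')
        (meet k _ (hs k hk) _ (ht k hk) (hst k hk))
        (meet k' _ (hs k' hk') _ (ht k' hk') (hst k' hk')) h
      have e1 := hst k hk
      have e2 := hst k' hk'
      rw [← h.1, ← h.2, ← e1] at e2
      have e3 : ((2 * Real.pi * k' : ℝ) : ℂ) * I = ((2 * Real.pi * k : ℝ) : ℂ) * I := by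
        linear_combination e2
      have e4 := congrArg Complex.im e3
      simp only [mul_im, ofReal_re, ofReal_im, I_re, I_im, mul_one, mul_zero, add_zero] at e4
      have e5 : (k' : ℝ) = k := by
        have : (2 * Real.pi) ≠ 0 := by positivity
        exact mul_left_cancel₀ this e4
      exact_mod_cast e5.symm
  rw [hS, Int.card_Ioc] at hcard
  have h5 : |⌊X' - X⌋ - ⌊Y' - Y⌋| = max ⌊X' - X⌋ ⌊Y' - Y⌋ - min ⌊X' - X⌋ ⌊Y' - Y⌋ :=
    (max_sub_min_eq_abs' _ _).symm
  rw [h5]
  omega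

end Vale.Agent.P040.Gen
end

section

/-!
# Joining two half paths
-/

namespace Vale.Agent.P040.Gen

open Set Complex

/-- The last time a path is in a disc. -/
theorem last_exit {γ : ℝ → ℂ} {x : ℂ} {r : ℝ} (hr : 0 < r) (hγ : ContinuousOn γ (Icc 0 1))
    (h0 : γ 0 = x) (h1 : r < dist (γ 1) x) :
    ∃ t0 ∈ Ioo (0 : ℝ) 1, dist (γ t0) x = r ∧ ∀ t ∈ Ioc t0 1, r < dist (γ t) x := by
  have hd : ContinuousOn (fun t => dist (γ t) x) (Icc 0 1) :=
    (continuous_id.dist continuous_const).comp_continuousOn hγ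
  have hcl : IsClosed (Icc (0 : ℝ) 1 ∩ (fun t => dist (γ t) x) ⁻¹' Iic r) :=
    hd.preimage_isClosed_of_isClosed isClosed_Icc isClosed_Iic
  have hcomp : IsCompact (Icc (0 : ℝ) 1 ∩ (fun t => dist (γ t) x) ⁻¹' Iic r) :=
    isCompact_Icc.of_isClosed_subset hcl inter_subset_left
  obtain ⟨t0, ⟨ht0, ht0'⟩, hmax⟩ := hcomp.exists_isGreatest
    ⟨0, ⟨by simp only [mem_Icc, Std.le_refl, zero_le_one, and_self], by simp [h0, hr.le]⟩⟩
  have ht0r : dist (γ t0) x ≤ r := ht0'
  have hgt : ∀ t ∈ Ioc t0 1, r < dist (γ t) x := by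
    intro t ht
    by_contra h
    push Not at h
    have := hmax ⟨⟨ht0.1.trans ht.1.le, ht.2⟩, h⟩
    linarith only [this, ht.1]
  have ht1 : t0 < 1 := by
    rcases lt_or_eq_of_le ht0.2 with h | h
    · exact h
    · rw [h] at ht0r; linarith only [h1, ht0r]
  have heq : dist (γ t0) x = r := by
    by_contra hne
    have hlt : dist (γ t0) x < r := lt_of_le_of_ne ht0r hne
    have hcont := hd.mono (Icc_subset_Icc ht0.1 le_rfl)
    obtain ⟨t, ht, ht'⟩ := intermediate_value_Icc ht1.le hcont ⟨hlt.le, h1.le⟩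
    have ht' : dist (γ t) x = r := ht'
    rcases lt_or_eq_of_le ht.1 with h | h
    · have := hgt t ⟨h, ht.2⟩
      (clear hr h0 h1 hcomp ht0' ht0r ht1 hne hlt hcont ht'; linarith)
    · rw [← h] at ht'
      exact hne ht'
  refine ⟨t0, ⟨?_, ht1⟩, heq, hgt⟩
  rcases lt_or_eq_of_le ht0.1 with h | h
  · exact h
  · rw [← h, h0, dist_self] at heq
    exact absurd heq hr.ne

/-- A path from `x` to `z` which begins with a radius of the disc of radius `r` at `x` and then
stays outside this disc and in the set `A`. -/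
structure Half (x : ℂ) (r : ℝ) (e z : ℂ) (A : Set ℂ) (h : ℝ → ℂ) : Prop where
  cont : ContinuousOn h (Icc 0 1)
  rad : ∀ s ∈ Icc (0 : ℝ) (1 / 2), h s = x + (2 * s : ℝ) * (e - x)
  mem : ∀ s ∈ Icc (1 / 2 : ℝ) 1, h s ∈ A
  far : ∀ s ∈ Icc (1 / 2 : ℝ) 1, r ≤ dist (h s) x
  inj : InjOn h (Icc (1 / 2) 1)
  fin : h 1 = z
  he : dist e x = r
  heA : e ∈ A
  pos : 0 < r

theorem exists_half {γ : ℝ → ℂ} {x z : ℂ} {r : ℝ} {A : Set ℂ} (hr : 0 < r)
    (hγ : ContinuousOn γ (Icc 0 1)) (hinj : InjOn γ (Icc 0 1)) (h0 : γ 0 = x) (h1 : γ 1 = z)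
    (hz : r < dist z x) (hA : ∀ s ∈ Icc (0 : ℝ) 1, γ s ∈ A) : ∃ e h, Half x r e z A h := by
  obtain ⟨t0, ht0, hd, hgt⟩ := last_exit hr hγ h0 (by rw [h1]; exact hz)
  have hmem : ∀ s ∈ Icc (1 / 2 : ℝ) 1, t0 + (2 * s - 1) * (1 - t0) ∈ Icc t0 1 := by
    intro s hs
    have h3 : 0 ≤ (2 * s - 1) * (1 - t0) := mul_nonneg (by linarith [hs.1]) (by linarith only [ht0.2])
    have h4 : (2 * s - 1) * (1 - t0) ≤ 1 * (1 - t0) :=
      mul_le_mul_of_nonneg_right (by linarith only [hs.2]) (by linarith [ht0.2])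
    exact ⟨by linarith, by linarith⟩
  have hmem1 : ∀ s ∈ Icc (1 / 2 : ℝ) 1, t0 + (2 * s - 1) * (1 - t0) ∈ Icc (0 : ℝ) 1 := by
    intro s hs
    have := hmem s hs
    exact ⟨ht0.1.le.trans this.1, this.2⟩
  let h : ℝ → ℂ := fun s => if s ≤ 1 / 2 then x + (2 * s : ℝ) * (γ t0 - x) else
    γ (t0 + (2 * s - 1) * (1 - t0))
  have hl : ∀ s ∈ Icc (0 : ℝ) (1 / 2), h s = x + (2 * s : ℝ) * (γ t0 - x) := by
    intro s hs
    simp only [h]
    rw [if_pos hs.2]
  have hr' : ∀ s ∈ Icc (1 / 2 : ℝ) 1, h s = γ (t0 + (2 * s - 1) * (1 - t0)) := by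
    intro s hs
    rcases lt_or_eq_of_le hs.1 with h3 | h3
    · simp only [h]
      rw [if_neg (by linarith only [h3])]
    · rw [← h3]
      simp only [h]
      rw [if_pos le_rfl]
      norm_num
  have hc1 : ContinuousOn h (Icc 0 (1 / 2)) := by
    refine ContinuousOn.congr ?_ hl
    (clear * -; fun_prop)
  have hc2 : ContinuousOn h (Icc (1 / 2) 1) := by
    refine ContinuousOn.congr ?_ hr'
    exact hγ.comp (by fun_prop) hmem1
  refine ⟨γ t0, h, ⟨?_, hl, ?_, ?_, ?_, ?_, hd, hA t0 ⟨ht0.1.le, ht0.2.le⟩, hr⟩⟩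
  · have := hc1.union_of_isClosed hc2 isClosed_Icc isClosed_Icc
    rwa [Icc_union_Icc_eq_Icc (by norm_num) (by norm_num)] at this
  · intro s hs
    rw [hr' s hs]
    exact hA _ (hmem1 s hs)
  · intro s hs
    rw [hr' s hs]
    have h3 := hmem s hs
    rcases lt_or_eq_of_le h3.1 with h4 | h4
    · exact (hgt _ ⟨h4, h3.2⟩).le
    · rw [← h4, hd]
  · intro s hs t ht hst
    rw [hr' s hs, hr' t ht] at hst
    have h3 := hinj (hmem1 s hs) (hmem1 t ht) hst
    have h4 : (1 - t0) ≠ 0 := by linarith only [ht0.2]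
    have h5 : (2 * s - 1) = (2 * t - 1) := mul_right_cancel₀ h4 (by linarith only [h3])
    linarith only [h5]
  · rw [hr' 1 (by norm_num), ← h1]
    congr 1
    ring

/-- The join of a half path with the reverse of another one. -/
noncomputable def join (h h' : ℝ → ℂ) : ℝ → ℂ := fun s => if s ≤ 1 / 2 then h (2 * s) else h' (2 - 2 * s)

section

variable {x y : ℂ} {r : ℝ} {e e' z : ℂ} {A A' : Set ℂ} {h h' : ℝ → ℂ}

theorem join_left (s : ℝ) (hs : s ≤ 1 / 2) : join h h' s = h (2 * s) := by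
  simp only [join]; rw [if_pos hs]

theorem join_right (hh : Half x r e z A h) (hh' : Half y r e' z A' h') (s : ℝ) (hs : 1 / 2 ≤ s) :
    join h h' s = h' (2 - 2 * s) := by
  rcases lt_or_eq_of_le hs with h3 | h3
  · simp only [join]; rw [if_neg (by linarith only [h3])]
  · rw [← h3, join_left _ le_rfl]
    norm_num
    rw [hh.fin, hh'.fin]

theorem Half.ne_center (hh : Half x r e z A h) {s : ℝ} (hs : s ∈ Ioc (0 : ℝ) 1) : h s ≠ x := by
  have hr := hh.pos
  intro heq
  rcases le_total s (1 / 2) with h3 | h3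
  · rw [hh.rad s ⟨hs.1.le, h3⟩] at heq
    have h4 : ((2 * s : ℝ) : ℂ) * (e - x) = 0 := by linear_combination heq
    rcases mul_eq_zero.1 h4 with h5 | h5
    · have : (2 * s : ℝ) = 0 := by exact_mod_cast h5
      linarith only [this, hs.1]
    · have := hh.he
      rw [sub_eq_zero.1 h5, dist_self] at this
      linarith only [hr, this]
  · have := hh.far s ⟨h3, hs.2⟩
    rw [heq, dist_self] at this
    linarith only [hr, this]

theorem Half.dist_rad (hh : Half x r e z A h) {s : ℝ} (hs : s ∈ Icc (0 : ℝ) (1 / 2)) :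
    dist (h s) x = 2 * s * r := by
  rw [hh.rad s hs, dist_eq_norm, add_sub_cancel_left, norm_mul, ← dist_eq_norm, hh.he]
  rw [norm_real, Real.norm_eq_abs, abs_of_nonneg (by linarith [hs.1])]

/-- The join is a path which is straight near its ends. -/
theorem join_good (hh : Half x r e z A h) (hh' : Half y r e' z A' h') (hx : x ∉ A') (hy : y ∉ A)
    (hxy : 2 * r < dist x y) : Good x y (4 * (e - x)) (4 * (e' - y)) (1 / 4) (join h h') := by
  have hr := hh.pos
  have hcl : ContinuousOn (join h h') (Icc 0 (1 / 2)) := by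
    apply ContinuousOn.congr (f := fun s => h (2 * s))
    · apply hh.cont.comp (by fun_prop)
      intro s hs
      exact ⟨by linarith only [hs.1], by linarith only [hs.2]⟩
    · intro s hs
      exact join_left s hs.2
  have hcr : ContinuousOn (join h h') (Icc (1 / 2) 1) := by
    apply ContinuousOn.congr (f := fun s => h' (2 - 2 * s))
    · apply hh'.cont.comp (by fun_prop)
      intro s hs
      exact ⟨by linarith [hs.2], by linarith [hs.1]⟩
    · intro s hs
      exact join_right hh hh' s hs.1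
  have hexy : ∀ c d : ℂ, dist d c = r → d ≠ c := by
    rintro c d h3 rfl
    rw [dist_self] at h3
    linarith
  refine ⟨?_, by norm_num, by norm_num, ?_, ?_, ?_, ?_, ?_, ?_, ?_⟩
  · have := hcl.union_of_isClosed hcr isClosed_Icc isClosed_Icc
    rwa [Icc_union_Icc_eq_Icc (by norm_num) (by norm_num)] at this
  · intro s hs
    rw [join_left s (by linarith [hs.2]), hh.rad _ ⟨by linarith [hs.1], by linarith [hs.2]⟩]
    push_cast; ring
  · intro s hs
    rw [join_right hh hh' s (by linarith only [hs.1]),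
      hh'.rad _ ⟨by linarith [hs.2], by linarith [hs.1]⟩]
    push_cast; ring
  · intro s hs heq
    rcases le_total s (1 / 2) with h3 | h3
    · rw [join_left s h3] at heq
      exact hh.ne_center ⟨by linarith [hs.1], by linarith⟩ heq
    · rw [join_right hh hh' s h3] at heq
      rcases le_total (2 - 2 * s) (1 / 2) with h4 | h4
      · have h5 := hh'.dist_rad (s := 2 - 2 * s) ⟨by linarith only [hs.2], h4⟩
        rw [heq] at h5
        have h6 : 2 * (2 - 2 * s) * r ≤ 1 * r :=
          mul_le_mul_of_nonneg_right (by linarith only [h4]) hr.le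
        linarith only [hxy, hr, h5, h6]
      · apply hx
        rw [← heq]
        exact hh'.mem _ ⟨h4, by linarith only [h3]⟩
  · intro s hs heq
    rcases le_total (1 / 2) s with h3 | h3
    · rw [join_right hh hh' s h3] at heq
      exact hh'.ne_center ⟨by linarith only [hs.2], by linarith only [h3]⟩ heq
    · rw [join_left s h3] at heq
      rcases le_total (2 * s) (1 / 2) with h4 | h4
      · have h5 := hh.dist_rad (s := 2 * s) ⟨by linarith only [hs.1], h4⟩
        rw [heq, dist_comm] at h5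
        have h6 : 2 * (2 * s) * r ≤ 1 * r :=
          mul_le_mul_of_nonneg_right (by linarith only [h4]) hr.le
        linarith only [hxy, hr, h5, h6]
      · apply hy
        rw [← heq]
        exact hh.mem _ ⟨h4, by linarith only [h3]⟩
  · exact mul_ne_zero (by norm_num) (sub_ne_zero.2 (hexy _ _ hh.he))
  · exact mul_ne_zero (by norm_num) (sub_ne_zero.2 (hexy _ _ hh'.he))
  · intro h3
    rw [h3, dist_self] at hxy
    linarith

theorem join_cases (hh : Half x r e z A h) (hh' : Half y r e' z A' h') {s : ℝ}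
    (hs : s ∈ Ioo (0 : ℝ) 1) :
    (s < 1 / 4 ∧ join h h' s = x + (4 * s : ℝ) * (e - x) ∧ dist (join h h' s) x < r) ∨
    (1 / 4 ≤ s ∧ s ≤ 1 / 2 ∧ join h h' s = h (2 * s) ∧ join h h' s ∈ A ∧
      r ≤ dist (join h h' s) x) ∨
    (1 / 2 < s ∧ s ≤ 3 / 4 ∧ join h h' s = h' (2 - 2 * s) ∧ join h h' s ∈ A' ∧
      r ≤ dist (join h h' s) y) ∨
    (3 / 4 < s ∧ join h h' s = y + (4 * (1 - s) : ℝ) * (e' - y) ∧ dist (join h h' s) y < r) := by
  have hr := hh.pos
  rcases lt_or_ge s (1 / 4) with h1 | h1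
  · left
    refine ⟨h1, ?_, ?_⟩
    · rw [join_left s (by linarith), hh.rad _ ⟨by linarith only [hs.1], by linarith only [h1]⟩]
      push_cast; ring
    · rw [join_left s (by linarith only [h1]), hh.dist_rad ⟨by linarith only [hs.1], by linarith only [h1]⟩]
      calc 2 * (2 * s) * r < 1 * r := mul_lt_mul_of_pos_right (by linarith only [h1]) hr
        _ = r := one_mul r
  rcases le_or_gt s (1 / 2) with h2 | h2
  · right; left
    have h3 : 2 * s ∈ Icc (1 / 2 : ℝ) 1 := ⟨by linarith only [h1], by linarith only [h2]⟩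
    refine ⟨h1, h2, join_left s h2, ?_, ?_⟩
    · rw [join_left s h2]; exact hh.mem _ h3
    · rw [join_left s h2]; exact hh.far _ h3
  rcases le_or_gt s (3 / 4) with h3 | h3
  · right; right; left
    have h4 : 2 - 2 * s ∈ Icc (1 / 2 : ℝ) 1 := ⟨by linarith only [h3], by linarith only [h2]⟩
    refine ⟨h2, h3, join_right hh hh' s h2.le, ?_, ?_⟩
    · rw [join_right hh hh' s h2.le]; exact hh'.mem _ h4
    · rw [join_right hh hh' s h2.le]; exact hh'.far _ h4
  · right; right; right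
    refine ⟨h3, ?_, ?_⟩
    · rw [join_right hh hh' s h2.le, hh'.rad _ ⟨by linarith only [hs.2], by linarith only [h3]⟩]
      push_cast; ring
    · rw [join_right hh hh' s h2.le, hh'.dist_rad ⟨by linarith only [hs.2], by linarith only [h3]⟩]
      calc 2 * (2 - 2 * s) * r < 1 * r := mul_lt_mul_of_pos_right (by linarith only [h3]) hr
        _ = r := one_mul r

end

/-- Where two joins meet. -/
theorem join_meet {x y : ℂ} {r : ℝ} {e e' z d d' w : ℂ} {A A' B B' : Set ℂ} {h h' g g' : ℝ → ℂ}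
    (hh : Half x r e z A h) (hh' : Half y r e' z A' h') (hg : Half x r d w B g)
    (hg' : Half y r d' w B' g') (hxy : 2 * r < dist x y)
    (hA : ∀ p ∈ A, r < dist p y) (hA' : ∀ p ∈ A', r < dist p x)
    (hB : ∀ p ∈ B, r < dist p y) (hB' : ∀ p ∈ B', r < dist p x)
    (hAB : ∀ p ∈ A, p ∈ B → p = x) (hAB' : ∀ p ∈ A', p ∈ B' → p = y)
    {s t : ℝ} (hs : s ∈ Ioo (0 : ℝ) 1) (ht : t ∈ Ioo (0 : ℝ) 1)
    (hst : join h h' s = join g g' t) :
    (1 / 4 ≤ s ∧ s ≤ 1 / 2 ∧ join h h' s = h (2 * s) ∧ join h h' s ∈ A ∧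
      1 / 2 < t ∧ t ≤ 3 / 4 ∧ join g g' t = g' (2 - 2 * t) ∧ join g g' t ∈ B') ∨
    (1 / 2 < s ∧ s ≤ 3 / 4 ∧ join h h' s = h' (2 - 2 * s) ∧ join h h' s ∈ A' ∧
      1 / 4 ≤ t ∧ t ≤ 1 / 2 ∧ join g g' t = g (2 * t) ∧ join g g' t ∈ B) := by
  have hr := hh.pos
  have hball : ∀ p, dist p x < r → dist p y < r → False := by
    intro p h1 h2
    have h3 := dist_triangle x p y
    rw [dist_comm x p] at h3
    linarith
  have hed : e ≠ d := by
    intro h1
    have h2 := hAB e hh.heA (h1 ▸ hg.heA)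
    have h3 := hh.he
    rw [h2, dist_self] at h3
    linarith
  have hed' : e' ≠ d' := by
    intro h1
    have h2 := hAB' e' hh'.heA (h1 ▸ hg'.heA)
    have h3 := hh'.he
    rw [h2, dist_self] at h3
    linarith
  have hrad : ∀ (c : ℂ) (a b : ℂ) (σ τ : ℝ), 0 < σ → 0 < τ → dist a c = r → dist b c = r →
      c + (4 * σ : ℝ) * (a - c) = c + (4 * τ : ℝ) * (b - c) → a = b := by
    intro c a b σ τ hσ hτ ha hb heq
    have h1 : ((4 * σ : ℝ) : ℂ) * (a - c) = (4 * τ : ℝ) * (b - c) := by linear_combination heq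
    have h2 := congrArg norm h1
    rw [norm_mul, norm_mul, ← dist_eq_norm, ← dist_eq_norm, ha, hb, norm_real, norm_real,
      Real.norm_eq_abs, Real.norm_eq_abs, abs_of_pos (by linarith), abs_of_pos (by linarith)] at h2
    have h3 : 4 * σ = 4 * τ := mul_right_cancel₀ hr.ne' h2
    rw [h3] at h1
    have h4 : ((4 * τ : ℝ) : ℂ) ≠ 0 := by
      have : (0 : ℝ) < 4 * τ := by linarith
      exact_mod_cast this.ne'
    have h5 := mul_left_cancel₀ h4 h1
    linear_combination h5
  rcases join_cases hh hh' hs with ⟨a1, a2, a3⟩ | ⟨a1, a2, a3, a4, a5⟩ | ⟨a1, a2, a3, a4, a5⟩ |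
      ⟨a1, a2, a3⟩ <;>
    rcases join_cases hg hg' ht with ⟨b1, b2, b3⟩ | ⟨b1, b2, b3, b4, b5⟩ | ⟨b1, b2, b3, b4, b5⟩ |
      ⟨b1, b2, b3⟩
  · exfalso
    rw [a2, b2] at hst
    exact hed (hrad x e d s t hs.1 ht.1 hh.he hg.he hst)
  · exfalso
    rw [hst] at a3
    linarith only [a3, b5]
  · exfalso
    rw [hst] at a3
    have := hB' _ b4
    linarith only [a3, this]
  · exfalso
    rw [hst] at a3
    exact hball _ a3 b3
  · exfalso
    rw [← hst] at b3
    linarith only [a5, b3]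
  · exfalso
    rw [← hst] at b4
    have := hAB _ a4 b4
    rw [this, dist_self] at a5
    linarith only [hr, a5]
  · left
    exact ⟨a1, a2, a3, a4, b1, b2, b3, b4⟩
  · exfalso
    rw [← hst] at b3
    have := hA _ a4
    linarith only [b3, this]
  · exfalso
    rw [← hst] at b3
    have := hA' _ a4
    linarith only [b3, this]
  · right
    exact ⟨a1, a2, a3, a4, b1, b2, b3, b4⟩
  · exfalso
    rw [← hst] at b4
    have := hAB' _ a4 b4
    rw [this, dist_self] at a5
    linarith only [hr, a5]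
  · exfalso
    rw [← hst] at b3
    linarith only [a5, b3]
  · exfalso
    rw [hst] at a3
    exact hball _ b3 a3
  · exfalso
    rw [hst] at a3
    have := hB _ b4
    linarith only [a3, this]
  · exfalso
    rw [hst] at a3
    linarith only [a3, b5]
  · exfalso
    rw [a2, b2] at hst
    exact hed' (hrad y e' d' (1 - s) (1 - t) (by linarith only [hs.2]) (by linarith only [ht.2]) hh'.he
      hg'.he hst)

end Vale.Agent.P040.Gen
end

section

/-!
# The rotations of a drawing and the number of crossings of two stars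
-/

namespace Vale.Agent.P040.Gen

open Set Complex Filter Topology

/-- The plane as the complex numbers. -/
noncomputable def toC : Plane ≃ₜ ℂ := Complex.equivRealProdCLM.symm.toHomeomorph

theorem im_of_exp_div {ℓ a b : ℂ} (ha : a ≠ 0) (hb : b ≠ 0) (h : exp ℓ = a / b) :
    ∃ k : ℤ, ℓ.im = arg a - arg b + 2 * Real.pi * k := by
  have h1 : exp ℓ = exp (log a - log b) := by
    rw [h, exp_sub, exp_log ha, exp_log hb]
  obtain ⟨k, hk⟩ := exp_eq_exp_iff_exists_int.1 h1
  refine ⟨k, ?_⟩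
  rw [hk]
  simp only [add_im, sub_im, log_im, mul_im, intCast_re, mul_re, re_ofNat, ofReal_re, im_ofNat, ofReal_im, mul_zero, sub_zero, I_im, mul_one, zero_mul, add_zero, I_re, intCast_im, sub_self, add_right_inj]
  ring

theorem eq_of_arg {u v : ℂ} {k : ℤ} (h1 : ‖u‖ = ‖v‖)
    (h2 : arg v / (2 * Real.pi) - arg u / (2 * Real.pi) = k) : u = v := by
  have hpi := Real.pi_pos
  have h3 : arg v = arg u + 2 * Real.pi * k := by
    rw [← sub_div, div_eq_iff (by positivity)] at h2
    linarith only [h2]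
  have h4 := Complex.norm_mul_exp_arg_mul_I v
  have h5 := Complex.norm_mul_exp_arg_mul_I u
  rw [← h5, ← h4, h1, h3]
  congr 1
  rw [exp_eq_exp_iff_exists_int]
  refine ⟨-k, ?_⟩
  push_cast
  ring

section

variable {m n : ℕ} (D : Drawing (K m n))

/-- The edge from `x` to `b`, in the complex plane. -/
def edge (x : Fin m) (b : Fin n) : Set ℂ := toC '' D.arc s(Sum.inl x, Sum.inr b)

/-- The centre of a star. -/
noncomputable def ctr (x : Fin m) : ℂ := toC (D.pos (Sum.inl x))

theorem adj (x : Fin m) (b : Fin n) : (K m n).Adj (Sum.inl x) (Sum.inr b) := by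
  simp

theorem exists_path (x : Fin m) (b : Fin n) : ∃ γ : ℝ → ℂ, ContinuousOn γ (Icc 0 1) ∧
    InjOn γ (Icc 0 1) ∧ γ 0 = ctr D x ∧ γ 1 = toC (D.pos (Sum.inr b)) ∧
    γ '' Icc 0 1 = edge D x b := by
  obtain ⟨γ, h1, h2, h3, h4, h5⟩ := D.isArc _ _ (adj x b)
  refine ⟨fun t => toC (γ t), toC.continuous.comp_continuousOn h1, ?_, ?_, ?_, ?_⟩
  · intro s hs t ht hst
    exact h2 hs ht (toC.injective hst)
  · simp only [h3]; rfl
  · simp only [h4]
  · rw [edge, ← h5, image_image]

theorem ctr_notMem {x y : Fin m} (hxy : x ≠ y) (b : Fin n) : ctr D x ∉ edge D y b := by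
  rintro ⟨p, hp, hp'⟩
  have h1 : p = D.pos (Sum.inl x) := toC.injective hp'
  rw [h1] at hp
  have h2 := D.avoid _ (adj y b) _ hp
  rw [Sym2.mem_iff] at h2
  rcases h2 with h2 | h2
  · exact hxy (Sum.inl_injective h2)
  · exact absurd h2 (by simp)

theorem isCompact_edge (x : Fin m) (b : Fin n) : IsCompact (edge D x b) := by
  obtain ⟨γ, h1, -, -, -, h5⟩ := exists_path D x b
  rw [← h5]
  exact isCompact_Icc.image_of_continuousOn h1

/-- A small radius. -/
theorem exists_radius : ∃ r : ℝ, 0 < r ∧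
    (∀ x b, r < dist (toC (D.pos (Sum.inr b))) (ctr D x)) ∧
    (∀ x y, x ≠ y → 2 * r < dist (ctr D x) (ctr D y)) ∧
    (∀ x y, x ≠ y → ∀ b, ∀ p ∈ edge D x b, r < dist p (ctr D y)) := by
  have key : ∀ c : ℝ, 0 < c → ∀ᶠ r in 𝓝[>] (0 : ℝ), 2 * r < c := by
    intro c hc
    filter_upwards [mem_nhdsWithin_of_mem_nhds (Iio_mem_nhds (show (0 : ℝ) < c / 2 by linarith))]
      with r hr
    have : r < c / 2 := hr
    linarith only [this]
  have hpos : ∀ᶠ r in 𝓝[>] (0 : ℝ), 0 < r := by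
    filter_upwards [self_mem_nhdsWithin] with r hr using hr
  have h1 : ∀ᶠ r in 𝓝[>] (0 : ℝ), ∀ x b, r < dist (toC (D.pos (Sum.inr b))) (ctr D x) := by
    rw [eventually_all]
    intro x
    rw [eventually_all]
    intro b
    filter_upwards [hpos, key (dist (toC (D.pos (Sum.inr b))) (ctr D x)) (by
      rw [dist_pos, ctr]
      intro h
      exact absurd (D.pos_inj (toC.injective h)) (by simp))] with r h1 h2
    linarith
  have h2 : ∀ᶠ r in 𝓝[>] (0 : ℝ), ∀ x y, x ≠ y → 2 * r < dist (ctr D x) (ctr D y) := by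
    rw [eventually_all]
    intro x
    rw [eventually_all]
    intro y
    by_cases hxy : x = y
    · exact Eventually.of_forall fun r h => absurd hxy h
    · filter_upwards [key (dist (ctr D x) (ctr D y)) (by
        rw [dist_pos]
        intro h
        exact hxy (Sum.inl_injective (D.pos_inj (toC.injective h))))] with r hr _
      exact hr
  have h3 : ∀ᶠ r in 𝓝[>] (0 : ℝ), ∀ x y, x ≠ y → ∀ b, ∀ p ∈ edge D x b,
      r < dist p (ctr D y) := by
    rw [eventually_all]
    intro x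
    rw [eventually_all]
    intro y
    by_cases hxy : x = y
    · exact Eventually.of_forall fun r h => absurd hxy h
    · have : ∀ᶠ r in 𝓝[>] (0 : ℝ), ∀ b, ∀ p ∈ edge D x b, r < dist p (ctr D y) := by
        rw [eventually_all]
        intro b
        rcases (edge D x b).eq_empty_or_nonempty with h | h
        · exact Eventually.of_forall fun r p hp => by rw [h] at hp; exact absurd hp (by simp)
        · obtain ⟨q, hq, hmin⟩ := (isCompact_edge D x b).exists_isMinOn h
            (f := fun p => dist p (ctr D y)) (by (clear * -; fun_prop))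
          filter_upwards [hpos, key (dist q (ctr D y)) (by
            rw [dist_pos]
            intro h
            exact ctr_notMem D (Ne.symm hxy) b (h ▸ hq))] with r h1 h2 p hp
          have h3 : dist q (ctr D y) ≤ dist p (ctr D y) := hmin hp
          linarith only [h1, h2, h3]
      filter_upwards [this] with r hr _
      exact hr
  obtain ⟨r, h4, h5, h6, h7⟩ := (hpos.and (h1.and (h2.and h3))).exists
  exact ⟨r, h4, h5, h6, h7⟩

theorem inter_notMem {x y : Fin m} {b b' : Fin n} (hxy : x ≠ y) (hbb : b ≠ b') {p : Plane}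
    (h1 : p ∈ D.arc s(Sum.inl x, Sum.inr b)) (h2 : p ∈ D.arc s(Sum.inl y, Sum.inr b')) :
    p ∉ Set.range D.pos := by
  rintro ⟨w, rfl⟩
  have h3 := D.avoid _ (adj x b) _ h1
  have h4 := D.avoid _ (adj y b') _ h2
  rw [Sym2.mem_iff] at h3 h4
  rcases h3 with rfl | rfl
  · rcases h4 with h | h
    · exact hxy (Sum.inl_injective h)
    · exact absurd h (by simp)
  · rcases h4 with h | h
    · exact absurd h (by simp)
    · exact hbb (Sum.inr_injective h)

theorem edge_ne {x y : Fin m} {b b' : Fin n} (hxy : x ≠ y) :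
    (s(Sum.inl x, Sum.inr b) : Sym2 (Fin m ⊕ Fin n)) ≠ s(Sum.inl y, Sum.inr b') := by
  intro h
  rw [Sym2.eq_iff] at h
  rcases h with ⟨h, -⟩ | ⟨h, -⟩
  · exact hxy (Sum.inl_injective h)
  · exact absurd h (by simp)

theorem finite_inter {x y : Fin m} {b b' : Fin n} (hxy : x ≠ y) (hbb : b ≠ b') :
    (D.arc s(Sum.inl x, Sum.inr b) ∩ D.arc s(Sum.inl y, Sum.inr b')).Finite := by
  apply (D.finite _ (adj x b) _ (adj y b') (edge_ne hxy)).subset
  rintro p ⟨h1, h2⟩
  have := inter_notMem D hxy hbb h1 h2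
  exact ⟨⟨h1, this⟩, ⟨h2, this⟩⟩

end

/-- The rotations of a drawing without crossings of adjacent edges: every pair of stars has
lifts of the directions whose change bounds the number of crossings. -/
theorem exists_rotation {m n : ℕ} (D : Drawing (K m n)) (hU : D.Uncrossed) :
    ∃ α : Fin m → Fin n → ℝ, (∀ x b b', b ≠ b' → ∀ k : ℤ, α x b' - α x b ≠ k) ∧
      ∀ x y, x ≠ y → ∃ (X Y : Fin n → ℝ) (c c' : ℝ), (∀ b, ∃ k : ℤ, X b = α x b + c + k) ∧
        (∀ b, ∃ k : ℤ, Y b = c' - α y b + k) ∧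
        ∀ b b', b ≠ b' → |⌊X b' - X b⌋ - ⌊Y b' - Y b⌋| ≤
          ((D.arc s(.inl x, .inr b) ∩ D.arc s(.inl y, .inr b')).ncard +
            (D.arc s(.inl x, .inr b') ∩ D.arc s(.inl y, .inr b)).ncard : ℤ) := by
  have hpi := Real.pi_pos
  obtain ⟨r, hr, r1, r2, r3⟩ := exists_radius D
  have hhalf : ∀ x b, ∃ e h, Half (ctr D x) r e (toC (D.pos (Sum.inr b))) (edge D x b) h := by
    intro x b
    obtain ⟨γ, h1, h2, h3, h4, h5⟩ := exists_path D x b
    exact exists_half hr h1 h2 h3 h4 (r1 x b) (fun s hs => h5 ▸ mem_image_of_mem γ hs)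
  choose e h hh using hhalf
  have hU' : ∀ x b b', b ≠ b' → ∀ p ∈ edge D x b, p ∈ edge D x b' → p = ctr D x := by
    rintro x b b' hbb p ⟨q, hq, rfl⟩ ⟨q', hq', heq⟩
    have : q' = q := toC.injective heq
    subst this
    rw [ctr, hU x b b' hbb q' hq hq']
  have hdist : ∀ x b b', b ≠ b' → ∀ k : ℤ,
      arg (e x b' - ctr D x) / (2 * Real.pi) - arg (e x b - ctr D x) / (2 * Real.pi) ≠ k := by
    intro x b b' hbb k hk
    have h1 := eq_of_arg (by
      rw [← dist_eq_norm, ← dist_eq_norm, (hh x b).he, (hh x b').he]) hk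
    have h2 : e x b = e x b' := sub_left_injective h1
    have h3 := hU' x b b' hbb _ (hh x b).heA (h2 ▸ (hh x b').heA)
    have h4 := (hh x b).he
    rw [h3, dist_self] at h4
    linarith only [hr, h4]
  refine ⟨fun x b => arg (e x b - ctr D x) / (2 * Real.pi), hdist, ?_⟩
  intro x y hxy
  have hgood : ∀ b, Good (ctr D x) (ctr D y) (4 * (e x b - ctr D x)) (4 * (e y b - ctr D y))
      (1 / 4) (join (h x b) (h y b)) := fun b =>
    join_good (hh x b) (hh y b) (ctr_notMem D hxy b) (ctr_notMem D hxy.symm b) (r2 x y hxy)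
  choose ℓ l1 l2 l3 l4 using fun b => (hgood b).exists_lift
  have hne : ∀ x b, e x b - ctr D x ≠ 0 := by
    intro x b h1
    have h2 := (hh x b).he
    rw [sub_eq_zero.1 h1, dist_self] at h2
    linarith only [hr, h2]
  have hxy' : ctr D x - ctr D y ≠ 0 := sub_ne_zero.2 fun hc =>
    hxy (Sum.inl_injective (D.pos_inj (toC.injective hc)))
  have hX : ∀ b, ∃ k : ℤ, (ℓ b 0).im / (2 * Real.pi) =
      arg (e x b - ctr D x) / (2 * Real.pi) + -(arg (ctr D x - ctr D y) / (2 * Real.pi)) + k := by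
    intro b
    obtain ⟨k, hk⟩ := im_of_exp_div (mul_ne_zero (by norm_num) (hne x b)) hxy' (l3 b)
    refine ⟨k, ?_⟩
    rw [hk, show (4 : ℂ) = ((4 : ℝ) : ℂ) by norm_num, arg_real_mul _ (by norm_num)]
    field_simp
    ring
  have hY : ∀ b, ∃ k : ℤ, (ℓ b 1).im / (2 * Real.pi) =
      arg (ctr D y - ctr D x) / (2 * Real.pi) - arg (e y b - ctr D y) / (2 * Real.pi) + k := by
    intro b
    obtain ⟨k, hk⟩ := im_of_exp_div (by
      rw [← neg_sub]; exact neg_ne_zero.2 hxy') (mul_ne_zero (by norm_num) (hne y b)) (l4 b)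
    refine ⟨k, ?_⟩
    rw [hk, show (4 : ℂ) = ((4 : ℝ) : ℂ) by norm_num, arg_real_mul _ (by norm_num)]
    (clear * -; field_simp)
  refine ⟨fun b => (ℓ b 0).im / (2 * Real.pi), fun b => (ℓ b 1).im / (2 * Real.pi),
    -(arg (ctr D x - ctr D y) / (2 * Real.pi)), arg (ctr D y - ctr D x) / (2 * Real.pi), hX, hY, ?_⟩
  intro b b' hbb
  set C : Set ℂ := toC '' (D.arc s(.inl x, .inr b) ∩ D.arc s(.inl y, .inr b')) ∪
    toC '' (D.arc s(.inl x, .inr b') ∩ D.arc s(.inl y, .inr b)) with hC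
  have hCfin : C.Finite :=
    ((finite_inter D hxy hbb).image _).union ((finite_inter D hxy hbb.symm).image _)
  have hmem : ∀ {p : ℂ} {x y : Fin m} {b b' : Fin n}, p ∈ edge D x b → p ∈ edge D y b' →
      p ∈ toC '' (D.arc s(.inl x, .inr b) ∩ D.arc s(.inl y, .inr b')) := by
    rintro p x y b b' ⟨q, hq, rfl⟩ ⟨q', hq', heq⟩
    have : q' = q := toC.injective heq
    subst this
    exact ⟨q', ⟨hq, hq'⟩, rfl⟩
  have hmt : ∀ s ∈ Ioo (0 : ℝ) 1, ∀ t ∈ Ioo (0 : ℝ) 1,
      join (h x b) (h y b) s = join (h x b') (h y b') t → _ := fun s hs t ht hst =>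
    join_meet (hh x b) (hh y b) (hh x b') (hh y b') (r2 x y hxy) (r3 x y hxy b)
      (r3 y x hxy.symm b) (r3 x y hxy b') (r3 y x hxy.symm b') (hU' x b b' hbb) (hU' y b b' hbb)
      hs ht hst
  have key := floor_bound (hgood b) (hgood b') (l1 b) (l1 b') (l2 b) (l2 b')
    (X := (ℓ b 0).im / (2 * Real.pi)) (X' := (ℓ b' 0).im / (2 * Real.pi))
    (Y := (ℓ b 1).im / (2 * Real.pi)) (Y' := (ℓ b' 1).im / (2 * Real.pi))
    (by (clear * -; field_simp)) (by (clear * -; field_simp)) (by (clear * -; field_simp)) (by field_simp)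
    (by
      intro k hk
      obtain ⟨k1, h1⟩ := hX b
      obtain ⟨k2, h2⟩ := hX b'
      rw [h1, h2] at hk
      apply hdist x b b' hbb (k - k2 + k1)
      push_cast
      linarith only [hk])
    (by
      intro k hk
      obtain ⟨k1, h1⟩ := hY b
      obtain ⟨k2, h2⟩ := hY b'
      rw [h1, h2] at hk
      apply hdist y b b' hbb (-(k - k2 + k1))
      push_cast
      linarith only [hk])
    hCfin
    (by
      intro s hs t ht hst
      rcases hmt s hs t ht hst with ⟨-, -, -, a4, -, -, -, a8⟩ | ⟨-, -, -, a4, -, -, -, a8⟩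
      · left
        exact hmem a4 (hst ▸ a8)
      · right
        exact hmem (hst ▸ a8) a4)
    (by
      intro s hs t ht s' hs' t' ht' hst hst' hss
      have hcontra : ∀ {p : ℂ}, p ∈ edge D x b → p ∈ edge D x b' → p ∈ edge D y b → False := by
        intro p h1 h2 h3
        have h4 := hU' x b b' hbb p h1 h2
        exact ctr_notMem D hxy b (h4 ▸ h3)
      rcases hmt s hs t ht hst with ⟨a1, a2, a3, a4, a5, a6, a7, a8⟩ |
          ⟨a1, a2, a3, a4, a5, a6, a7, a8⟩ <;>
        rcases hmt s' hs' t' ht' hst' with ⟨b1, b2, b3, b4, b5, b6, b7, b8⟩ |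
          ⟨b1, b2, b3, b4, b5, b6, b7, b8⟩
      · have e1 : 2 * s = 2 * s' := (hh x b).inj ⟨by linarith only [a1], by linarith only [a2]⟩
          ⟨by linarith only [b1], by linarith only [b2]⟩ (by rw [← a3, ← b3, hss])
        have e2 : 2 - 2 * t = 2 - 2 * t' := (hh y b').inj ⟨by linarith only [a6], by linarith only [a5]⟩
          ⟨by linarith only [b6], by linarith only [b5]⟩ (by rw [← a7, ← b7, ← hst, ← hst', hss])
        exact ⟨by linarith only [e1], by linarith only [e2]⟩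
      · exfalso
        rw [← hst'] at b8
        rw [← hss] at b8 b4
        exact hcontra a4 b8 b4
      · exfalso
        rw [← hst] at a8
        rw [hss] at a8 a4
        exact hcontra b4 a8 a4
      · have e1 : 2 - 2 * s = 2 - 2 * s' := (hh y b).inj ⟨by linarith only [a2], by linarith only [a1]⟩
          ⟨by linarith only [b2], by linarith only [b1]⟩ (by rw [← a3, ← b3, hss])
        have e2 : 2 * t = 2 * t' := (hh x b').inj ⟨by linarith only [a5], by linarith only [a6]⟩
          ⟨by linarith only [b5], by linarith only [b6]⟩ (by rw [← a7, ← b7, ← hst, ← hst', hss])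
        exact ⟨by linarith only [e1], by linarith only [e2]⟩)
  refine key.trans ?_
  have h1 := Set.ncard_union_le (toC '' (D.arc s(.inl x, .inr b) ∩ D.arc s(.inl y, .inr b')))
    (toC '' (D.arc s(.inl x, .inr b') ∩ D.arc s(.inl y, .inr b)))
  rw [Set.ncard_image_of_injective _ toC.injective,
    Set.ncard_image_of_injective _ toC.injective] at h1
  rw [hC]
  exact_mod_cast h1

/-- The crossings of pairs of stars are counted once. -/
theorem sum_pairs_le {m n : ℕ} (D : Drawing (K m n)) :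
    ∑ p ∈ Finset.univ.filter (fun p : Fin m × Fin m => p.1 < p.2),
      ∑ q ∈ Finset.univ.filter (fun q : Fin n × Fin n => q.1 ≠ q.2),
        (D.arc s(.inl p.1, .inr q.1) ∩ D.arc s(.inl p.2, .inr q.2)).ncard ≤ D.crossings := by
  classical
  set T := (Finset.univ.filter (fun p : Fin m × Fin m => p.1 < p.2)) ×ˢ
    (Finset.univ.filter (fun q : Fin n × Fin n => q.1 ≠ q.2)) with hT
  have hmemT : ∀ i ∈ T, i.1.1 < i.1.2 ∧ i.2.1 ≠ i.2.2 := by
    intro i hi
    simpa [T] using hi
  let F : (Fin m × Fin m) × (Fin n × Fin n) → Set Plane := fun i =>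
    D.arc s(.inl i.1.1, .inr i.2.1) ∩ D.arc s(.inl i.1.2, .inr i.2.2)
  have hfin : ∀ i ∈ T, (F i).Finite := fun i hi =>
    finite_inter D (hmemT i hi).1.ne (hmemT i hi).2
  let G : (Fin m × Fin m) × (Fin n × Fin n) → Finset Plane := fun i =>
    if hi : (F i).Finite then hi.toFinset else ∅
  have hG : ∀ i ∈ T, ∀ p, p ∈ G i ↔ p ∈ F i := by
    intro i hi p
    simp only [G]
    rw [dif_pos (hfin i hi)]
    simp
  have hGc : ∀ i ∈ T, (F i).ncard = (G i).card := by
    intro i hi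
    rw [Set.ncard_eq_toFinset_card _ (hfin i hi)]
    simp only [G]
    rw [dif_pos (hfin i hi)]
  rw [← Finset.sum_product (f := fun i : (Fin m × Fin m) × (Fin n × Fin n) => (F i).ncard),
    Finset.sum_congr rfl hGc, ← Finset.card_biUnion]
  · unfold Drawing.crossings
    rw [Set.ncard_eq_toFinset_card _ D.crossingSet_finite]
    apply Finset.card_le_card
    intro p hp
    rw [Finset.mem_biUnion] at hp
    obtain ⟨i, hi, hp⟩ := hp
    rw [hG i hi] at hp
    rw [Set.Finite.mem_toFinset]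
    exact ⟨inter_notMem D (hmemT i hi).1.ne (hmemT i hi).2 hp.1 hp.2, _, adj _ _, _, adj _ _,
      edge_ne (hmemT i hi).1.ne, hp.1, hp.2⟩
  · intro i hi j hj hij
    show Disjoint (G i) (G j)
    rw [Finset.disjoint_left]
    intro p hp hp'
    rw [hG i hi] at hp
    rw [hG j hj] at hp'
    apply hij
    have hne : ∀ {x y : Fin m} {b c : Fin n},
        (s(Sum.inl x, Sum.inr b) : Sym2 (Fin m ⊕ Fin n)) = s(Sum.inl y, Sum.inr c) →
        x = y ∧ b = c := by
      intro x y b c h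
      simpa [Sym2.eq_iff] using h
    have hv := inter_notMem D (hmemT i hi).1.ne (hmemT i hi).2 hp.1 hp.2
    rcases D.pair_unique hv (adj i.1.1 i.2.1) (adj i.1.2 i.2.2) (adj j.1.1 j.2.1)
      (adj j.1.2 j.2.2) (edge_ne (hmemT i hi).1.ne) (edge_ne (hmemT j hj).1.ne) hp.1 hp.2 hp'.1
      hp'.2 with ⟨h1, h2⟩ | ⟨h1, h2⟩
    · obtain ⟨a1, a2⟩ := hne h1
      obtain ⟨a3, a4⟩ := hne h2
      exact Prod.ext (Prod.ext a1 a3) (Prod.ext a2 a4)
    · obtain ⟨a1, a2⟩ := hne h1
      obtain ⟨a3, a4⟩ := hne h2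
      have := (hmemT i hi).1
      rw [a1, a3] at this
      exact absurd (this.trans (hmemT j hj).1) (lt_irrefl _)

end Vale.Agent.P040.Gen
end

section

/-!
# Every drawing can be uncrossed at all vertices without increasing the number of crossings
-/

namespace Vale.Agent.P040.Unc

open Set Filter Topology

theorem surgery {S T : Set Plane} {x a b : Plane} (hS : IsArc S x a) (hT : IsArc T x b)
    (ha : a ∉ T) (hb : b ∉ S) (hfin : (S ∩ T).Finite)
    (hcross : ∀ y ∈ S, y ∈ T → y ≠ x → CrossAt S T y) (hne : ∃ y ∈ S, y ∈ T ∧ y ≠ x)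
    {O : Set Plane} (hO : IsOpen O) (hSTO : ∀ y ∈ S, y ∈ T → y ≠ x → y ∈ O) (hxO : x ∉ O)
    (haO : a ∉ O) (hbO : b ∉ O) :
    ∃ S' T' N : Set Plane, ∃ p, Surg S T x a b O S' T' N p := by
  obtain ⟨γ, hγ, hγi, hγ0, hγ1, rfl⟩ := hS
  obtain ⟨δ, hδ, hδi, hδ0, hδ1, rfl⟩ := hT
  subst hγ0
  subst hγ1
  subst hδ1
  -- the first point of `S` on `T`
  have hA : {s ∈ Icc (0 : ℝ) 1 | γ s ∈ δ '' Icc 0 1 ∧ γ s ≠ γ 0}.Finite := by
    apply Set.Finite.of_finite_image (f := γ)
    · apply hfin.subset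
      rintro y ⟨s, ⟨hs, h2, -⟩, rfl⟩
      exact ⟨⟨s, hs, rfl⟩, h2⟩
    · exact hγi.mono fun s hs => hs.1
  have hAne : {s ∈ Icc (0 : ℝ) 1 | γ s ∈ δ '' Icc 0 1 ∧ γ s ≠ γ 0}.Nonempty := by
    obtain ⟨y, ⟨s, hs, rfl⟩, h2, h3⟩ := hne
    exact ⟨s, hs, h2, h3⟩
  obtain ⟨sp, ⟨hsp, hspT, hspx⟩, hmin⟩ := Set.exists_min_image _ id hA hAne
  have hpO : γ sp ∈ O := hSTO _ ⟨sp, hsp, rfl⟩ hspT hspx
  obtain ⟨tp, htp, hpt⟩ := hspT
  have hsp0 : 0 < sp := by
    rcases hsp.1.eq_or_lt with e | e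
    · exact absurd (by rw [e]) hspx
    · exact e
  have hsp1 : sp < 1 := by
    rcases hsp.2.eq_or_lt with e | e
    · rw [e] at hpt
      exact absurd ⟨tp, htp, hpt⟩ ha
    · exact e
  have htp0 : 0 < tp := by
    rcases htp.1.eq_or_lt with e | e
    · rw [← e, hδ0] at hpt
      exact absurd hpt.symm hspx
    · exact e
  have htp1 : tp < 1 := by
    rcases htp.2.eq_or_lt with e | e
    · rw [e] at hpt
      exact absurd ⟨sp, hsp, hpt.symm⟩ hb
    · exact e
  have P1 : ∀ s, 0 < s → s < sp → γ s ∉ δ '' Icc 0 1 := by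
    intro s h1 h2 h3
    have hs : s ∈ Icc (0 : ℝ) 1 := ⟨h1.le, by linarith only [hsp1, h2]⟩
    have := hmin s ⟨hs, h3, fun h => h1.ne' (hγi hs (by simp only [mem_Icc, Std.le_refl, zero_le_one, and_self]) h)⟩
    simp only [id] at this
    linarith only [h2, this]
  -- the last point of `S` on the beginning of `T`
  have hB : {s ∈ Icc (0 : ℝ) 1 | γ s ∈ δ '' Icc 0 tp ∧ γ s ≠ γ 0}.Finite := by
    apply hA.subset
    rintro s ⟨hs, h2, h3⟩
    exact ⟨hs, image_mono (Icc_subset_Icc_right htp.2) h2, h3⟩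
  obtain ⟨sq, ⟨hsq, hsqT, hsqx⟩, hmax⟩ := Set.exists_max_image _ id hB
    ⟨sp, hsp, ⟨tp, ⟨htp.1, le_rfl⟩, hpt⟩, hspx⟩
  obtain ⟨tq, htq, hqt⟩ := hsqT
  have hspq : sp ≤ sq := hmax sp ⟨hsp, ⟨tp, ⟨htp.1, le_rfl⟩, hpt⟩, hspx⟩
  have P2 : ∀ s, sq < s → s ≤ 1 → γ s ∉ δ '' Icc 0 tp := by
    intro s h1 h2 h3
    have hs : s ∈ Icc (0 : ℝ) 1 := ⟨by linarith [hsq.1], h2⟩
    have := hmax s ⟨hs, h3, fun h => (by linarith [hsq.1] : s ≠ 0) (hγi hs (by simp only [mem_Icc, Std.le_refl, zero_le_one, and_self]) h)⟩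
    simp only [id] at this
    linarith only [h1, this]
  have htq0 : 0 < tq := by
    rcases htq.1.eq_or_lt with e | e
    · rw [← e, hδ0] at hqt
      exact absurd hqt.symm hsqx
    · exact e
  have hsq1 : sq < 1 := by
    rcases hsq.2.eq_or_lt with e | e
    · rw [e] at hqt
      exact absurd ⟨tq, ⟨htq.1, by linarith only [htp1, htq.2]⟩, hqt⟩ ha
    · exact e
  rcases hspq.eq_or_lt with hpq | hpq
  · -- the same point
    subst hpq
    obtain ⟨ε, hε, H, h, k, a1, a2, a3, a4, a5, a6, a7, a8, a9, a10⟩ :=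
      oriented_chart hγ hγi hδ hδi
        (hcross _ ⟨sp, hsp, rfl⟩ ⟨tp, htp, hpt⟩ hspx) hO hpO
    exact ⟨_, _, _, _, surgery_eq hγ hγi hδ hδi hδ0 ha hb hsp0 hsp1 htp0 htp1 hpt.symm P1 P2 hε
      a1 a2 a3 a4 a5 a6 a7 a8 a9 a10 hxO haO hbO⟩
  · have htqp : tq < tp := by
      rcases htq.2.eq_or_lt with e | e
      · exfalso
        rw [e, hpt] at hqt
        exact hpq.ne (hγi hsp hsq hqt)
      · exact e
    exact ⟨_, _, _, _, surgery_ne hγ hγi hδ hδi hδ0 ha hb hsp0 hpq hsq1 htq0 htqp htp1 hpt.symm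
      hqt.symm P1 P2 O⟩

end Vale.Agent.P040.Unc

namespace Vale.Agent.P040.Drawing

open Set Filter Topology Unc

variable {V : Type} {G : SimpleGraph V}

/-- Replacing the arcs of a drawing. -/
theorem replace [Finite V] (D : Drawing G) (arc' : Sym2 V → Set Plane)
    (hArc : ∀ u v, G.Adj u v → IsArc (arc' s(u, v)) (D.pos u) (D.pos v))
    (havoid : ∀ e ∈ G.edgeSet, ∀ w, D.pos w ∈ arc' e → w ∈ e)
    (hH : ∀ y, y ∉ range D.pos →
      (∀ e ∈ G.edgeSet, ∀ f ∈ G.edgeSet, y ∈ arc' e → y ∈ arc' f → e = f) ∨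
      ∃ σ : Sym2 V → Sym2 V, (∀ e ∈ G.edgeSet, σ e ∈ G.edgeSet) ∧ InjOn σ G.edgeSet ∧
        ∀ e ∈ G.edgeSet, y ∈ arc' e → Germ (arc' e) (D.arc (σ e)) y)
    {p : Plane} (hp : p ∈ D.crossingSet)
    (hp' : ∀ e ∈ G.edgeSet, ∀ f ∈ G.edgeSet, e ≠ f → p ∈ arc' e → p ∉ arc' f) :
    ∃ D' : Drawing G, D'.crossings < D.crossings := by
  have key : ∀ e ∈ G.edgeSet, ∀ f ∈ G.edgeSet, e ≠ f → ∀ y, y ∉ range D.pos → y ∈ arc' e →
      y ∈ arc' f → ∃ σ : Sym2 V → Sym2 V, (∀ e ∈ G.edgeSet, σ e ∈ G.edgeSet) ∧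
        InjOn σ G.edgeSet ∧ ∀ e ∈ G.edgeSet, y ∈ arc' e → Germ (arc' e) (D.arc (σ e)) y := by
    intro e he f hf hef y hy hye hyf
    rcases hH y hy with h | h
    · exact absurd (h e he f hf hye hyf) hef
    · exact h
  have key2 : ∀ e ∈ G.edgeSet, ∀ f ∈ G.edgeSet, e ≠ f → ∀ y, y ∉ range D.pos → y ∈ arc' e →
      y ∈ arc' f → y ∈ D.crossingSet := by
    intro e he f hf hef y hy hye hyf
    obtain ⟨σ, h1, h2, h3⟩ := key e he f hf hef y hy hye hyf
    exact ⟨hy, σ e, h1 e he, σ f, h1 f hf, fun h => hef (h2 he hf h), (h3 e he hye).mem.1 hye,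
      (h3 f hf hyf).mem.1 hyf⟩
  let D' : Drawing G :=
    { pos := D.pos
      pos_inj := D.pos_inj
      arc := arc'
      isArc := hArc
      avoid := havoid
      finite := by
        intro e he f hf hef
        apply D.crossingSet_finite.subset
        rintro y ⟨⟨h1, h2⟩, h3, -⟩
        exact key2 e he f hf hef y h2 h1 h3
      proper := by
        rintro e he f hf hef y ⟨⟨h1, h2⟩, h3, -⟩
        obtain ⟨σ, k1, k2, k3⟩ := key e he f hf hef y h2 h1 h3
        exact (D.proper (σ e) (k1 e he) (σ f) (k1 f hf) (fun h => hef (k2 he hf h)) y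
          ⟨⟨(k3 e he h1).mem.1 h1, h2⟩, (k3 f hf h3).mem.1 h3, h2⟩).germ (k3 e he h1) (k3 f hf h3)
      two := by
        intro e he f hf g hg hef heg hfg y hy h1 h2 h3
        obtain ⟨σ, k1, k2, k3⟩ := key e he f hf hef y hy h1 h2
        exact D.two (σ e) (k1 e he) (σ f) (k1 f hf) (σ g) (k1 g hg) (fun h => hef (k2 he hf h))
          (fun h => heg (k2 he hg h)) (fun h => hfg (k2 hf hg h)) y hy
          ((k3 e he h1).mem.1 h1) ((k3 f hf h2).mem.1 h2) ((k3 g hg h3).mem.1 h3) }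
  refine ⟨D', ?_⟩
  have hsub : D'.crossingSet ⊆ D.crossingSet \ {p} := by
    rintro y ⟨hy, e, he, f, hf, hef, h1, h2⟩
    refine ⟨key2 e he f hf hef y hy h1 h2, ?_⟩
    rintro rfl
    exact hp' e he f hf hef h1 h2
  calc D'.crossings = D'.crossingSet.ncard := rfl
    _ ≤ (D.crossingSet \ {p}).ncard := ncard_le_ncard hsub (D.crossingSet_finite.sdiff)
    _ < D.crossingSet.ncard := ncard_sdiff_singleton_lt_of_mem hp D.crossingSet_finite

/-- If two edges with a common end cross, then the number of crossings can be reduced. -/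
theorem reduce [Finite V] (D : Drawing G) {v a b : V} (hva : G.Adj v a) (hvb : G.Adj v b)
    (hab : a ≠ b) {y : Plane} (hy1 : y ∈ D.arc s(v, a)) (hy2 : y ∈ D.arc s(v, b))
    (hy : y ≠ D.pos v) : ∃ D' : Drawing G, D'.crossings < D.crossings := by
  classical
  have e1 : s(v, a) ∈ G.edgeSet := hva
  have e2 : s(v, b) ∈ G.edgeSet := hvb
  have hva' : v ≠ a := hva.ne
  have hvb' : v ≠ b := hvb.ne
  have e12 : s(v, a) ≠ s(v, b) := by
    intro h
    rw [Sym2.eq_iff] at h
    rcases h with h | h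
    · exact hab h.2
    · exact hvb' h.1
  have hab' : D.pos a ∉ D.arc s(v, b) := by
    intro h
    have := D.avoid _ e2 a h
    rw [Sym2.mem_iff] at this
    rcases this with h | h
    · exact hva' h.symm
    · exact hab h
  have hba' : D.pos b ∉ D.arc s(v, a) := by
    intro h
    have := D.avoid _ e1 b h
    rw [Sym2.mem_iff] at this
    rcases this with h | h
    · exact hvb' h.symm
    · exact hab h.symm
  have hrange : ∀ z ∈ D.arc s(v, a), z ∈ D.arc s(v, b) → z ≠ D.pos v → z ∉ range D.pos := by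
    rintro z h1 h2 h3 ⟨w, rfl⟩
    have k1 := D.avoid _ e1 w h1
    have k2 := D.avoid _ e2 w h2
    rw [Sym2.mem_iff] at k1 k2
    rcases k1 with rfl | rfl
    · exact h3 rfl
    · rcases k2 with h | h
      · exact hva' h.symm
      · exact hab h
  have hfin : (D.arc s(v, a) ∩ D.arc s(v, b)).Finite := by
    apply ((D.finite _ e1 _ e2 e12).insert (D.pos v)).subset
    rintro z ⟨h1, h2⟩
    by_cases h3 : z = D.pos v
    · exact Or.inl h3
    · exact Or.inr ⟨⟨h1, hrange z h1 h2 h3⟩, h2, hrange z h1 h2 h3⟩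
  -- the complement of the other edges and of the vertices
  set F : Set Plane := (⋃ e ∈ {e | e ∈ G.edgeSet ∧ e ≠ s(v, a) ∧ e ≠ s(v, b)}, D.arc e) ∪
    range D.pos with hF
  have hFc : IsClosed F := by
    apply IsClosed.union
    · apply Set.Finite.isClosed_biUnion (Set.toFinite _)
      rintro e ⟨he, -⟩
      induction e using Sym2.ind with
      | _ u w => exact (D.isArc u w he).isClosed
    · exact (Set.finite_range D.pos).isClosed
  have hO : ∀ z ∈ D.arc s(v, a), z ∈ D.arc s(v, b) → z ≠ D.pos v → z ∈ Fᶜ := by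
    intro z h1 h2 h3 h4
    have hz := hrange z h1 h2 h3
    rcases h4 with h4 | h4
    · simp only [mem_iUnion] at h4
      obtain ⟨e, ⟨he, hne1, hne2⟩, hze⟩ := h4
      exact D.two _ e1 _ e2 _ he e12 (Ne.symm hne1) (Ne.symm hne2) z hz h1 h2 hze
    · exact hz h4
  obtain ⟨S', T', N, p, hs⟩ := surgery (D.isArc v a hva) (D.isArc v b hvb) hab' hba' hfin
    (fun z h1 h2 h3 => D.proper _ e1 _ e2 e12 z ⟨⟨h1, hrange z h1 h2 h3⟩, h2, hrange z h1 h2 h3⟩)
    ⟨y, hy1, hy2, hy⟩ hFc.isOpen_compl hO (fun h => h (Or.inr ⟨v, rfl⟩))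
    (fun h => h (Or.inr ⟨a, rfl⟩)) (fun h => h (Or.inr ⟨b, rfl⟩))
  have hNpos : ∀ w, D.pos w ∉ N := fun w h => hs.subN h (Or.inr ⟨w, rfl⟩)
  have hNoth : ∀ e ∈ G.edgeSet, e ≠ s(v, a) → e ≠ s(v, b) → ∀ z ∈ D.arc e, z ∉ N := by
    intro e he h1 h2 z hz hzN
    apply hs.subN hzN
    left
    simp only [mem_iUnion]
    exact ⟨e, ⟨he, h1, h2⟩, hz⟩
  -- a point on both old arcs lies on no other arc
  have hboth : ∀ z ∈ D.arc s(v, a), z ∈ D.arc s(v, b) → z ∉ range D.pos →
      ∀ e ∈ G.edgeSet, z ∈ D.arc e → e = s(v, a) ∨ e = s(v, b) := by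
    intro z h1 h2 h3 e he hz
    by_contra hcon
    push Not at hcon
    exact D.two _ e1 _ e2 _ he e12 (Ne.symm hcon.1) (Ne.symm hcon.2) z h3 h1 h2 hz
  set arc' : Sym2 V → Set Plane := fun e =>
    if e = s(v, a) then S' else if e = s(v, b) then T' else D.arc e with harc'
  have A1 : arc' s(v, a) = S' := by simp [harc']
  have A2 : arc' s(v, b) = T' := by simp [harc', Ne.symm e12]
  have A3 : ∀ e, e ≠ s(v, a) → e ≠ s(v, b) → arc' e = D.arc e := by
    intro e h1 h2; simp [harc', h1, h2]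
  have hpr : p ∉ range D.pos := hrange p hs.pS hs.pT hs.px
  refine D.replace arc' ?_ ?_ ?_ (p := p) ⟨hpr, _, e1, _, e2, e12, hs.pS, hs.pT⟩ ?_
  · -- arcs
    intro u w huw
    by_cases h1 : s(u, w) = s(v, a)
    · rw [h1, A1]
      rw [Sym2.eq_iff] at h1
      rcases h1 with ⟨rfl, rfl⟩ | ⟨rfl, rfl⟩
      · exact hs.arcS
      · exact hs.arcS.symm
    · by_cases h2 : s(u, w) = s(v, b)
      · rw [h2, A2]
        rw [Sym2.eq_iff] at h2
        rcases h2 with ⟨rfl, rfl⟩ | ⟨rfl, rfl⟩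
        · exact hs.arcT
        · exact hs.arcT.symm
      · rw [A3 _ h1 h2]
        exact D.isArc u w huw
  · -- vertices
    intro e he w hw
    by_cases h1 : e = s(v, a)
    · subst h1
      rw [A1] at hw
      have hwb : w ≠ b := fun h => hs.bS (h ▸ hw)
      rcases hs.germS _ hw (hNpos w) with h | h | h
      · exact D.avoid _ e1 w h.1
      · exact D.avoid _ e1 w (h.mem.1 hw)
      · have := D.avoid _ e2 w (h.mem.1 hw)
        rw [Sym2.mem_iff] at this ⊢
        exact Or.inl (this.resolve_right hwb)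
    · by_cases h2 : e = s(v, b)
      · subst h2
        rw [A2] at hw
        have hwa : w ≠ a := fun h => hs.aT (h ▸ hw)
        rcases hs.germT _ hw (hNpos w) with h | h | h
        · exact D.avoid _ e2 w h.2
        · have := D.avoid _ e1 w (h.mem.1 hw)
          rw [Sym2.mem_iff] at this ⊢
          exact Or.inl (this.resolve_right hwa)
        · exact D.avoid _ e2 w (h.mem.1 hw)
      · rw [A3 _ h1 h2] at hw
        exact D.avoid _ he w hw
  · -- germs
    intro z hz
    have id_ok : ((z ∈ S' → Germ S' (D.arc s(v, a)) z) ∧ (z ∈ T' → Germ T' (D.arc s(v, b)) z)) →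
        ∃ σ : Sym2 V → Sym2 V, (∀ e ∈ G.edgeSet, σ e ∈ G.edgeSet) ∧ InjOn σ G.edgeSet ∧
        ∀ e ∈ G.edgeSet, z ∈ arc' e → Germ (arc' e) (D.arc (σ e)) z := by
      rintro ⟨h1, h2⟩
      refine ⟨id, fun e he => he, injOn_id _, ?_⟩
      intro e he hze
      by_cases k1 : e = s(v, a)
      · subst k1
        rw [A1] at hze ⊢
        exact h1 hze
      · by_cases k2 : e = s(v, b)
        · subst k2
          rw [A2] at hze ⊢
          exact h2 hze
        · rw [A3 _ k1 k2]
          exact Germ.refl _ _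
    have swap_ok : ((z ∈ S' → Germ S' (D.arc s(v, b)) z) ∧ (z ∈ T' → Germ T' (D.arc s(v, a)) z)) →
        ∃ σ : Sym2 V → Sym2 V, (∀ e ∈ G.edgeSet, σ e ∈ G.edgeSet) ∧ InjOn σ G.edgeSet ∧
        ∀ e ∈ G.edgeSet, z ∈ arc' e → Germ (arc' e) (D.arc (σ e)) z := by
      rintro ⟨h1, h2⟩
      refine ⟨Equiv.swap s(v, a) s(v, b), ?_, (Equiv.injective _).injOn, ?_⟩
      · intro e he
        by_cases k1 : e = s(v, a)
        · subst k1; rw [Equiv.swap_apply_left]; exact e2
        · by_cases k2 : e = s(v, b)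
          · subst k2; rw [Equiv.swap_apply_right]; exact e1
          · rw [Equiv.swap_apply_of_ne_of_ne k1 k2]; exact he
      intro e he hze
      by_cases k1 : e = s(v, a)
      · subst k1
        rw [A1] at hze ⊢
        rw [Equiv.swap_apply_left]
        exact h1 hze
      · by_cases k2 : e = s(v, b)
        · subst k2
          rw [A2] at hze ⊢
          rw [Equiv.swap_apply_right]
          exact h2 hze
        · rw [A3 _ k1 k2, Equiv.swap_apply_of_ne_of_ne k1 k2]
          exact Germ.refl _ _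
    -- if no other edge passes through `z` and `z` is not on both new arcs, at most one edge does
    have one : ¬ (z ∈ S' ∧ z ∈ T') →
        (∀ e ∈ G.edgeSet, e ≠ s(v, a) → e ≠ s(v, b) → z ∉ D.arc e) →
        ∀ e ∈ G.edgeSet, ∀ f ∈ G.edgeSet, z ∈ arc' e → z ∈ arc' f → e = f := by
      intro h1 h2 e he f hf hze hzf
      by_cases k1 : e = s(v, a)
      · subst k1
        rw [A1] at hze
        by_cases l1 : f = s(v, a)
        · exact l1.symm
        · by_cases l2 : f = s(v, b)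
          · subst l2
            rw [A2] at hzf
            exact absurd ⟨hze, hzf⟩ h1
          · rw [A3 _ l1 l2] at hzf
            exact absurd hzf (h2 f hf l1 l2)
      · by_cases k2 : e = s(v, b)
        · subst k2
          rw [A2] at hze
          by_cases l1 : f = s(v, a)
          · subst l1
            rw [A1] at hzf
            exact absurd ⟨hzf, hze⟩ h1
          · by_cases l2 : f = s(v, b)
            · exact l2.symm
            · rw [A3 _ l1 l2] at hzf
              exact absurd hzf (h2 f hf l1 l2)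
        · rw [A3 _ k1 k2] at hze
          exact absurd hze (h2 e he k1 k2)
    by_cases hST : z ∈ S' ∧ z ∈ T'
    · right
      rcases hs.inter z hST.1 hST.2 with h | ⟨-, h1, h2⟩
      · exact absurd ⟨v, h.symm⟩ hz
      · exact id_ok ⟨fun _ => h1, fun _ => h2⟩
    · by_cases hzN : z ∈ N
      · left
        exact one hST fun e he h1 h2 h3 => hNoth e he h1 h2 z h3 hzN
      · by_cases hzS : z ∈ S'
        · have hzT : z ∉ T' := fun h => hST ⟨hzS, h⟩
          rcases hs.germS z hzS hzN with h | h | h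
          · left
            refine one hST fun e he h1 h2 h3 => ?_
            rcases hboth z h.1 h.2 hz e he h3 with h4 | h4
            · exact h1 h4
            · exact h2 h4
          · right
            exact id_ok ⟨fun _ => h, fun h => absurd h hzT⟩
          · right
            exact swap_ok ⟨fun _ => h, fun h => absurd h hzT⟩
        · by_cases hzT : z ∈ T'
          · rcases hs.germT z hzT hzN with h | h | h
            · left
              refine one hST fun e he h1 h2 h3 => ?_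
              rcases hboth z h.1 h.2 hz e he h3 with h4 | h4
              · exact h1 h4
              · exact h2 h4
            · right
              exact swap_ok ⟨fun h => absurd h hzS, fun _ => h⟩
            · right
              exact id_ok ⟨fun h => absurd h hzS, fun _ => h⟩
          · right
            exact id_ok ⟨fun h => absurd h hzS, fun h => absurd h hzT⟩
  · -- the point `p`
    intro e he f hf hef h1 h2
    have hnot : ¬ (p ∈ S' ∧ p ∈ T') := by
      rintro ⟨k1, k2⟩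
      rcases hs.inter p k1 k2 with h | h
      · exact hs.px h
      · exact h.1 rfl
    by_cases k1 : e = s(v, a)
    · subst k1
      rw [A1] at h1
      by_cases l2 : f = s(v, b)
      · subst l2
        rw [A2] at h2
        exact hnot ⟨h1, h2⟩
      · rw [A3 _ (Ne.symm hef) l2] at h2
        rcases hboth p hs.pS hs.pT hpr f hf h2 with h | h
        · exact hef h.symm
        · exact l2 h
    · by_cases k2 : e = s(v, b)
      · subst k2
        rw [A2] at h1
        by_cases l1 : f = s(v, a)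
        · subst l1
          rw [A1] at h2
          exact hnot ⟨h2, h1⟩
        · rw [A3 _ l1 (Ne.symm hef)] at h2
          rcases hboth p hs.pS hs.pT hpr f hf h2 with h | h
          · exact l1 h
          · exact hef h.symm
      · rw [A3 _ k1 k2] at h1
        rcases hboth p hs.pS hs.pT hpr e he h1 with h | h
        · exact k1 h
        · exact k2 h

/-- Every drawing can be changed, without increasing the number of crossings, so that two edges
with a common end meet only there. -/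
theorem uncross_gen [Finite V] (D : Drawing G) : ∃ D' : Drawing G, D'.crossings ≤ D.crossings ∧
    ∀ v a b, G.Adj v a → G.Adj v b → a ≠ b → ∀ p ∈ D'.arc s(v, a), p ∈ D'.arc s(v, b) →
      p = D'.pos v := by
  induction hn : D.crossings using Nat.strong_induction_on generalizing D with
  | _ n ih =>
    by_cases h : ∀ v a b, G.Adj v a → G.Adj v b → a ≠ b → ∀ p ∈ D.arc s(v, a),
        p ∈ D.arc s(v, b) → p = D.pos v
    · exact ⟨D, hn.le, h⟩
    · push Not at h
      obtain ⟨v, a, b, h1, h2, h3, p, h4, h5, h6⟩ := h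
      obtain ⟨D', hD'⟩ := D.reduce h1 h2 h3 h4 h5 h6
      obtain ⟨D'', k1, k2⟩ := ih D'.crossings (hn ▸ hD') D' rfl
      exact ⟨D'', by omega, k2⟩

/-- Every drawing of `K_{m,n}` can be uncrossed without increasing the number of crossings. -/
theorem uncross {m n : ℕ} (D : Drawing (K m n)) :
    ∃ D' : Drawing (K m n), D'.Uncrossed ∧ D'.crossings ≤ D.crossings := by
  obtain ⟨D', h1, h2⟩ := D.uncross_gen
  refine ⟨D', ?_, h1⟩
  intro a b b' hbb p hp hp'
  exact h2 (Sum.inl a) (Sum.inr b) (Sum.inr b') (by simp) (by simp)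
    (fun h => hbb (Sum.inr_injective h)) p hp hp'

end Vale.Agent.P040.Drawing
end

section

/-!
# A lower bound for the crossing number of complete bipartite graphs
-/

namespace Vale.Agent.P040.Gen

open Finset

section

variable {n : ℕ}

/-- The function of a cyclic order which defines the circulation. -/
noncomputable def gv (ρ : Equiv.Perm (Fin n)) (b k : Fin n) : ℝ := gcl (av ρ b k)

theorem gv_anti (ρ : Equiv.Perm (Fin n)) (b k : Fin n) : gv ρ k b = - gv ρ b k := by
  unfold gv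
  rw [av_anti, gcl_neg]

theorem gv_row (ρ : Equiv.Perm (Fin n)) (b : Fin n) : ∑ k, gv ρ b k = 0 :=
  row_odd ρ gcl_neg b

theorem diag_le (h : ℕ) (ρ : Equiv.Perm (Fin (2 * h + 1))) :
    ∑ b, ∑ k, (av ρ b k + av ρ b k) * (gv ρ b k + gv ρ b k) ≤ 4 * (h : ℝ) ^ 2 := by
  have h1 : ∀ b, ∑ k, (av ρ b k + av ρ b k) * (gv ρ b k + gv ρ b k) ≤
      2 * ∑ j ∈ Finset.Ico 1 (2 * h + 1), |1 - 2 * j / ((2 * h + 1 : ℕ) : ℝ)| := by
    intro b
    calc ∑ k, (av ρ b k + av ρ b k) * (gv ρ b k + gv ρ b k) ≤ ∑ k, 2 * |av ρ b k| := by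
          apply Finset.sum_le_sum
          intro k _
          have := mul_gcl_le (av ρ b k)
          unfold gv
          nlinarith only [this]
      _ = 2 * ∑ k, |av ρ b k| := by rw [Finset.mul_sum]
      _ = _ := by rw [row_sum ρ (fun u => |u|) b, abs_zero, zero_add]
  calc ∑ b, ∑ k, (av ρ b k + av ρ b k) * (gv ρ b k + gv ρ b k)
      ≤ ∑ _b : Fin (2 * h + 1), 2 * ∑ j ∈ Finset.Ico 1 (2 * h + 1),
        |1 - 2 * j / ((2 * h + 1 : ℕ) : ℝ)| := Finset.sum_le_sum fun b _ => h1 b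
    _ = 4 * (h : ℝ) ^ 2 := by
      rw [Finset.sum_const, Finset.card_univ, Fintype.card_fin, nsmul_eq_mul]
      have := abs_sum h
      push_cast at this ⊢
      linarith

theorem psi_total (h : ℕ) (ρ : Equiv.Perm (Fin (2 * h + 1))) :
    5429 / 2880 * (h : ℝ) ^ 2 - h - 5 ≤ ∑ b, ∑ k, psi (av ρ b k) := by
  have h1 : ∀ b, ∑ k, psi (av ρ b k) =
      ∑ j ∈ Finset.Ico 1 (2 * h + 1), psi (1 - 2 * j / ((2 * h + 1 : ℕ) : ℝ)) := by
    intro b
    rw [row_sum, psi_zero, zero_add]
  rw [Finset.sum_congr rfl (fun b _ => h1 b), Finset.sum_const, Finset.card_univ,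
    Fintype.card_fin, nsmul_eq_mul]
  have := psi_sum h
  push_cast at this ⊢
  exact this

end

/-- The lower bound for the sum of the pairs of stars. -/
theorem total_ge {m h : ℕ} (ρ : Fin m → Equiv.Perm (Fin (2 * h + 1))) :
    (m : ℝ) ^ 2 * (5429 / 2880 * (h : ℝ) ^ 2 - h - 5) ≤
      ∑ x, ∑ y, ∑ b, ∑ k, (av (ρ x) b k + av (ρ y) b k) * (gv (ρ x) b k + gv (ρ y) b k) := by
  have h1 : ∑ x, ∑ y, ∑ b, ∑ k, (av (ρ x) b k + av (ρ y) b k) * (gv (ρ x) b k + gv (ρ y) b k) =
      ∑ b, ∑ k, ∑ x, ∑ y, (av (ρ x) b k + av (ρ y) b k) * (gv (ρ x) b k + gv (ρ y) b k) := by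
    calc _ = ∑ x, ∑ b, ∑ y, ∑ k, (av (ρ x) b k + av (ρ y) b k) *
          (gv (ρ x) b k + gv (ρ y) b k) := Finset.sum_congr rfl fun x _ => Finset.sum_comm
      _ = ∑ b, ∑ x, ∑ y, ∑ k, (av (ρ x) b k + av (ρ y) b k) *
          (gv (ρ x) b k + gv (ρ y) b k) := Finset.sum_comm
      _ = ∑ b, ∑ x, ∑ k, ∑ y, (av (ρ x) b k + av (ρ y) b k) *
          (gv (ρ x) b k + gv (ρ y) b k) := Finset.sum_congr rfl fun b _ =>
            Finset.sum_congr rfl fun x _ => Finset.sum_comm
      _ = _ := Finset.sum_congr rfl fun b _ => Finset.sum_comm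
  rw [h1]
  have h2 : ∀ b k, (m : ℝ) * ∑ x, psi (av (ρ x) b k) ≤
      ∑ x, ∑ y, (av (ρ x) b k + av (ρ y) b k) * (gv (ρ x) b k + gv (ρ y) b k) := by
    intro b k
    exact quad (fun x => av (ρ x) b k) (fun x => gv (ρ x) b k)
  calc (m : ℝ) ^ 2 * (5429 / 2880 * (h : ℝ) ^ 2 - h - 5)
      = m * ∑ _x : Fin m, (5429 / 2880 * (h : ℝ) ^ 2 - h - 5) := by
        rw [Finset.sum_const, Finset.card_univ, Fintype.card_fin, nsmul_eq_mul]
        ring
    _ ≤ m * ∑ x, ∑ b, ∑ k, psi (av (ρ x) b k) :=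
        mul_le_mul_of_nonneg_left (Finset.sum_le_sum fun x _ => psi_total h (ρ x))
          (Nat.cast_nonneg m)
    _ = ∑ b, ∑ k, (m : ℝ) * ∑ x, psi (av (ρ x) b k) := by
        rw [Finset.sum_comm, Finset.mul_sum]
        apply Finset.sum_congr rfl
        intro b _
        rw [Finset.sum_comm, Finset.mul_sum]
    _ ≤ _ := Finset.sum_le_sum fun b _ => Finset.sum_le_sum fun k _ => h2 b k

/-- The lower bound for drawings without crossings of adjacent edges. -/
theorem uncrossed_bound {m n : ℕ} (D : Drawing (K m n)) (hU : D.Uncrossed) {h : ℕ}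
    (hn : 2 * h + 1 ≤ n) :
    (m : ℝ) ^ 2 * (5429 / 2880 * (h : ℝ) ^ 2 - h - 5) - 4 * m * (h : ℝ) ^ 2 ≤
      8 * (D.crossings : ℝ) := by
  classical
  obtain ⟨α, hα, hpair⟩ := exists_rotation D hU
  set ι : Fin (2 * h + 1) → Fin n := Fin.castLE hn with hι
  have hιi : Function.Injective ι := Fin.castLE_injective hn
  have hβ : ∀ x b b', b ≠ b' → ∀ k : ℤ, α x (ι b') - α x (ι b) ≠ k := fun x b b' hbb =>
    hα x _ _ (fun hc => hbb (hιi hc))
  have hrank : ∀ x, ∃ ρ : Equiv.Perm (Fin (2 * h + 1)), ∀ b k,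
      ρ b < ρ k ↔ Int.fract (α x (ι b)) < Int.fract (α x (ι k)) := by
    intro x
    apply exists_rank (β := fun b => Int.fract (α x (ι b)))
    intro b k hbk
    by_contra hne
    have hbk : Int.fract (α x (ι b)) = Int.fract (α x (ι k)) := hbk
    rw [Int.fract_eq_fract] at hbk
    obtain ⟨z, hz⟩ := hbk
    exact hβ x k b (Ne.symm hne) z hz
  choose ρ hρ using hrank
  -- the numbers of crossings
  let A : Fin m → Fin m → Fin n → Fin n → ℕ := fun x y b k =>
    (D.arc s(.inl x, .inr b) ∩ D.arc s(.inl y, .inr k)).ncard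
  let S : Fin m → Fin m → ℕ := fun x y =>
    ∑ q ∈ Finset.univ.filter (fun q : Fin n × Fin n => q.1 ≠ q.2), A x y q.1 q.2
  have hAsymm : ∀ x y b k, A x y b k = A y x k b := fun x y b k => by
    simp only [A]; rw [Set.inter_comm]
  have hSsymm : ∀ x y, S x y = S y x := by
    intro x y
    have : S x y = ∑ q ∈ Finset.univ.filter (fun q : Fin n × Fin n => q.1 ≠ q.2),
        A y x q.2 q.1 := Finset.sum_congr rfl fun q _ => hAsymm x y q.1 q.2
    rw [this]
    exact Finset.sum_bij' (fun q _ => (q.2, q.1)) (fun q _ => (q.2, q.1))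
      (by intro q hq; simpa only [ne_eq, mem_filter, mem_univ, eq_comm, true_and] using hq) (by intro q hq; simpa only [ne_eq, mem_filter, mem_univ, eq_comm, true_and] using hq)
      (by intro q _; rfl) (by intro q _; rfl) (by intro q _; rfl)
  have hpairs : ∀ (f : Fin (2 * h + 1) → Fin (2 * h + 1) → ℕ),
      ∑ b, ∑ k ∈ Finset.univ.filter (fun k => b ≠ k), f b k =
      ∑ q ∈ Finset.univ.filter (fun q : Fin (2 * h + 1) × Fin (2 * h + 1) => q.1 ≠ q.2),
        f q.1 q.2 := by
    intro f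
    rw [Finset.sum_filter, Fintype.sum_prod_type]
    apply Finset.sum_congr rfl
    intro b _
    rw [Finset.sum_filter]
  have hsub : ∀ x y, ∑ b, ∑ k ∈ Finset.univ.filter (fun k => b ≠ k), A x y (ι b) (ι k) ≤
      S x y := by
    intro x y
    rw [hpairs]
    have hinj : Function.Injective
        (fun q : Fin (2 * h + 1) × Fin (2 * h + 1) => (ι q.1, ι q.2)) := by
      intro q q' hq
      have := Prod.ext_iff.1 hq
      exact Prod.ext (hιi this.1) (hιi this.2)
    have hse : ∑ q ∈ (Finset.univ.filter (fun q : Fin (2 * h + 1) × Fin (2 * h + 1) =>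
        q.1 ≠ q.2)).image (fun q => (ι q.1, ι q.2)), A x y q.1 q.2 =
        ∑ q ∈ Finset.univ.filter (fun q : Fin (2 * h + 1) × Fin (2 * h + 1) => q.1 ≠ q.2),
          A x y (ι q.1) (ι q.2) := Finset.sum_image (fun q _ q' _ hq => hinj hq)
    rw [← hse]
    apply Finset.sum_le_sum_of_subset
    intro q hq
    rw [Finset.mem_image] at hq
    obtain ⟨p, hp, rfl⟩ := hq
    simp only [Finset.mem_filter, Finset.mem_univ, true_and] at hp ⊢
    exact fun hc => hp (hιi hc)
  -- the pair inequality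
  have hW : ∀ x y, x ≠ y →
      ∑ b, ∑ k, (av (ρ x) b k + av (ρ y) b k) * (gv (ρ x) b k + gv (ρ y) b k) ≤
        4 * (S x y : ℝ) := by
    intro x y hxy
    obtain ⟨X, Y, c, c', hX, hY, hN⟩ := hpair x y hxy
    have h1 := dual (α := fun b => α x (ι b)) (α' := fun b => α y (ι b))
      (X := fun b => X (ι b)) (Y := fun b => Y (ι b)) (c := c) (c' := c')
      (N := fun b k => A x y (ι b) (ι k) + A x y (ι k) (ι b)) (ρ := ρ x) (ρ' := ρ y)
      (s := fun b k => gv (ρ x) b k + gv (ρ y) b k)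
      (hβ x) (hβ y) (fun b => hX (ι b)) (fun b => hY (ι b))
      (by
        intro b b' hbb
        have := hN (ι b) (ι b') (fun hc => hbb (hιi hc))
        simpa only [Nat.cast_add, ge_iff_le, A] using this)
      (hρ x) (hρ y)
      (by intro b k; rw [gv_anti (ρ x) b k, gv_anti (ρ y) b k]; ring)
      (by intro b; rw [Finset.sum_add_distrib, gv_row, gv_row, add_zero])
      (by
        intro b k
        calc |gv (ρ x) b k + gv (ρ y) b k| ≤ |gv (ρ x) b k| + |gv (ρ y) b k| := abs_add_le _ _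
          _ ≤ 1 / 2 + 1 / 2 := add_le_add (abs_gcl _) (abs_gcl _)
          _ = 1 := by norm_num)
    have h2 : ∑ b, ∑ k ∈ Finset.univ.filter (fun k => b ≠ k),
        (A x y (ι b) (ι k) + A x y (ι k) (ι b)) ≤ 2 * S x y := by
      have h3 : ∑ b, ∑ k ∈ Finset.univ.filter (fun k => b ≠ k), A x y (ι k) (ι b) ≤ S x y := by
        have h4 := hsub y x
        rw [hSsymm y x] at h4
        refine le_trans (le_of_eq ?_) h4
        apply Finset.sum_congr rfl
        intro b _
        apply Finset.sum_congr rfl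
        intro k _
        exact hAsymm x y _ _
      calc ∑ b, ∑ k ∈ Finset.univ.filter (fun k => b ≠ k),
          (A x y (ι b) (ι k) + A x y (ι k) (ι b))
          = ∑ b, ∑ k ∈ Finset.univ.filter (fun k => b ≠ k), A x y (ι b) (ι k) +
            ∑ b, ∑ k ∈ Finset.univ.filter (fun k => b ≠ k), A x y (ι k) (ι b) := by
            rw [← Finset.sum_add_distrib]
            apply Finset.sum_congr rfl
            intro b _
            rw [← Finset.sum_add_distrib]
        _ ≤ S x y + S x y := add_le_add (hsub x y) h3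
        _ = 2 * S x y := by ring
    have h3 : (∑ b, ∑ k ∈ Finset.univ.filter (fun k => b ≠ k),
        ((A x y (ι b) (ι k) + A x y (ι k) (ι b) : ℕ) : ℝ)) ≤ 2 * (S x y : ℝ) := by
      exact_mod_cast h2
    linarith only [h1, h3]
  -- the sum over all pairs
  have hS : 2 * ∑ p ∈ Finset.univ.filter (fun p : Fin m × Fin m => p.1 < p.2), S p.1 p.2 =
      ∑ p ∈ Finset.univ.filter (fun p : Fin m × Fin m => p.1 ≠ p.2), S p.1 p.2 := by
    have h1 : Finset.univ.filter (fun p : Fin m × Fin m => p.1 ≠ p.2) =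
        Finset.univ.filter (fun p : Fin m × Fin m => p.1 < p.2) ∪
        Finset.univ.filter (fun p : Fin m × Fin m => p.2 < p.1) := by
      ext p
      simp only [Finset.mem_filter, Finset.mem_univ, true_and, Finset.mem_union]
      exact lt_or_lt_iff_ne.symm
    rw [h1, Finset.sum_union]
    · have h2 : ∑ p ∈ Finset.univ.filter (fun p : Fin m × Fin m => p.2 < p.1), S p.1 p.2 =
          ∑ p ∈ Finset.univ.filter (fun p : Fin m × Fin m => p.1 < p.2), S p.1 p.2 := by
        refine Finset.sum_bij' (fun q _ => (q.2, q.1)) (fun q _ => (q.2, q.1))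
          ?_ ?_ ?_ ?_ ?_
        · intro q hq; simpa only [mem_filter, mem_univ, true_and] using hq
        · intro q hq; simpa only [mem_filter, mem_univ, true_and] using hq
        · intro q _; rfl
        · intro q _; rfl
        · intro q _; exact hSsymm q.1 q.2
      rw [h2]
      ring
    · rw [Finset.disjoint_left]
      intro p hp hp'
      simp only [Finset.mem_filter, Finset.mem_univ, true_and] at hp hp'
      exact absurd (hp.trans hp') (lt_irrefl _)
  have hc : ∑ p ∈ Finset.univ.filter (fun p : Fin m × Fin m => p.1 < p.2), S p.1 p.2 ≤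
      D.crossings := sum_pairs_le D
  have hc2 : (∑ p ∈ Finset.univ.filter (fun p : Fin m × Fin m => p.1 ≠ p.2), (S p.1 p.2 : ℝ)) ≤
      2 * (D.crossings : ℝ) := by
    have : ∑ p ∈ Finset.univ.filter (fun p : Fin m × Fin m => p.1 ≠ p.2), S p.1 p.2 ≤
        2 * D.crossings := by
      rw [← hS]
      exact Nat.mul_le_mul_left 2 hc
    exact_mod_cast this
  have htot := total_ge ρ
  set W : Fin m → Fin m → ℝ := fun x y =>
    ∑ b, ∑ k, (av (ρ x) b k + av (ρ y) b k) * (gv (ρ x) b k + gv (ρ y) b k) with hWd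
  have hsplit : ∑ x, ∑ y, W x y = ∑ x, W x x +
      ∑ p ∈ Finset.univ.filter (fun p : Fin m × Fin m => p.1 ≠ p.2), W p.1 p.2 := by
    rw [← Fintype.sum_prod_type (f := fun p : Fin m × Fin m => W p.1 p.2),
      ← Finset.sum_filter_add_sum_filter_not Finset.univ (fun p : Fin m × Fin m => p.1 = p.2)]
    congr 1
    symm
    refine Finset.sum_bij' (fun x _ => (x, x)) (fun p _ => p.1) ?_ ?_ ?_ ?_ ?_
    · intro x _; simp
    · intro p _; simp
    · intro x _; rfl
    · intro p hp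
      simp only [Finset.mem_filter, Finset.mem_univ, true_and] at hp
      exact Prod.ext rfl hp
    · intro x _; rfl
  have hdiag : ∑ x, W x x ≤ 4 * m * (h : ℝ) ^ 2 := by
    calc ∑ x, W x x ≤ ∑ _x : Fin m, 4 * (h : ℝ) ^ 2 :=
          Finset.sum_le_sum fun x _ => diag_le h (ρ x)
      _ = 4 * m * (h : ℝ) ^ 2 := by
          rw [Finset.sum_const, Finset.card_univ, Fintype.card_fin, nsmul_eq_mul]
          ring
  have hoff : ∑ p ∈ Finset.univ.filter (fun p : Fin m × Fin m => p.1 ≠ p.2), W p.1 p.2 ≤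
      4 * (2 * (D.crossings : ℝ)) := by
    calc ∑ p ∈ Finset.univ.filter (fun p : Fin m × Fin m => p.1 ≠ p.2), W p.1 p.2
        ≤ ∑ p ∈ Finset.univ.filter (fun p : Fin m × Fin m => p.1 ≠ p.2), 4 * (S p.1 p.2 : ℝ) := by
          apply Finset.sum_le_sum
          intro p hp
          exact hW p.1 p.2 (by simpa using hp)
      _ = 4 * ∑ p ∈ Finset.univ.filter (fun p : Fin m × Fin m => p.1 ≠ p.2),
          (S p.1 p.2 : ℝ) := by rw [Finset.mul_sum]
      _ ≤ 4 * (2 * (D.crossings : ℝ)) := by linarith only [hc2]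
  linarith only [htot, hsplit, hdiag, hoff]

/-- The lower bound for all drawings. -/
theorem bound {m n : ℕ} (D : Drawing (K m n)) {h : ℕ} (hn : 2 * h + 1 ≤ n) :
    (m : ℝ) ^ 2 * (5429 / 2880 * (h : ℝ) ^ 2 - h - 5) - 4 * m * (h : ℝ) ^ 2 ≤
      8 * (D.crossings : ℝ) := by
  obtain ⟨D', hU, hc⟩ := Drawing.uncross D
  have h1 := uncrossed_bound D' hU hn
  have h2 : (D'.crossings : ℝ) ≤ D.crossings := by exact_mod_cast hc
  linarith only [h1, h2]

theorem half_mul_le (m : ℕ) : ((m / 2 : ℕ) : ℝ) * (((m - 1) / 2 : ℕ) : ℝ) ≤ (m : ℝ) ^ 2 / 4 := by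
  have h1 : ((m / 2 : ℕ) : ℝ) ≤ m / 2 := Nat.cast_div_le
  have h2 : (((m - 1) / 2 : ℕ) : ℝ) ≤ m / 2 := by
    refine le_trans ?_ h1
    exact_mod_cast Nat.div_le_div_right (Nat.sub_le m 1)
  calc ((m / 2 : ℕ) : ℝ) * (((m - 1) / 2 : ℕ) : ℝ) ≤ (m / 2) * (m / 2) :=
        mul_le_mul h1 h2 (Nat.cast_nonneg _) (by (clear * -; positivity))
    _ = (m : ℝ) ^ 2 / 4 := by ring

/-- The asymptotic lower bound. -/
theorem asymptotic (ε : ℝ) (hε : 0 < ε) : ∃ N : ℕ, ∀ m n : ℕ, N ≤ m → N ≤ n →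
    ∀ D : Drawing (K m n), (5429 / 5760 - ε) * (zar m n : ℝ) ≤ D.crossings := by
  refine ⟨⌈16 / ε⌉₊ + 4, ?_⟩
  intro m n hm hn D
  rcases le_or_gt (5429 / 5760 - ε) 0 with hneg | hpos
  · have h1 : (5429 / 5760 - ε) * (zar m n : ℝ) ≤ 0 :=
      mul_nonpos_of_nonpos_of_nonneg hneg (Nat.cast_nonneg _)
    exact h1.trans (Nat.cast_nonneg _)
  obtain ⟨h, hh⟩ : ∃ h : ℕ, h = (n - 1) / 2 := ⟨_, rfl⟩
  have hb := bound D (h := h) (by omega)
  have hceil := Nat.le_ceil (16 / ε)
  have hmr : 16 / ε ≤ m := by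
    have : ((⌈16 / ε⌉₊ + 4 : ℕ) : ℝ) ≤ m := by exact_mod_cast hm
    push_cast at this
    linarith only [hceil, this]
  have hnr : 16 / ε + 4 ≤ n := by
    have : ((⌈16 / ε⌉₊ + 4 : ℕ) : ℝ) ≤ n := by exact_mod_cast hn
    push_cast at this
    linarith only [hceil, this]
  have hhr : (n : ℝ) ≤ 2 * h + 2 := by
    have : n ≤ 2 * h + 2 := by (clear * - hh; omega)
    exact_mod_cast this
  have hεm : 16 ≤ ε * m := by
    rw [div_le_iff₀ hε] at hmr
    linarith only [hmr]
  have hεh : 8 ≤ ε * h := by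
    have : 8 / ε ≤ h := by
      have : 16 / ε = 2 * (8 / ε) := by ring
      linarith only [hnr, hhr, this]
    rw [div_le_iff₀ hε] at this
    linarith only [this]
  have hh1 : (1 : ℝ) ≤ h := by
    have : 1 ≤ h := by omega
    exact_mod_cast this
  have hm0 : (0 : ℝ) ≤ m := Nat.cast_nonneg m
  have hz : (zar m n : ℝ) ≤ (m : ℝ) ^ 2 / 4 * (h * (h + 1)) := by
    have h1 := half_mul_le m
    have h2 : ((n / 2 : ℕ) : ℝ) ≤ h + 1 := by
      have : n / 2 ≤ h + 1 := by omega
      exact_mod_cast this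
    unfold zar
    push_cast
    rw [← hh]
    apply mul_le_mul h1 _ (by (clear * - hh1; positivity)) (by (clear * -; positivity))
    nlinarith only [h2]
  have e1 : (m : ℝ) * h ^ 2 ≤ ε * (m ^ 2 * h ^ 2) / 16 := by
    have : 16 * ((m : ℝ) * h ^ 2) ≤ ε * m * (m * h ^ 2) :=
      mul_le_mul_of_nonneg_right hεm (by (clear * - hh1; positivity))
    linarith only [this]
  have e2 : (m : ℝ) ^ 2 * h ≤ ε * (m ^ 2 * h ^ 2) / 8 := by
    have : 8 * ((m : ℝ) ^ 2 * h) ≤ ε * h * (m ^ 2 * h) :=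
      mul_le_mul_of_nonneg_right hεh (by (clear * - hh1; positivity))
    linarith only [this]
  have e3 : (m : ℝ) ^ 2 ≤ m ^ 2 * h := by
    have : (m : ℝ) ^ 2 * 1 ≤ m ^ 2 * h := mul_le_mul_of_nonneg_left hh1 (by (clear * -; positivity))
    linarith only [this]
  have e4 : 0 ≤ ε * ((m : ℝ) ^ 2 * h) := by (clear * - hε hh1; positivity)
  have e5 : 0 ≤ ε * ((m : ℝ) ^ 2 * h ^ 2) := by (clear * - hε hh1; positivity)
  have e6 : (5429 / 5760 - ε) * (zar m n : ℝ) ≤
      (5429 / 5760 - ε) * ((m : ℝ) ^ 2 / 4 * (h * (h + 1))) :=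
    mul_le_mul_of_nonneg_left hz hpos.le
  linarith only [hb, e1, e2, e3, e4, e5, e6]

end Vale.Agent.P040.Gen
end
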