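import Vale.Agent.P040.MathlibUsed
import Vale.Agent.P040.Drawing
import Vale.Agent.P040.Bdl.B3
import Vale.Agent.P040.Bdl.B2
import Vale.Agent.P040.Bdl.B1
import Vale.Agent.P040.Sph.GDrawing
import Vale.Agent.P040.DrawingClasses

set_option linter.all false

section

/-!
# Monotone drawings
-/

namespace Vale.Agent.P040

/-- A drawing is `x`-monotone if every edge meets every vertical line at most once. -/
def Drawing.XMonotone {V : Type} {G : SimpleGraph V} (D : Drawing G) : Prop :=
  ∀ u v, G.Adj u v → ∀ p ∈ D.arc s(u, v), ∀ q ∈ D.arc s(u, v), p.1 = q.1 → p = q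

end Vale.Agent.P040
end

section

section

/-!
# The sorted strands of a star
-/

namespace Vale.Agent.P040.Mono

open Finset

/-- One-sided stars: further properties. -/
theorem exists_strands' {ι : Type*} [DecidableEq ι] (x0 y0 : ℝ) (X : ι → ℝ) (φ : ι → ℝ → ℝ)
    (S : Finset ι) (hS : ∀ b ∈ S, x0 < X b)
    (hφ : ∀ b ∈ S, Continuous (φ b)) (h0 : ∀ b ∈ S, φ b x0 = y0)
    (hne : ∀ b ∈ S, ∀ c ∈ S, b ≠ c → X c ≤ X b → φ b (X c) ≠ φ c (X c)) :
    ∃ (F : ι → ℝ → EReal) (κ : ι → ℝ), Set.InjOn κ S ∧ (∀ b ∈ S, Continuous (F b)) ∧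
      (∀ b ∈ S, F b (X b) = φ b (X b)) ∧ (∀ b ∈ S, F b x0 = y0) ∧
      (∀ x y, #{b ∈ S | x ≤ X b ∧ F b x = y} = #{b ∈ S | x ≤ X b ∧ (φ b x : EReal) = y}) ∧
      (∀ b ∈ S, ∀ c ∈ S, b ≠ c → X c ≤ X b → (κ b < κ c ↔ (φ c (X c) : EReal) < F b (X c))) := by
  obtain ⟨F, κ, hκ, hFc, hFX, hFm, hFs⟩ := exists_strands X φ S hφ hne
  refine ⟨F, κ, hκ, hFc, hFX, ?_, hFm, ?_⟩
  · have h1 := hFm x0 (y0 : EReal)
    have h2 : {b ∈ S | x0 ≤ X b ∧ (φ b x0 : EReal) = y0} = S := by
      rw [filter_eq_self]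
      intro b hb
      exact ⟨(hS b hb).le, by rw [h0 b hb]⟩
    rw [h2] at h1
    have h3 := eq_of_subset_of_card_le (filter_subset (fun b => x0 ≤ X b ∧ F b x0 = y0) S) h1.ge
    rw [filter_eq_self] at h3
    exact fun b hb => (h3 b hb).2
  · intro b hb c hc hbc hX
    have hne' : F b (X c) ≠ φ c (X c) := by
      intro heq
      have h1 := hFm (X c) (φ c (X c) : EReal)
      have h2 : {k ∈ S | X c ≤ X k ∧ (φ k (X c) : EReal) = φ c (X c)} ⊆ {c} := by
        intro k hk
        rw [mem_filter] at hk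
        rw [mem_singleton]
        by_contra hkc
        exact hne k hk.1 c hc hkc hk.2.1 (by exact_mod_cast hk.2.2)
      have h3 : ({b, c} : Finset ι) ⊆ {k ∈ S | X c ≤ X k ∧ F k (X c) = φ c (X c)} := by
        intro k hk
        rw [mem_insert, mem_singleton] at hk
        rw [mem_filter]
        rcases hk with rfl | rfl
        · exact ⟨hb, hX, heq⟩
        · exact ⟨hc, le_rfl, hFX k hc⟩
      have h4 := card_le_card h2
      have h5 := card_le_card h3
      rw [card_pair hbc] at h5
      rw [card_singleton] at h4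
      omega
    constructor
    · intro h
      have := hFs b hb c hc h (X c)
      rw [hFX c hc] at this
      exact lt_of_le_of_ne this (Ne.symm hne')
    · intro h
      by_contra h2
      rw [not_lt] at h2
      rcases eq_or_lt_of_le h2 with h3 | h3
      · exact hbc (hκ hb hc h3.symm)
      · have := hFs c hc b hb h3 (X c)
        rw [hFX c hc] at this
        exact absurd h (not_lt.2 this)

open Classical in
/-- The sorted strands of a star. -/
theorem exists_star {n : ℕ} (xa ya : ℝ) (X Y : Fin n → ℝ) (φ : Fin n → ℝ → ℝ)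
    (hc : ∀ b, Continuous (φ b)) (h0 : ∀ b, φ b xa = ya) (h1 : ∀ b, φ b (X b) = Y b)
    (hX : ∀ b, X b ≠ xa)
    (hav : ∀ b c, b ≠ c → X c ∈ Set.uIcc xa (X b) → φ b (X c) ≠ Y c) :
    ∃ (H : Fin n → ℝ → EReal) (κ : Fin n → ℝ), Function.Injective κ ∧
      (∀ b, Continuous (H b)) ∧ (∀ b, H b (X b) = Y b) ∧ (∀ b, H b xa = ya) ∧
      (∀ x, x ≠ xa → ∀ y : EReal, #{b | x ∈ Set.uIcc xa (X b) ∧ H b x = y} =
        #{b | x ∈ Set.uIcc xa (X b) ∧ (φ b x : EReal) = y}) ∧
      (∀ b c, X c < xa → xa < X b → κ b < κ c) ∧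
      (∀ b c, xa < X c → X c ≤ X b → b ≠ c → (κ b < κ c ↔ (Y c : EReal) < H b (X c))) ∧
      (∀ b c, X c < xa → X b ≤ X c → b ≠ c → (κ c < κ b ↔ (Y c : EReal) < H b (X c))) := by
  classical
  obtain ⟨FR, κR, hκR, hRc, hRX, hR0, hRm, hRk⟩ := exists_strands' xa ya X φ {b | xa < X b}
    (by simp only [mem_filter, mem_univ, true_and, imp_self, implies_true]) (fun b _ => hc b) (fun b _ => h0 b) (by
      intro b hb c hc' hbc hX'
      rw [mem_filter] at hb hc'
      rw [h1 c]
      apply hav b c hbc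
      rw [Set.uIcc_of_le hb.2.le]
      exact ⟨hc'.2.le, hX'⟩)
  obtain ⟨FL, κL, hκL, hLc, hLX, hL0, hLm, hLk⟩ := exists_strands' (-xa) ya (fun b => - X b)
    (fun b x => φ b (-x)) {b | X b < xa}
    (by simp only [mem_filter, mem_univ, true_and, neg_lt_neg_iff, imp_self, implies_true]) (fun b _ => (hc b).comp continuous_neg) (fun b _ => by simp [h0 b]) (by
      intro b hb c hc' hbc hX'
      rw [mem_filter] at hb hc'
      simp only [neg_neg]
      rw [h1 c]
      apply hav b c hbc
      rw [Set.uIcc_of_ge hb.2.le]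
      exact ⟨by linarith only [hX'], hc'.2.le⟩)
  simp only [neg_neg, h1] at hLX hLk
  simp only [h1] at hRX hRk
  obtain ⟨C, hC⟩ := Finite.bddAbove_range (fun p : Fin n × Fin n => κR p.1 + κL p.2)
  have hC' : ∀ b c, κR b < C + 1 - κL c := by
    intro b c
    have := hC ⟨(b, c), rfl⟩
    simp only at this
    linarith
  have hside : ∀ b, ¬ xa < X b → X b < xa := fun b h => lt_of_le_of_ne (not_lt.1 h) (hX b)
  refine ⟨fun b x => if xa < X b then FR b x else FL b (-x),
    fun b => if xa < X b then κR b else C + 1 - κL b, ?_, ?_, ?_, ?_, ?_, ?_, ?_, ?_⟩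
  · intro b c hbc
    simp only at hbc
    split_ifs at hbc with hb hc' hc'
    · exact hκR (by simp only [coe_filter, mem_univ, true_and, Set.mem_ofPred_eq, hb]) (by simp only [coe_filter, mem_univ, true_and, Set.mem_ofPred_eq, hc']) hbc
    · exact absurd hbc (hC' b c).ne
    · exact absurd hbc.symm (hC' c b).ne
    · exact hκL (by simp only [coe_filter, mem_univ, true_and, Set.mem_ofPred_eq, hside b hb]) (by simp only [coe_filter, mem_univ, true_and, Set.mem_ofPred_eq, hside c hc']) (by linarith only [hbc])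
  · intro b
    by_cases hb : xa < X b
    · simp only [hb, if_true]
      exact hRc b (by simp only [mem_filter, mem_univ, hb, and_self])
    · simp only [hb, if_false]
      exact (hLc b (by simp only [mem_filter, mem_univ, hside b hb, and_self])).comp continuous_neg
  · intro b
    by_cases hb : xa < X b
    · simp only [hb, if_true]
      exact hRX b (by simp only [mem_filter, mem_univ, hb, and_self])
    · simp only [hb, if_false]
      exact hLX b (by simp only [mem_filter, mem_univ, hside b hb, and_self])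
  · intro b
    by_cases hb : xa < X b
    · simp only [hb, if_true]
      exact hR0 b (by simp only [mem_filter, mem_univ, hb, and_self])
    · simp only [hb, if_false]
      exact hL0 b (by simp only [mem_filter, mem_univ, hside b hb, and_self])
  · intro x hx y
    rcases lt_or_gt_of_ne hx with hx | hx
    · -- left side
      have key := hLm (-x) y
      have e1 : ∀ b, x ∈ Set.uIcc xa (X b) ↔ (X b < xa ∧ -x ≤ -X b) := by
        intro b
        by_cases hb : xa < X b
        · rw [Set.uIcc_of_le hb.le, Set.mem_Icc]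
          constructor
          · rintro ⟨h, _⟩; linarith only [hx, h]
          · rintro ⟨h, _⟩; linarith only [hb, h]
        · rw [Set.uIcc_of_ge (hside b hb).le, Set.mem_Icc]
          constructor
          · rintro ⟨h, _⟩; exact ⟨hside b hb, by linarith only [h]⟩
          · rintro ⟨_, h⟩; exact ⟨by linarith only [h], hx.le⟩
      have e2 : ({b | x ∈ Set.uIcc xa (X b) ∧
          (if xa < X b then FR b x else FL b (-x)) = y} : Finset (Fin n)) =
          {b ∈ ({b | X b < xa} : Finset (Fin n)) | -x ≤ -X b ∧ FL b (-x) = y} := by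
        ext b
        simp only [mem_filter, mem_univ, true_and, e1]
        constructor
        · rintro ⟨⟨hb, hb2⟩, hb3⟩
          rw [if_neg (not_lt.2 hb.le)] at hb3
          exact ⟨hb, hb2, hb3⟩
        · rintro ⟨hb, hb2, hb3⟩
          refine ⟨⟨hb, hb2⟩, ?_⟩
          rw [if_neg (not_lt.2 hb.le)]
          exact hb3
      have e3 : ({b | x ∈ Set.uIcc xa (X b) ∧ (φ b x : EReal) = y} : Finset (Fin n)) =
          {b ∈ ({b | X b < xa} : Finset (Fin n)) | -x ≤ -X b ∧ (φ b (- -x) : EReal) = y} := by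
        ext b
        simp only [mem_filter, mem_univ, true_and, e1, neg_neg]
        (clear * -; tauto)
      rw [e2, e3]
      exact key
    · have key := hRm x y
      have e1 : ∀ b, x ∈ Set.uIcc xa (X b) ↔ (xa < X b ∧ x ≤ X b) := by
        intro b
        by_cases hb : xa < X b
        · rw [Set.uIcc_of_le hb.le, Set.mem_Icc]
          constructor
          · rintro ⟨h, h2⟩; exact ⟨hb, h2⟩
          · rintro ⟨h, h2⟩; exact ⟨hx.le, h2⟩
        · rw [Set.uIcc_of_ge (hside b hb).le, Set.mem_Icc]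
          constructor
          · rintro ⟨h, _⟩; (clear ya Y φ hc h0 h1 hX hav FR κR hκR hRc hR0 hRm FL κL hκL hLc hL0 hLm hLX hLk hRX hRk C hC hC' hside y key hb h; linarith)
          · rintro ⟨h, _⟩; exact absurd h hb
      have e2 : ({b | x ∈ Set.uIcc xa (X b) ∧
          (if xa < X b then FR b x else FL b (-x)) = y} : Finset (Fin n)) =
          {b ∈ ({b | xa < X b} : Finset (Fin n)) | x ≤ X b ∧ FR b x = y} := by
        ext b
        simp only [mem_filter, mem_univ, true_and, e1]
        constructor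
        · rintro ⟨⟨hb, hb2⟩, hb3⟩
          rw [if_pos hb] at hb3
          exact ⟨hb, hb2, hb3⟩
        · rintro ⟨hb, hb2, hb3⟩
          refine ⟨⟨hb, hb2⟩, ?_⟩
          rw [if_pos hb]
          exact hb3
      have e3 : ({b | x ∈ Set.uIcc xa (X b) ∧ (φ b x : EReal) = y} : Finset (Fin n)) =
          {b ∈ ({b | xa < X b} : Finset (Fin n)) | x ≤ X b ∧ (φ b x : EReal) = y} := by
        ext b
        simp only [e1, mem_filter, mem_univ, true_and]
        (clear * -; tauto)
      rw [e2, e3]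
      exact key
  · intro b c hc' hb
    simp only [hb, if_true, if_neg (not_lt.2 hc'.le)]
    exact hC' b c
  · intro b c hc' hbc hne
    have hb : xa < X b := hc'.trans_le hbc
    simp only [hb, hc', if_true]
    exact hRk b (by simp only [mem_filter, mem_univ, hb, and_self]) c (by simp only [mem_filter, mem_univ, hc', and_self]) hne hbc
  · intro b c hc' hbc hne
    have hb : X b < xa := hbc.trans_lt hc'
    simp only [if_neg (not_lt.2 hb.le), if_neg (not_lt.2 hc'.le)]
    rw [← hLk b (by simp [hb]) c (by simp [hc']) hne (by linarith only [hbc])]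
    constructor <;> intro h <;> linarith

end Vale.Agent.P040.Mono
end
end

section

section

/-!
# From monotone drawings to the combinatorial data
-/

namespace Vale.Agent.P040

open Finset

/-- An arc meeting every vertical line at most once contains the graph of a continuous function
joining its ends. -/
theorem exists_graph {E : Set Plane} {p q : Plane} (h : IsArc E p q)
    (hinj : ∀ u ∈ E, ∀ v ∈ E, u.1 = v.1 → u = v) :
    ∃ φ : ℝ → ℝ, Continuous φ ∧ φ p.1 = p.2 ∧ φ q.1 = q.2 ∧
      (∀ x ∈ Set.uIcc p.1 q.1, (x, φ x) ∈ E) ∧ p.1 ≠ q.1 := by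
  obtain ⟨γ, hγ, hγi, h0, h1, him⟩ := h
  have hmem : ∀ t ∈ Set.Icc (0 : ℝ) 1, γ t ∈ E := by
    intro t ht
    rw [← him]
    exact Set.mem_image_of_mem _ ht
  have hz : (0 : ℝ) ∈ Set.Icc (0 : ℝ) 1 := by simp only [Set.mem_Icc, Std.le_refl, zero_le_one, and_self]
  have ho : (1 : ℝ) ∈ Set.Icc (0 : ℝ) 1 := by simp only [Set.mem_Icc, zero_le_one, Std.le_refl, and_self]
  have hpE : p ∈ E := h0 ▸ hmem 0 hz
  have hqE : q ∈ E := h1 ▸ hmem 1 ho
  have hne : p.1 ≠ q.1 := by
    intro heq
    have h2 := hinj p hpE q hqE heq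
    rw [← h0, ← h1] at h2
    have := hγi hz ho h2
    norm_num at this
  let f : Set.Icc (0 : ℝ) 1 → ℝ := fun t => (γ t).1
  have hγ' : Continuous (fun t : Set.Icc (0 : ℝ) 1 => γ t) := continuousOn_iff_continuous_domRestrict.1 hγ
  have hf : Continuous f := continuous_fst.comp hγ'
  have hfi : Function.Injective f := by
    intro s t hst
    have := hinj _ (hmem s s.2) _ (hmem t t.2) hst
    exact Subtype.ext (hγi s.2 t.2 this)
  let e := (hf.isClosedEmbedding hfi).isEmbedding.toHomeomorph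
  have hIVT : Set.uIcc p.1 q.1 ⊆ Set.range f := by
    intro x hx
    have hc : ContinuousOn (fun t => (γ t).1) (Set.uIcc 0 1) := by
      rw [Set.uIcc_of_le zero_le_one]
      exact continuous_fst.comp_continuousOn hγ
    have := intermediate_value_uIcc hc
    simp only [h0, h1] at this
    obtain ⟨t, ht, rfl⟩ := this hx
    rw [Set.uIcc_of_le zero_le_one] at ht
    exact ⟨⟨t, ht⟩, rfl⟩
  have hle : min p.1 q.1 ≤ max p.1 q.1 := min_le_max
  let φ : ℝ → ℝ := fun x => (γ (e.symm ⟨Set.projIcc _ _ hle x, hIVT (Set.projIcc _ _ hle x).2⟩)).2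
  have hφc : Continuous φ := by
    apply continuous_snd.comp
    apply hγ'.comp
    apply e.symm.continuous.comp
    apply Continuous.subtype_mk
    exact continuous_subtype_val.comp continuous_projIcc
  have key : ∀ x (hx : x ∈ Set.uIcc p.1 q.1), (x, φ x) ∈ E := by
    intro x hx
    have h2 : Set.projIcc _ _ hle x = ⟨x, hx⟩ := Set.projIcc_of_mem hle hx
    have h3 : f (e.symm ⟨x, hIVT hx⟩) = x := by
      have := e.apply_symm_apply ⟨x, hIVT hx⟩
      have h4 := congrArg Subtype.val this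
      exact h4
    have h5 : φ x = (γ (e.symm ⟨x, hIVT hx⟩)).2 := by
      simp only [φ]
      congr 4
      rw [h2]
    have h6 : (x, φ x) = γ (e.symm ⟨x, hIVT hx⟩) := by
      apply Prod.ext
      · exact h3.symm
      · exact h5
    rw [h6]
    exact hmem _ (e.symm ⟨x, hIVT hx⟩).2
  refine ⟨φ, hφc, ?_, ?_, key, hne⟩
  · have h2 := hinj _ (key p.1 Set.left_mem_uIcc) p hpE rfl
    have h3 : (p.1, φ p.1).2 = p.2 := by rw [h2]
    exact h3
  · have h2 := hinj _ (key q.1 Set.right_mem_uIcc) q hqE rfl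
    have h3 : (q.1, φ q.1).2 = q.2 := by rw [h2]
    exact h3

namespace Mono

theorem mem_lower_iff {n : ℕ} {S : Finset (Fin n)} (hS : ∀ b ∈ S, ∀ c ≤ b, c ∈ S) (b : Fin n) :
    b ∈ S ↔ b.1 < #S := by
  constructor
  · intro hb
    have : Iic b ⊆ S := fun c hc => hS b hb c (mem_Iic.1 hc)
    have := card_le_card this
    rw [Fin.card_Iic] at this
    omega
  · intro h
    by_contra hb
    have : S ⊆ Iio b := by
      intro c hc
      rw [mem_Iio]
      by_contra hcb
      exact hb (hS c hc b (not_lt.1 hcb))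
    have := card_le_card this
    rw [Fin.card_Iio] at this
    omega

theorem ivt_aux {f g : ℝ → EReal} (hf : Continuous f) (hg : Continuous g) {u v a b c d : ℝ}
    (hu : u ∈ Set.uIcc a b) (hv : v ∈ Set.uIcc a b) (hu' : u ∈ Set.uIcc c d)
    (hv' : v ∈ Set.uIcc c d)
    (h : (f u ≤ g u ∧ g v ≤ f v) ∨ (g u ≤ f u ∧ f v ≤ g v)) :
    ∃ x, x ∈ Set.uIcc a b ∧ x ∈ Set.uIcc c d ∧ f x = g x := by
  have h1 : Set.uIcc u v ⊆ Set.uIcc a b := Set.uIcc_subset_uIcc hu hv
  have h2 : Set.uIcc u v ⊆ Set.uIcc c d := Set.uIcc_subset_uIcc hu' hv'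
  rcases h with h | h
  · obtain ⟨x, hx, he⟩ := (isPreconnected_uIcc (a := u) (b := v)).intermediate_value₂
      Set.left_mem_uIcc Set.right_mem_uIcc hf.continuousOn hg.continuousOn h.1 h.2
    exact ⟨x, h1 hx, h2 hx, he⟩
  · obtain ⟨x, hx, he⟩ := (isPreconnected_uIcc (a := u) (b := v)).intermediate_value₂
      Set.left_mem_uIcc Set.right_mem_uIcc hg.continuousOn hf.continuousOn h.1 h.2
    exact ⟨x, h1 hx, h2 hx, he.symm⟩

/-- The sign conditions of a forced crossing give a common point of the two strands. -/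
theorem forced_point {n : ℕ} {xP yP xQ yQ : ℝ} {X Y : Fin n → ℝ} {P Q : Fin n → ℝ → EReal}
    {κP κQ : Fin n → ℝ} {iP iQ : ℕ} (hXm : Monotone X) (hPQ : xP ≤ xQ)
    (hiP : ∀ b : Fin n, b.1 < iP ↔ X b < xP) (hiQ : ∀ b : Fin n, b.1 < iQ ↔ X b < xQ)
    (hP' : ∀ b, X b ≠ xP) (hQ' : ∀ b, X b ≠ xQ)
    (hPc : ∀ b, Continuous (P b)) (hQc : ∀ b, Continuous (Q b))
    (hPX : ∀ b, P b (X b) = Y b) (hQX : ∀ b, Q b (X b) = Y b)
    (hP0 : ∀ b, P b xP = yP) (hQ0 : ∀ b, Q b xQ = yQ)
    (hPR : ∀ b c, xP < X c → X c ≤ X b → b ≠ c → (κP b < κP c ↔ (Y c : EReal) < P b (X c)))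
    (hPL : ∀ b c, X c < xP → X b ≤ X c → b ≠ c → (κP c < κP b ↔ (Y c : EReal) < P b (X c)))
    (hQR : ∀ b c, xQ < X c → X c ≤ X b → b ≠ c → (κQ b < κQ c ↔ (Y c : EReal) < Q b (X c)))
    (hQL : ∀ b c, X c < xQ → X b ≤ X c → b ≠ c → (κQ c < κQ b ↔ (Y c : EReal) < Q b (X c)))
    {k l : Fin n}
    (hF : Forced iP iQ κP κQ (fun b => (yQ : EReal) < P b xQ) (fun b => (yP : EReal) < Q b xP)
      k l) :
    k ≠ l ∧ ∃ x, x ∈ Set.uIcc xP (X k) ∧ x ∈ Set.uIcc xQ (X l) ∧ P k x = Q l x := by
  have hiP' : ∀ b : Fin n, iP ≤ b.1 ↔ xP < X b := by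
    intro b
    rw [← not_lt, hiP b, not_lt]
    exact ⟨fun h => lt_of_le_of_ne h (hP' b).symm, fun h => h.le⟩
  have hiQ' : ∀ b : Fin n, iQ ≤ b.1 ↔ xQ < X b := by
    intro b
    rw [← not_lt, hiQ b, not_lt]
    exact ⟨fun h => lt_of_le_of_ne h (hQ' b).symm, fun h => h.le⟩
  unfold Forced at hF
  simp only [hiP', hiQ', hiP, hiQ] at hF
  rcases hF with ⟨h1, h2, h3, h4⟩ | ⟨h1, h2, h4⟩ | ⟨h1, h2, h3, h4⟩ | ⟨h1, h2, h3, h4⟩ |
    ⟨h1, h2, h4⟩ | ⟨h1, h2, h4⟩
  · -- both to the right of `P`, `k` to the right of `Q`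
    have hX : X l ≤ X k := hXm h2.le
    refine ⟨h2.ne', ?_⟩
    rw [hPR k l h1 hX h2.ne'] at h4
    apply ivt_aux (hPc k) (hQc l) (u := xQ) (v := X l)
    · rw [Set.uIcc_of_le (h1.trans_le hX).le]; exact ⟨hPQ, h3.le⟩
    · rw [Set.uIcc_of_le (h1.trans_le hX).le]; exact ⟨h1.le, hX⟩
    · exact Set.left_mem_uIcc
    · exact Set.right_mem_uIcc
    · rw [hQ0, hQX]
      by_cases hu : (yQ : EReal) < P k xQ
      · right
        exact ⟨hu.le, not_lt.1 (h4.1 hu)⟩
      · left
        refine ⟨not_lt.1 hu, ?_⟩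
        by_contra h5
        exact hu (h4.2 (fun h6 => h5 h6.le))
  · have hX : X k ≤ X l := hXm h2.le
    refine ⟨h2.ne, ?_⟩
    rw [hQR l k h1 hX h2.ne'] at h4
    apply ivt_aux (hPc k) (hQc l) (u := xQ) (v := X k)
    · rw [Set.uIcc_of_le (hPQ.trans h1.le)]; exact ⟨hPQ, h1.le⟩
    · exact Set.right_mem_uIcc
    · exact Set.left_mem_uIcc
    · rw [Set.uIcc_of_le (h1.trans_le hX).le]; exact ⟨h1.le, hX⟩
    · rw [hQ0, hPX]
      by_cases hu : (yQ : EReal) < P k xQ
      · right
        exact ⟨hu.le, (h4.1 hu).le⟩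
      · left
        exact ⟨not_lt.1 hu, not_lt.1 (fun h5 => hu (h4.2 h5))⟩
  · have hX : X l ≤ X k := hXm h2.le
    refine ⟨h2.ne', ?_⟩
    rw [hPR k l h1 hX h2.ne', hQL l k h3 hX h2.ne] at h4
    apply ivt_aux (hPc k) (hQc l) (u := X l) (v := X k)
    · rw [Set.uIcc_of_le (h1.trans_le hX).le]; exact ⟨h1.le, hX⟩
    · exact Set.right_mem_uIcc
    · exact Set.right_mem_uIcc
    · rw [Set.uIcc_of_ge (hX.trans h3.le)]; exact ⟨hX, h3.le⟩
    · rw [hQX, hPX]
      by_cases hu : (Y l : EReal) < P k (X l)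
      · right
        exact ⟨hu.le, (h4.1 hu).le⟩
      · left
        exact ⟨not_lt.1 hu, not_lt.1 (fun h5 => hu (h4.2 h5))⟩
  · have hX : X l ≤ X k := hXm h2.le
    refine ⟨h2.ne', ?_⟩
    rw [hQL l k h3 hX h2.ne] at h4
    apply ivt_aux (hPc k) (hQc l) (u := xP) (v := X k)
    · exact Set.left_mem_uIcc
    · exact Set.right_mem_uIcc
    · rw [Set.uIcc_of_ge (h1.le.trans hPQ)]; exact ⟨h1.le, hPQ⟩
    · rw [Set.uIcc_of_ge (hX.trans h3.le)]; exact ⟨hX, h3.le⟩
    · rw [hP0, hPX]
      by_cases hu : (yP : EReal) < Q l xP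
      · left
        exact ⟨hu.le, not_lt.1 (h4.1 hu)⟩
      · right
        refine ⟨not_lt.1 hu, ?_⟩
        by_contra h5
        exact hu (h4.2 (fun h6 => h5 h6.le))
  · have hX : X k ≤ X l := hXm h1.le
    refine ⟨h1.ne, ?_⟩
    rw [hPL k l h2 hX h1.ne] at h4
    apply ivt_aux (hPc k) (hQc l) (u := xP) (v := X l)
    · exact Set.left_mem_uIcc
    · rw [Set.uIcc_of_ge (hX.trans h2.le)]; exact ⟨hX, h2.le⟩
    · rw [Set.uIcc_of_ge (h2.le.trans hPQ)]; exact ⟨h2.le, hPQ⟩
    · exact Set.right_mem_uIcc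
    · rw [hP0, hQX]
      by_cases hu : (yP : EReal) < Q l xP
      · left
        exact ⟨hu.le, (h4.1 hu).le⟩
      · right
        exact ⟨not_lt.1 hu, not_lt.1 (fun h5 => hu (h4.2 h5))⟩
  · refine ⟨?_, ?_⟩
    · rintro rfl
      exact absurd (h1.trans_le (hPQ.trans h2.le)) (lt_irrefl _)
    apply ivt_aux (hPc k) (hQc l) (u := xP) (v := xQ)
    · exact Set.left_mem_uIcc
    · rw [Set.uIcc_of_le (hPQ.trans h2.le)]; exact ⟨hPQ, h2.le⟩
    · rw [Set.uIcc_of_ge (h1.le.trans hPQ)]; exact ⟨h1.le, hPQ⟩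
    · exact Set.left_mem_uIcc
    · rw [hP0, hQ0]
      by_cases hu : (yP : EReal) < Q l xP
      · left
        exact ⟨hu.le, (h4.2 hu).le⟩
      · right
        exact ⟨not_lt.1 hu, not_lt.1 (fun h5 => hu (h4.1 h5))⟩

end Mono

end Vale.Agent.P040
end
end

section

section

/-!
# The forced crossings of a monotone drawing are crossings
-/

namespace Vale.Agent.P040

open Finset

namespace Mono

theorem exists_data {m n : ℕ} (D : Drawing (completeBipartiteGraph (Fin m) (Fin n)))
    (hD : D.XMonotone) :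
    ∃ (i : Fin m → ℕ) (k : Fin m → Fin n → ℝ) (U : Fin m → Fin m → Fin n → Prop),
      Monotone i ∧ (∀ a, Function.Injective (k a)) ∧
      (∀ a x y, i a ≤ x.1 → y.1 < i a → k a x < k a y) ∧
      (∑ p ∈ univ.filter (fun p : Fin m × Fin m => p.1 < p.2),
        Mono.forced (i p.1) (i p.2) (k p.1) (k p.2) (U p.1 p.2) (U p.2 p.1)) ≤ D.crossings := by
  classical
  -- sort the vertices
  set σ : Equiv.Perm (Fin m) := Tuple.sort (fun a => (D.pos (Sum.inl a)).1) with hσ
  set τ : Equiv.Perm (Fin n) := Tuple.sort (fun b => (D.pos (Sum.inr b)).1) with hτ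
  have hAm : Monotone (fun a => (D.pos (Sum.inl (σ a))).1) :=
    Tuple.monotone_sort (fun a => (D.pos (Sum.inl a)).1)
  have hBm : Monotone (fun b => (D.pos (Sum.inr (τ b))).1) :=
    Tuple.monotone_sort (fun b => (D.pos (Sum.inr b)).1)
  set xA : Fin m → ℝ := fun a => (D.pos (Sum.inl (σ a))).1 with hxA
  set yA : Fin m → ℝ := fun a => (D.pos (Sum.inl (σ a))).2 with hyA
  set X : Fin n → ℝ := fun b => (D.pos (Sum.inr (τ b))).1 with hX
  set Y : Fin n → ℝ := fun b => (D.pos (Sum.inr (τ b))).2 with hY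
  have hPA : ∀ a, D.pos (Sum.inl (σ a)) = (xA a, yA a) := fun a => rfl
  have hPB : ∀ b, D.pos (Sum.inr (τ b)) = (X b, Y b) := fun b => rfl
  let ed : Fin m → Fin n → Sym2 (Fin m ⊕ Fin n) := fun a b => s(Sum.inl (σ a), Sum.inr (τ b))
  have hadj : ∀ a b, (completeBipartiteGraph (Fin m) (Fin n)).Adj (Sum.inl (σ a))
      (Sum.inr (τ b)) := by
    intro a b
    simp
  have hedge : ∀ a b, ed a b ∈ (completeBipartiteGraph (Fin m) (Fin n)).edgeSet := by
    intro a b
    exact hadj a b
  have hedinj : ∀ a b a' b', ed a b = ed a' b' → a = a' ∧ b = b' := by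
    intro a b a' b' h
    simp only [ed, Sym2.eq_iff, Sum.inl.injEq, Sum.inr.injEq, EmbeddingLike.apply_eq_iff_eq,
      reduceCtorEq, false_and, or_false] at h
    exact h
  -- the edges as graphs of functions
  have hgr : ∀ a b, ∃ φ : ℝ → ℝ, Continuous φ ∧ φ (xA a) = yA a ∧ φ (X b) = Y b ∧
      (∀ x ∈ Set.uIcc (xA a) (X b), (x, φ x) ∈ D.arc (ed a b)) ∧ xA a ≠ X b := by
    intro a b
    exact exists_graph (D.isArc _ _ (hadj a b)) (fun u hu v hv => hD _ _ (hadj a b) u hu v hv)
  choose φ hφc hφA hφB hφE hsep using hgr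
  have havB : ∀ a b c, b ≠ c → X c ∈ Set.uIcc (xA a) (X b) → φ a b (X c) ≠ Y c := by
    intro a b c hbc hx heq
    have h1 := hφE a b (X c) hx
    rw [heq, ← hPB c] at h1
    have h2 := D.avoid _ (hedge a b) _ h1
    simp only [ed, Sym2.mem_iff, Sum.inr.injEq, EmbeddingLike.apply_eq_iff_eq,
      reduceCtorEq, false_or] at h2
    exact hbc h2.symm
  have havA : ∀ a b a', a ≠ a' → xA a' ∈ Set.uIcc (xA a) (X b) → φ a b (xA a') ≠ yA a' := by
    intro a b c hbc hx heq
    have h1 := hφE a b (xA c) hx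
    rw [heq, ← hPA c] at h1
    have h2 := D.avoid _ (hedge a b) _ h1
    simp only [ed, Sym2.mem_iff, Sum.inl.injEq, EmbeddingLike.apply_eq_iff_eq,
      reduceCtorEq, or_false] at h2
    exact hbc h2.symm
  -- the sorted strands
  have hst := fun a => exists_star (xA a) (yA a) X Y (φ a) (hφc a) (hφA a) (hφB a)
    (fun b => (hsep a b).symm) (havB a)
  choose H κ hκi hHc hHX hH0 hHm hκs hκR hκL using hst
  -- membership in the initial segments
  have hi : ∀ a (b : Fin n), b.1 < #{b | X b < xA a} ↔ X b < xA a := by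
    intro a b
    rw [← mem_lower_iff (S := {b | X b < xA a})]
    · simp only [mem_filter, mem_univ, true_and]
    · intro b hb c hc
      simp only [mem_filter, mem_univ, true_and] at hb ⊢
      exact (hBm hc).trans_lt hb
  -- every strand consists of points of edges
  have hreal : ∀ a b x, x ∈ Set.uIcc (xA a) (X b) →
      ∃ c, x ∈ Set.uIcc (xA a) (X c) ∧ (φ a c x : EReal) = H a b x := by
    intro a b x hx
    by_cases hxa : x = xA a
    · subst hxa
      refine ⟨b, hx, ?_⟩
      rw [hφA, hH0]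
    · have h1 := hHm a x hxa (H a b x)
      have h2 : 0 < #{c | x ∈ Set.uIcc (xA a) (X c) ∧ H a c x = H a b x} := by
        rw [card_pos]
        exact ⟨b, by simp only [mem_filter, mem_univ, true_and, and_true]; exact hx⟩
      rw [h1, card_pos] at h2
      obtain ⟨c, hc⟩ := h2
      simp only [mem_filter, mem_univ, true_and] at hc
      exact ⟨c, hc⟩
  -- a strand through a leaf is the strand of that leaf
  have hleaf : ∀ a b c, X c ∈ Set.uIcc (xA a) (X b) → H a b (X c) = Y c → b = c := by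
    intro a b c hx heq
    by_contra hbc
    have h1 := hHm a (X c) (hsep a c).symm (Y c)
    have h2 : ({b, c} : Finset (Fin n)) ⊆
        ({k | X c ∈ Set.uIcc (xA a) (X k) ∧ H a k (X c) = Y c} : Finset (Fin n)) := by
      intro k hk
      rw [mem_insert, mem_singleton] at hk
      simp only [mem_filter, mem_univ, true_and]
      rcases hk with rfl | rfl
      · exact ⟨hx, heq⟩
      · exact ⟨Set.right_mem_uIcc, hHX a k⟩
    have h3 : ({k | X c ∈ Set.uIcc (xA a) (X k) ∧ (φ a k (X c) : EReal) = Y c} :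
        Finset (Fin n)) ⊆ {c} := by
      intro k hk
      simp only [mem_filter, mem_univ, true_and] at hk
      rw [mem_singleton]
      by_contra hkc
      exact havB a k c hkc hk.1 (by exact_mod_cast hk.2)
    have h4 := card_le_card h2
    have h5 := card_le_card h3
    rw [card_pair hbc] at h4
    rw [card_singleton] at h5
    omega
  -- the crossing point determines the strand
  have huniq : ∀ a a' c c' k k' x y, a ≠ a' → (x, y) ∉ Set.range D.pos →
      (x, y) ∈ D.arc (ed a c) → (x, y) ∈ D.arc (ed a' c') →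
      x ∈ Set.uIcc (xA a) (X k) → x ∈ Set.uIcc (xA a) (X k') →
      H a k x = (y : EReal) → H a k' x = (y : EReal) → k = k' := by
    intro a a' c c' k k' x y haa hp hc hc' hk hk' hy hy'
    by_contra hkk
    by_cases hxa : x = xA a
    · apply hp
      refine ⟨Sum.inl (σ a), ?_⟩
      rw [hPA]
      subst hxa
      rw [hH0] at hy
      rw [EReal.coe_eq_coe_iff.1 hy]
    · have h1 := hHm a x hxa y
      have h2 : ({k, k'} : Finset (Fin n)) ⊆
          ({b | x ∈ Set.uIcc (xA a) (X b) ∧ H a b x = y} : Finset (Fin n)) := by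
        intro b hb
        rw [mem_insert, mem_singleton] at hb
        simp only [mem_filter, mem_univ, true_and]
        rcases hb with rfl | rfl
        · exact ⟨hk, hy⟩
        · exact ⟨hk', hy'⟩
      have h3 : #{b | x ∈ Set.uIcc (xA a) (X b) ∧ (φ a b x : EReal) = y} ≤ 1 := by
        rw [card_le_one]
        intro b hb b' hb'
        simp only [mem_filter, mem_univ, true_and] at hb hb'
        by_contra hbb
        have e1 := hφE a b x hb.1
        have e2 := hφE a b' x hb'.1
        rw [EReal.coe_eq_coe_iff.1 hb.2] at e1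
        rw [EReal.coe_eq_coe_iff.1 hb'.2] at e2
        refine D.two _ (hedge a b) _ (hedge a b') _ (hedge a' c') ?_ ?_ ?_ _ hp e1 e2 hc'
        · intro h; exact hbb (hedinj _ _ _ _ h).2
        · intro h; exact haa (hedinj _ _ _ _ h).1
        · intro h; exact haa (hedinj _ _ _ _ h).1
      have h4 := card_le_card h2
      rw [card_pair hkk] at h4
      omega
  -- the data
  let i : Fin m → ℕ := fun a => #{b | X b < xA a}
  let U : Fin m → Fin m → Fin n → Prop := fun a a' b => (yA a' : EReal) < H a b (xA a')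
  refine ⟨i, κ, U, ?_, hκi, ?_, ?_⟩
  · intro a a' haa
    apply card_le_card
    intro b hb
    simp only [mem_filter, mem_univ, true_and] at hb ⊢
    exact hb.trans_le (hAm haa)
  · intro a b c hb hc
    have hb' : ¬ X b < xA a := fun h => absurd ((hi a b).2 h) (not_lt.2 hb)
    have hc' : X c < xA a := (hi a c).1 hc
    exact hκs a b c hc' (lt_of_le_of_ne (not_lt.1 hb') (hsep a b))
  · -- counting
    let R : (Σ _ : Fin m × Fin m, Fin n × Fin n) → Plane → Prop := fun t p =>
      p ∉ Set.range D.pos ∧ (∃ c c', p ∈ D.arc (ed t.1.1 c) ∧ p ∈ D.arc (ed t.1.2 c')) ∧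
      p.1 ∈ Set.uIcc (xA t.1.1) (X t.2.1) ∧ H t.1.1 t.2.1 p.1 = (p.2 : EReal) ∧
      p.1 ∈ Set.uIcc (xA t.1.2) (X t.2.2) ∧ H t.1.2 t.2.2 p.1 = (p.2 : EReal)
    let T : Finset (Σ _ : Fin m × Fin m, Fin n × Fin n) :=
      (univ.filter (fun p : Fin m × Fin m => p.1 < p.2)).sigma (fun p =>
        univ.filter (fun s : Fin n × Fin n =>
          Forced (i p.1) (i p.2) (κ p.1) (κ p.2) (U p.1 p.2) (U p.2 p.1) s.1 s.2))
    have hT : ∑ p ∈ univ.filter (fun p : Fin m × Fin m => p.1 < p.2),
        Mono.forced (i p.1) (i p.2) (κ p.1) (κ p.2) (U p.1 p.2) (U p.2 p.1) = #T := by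
      rw [card_sigma]
      apply sum_congr rfl
      intro p _
      unfold forced
      congr
    have hTmem : ∀ t ∈ T, t.1.1 < t.1.2 ∧ Forced (i t.1.1) (i t.1.2) (κ t.1.1) (κ t.1.2)
        (U t.1.1 t.1.2) (U t.1.2 t.1.1) t.2.1 t.2.2 := by
      intro t ht
      simpa [T] using ht
    have hex : ∀ t ∈ T, ∃ p, R t p := by
      intro t ht
      obtain ⟨hlt, hF⟩ := hTmem t ht
      obtain ⟨⟨a, a'⟩, ⟨k, l⟩⟩ := t
      simp only at hlt hF
      obtain ⟨hkl, x, hx1, hx2, hxe⟩ := forced_point (xP := xA a) (yP := yA a) (xQ := xA a')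
        (yQ := yA a') (X := X) (Y := Y) (P := H a) (Q := H a') (κP := κ a) (κQ := κ a')
        hBm (hAm hlt.le) (hi a) (hi a') (fun b => (hsep a b).symm) (fun b => (hsep a' b).symm)
        (hHc a) (hHc a') (hHX a) (hHX a') (hH0 a) (hH0 a') (hκR a) (hκL a) (hκR a') (hκL a') hF
      obtain ⟨c, hc1, hc2⟩ := hreal a k x hx1
      obtain ⟨c', hc1', hc2'⟩ := hreal a' l x hx2
      have hy : φ a c x = φ a' c' x := by
        rw [← EReal.coe_eq_coe_iff, hc2, hc2', hxe]
      have hm1 : (x, φ a c x) ∈ D.arc (ed a c) := hφE a c x hc1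
      have hm2 : (x, φ a c x) ∈ D.arc (ed a' c') := hy ▸ hφE a' c' x hc1'
      refine ⟨(x, φ a c x), ?_, ⟨c, c', hm1, hm2⟩, hx1, hc2.symm, hx2, ?_⟩
      · rintro ⟨w, hw⟩
        rw [← hw] at hm1 hm2
        have h1 := D.avoid _ (hedge a c) _ hm1
        have h2 := D.avoid _ (hedge a' c') _ hm2
        simp only [ed, Sym2.mem_iff] at h1 h2
        rcases h1 with rfl | rfl
        · rcases h2 with h2 | h2
          · rw [Sum.inl.injEq, EmbeddingLike.apply_eq_iff_eq] at h2
            exact hlt.ne h2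
          · exact absurd h2 (by simp)
        · rcases h2 with h2 | h2
          · exact absurd h2 (by simp)
          · rw [hPB, Prod.mk.injEq] at hw
            obtain ⟨hw1, hw2⟩ := hw
            subst hw1
            apply hkl
            have e1 : k = c := hleaf a k c hx1 (by rw [← hc2, ← hw2])
            have e2 : l = c := hleaf a' l c hx2 (by rw [← hxe, ← hc2, ← hw2])
            rw [e1, e2]
      · rw [← hxe]; exact hc2.symm
    have hRinj : ∀ t ∈ T, ∀ t' ∈ T, ∀ p, R t p → R t' p → t = t' := by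
      intro t ht t' ht' p hp hp'
      have hlt := (hTmem t ht).1
      have hlt' := (hTmem t' ht').1
      obtain ⟨⟨a, a'⟩, ⟨k, l⟩⟩ := t
      obtain ⟨⟨b, b'⟩, ⟨k', l'⟩⟩ := t'
      obtain ⟨x, y⟩ := p
      simp only [R] at hp hp' hlt hlt'
      obtain ⟨hv, ⟨c, c', hc, hc'⟩, hx1, hy1, hx2, hy2⟩ := hp
      obtain ⟨_, ⟨d, d', hd, hd'⟩, hx1', hy1', hx2', hy2'⟩ := hp'
      have hne1 : ed a c ≠ ed a' c' := fun h => hlt.ne (hedinj _ _ _ _ h).1
      have hne2 : ed b d ≠ ed b' d' := fun h => hlt'.ne (hedinj _ _ _ _ h).1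
      rcases D.pair_unique hv (hedge a c) (hedge a' c') (hedge b d) (hedge b' d') hne1 hne2
        hc hc' hd hd' with ⟨h1, h2⟩ | ⟨h1, h2⟩
      · have e1 := (hedinj _ _ _ _ h1).1
        have e2 := (hedinj _ _ _ _ h2).1
        subst e1 e2
        have e3 := huniq a a' c c' k k' x y hlt.ne hv hc hc' hx1 hx1' hy1 hy1'
        have e4 := huniq a' a c' c l l' x y hlt.ne' hv hc' hc hx2 hx2' hy2 hy2'
        rw [e3, e4]
      · have e1 := (hedinj _ _ _ _ h1).1
        have e2 := (hedinj _ _ _ _ h2).1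
        subst e1 e2
        exact absurd (hlt.trans hlt') (lt_irrefl _)
    rw [hT]
    have hchoose : ∀ t : (Σ _ : Fin m × Fin m, Fin n × Fin n), ∃ p : Plane, t ∈ T → R t p := by
      intro t
      by_cases ht : t ∈ T
      · obtain ⟨p, hp⟩ := hex t ht
        exact ⟨p, fun _ => hp⟩
      · exact ⟨0, fun h => absurd h ht⟩
    choose pt hpt using hchoose
    unfold Drawing.crossings
    rw [Set.ncard_eq_toFinset_card _ D.crossingSet_finite]
    apply card_le_card_of_injOn pt
    · intro t ht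
      rw [mem_coe] at ht
      simp only [Set.Finite.coe_toFinset]
      obtain ⟨hv, ⟨c, c', hc, hc'⟩, _⟩ := hpt t ht
      refine ⟨hv, ed t.1.1 c, hedge _ _, ed t.1.2 c', hedge _ _, ?_, hc, hc'⟩
      intro h
      exact (hTmem t ht).1.ne (hedinj _ _ _ _ h).1
    · intro t ht t' ht' heq
      rw [mem_coe] at ht ht'
      exact hRinj t ht t' ht' (pt t) (hpt t ht) (heq ▸ hpt t' ht')

end Mono

end Vale.Agent.P040
end
end

section

section

/-!
# The combinatorial inequality for any number of leaves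
-/

namespace Vale.Agent.P040.Mono

open Finset

section
variable {α : Type*} [LinearOrder α]

/-- number of leaves on the left after deleting the leaf `j` -/
def del {n : ℕ} (j : Fin n) (i : ℕ) : ℕ := if j.1 < i then i - 1 else i

theorem del_mono {n : ℕ} (j : Fin n) : Monotone (del j) := by
  intro a b hab
  unfold del
  split_ifs <;> omega

theorem del_lt {N : ℕ} (j : Fin (N + 1)) (x : Fin N) (i : ℕ) :
    x.1 < del j i ↔ (j.succAbove x).1 < i := by
  unfold del
  rcases lt_or_ge x.castSucc j with h | h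
  · rw [Fin.succAbove_of_castSucc_lt _ _ h]
    rw [Fin.lt_def] at h
    simp only [Fin.val_castSucc] at h ⊢
    split_ifs <;> omega
  · rw [Fin.succAbove_of_le_castSucc _ _ h]
    rw [Fin.le_def] at h
    simp only [Fin.val_castSucc, Fin.val_succ] at h ⊢
    split_ifs <;> omega

theorem forced_del {N : ℕ} (j : Fin (N + 1)) (iP iQ : ℕ) (κP κQ : Fin (N + 1) → α)
    (u v : Fin (N + 1) → Prop) (k l : Fin N) :
    Forced (del j iP) (del j iQ) (κP ∘ j.succAbove) (κQ ∘ j.succAbove) (u ∘ j.succAbove)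
      (v ∘ j.succAbove) k l ↔ Forced iP iQ κP κQ u v (j.succAbove k) (j.succAbove l) := by
  have e1 : ∀ (x : Fin N) (i : ℕ), del j i ≤ x.1 ↔ i ≤ (j.succAbove x).1 := by
    intro x i
    have := del_lt j x i
    omega
  have e2 : ∀ x y : Fin N, (j.succAbove x < j.succAbove y) ↔ x < y := fun x y =>
    Fin.succAbove_lt_succAbove_iff
  unfold Forced
  simp only [Function.comp, e1, e2, del_lt]

theorem forced_ne {n : ℕ} {iP iQ : ℕ} (hPQ : iP ≤ iQ) {κP κQ : Fin n → α}
    {u v : Fin n → Prop} {k l : Fin n} (hf : Forced iP iQ κP κQ u v k l) : k ≠ l := by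
  rintro rfl
  unfold Forced at hf
  simp only [lt_irrefl, false_and, and_false, false_or] at hf
  omega

theorem forced_sum {N : ℕ} {iP iQ : ℕ} (hPQ : iP ≤ iQ) (κP κQ : Fin (N + 1) → α)
    (u v : Fin (N + 1) → Prop) :
    ∑ j : Fin (N + 1), forced (del j iP) (del j iQ) (κP ∘ j.succAbove) (κQ ∘ j.succAbove)
      (u ∘ j.succAbove) (v ∘ j.succAbove) = (N - 1) * forced iP iQ κP κQ u v := by
  classical
  have h1 : ∀ j : Fin (N + 1), forced (del j iP) (del j iQ) (κP ∘ j.succAbove)
      (κQ ∘ j.succAbove) (u ∘ j.succAbove) (v ∘ j.succAbove) =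
      ∑ p : Fin (N + 1) × Fin (N + 1),
        if (Forced iP iQ κP κQ u v p.1 p.2 ∧ p.1 ≠ j ∧ p.2 ≠ j) then 1 else 0 := by
    intro j
    rw [← Finset.card_filter]
    unfold forced
    apply Finset.card_bij (fun p _ => (j.succAbove p.1, j.succAbove p.2))
    · intro p hp
      simp only [mem_filter, mem_univ, true_and] at hp ⊢
      exact ⟨(forced_del j iP iQ κP κQ u v p.1 p.2).1 hp, Fin.succAbove_ne _ _,
        Fin.succAbove_ne _ _⟩
    · intro p _ q _ hpq
      simp only [Prod.mk.injEq] at hpq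
      exact Prod.ext (Fin.succAbove_right_injective hpq.1) (Fin.succAbove_right_injective hpq.2)
    · intro p hp
      simp only [mem_filter, mem_univ, true_and] at hp
      obtain ⟨hf, hn1, hn2⟩ := hp
      obtain ⟨x, hx⟩ := Fin.exists_succAbove_eq hn1
      obtain ⟨y, hy⟩ := Fin.exists_succAbove_eq hn2
      refine ⟨(x, y), ?_, Prod.ext hx hy⟩
      simp only [mem_filter, mem_univ, true_and]
      rw [forced_del, hx, hy]
      exact hf
  simp only [h1]
  rw [Finset.sum_comm]
  unfold forced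
  rw [Finset.card_filter, Finset.mul_sum]
  apply Finset.sum_congr rfl
  intro p _
  by_cases hf : Forced iP iQ κP κQ u v p.1 p.2
  · simp only [hf, true_and, if_true, mul_one]
    rw [← Finset.card_filter]
    have hne := forced_ne hPQ hf
    have e : (Finset.univ.filter (fun j : Fin (N + 1) => p.1 ≠ j ∧ p.2 ≠ j)) =
        ({p.1, p.2} : Finset (Fin (N + 1)))ᶜ := by
      ext j
      simp only [mem_filter, mem_univ, true_and, mem_compl, mem_insert, mem_singleton, not_or]
      constructor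
      · rintro ⟨a, b⟩; exact ⟨fun h => a h.symm, fun h => b h.symm⟩
      · rintro ⟨a, b⟩; exact ⟨fun h => a h.symm, fun h => b h.symm⟩
    rw [e, Finset.card_compl, Finset.card_pair hne, Fintype.card_fin]
    omega
  · simp only [hf, ne_eq, false_and, ↓reduceIte, sum_const_zero, mul_zero]

/-- **The combinatorial inequality.** -/
theorem core {m n : ℕ} (i : Fin m → ℕ) (κ : Fin m → Fin n → α)
    (U : Fin m → Fin m → Fin n → Prop) (hi : Monotone i)
    (hκ : ∀ a, Function.Injective (κ a))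
    (hb : ∀ a x y, i a ≤ x.1 → y.1 < i a → κ a x < κ a y) :
    dz m * dz n ≤ ∑ p ∈ prs m, forced (i p.1) (i p.2) (κ p.1) (κ p.2) (U p.1 p.2) (U p.2 p.1) := by
  obtain ⟨h, rfl | rfl⟩ := Nat.even_or_odd' n
  · rcases Nat.eq_zero_or_pos h with rfl | hpos
    · simp only [dz, mul_zero, Nat.zero_div, zero_tsub, Nat.mul_zero, zero_le]
    · obtain ⟨r, rfl⟩ : ∃ r, h = r + 1 := ⟨h - 1, by omega⟩
      have key : ∀ j : Fin (2 * r + 1 + 1), dz m * (r * r) ≤
          ∑ p ∈ prs m, forced (del j (i p.1)) (del j (i p.2)) (κ p.1 ∘ j.succAbove)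
            (κ p.2 ∘ j.succAbove) (U p.1 p.2 ∘ j.succAbove) (U p.2 p.1 ∘ j.succAbove) := by
        intro j
        apply core_odd (fun a => del j (i a)) (fun a => κ a ∘ j.succAbove)
          (fun a a' => U a a' ∘ j.succAbove) ((del_mono j).comp hi)
          (fun a => (hκ a).comp Fin.succAbove_right_injective)
        intro a x y hx hy
        apply hb
        · have := del_lt j x (i a); omega
        · exact (del_lt j y (i a)).1 hy
      have hs := Finset.sum_le_sum (fun (j : Fin (2 * r + 1 + 1)) (_ : j ∈ Finset.univ) => key j)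
      rw [Finset.sum_comm] at hs
      have e2 : ∀ p ∈ prs m, ∑ j : Fin (2 * r + 1 + 1), forced (del j (i p.1)) (del j (i p.2))
            (κ p.1 ∘ j.succAbove) (κ p.2 ∘ j.succAbove) (U p.1 p.2 ∘ j.succAbove)
            (U p.2 p.1 ∘ j.succAbove) = (2 * r) *
            forced (i p.1) (i p.2) (κ p.1) (κ p.2) (U p.1 p.2) (U p.2 p.1) := by
        intro p hp
        simp only [prs, mem_filter, mem_univ, true_and] at hp
        rw [forced_sum (hi hp.le), Nat.add_sub_cancel]
      have e5 : ∑ p ∈ prs m, (2 * r) * forced (i p.1) (i p.2) (κ p.1) (κ p.2) (U p.1 p.2)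
          (U p.2 p.1) = (2 * r) * ∑ p ∈ prs m, forced (i p.1) (i p.2) (κ p.1) (κ p.2) (U p.1 p.2)
          (U p.2 p.1) := (Finset.mul_sum _ _ _).symm
      rw [Finset.sum_congr rfl e2, e5, Finset.sum_const, Finset.card_univ, Fintype.card_fin,
        smul_eq_mul] at hs
      have e4 : dz (2 * (r + 1)) = (r + 1) * r := by
        unfold dz
        have e8 : (2 * (r + 1)) / 2 = r + 1 := by omega
        have e9 : (2 * (r + 1) - 1) / 2 = r := by omega
        rw [e8, e9]
      rw [e4]
      rcases Nat.eq_zero_or_pos r with hr | hr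
      · simp [hr]
      · generalize (∑ p ∈ prs m,
          forced (i p.1) (i p.2) (κ p.1) (κ p.2) (U p.1 p.2) (U p.2 p.1)) = T at hs ⊢
        have h5 : (2 * r) * (dz m * ((r + 1) * r)) ≤ (2 * r) * T := by
          calc (2 * r) * (dz m * ((r + 1) * r)) = (2 * r + 1 + 1) * (dz m * (r * r)) := by ring
            _ ≤ _ := hs
        exact Nat.le_of_mul_le_mul_left h5 (by omega)
  · have e3 : dz (2 * h + 1) = h * h := by
      unfold dz
      have e8 : (2 * h + 1) / 2 = h := by omega
      have e9 : (2 * h + 1 - 1) / 2 = h := by omega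
      rw [e8, e9]
    rw [e3]
    exact core_odd i κ U hi hκ hb

end

end Vale.Agent.P040.Mono
end
end

section

/-!
# Two-page drawings
-/

namespace Vale.Agent.P040

open Finset

/-- The key of the leaf `b`: leaves on the right from top to bottom, then leaves on the left from
bottom to top. -/
noncomputable def pageKey (n : ℕ) (r u : Prop) (b : ℕ) : ℕ := by
  classical
  exact if r then (if u then n - 1 - b else n + b) else (if u then 3 * n + (n - 1 - b)
    else 2 * n + b)

theorem twoPage_bound {m n : ℕ} (D : Drawing (completeBipartiteGraph (Fin m) (Fin n)))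
    (hax : ∀ v, (D.pos v).2 = 0)
    (hpg : ∀ u v, (completeBipartiteGraph (Fin m) (Fin n)).Adj u v →
      (∀ p ∈ D.arc s(u, v), 0 ≤ p.2) ∨ (∀ p ∈ D.arc s(u, v), p.2 ≤ 0)) :
    Mono.dz m * Mono.dz n ≤ D.crossings := by
  classical
  set σ : Equiv.Perm (Fin m) := Tuple.sort (fun a => (D.pos (Sum.inl a)).1) with hσ
  set τ : Equiv.Perm (Fin n) := Tuple.sort (fun b => (D.pos (Sum.inr b)).1) with hτ
  have hAm : Monotone (fun a => (D.pos (Sum.inl (σ a))).1) :=
    Tuple.monotone_sort (fun a => (D.pos (Sum.inl a)).1)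
  have hBm : Monotone (fun b => (D.pos (Sum.inr (τ b))).1) :=
    Tuple.monotone_sort (fun b => (D.pos (Sum.inr b)).1)
  set xA : Fin m → ℝ := fun a => (D.pos (Sum.inl (σ a))).1 with hxA
  set X : Fin n → ℝ := fun b => (D.pos (Sum.inr (τ b))).1 with hX
  have hpos : ∀ u v, (D.pos u).1 = (D.pos v).1 → u = v := by
    intro u v h
    exact D.pos_inj (Prod.ext h (by rw [hax, hax]))
  have hAs : StrictMono xA := hAm.strictMono_of_injective (by
    intro a a' h
    have := hpos _ _ h
    simpa using this)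
  have hBs : StrictMono X := hBm.strictMono_of_injective (by
    intro a a' h
    have := hpos _ _ h
    simpa using this)
  have hsep : ∀ a b, xA a ≠ X b := by
    intro a b h
    have := hpos _ _ h
    simp at this
  have hadj : ∀ a b, (completeBipartiteGraph (Fin m) (Fin n)).Adj (Sum.inl (σ a))
      (Sum.inr (τ b)) := by
    intro a b
    simp
  let up : Fin m → Fin n → Prop := fun a b => ∀ p ∈ D.arc s(Sum.inl (σ a), Sum.inr (τ b)), 0 ≤ p.2
  have hdown : ∀ a b, ¬ up a b → ∀ p ∈ D.arc s(Sum.inl (σ a), Sum.inr (τ b)), p.2 ≤ 0 := by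
    intro a b h
    exact (hpg _ _ (hadj a b)).resolve_left h
  let i : Fin m → ℕ := fun a => #{b | X b < xA a}
  have hi : ∀ a (b : Fin n), b.1 < i a ↔ X b < xA a := by
    intro a b
    rw [← Mono.mem_lower_iff (S := {b | X b < xA a})]
    · simp only [mem_filter, mem_univ, true_and]
    · intro b hb c hc
      simp only [mem_filter, mem_univ, true_and] at hb ⊢
      exact (hBs.monotone hc).trans_lt hb
  have hi' : ∀ a (b : Fin n), i a ≤ b.1 → xA a < X b := by
    intro a b h
    rcases lt_trichotomy (xA a) (X b) with h1 | h1 | h1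
    · exact h1
    · exact absurd h1 (hsep a b)
    · exact absurd ((hi a b).2 h1) (not_lt.2 h)
  have him : Monotone i := by
    intro a a' haa
    apply card_le_card
    intro b hb
    simp only [mem_filter, mem_univ, true_and] at hb ⊢
    exact hb.trans_le (hAs.monotone haa)
  let κ : Fin m → Fin n → ℕ := fun a b => pageKey n (i a ≤ b.1) (up a b) b.1
  have hκi : ∀ a, Function.Injective (κ a) := by
    intro a b c hbc
    have hb := b.2
    have hc := c.2
    simp only [κ, pageKey] at hbc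
    apply Fin.ext
    split_ifs at hbc <;> omega
  have hκb : ∀ a x y, i a ≤ x.1 → y.1 < i a → κ a x < κ a y := by
    intro a x y hx hy
    have h1 := x.2
    have h2 := y.2
    simp only [κ, pageKey]
    split_ifs <;> omega
  have hκR : ∀ a (k l : Fin n), i a ≤ l.1 → l < k → (κ a k < κ a l ↔ up a k) := by
    intro a k l hl hlk
    have h1 := k.2
    have h2 : l.1 < k.1 := hlk
    by_cases h3 : up a k <;> by_cases h4 : up a l <;>
      simp only [κ, pageKey, h3, h4, if_true, if_false, iff_true, iff_false, hl, (hl.trans h2.le : i a ≤ k.1)] <;> omega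
  have hκL : ∀ a (k l : Fin n), k.1 < i a → l < k → (κ a k < κ a l ↔ up a l) := by
    intro a k l hk hlk
    have h1 := k.2
    have h2 : l.1 < k.1 := hlk
    have h5 : ¬ i a ≤ k.1 := not_le.2 hk
    have h6 : ¬ i a ≤ l.1 := not_le.2 (h2.trans hk)
    by_cases h3 : up a k <;> by_cases h4 : up a l <;>
      simp only [κ, pageKey, h3, h4, if_true, if_false, iff_true, iff_false, h5, h6] <;> omega
  -- same page
  have hpage : ∀ a a' k l, (up a k ↔ up a' l) →
      ((∀ z ∈ D.arc s(Sum.inl (σ a), Sum.inr (τ k)), 0 ≤ z.2) ∧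
        (∀ z ∈ D.arc s(Sum.inl (σ a'), Sum.inr (τ l)), 0 ≤ z.2) ∨
      (∀ z ∈ D.arc s(Sum.inl (σ a), Sum.inr (τ k)), z.2 ≤ 0) ∧
        (∀ z ∈ D.arc s(Sum.inl (σ a'), Sum.inr (τ l)), z.2 ≤ 0)) := by
    intro a a' k l h
    by_cases h1 : up a k
    · exact Or.inl ⟨h1, h.1 h1⟩
    · exact Or.inr ⟨hdown _ _ h1, hdown _ _ (fun h2 => h1 (h.2 h2))⟩
  have harc : ∀ a b, IsArc (D.arc s(Sum.inl (σ a), Sum.inr (τ b))) (D.pos (Sum.inl (σ a)))
      (D.pos (Sum.inr (τ b))) := fun a b => D.isArc _ _ (hadj a b)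
  have hmain := Mono.count_crossings D σ τ i κ (fun a _ b => up a b) (by
    intro a a' k l haa hF
    have hPQ : xA a < xA a' := hAs haa
    have hii : i a ≤ i a' := him haa.le
    rcases hF with ⟨h1, h2, h3, h4⟩ | ⟨h1, h2, h3⟩ | ⟨h1, h2, h3, h4⟩ | ⟨h1, h2, h3, h4⟩ |
      ⟨h1, h2, h3⟩ | ⟨h1, h2, h3⟩
    · rw [hκR a k l h1 h2] at h4
      exact absurd h4 (by (clear * - h4; tauto))
    · rw [hκR a' l k h1 h2] at h3
      refine ⟨h2.ne, ?_⟩
      exact Page.arcs_meet (harc a k) (harc a' l) (hax _) (hax _) (hax _) (hax _) hPQ (hi' a' k h1)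
        (hBs h2) (hpage _ _ _ _ h3)
    · rw [hκR a k l h1 h2, hκL a' k l h3 h2] at h4
      refine ⟨h2.ne', ?_⟩
      exact Page.arcs_meet (harc a k) (harc a' l).symm (hax _) (hax _) (hax _) (hax _)
        (hi' a l h1) (hBs h2) ((hi a' k).1 h3) (hpage _ _ _ _ h4)
    · rw [hκL a' k l h3 h2] at h4
      exact absurd h4 (by (clear * - h4; tauto))
    · rw [hκL a l k h2 h1] at h3
      refine ⟨h1.ne, ?_⟩
      exact Page.arcs_meet (harc a k).symm (harc a' l).symm (hax _) (hax _) (hax _) (hax _)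
        (hBs h1) ((hi a l).1 h2) hPQ (hpage _ _ _ _ h3.symm)
    · have hkl : l < k := by
        rw [Fin.lt_def]; omega
      refine ⟨hkl.ne', ?_⟩
      rw [Set.inter_comm]
      exact Page.arcs_meet (harc a' l).symm (harc a k) (hax _) (hax _) (hax _) (hax _)
        ((hi a l).1 h1) hPQ (hi' a' k h2) (hpage _ _ _ _ h3.symm))
  exact (Mono.core i κ (fun a _ b => up a b) him hκi hκb).trans hmain

end Vale.Agent.P040
end

section

/-!
# Drawings in which every edge lies between the vertical lines through its ends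
-/

namespace Vale.Agent.P040

open Finset Page

/-- A path along an arc, from left to right. -/
theorem exists_path {S : Set Plane} {p q : Plane} (h : IsArc S p q) :
    ∃ γ : ℝ → ℂ, ContinuousOn γ (Set.Icc 0 1) ∧ Set.InjOn γ (Set.Icc 0 1) ∧
      (∀ s ∈ Set.Icc (0 : ℝ) 1, ((γ s).re, (γ s).im) ∈ S) ∧
      (p.1 < q.1 → γ 0 = ⟨p.1, p.2⟩ ∧ γ 1 = ⟨q.1, q.2⟩) ∧
      (q.1 < p.1 → γ 0 = ⟨q.1, q.2⟩ ∧ γ 1 = ⟨p.1, p.2⟩) := by
  have key : ∀ p q, IsArc S p q → ∃ γ : ℝ → ℂ, ContinuousOn γ (Set.Icc 0 1) ∧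
      Set.InjOn γ (Set.Icc 0 1) ∧ (∀ s ∈ Set.Icc (0 : ℝ) 1, ((γ s).re, (γ s).im) ∈ S) ∧
      γ 0 = ⟨p.1, p.2⟩ ∧ γ 1 = ⟨q.1, q.2⟩ := by
    rintro p q ⟨γ, h1, h2, h3, h4, h5⟩
    refine ⟨fun s => ⟨(γ s).1, (γ s).2⟩, ?_, ?_, ?_, by simp [h3], by simp [h4]⟩
    · have : Continuous (fun z : Plane => (⟨z.1, z.2⟩ : ℂ)) :=
        Complex.equivRealProdCLM.symm.continuous
      exact this.comp_continuousOn h1
    · intro s hs t ht hst
      apply h2 hs ht
      rw [Complex.mk.injEq] at hst
      exact Prod.ext hst.1 hst.2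
    · intro s hs
      rw [← h5]
      exact Set.mem_image_of_mem γ hs
  rcases lt_or_ge p.1 q.1 with hpq | hpq
  · obtain ⟨γ, h1, h2, h3, h4, h5⟩ := key p q h
    exact ⟨γ, h1, h2, h3, fun _ => ⟨h4, h5⟩, fun h' => absurd h' (not_lt.2 hpq.le)⟩
  · obtain ⟨γ, h1, h2, h3, h4, h5⟩ := key q p (by
      obtain ⟨γ, g1, g2, g3, g4, g5⟩ := h
      have hm : Set.MapsTo (fun t : ℝ => 1 - t) (Set.Icc 0 1) (Set.Icc 0 1) := by
        intro t ht
        exact ⟨by linarith [ht.2], by linarith only [ht.1]⟩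
      refine ⟨fun t => γ (1 - t), g1.comp (by fun_prop) hm, ?_, by simp [g4], by simp [g3], ?_⟩
      · intro s hs t ht hst
        have := g2 (hm hs) (hm ht) hst
        linarith only [this]
      · rw [← g5]
        ext x
        constructor
        · rintro ⟨t, ht, rfl⟩
          exact ⟨1 - t, hm ht, rfl⟩
        · rintro ⟨t, ht, rfl⟩
          exact ⟨1 - t, hm ht, by simp⟩)
    exact ⟨γ, h1, h2, h3, fun h' => absurd h' (not_lt.2 hpq), fun _ => ⟨h4, h5⟩⟩

theorem exists_angle_of {γ : ℝ → ℂ} (hγ : ContinuousOn γ (Set.Icc 0 1)) {v : ℂ}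
    (hne : ∀ s ∈ Set.Icc (0 : ℝ) 1, γ s ≠ v) : ∃ θ, IsAngle γ v θ := by
  obtain ⟨θ, hθc, hθ⟩ := exists_angle (α := γ) (β := fun _ => v) hγ continuousOn_const
    (fun s hs t _ => hne s hs)
  exact ⟨_, isAngle_fst (t := 0) hθc hθ (by simp only [Set.mem_Icc, Std.le_refl, zero_le_one, and_self])⟩

theorem xBounded_bound {m n : ℕ} (D : Drawing (completeBipartiteGraph (Fin m) (Fin n)))
    (hx : ∀ a b, (D.pos (Sum.inl a)).1 ≠ (D.pos (Sum.inr b)).1)
    (hbd : ∀ a b, ∀ p ∈ D.arc s(Sum.inl a, Sum.inr b),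
      min (D.pos (Sum.inl a)).1 (D.pos (Sum.inr b)).1 ≤ p.1 ∧
        p.1 ≤ max (D.pos (Sum.inl a)).1 (D.pos (Sum.inr b)).1)
    (hdj : ∀ a b b', b ≠ b' → ∀ p ∈ D.arc s(Sum.inl a, Sum.inr b),
      p ∈ D.arc s(Sum.inl a, Sum.inr b') → p = D.pos (Sum.inl a)) :
    Mono.dz m * Mono.dz n ≤ D.crossings := by
  classical
  set σ : Equiv.Perm (Fin m) := Tuple.sort (fun a => (D.pos (Sum.inl a)).1) with hσ
  set τ : Equiv.Perm (Fin n) := Tuple.sort (fun b => (D.pos (Sum.inr b)).1) with hτ
  have hAm : Monotone (fun a => (D.pos (Sum.inl (σ a))).1) :=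
    Tuple.monotone_sort (fun a => (D.pos (Sum.inl a)).1)
  have hBm : Monotone (fun b => (D.pos (Sum.inr (τ b))).1) :=
    Tuple.monotone_sort (fun b => (D.pos (Sum.inr b)).1)
  set xA : Fin m → ℝ := fun a => (D.pos (Sum.inl (σ a))).1 with hxA
  set X : Fin n → ℝ := fun b => (D.pos (Sum.inr (τ b))).1 with hX
  let zA : Fin m → ℂ := fun a => ⟨xA a, (D.pos (Sum.inl (σ a))).2⟩
  let zB : Fin n → ℂ := fun b => ⟨X b, (D.pos (Sum.inr (τ b))).2⟩
  have hsep : ∀ a b, xA a ≠ X b := fun a b => hx _ _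
  let ed : Fin m → Fin n → Sym2 (Fin m ⊕ Fin n) := fun a b => s(Sum.inl (σ a), Sum.inr (τ b))
  have hadj : ∀ a b, (completeBipartiteGraph (Fin m) (Fin n)).Adj (Sum.inl (σ a))
      (Sum.inr (τ b)) := by
    intro a b
    simp
  have hedge : ∀ a b, ed a b ∈ (completeBipartiteGraph (Fin m) (Fin n)).edgeSet := by
    intro a b
    exact hadj a b
  -- the paths
  have hpath := fun a b => exists_path (D.isArc _ _ (hadj a b))
  choose E hEc hEi hEm hER hEL using hpath
  have hERr : ∀ a b, xA a < X b → E a b 0 = zA a ∧ E a b 1 = zB b := fun a b h => hER a b h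
  have hELl : ∀ a b, X b < xA a → E a b 0 = zB b ∧ E a b 1 = zA a := fun a b h => hEL a b h
  have hlo : ∀ a b, ∀ s ∈ Set.Icc (0 : ℝ) 1, min (xA a) (X b) ≤ (E a b s).re :=
    fun a b s hs => (hbd _ _ _ (hEm a b s hs)).1
  have hhi : ∀ a b, ∀ s ∈ Set.Icc (0 : ℝ) 1, (E a b s).re ≤ max (xA a) (X b) :=
    fun a b s hs => (hbd _ _ _ (hEm a b s hs)).2
  have hcpx : ∀ (z : ℂ) (p : Plane), (z.re, z.im) = p → z = ⟨p.1, p.2⟩ := by
    rintro z p rfl
    rfl
  have havB : ∀ a b c, b ≠ c → ∀ s ∈ Set.Icc (0 : ℝ) 1, E a b s ≠ zB c := by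
    intro a b c hbc s hs heq
    have h1 := hEm a b s hs
    rw [heq] at h1
    have h2 := D.avoid _ (hedge a b) (Sum.inr (τ c)) h1
    simp only [ed, Sym2.mem_iff, Sum.inr.injEq, EmbeddingLike.apply_eq_iff_eq,
      reduceCtorEq, false_or] at h2
    exact hbc h2.symm
  have havA : ∀ a b a', a ≠ a' → ∀ s ∈ Set.Icc (0 : ℝ) 1, E a b s ≠ zA a' := by
    intro a b c hbc s hs heq
    have h1 := hEm a b s hs
    rw [heq] at h1
    have h2 := D.avoid _ (hedge a b) (Sum.inl (σ c)) h1
    simp only [ed, Sym2.mem_iff, Sum.inl.injEq, EmbeddingLike.apply_eq_iff_eq,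
      reduceCtorEq, or_false] at h2
    exact hbc h2.symm
  have hstar : ∀ a b c, b ≠ c → ∀ s ∈ Set.Icc (0 : ℝ) 1, ∀ t ∈ Set.Icc (0 : ℝ) 1,
      E a b s = E a c t → E a b s = zA a := by
    intro a b c hbc s hs t ht heq
    have h1 := hEm a b s hs
    have h2 := hEm a c t ht
    rw [← heq] at h2
    have h3 := hdj (σ a) (τ b) (τ c) (fun h => hbc (τ.injective h)) _ h1 h2
    exact hcpx _ _ h3
  -- the radii
  have hδ : ∀ a, ∃ δ : ℝ, 0 < δ ∧ ∀ b, δ ≤ ‖zB b - zA a‖ := by
    intro a
    have hpos : ∀ b, 0 < ‖zB b - zA a‖ := by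
      intro b
      rw [norm_pos_iff, sub_ne_zero]
      intro h
      exact hsep a b (congrArg Complex.re h).symm
    rcases isEmpty_or_nonempty (Fin n) with he | hn
    · exact ⟨1, one_pos, fun b => he.elim b⟩
    · obtain ⟨b0, hb0⟩ := Finite.exists_min (fun b => ‖zB b - zA a‖)
      exact ⟨_, hpos b0, hb0⟩
  choose δ hδ0 hδ1 using hδ
  -- the directions of the edges
  have hφR : ∀ a b, ∃ φ : ℝ, xA a < X b → Leaves (E a b) (zA a) (δ a) φ := by
    intro a b
    by_cases h : xA a < X b
    · obtain ⟨φ, hφ⟩ := exists_leaves (hEc a b) (hERr a b h).1 (hδ0 a)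
        (by rw [(hERr a b h).2]; exact hδ1 a b) (by
          intro s hs
          have := hlo a b s hs
          rwa [min_eq_left h.le] at this)
      exact ⟨φ, fun _ => hφ⟩
    · exact ⟨0, fun h' => absurd h' h⟩
  choose φR hφR using hφR
  have hcn : ∀ z w : ℂ, ‖-(starRingEnd ℂ) z - -(starRingEnd ℂ) w‖ = ‖z - w‖ := by
    intro z w
    rw [show -(starRingEnd ℂ) z - -(starRingEnd ℂ) w = -(starRingEnd ℂ) (z - w) by
      rw [map_sub]; ring, norm_neg, Complex.norm_conj]
  have hφL : ∀ a b, ∃ φ : ℝ, X b < xA a →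
      Leaves (mir (E a b)) (-(starRingEnd ℂ) (zA a)) (δ a) φ := by
    intro a b
    by_cases h : X b < xA a
    · obtain ⟨φ, hφ⟩ := exists_leaves (γ := mir (E a b)) (p := -(starRingEnd ℂ) (zA a))
        (mir_continuousOn (hEc a b)) (by rw [mir, sub_zero, (hELl a b h).2]) (hδ0 a)
        (by
          rw [mir, sub_self, (hELl a b h).1, hcn]
          exact hδ1 a b) (by
          intro s hs
          have := hhi a b (1 - s) ⟨by linarith only [hs.2], by linarith [hs.1]⟩
          rw [max_eq_left h.le] at this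
          rw [mir_re, Complex.neg_re, Complex.conj_re]
          exact neg_le_neg this)
      exact ⟨φ, fun _ => hφ⟩
    · exact ⟨0, fun h' => absurd h' h⟩
  choose φL hφL using hφL
  -- the data
  let i : Fin m → ℕ := fun a => #{b | X b < xA a}
  have hi : ∀ a (b : Fin n), b.1 < i a ↔ X b < xA a := by
    intro a b
    rw [← Mono.mem_lower_iff (S := {b | X b < xA a})]
    · simp only [mem_filter, mem_univ, true_and]
    · intro b hb c hc
      simp only [mem_filter, mem_univ, true_and] at hb ⊢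
      exact (hBm hc).trans_lt hb
  have hi' : ∀ a (b : Fin n), i a ≤ b.1 → xA a < X b := by
    intro a b h
    rcases lt_trichotomy (xA a) (X b) with h1 | h1 | h1
    · exact h1
    · exact absurd h1 (hsep a b)
    · exact absurd ((hi a b).2 h1) (not_lt.2 h)
  have him : Monotone i := by
    intro a a' haa
    apply card_le_card
    intro b hb
    simp only [mem_filter, mem_univ, true_and] at hb ⊢
    exact hb.trans_le (hAm haa)
  let κ : Fin m → Fin n → ℝ := fun a b => if i a ≤ b.1 then -φR a b else 10 + φL a b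
  have hpi := Real.pi_pos
  have hpi4 := Real.pi_le_four
  have hκR : ∀ a (b : Fin n), i a ≤ b.1 → κ a b = -φR a b := by
    intro a b h
    simp only [κ, h, if_true]
  have hκL : ∀ a (b : Fin n), b.1 < i a → κ a b = 10 + φL a b := by
    intro a b h
    simp only [κ, not_le.2 h, if_false]
  have hκb : ∀ a x y, i a ≤ x.1 → y.1 < i a → κ a x < κ a y := by
    intro a x y h1 h2
    rw [hκR a x h1, hκL a y h2]
    have e1 := (hφR a x (hi' a x h1)).1
    have e2 := (hφL a y ((hi a y).1 h2)).1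
    linarith only [hpi4, e1, e2]
  -- disjointness of the edges of a star
  have hRne : ∀ a (k l : Fin n), k ≠ l → xA a < X k → xA a < X l →
      ∀ s ∈ Set.Icc (0 : ℝ) 1, ∀ t ∈ Set.Icc (0 : ℝ) 1, E a k s = E a l t → s = 0 ∧ t = 0 := by
    intro a k l hkl h1 h2 s hs t ht heq
    have e1 := hstar a k l hkl s hs t ht heq
    have e2 : E a l t = zA a := by rw [← heq, e1]
    have g1 := (hERr a k h1).1
    have g2 := (hERr a l h2).1
    exact ⟨hEi a k hs (by simp only [Set.mem_Icc, Std.le_refl, zero_le_one, and_self]) (e1.trans g1.symm), hEi a l ht (by simp only [Set.mem_Icc, Std.le_refl, zero_le_one, and_self]) (e2.trans g2.symm)⟩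
  have hLne : ∀ a (k l : Fin n), k ≠ l → X k < xA a → X l < xA a →
      ∀ s ∈ Set.Icc (0 : ℝ) 1, ∀ t ∈ Set.Icc (0 : ℝ) 1, mir (E a k) s = mir (E a l) t →
        s = 0 ∧ t = 0 := by
    intro a k l hkl h1 h2 s hs t ht heq
    have hs' : 1 - s ∈ Set.Icc (0 : ℝ) 1 := ⟨by linarith only [hs.2], by linarith [hs.1]⟩
    have ht' : 1 - t ∈ Set.Icc (0 : ℝ) 1 := ⟨by linarith [ht.2], by linarith [ht.1]⟩
    have heq' : E a k (1 - s) = E a l (1 - t) := by
      have := neg_injective heq
      exact (starRingEnd ℂ).injective this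
    have e1 := hstar a k l hkl _ hs' _ ht' heq'
    have e2 : E a l (1 - t) = zA a := by rw [← heq', e1]
    have g1 := (hELl a k h1).2
    have g2 := (hELl a l h2).2
    have q1 := hEi a k hs' (by simp only [Set.mem_Icc, zero_le_one, Std.le_refl, and_self]) (e1.trans g1.symm)
    have q2 := hEi a l ht' (by simp only [Set.mem_Icc, zero_le_one, Std.le_refl, and_self]) (e2.trans g2.symm)
    constructor <;> linarith
  have hleaves_ne : ∀ (γ γ' : ℝ → ℂ) (p : ℂ) (d a b : ℝ), 0 < d → Leaves γ p d a →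
      Leaves γ' p d b → (∀ s ∈ Set.Icc (0 : ℝ) 1, ∀ t ∈ Set.Icc (0 : ℝ) 1, γ s = γ' t →
        s = 0 ∧ t = 0) → a ≠ b := by
    rintro γ γ' p d a b hd ⟨-, -, s1, h1, h2, h3, h4, -⟩ ⟨-, -, t1, g1, g2, g3, g4, -⟩ hne hab
    have e : γ s1 = γ' t1 := by
      have e1 : (γ s1 - p) = (γ' t1 - p) := by
        apply Complex.ext
        · rw [h3, g3, hab]
        · rw [h4, g4, hab]
      linear_combination e1
    have := (hne _ ⟨h1.le, h2⟩ _ ⟨g1.le, g2⟩ e).1
    linarith only [h1, this]
  have hκi : ∀ a, Function.Injective (κ a) := by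
    intro a k l hkl
    by_contra hne
    rcases le_or_gt (i a) k.1 with h1 | h1 <;> rcases le_or_gt (i a) l.1 with h2 | h2
    · rw [hκR a k h1, hκR a l h2] at hkl
      exact hleaves_ne _ _ _ _ _ _ (hδ0 a) (hφR a k (hi' a k h1)) (hφR a l (hi' a l h2))
        (hRne a k l hne (hi' a k h1) (hi' a l h2)) (neg_injective hkl)
    · exact absurd hkl (hκb a k l h1 h2).ne
    · exact absurd hkl (hκb a l k h2 h1).ne'
    · rw [hκL a k h1, hκL a l h2] at hkl
      exact hleaves_ne _ _ _ _ _ _ (hδ0 a) (hφL a k ((hi a k).1 h1)) (hφL a l ((hi a l).1 h2))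
        (hLne a k l hne ((hi a k).1 h1) ((hi a l).1 h2)) (add_left_cancel hkl)
  -- the order at a vertex
  have hoR : ∀ a (k l : Fin n), i a ≤ l.1 → l < k → (κ a k < κ a l ↔ Above (E a k) (zB l)) := by
    intro a k l hl hlk
    have hl' := hi' a l hl
    have hk' := hi' a k (hl.trans (le_of_lt hlk))
    have hXX : X l ≤ X k := hBm hlk.le
    rw [hκR a k (hl.trans (le_of_lt hlk)), hκR a l hl, neg_lt_neg_iff, ← (hERr a l hl').2]
    have g0 := (hERr a k hk').1
    have g1 := (hERr a k hk').2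
    symm
    refine local_order (ε := E a l) (φ := E a k) (δ := δ a) (hEc a l) (hEc a k)
      ((hERr a l hl').1.trans g0.symm) (hRne a l k hlk.ne hl' hk') ?_ ?_ ?_ ?_ (hδ0 a)
      (by rw [g0]; exact hφR a l hl') (by rw [g0]; exact hφR a k hk')
    · intro s hs
      have := hlo a l s hs
      rw [min_eq_left hl'.le] at this
      rw [g0]
      exact this
    · intro s hs
      have := hhi a l s hs
      rw [max_eq_right hl'.le] at this
      rw [g1]
      exact this.trans hXX
    · intro s hs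
      have := hlo a k s hs
      rw [min_eq_left hk'.le] at this
      rw [g0]
      exact this
    · rw [g0, g1]
      exact hk'
  have hoL : ∀ a (k l : Fin n), k.1 < i a → l < k → (κ a k < κ a l ↔ Above (E a l) (zB k)) := by
    intro a k l hk hlk
    have hk' := (hi a k).1 hk
    have hl' := (hi a l).1 (lt_trans hlk hk)
    have hXX : X l ≤ X k := hBm hlk.le
    rw [hκL a k hk, hκL a l (lt_trans hlk hk), add_lt_add_iff_left]
    have g0 : mir (E a l) 0 = -(starRingEnd ℂ) (zA a) := by rw [mir, sub_zero, (hELl a l hl').2]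
    have g0' : mir (E a k) 0 = -(starRingEnd ℂ) (zA a) := by rw [mir, sub_zero, (hELl a k hk').2]
    have g1 : mir (E a l) 1 = -(starRingEnd ℂ) (zB l) := by rw [mir, sub_self, (hELl a l hl').1]
    have g1' : mir (E a k) 1 = -(starRingEnd ℂ) (zB k) := by rw [mir, sub_self, (hELl a k hk').1]
    obtain ⟨θ, hθ⟩ := exists_angle_of (hEc a l) (havB a l k hlk.ne)
    rw [← above_mir hθ, ← g1']
    symm
    have hre : ∀ z : ℂ, (-(starRingEnd ℂ) z).re = -z.re := fun z => by simp
    refine local_order (ε := mir (E a k)) (φ := mir (E a l)) (δ := δ a)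
      (mir_continuousOn (hEc a k)) (mir_continuousOn (hEc a l)) (g0'.trans g0.symm)
      (hLne a k l hlk.ne' hk' hl') ?_ ?_ ?_ ?_ (hδ0 a)
      (by rw [g0]; exact hφL a k hk') (by rw [g0]; exact hφL a l hl')
    · intro s hs
      have := hhi a k (1 - s) ⟨by linarith only [hs.2], by linarith [hs.1]⟩
      rw [max_eq_left hk'.le] at this
      rw [g0, mir_re, hre]
      exact neg_le_neg this
    · intro s hs
      have := hlo a k (1 - s) ⟨by linarith [hs.2], by linarith [hs.1]⟩
      rw [min_eq_right hk'.le] at this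
      rw [g1, mir_re, hre]
      exact neg_le_neg (hXX.trans this)
    · intro s hs
      have := hhi a l (1 - s) ⟨by linarith [hs.2], by linarith [hs.1]⟩
      rw [max_eq_left hl'.le] at this
      rw [g0, mir_re, hre]
      exact neg_le_neg this
    · rw [g0, g1, hre, hre]
      exact neg_lt_neg hl'
  have hmain := Mono.count_crossings D σ τ i κ (fun a a' b => Above (E a b) (zA a')) (by
    intro a a' k l haa hF
    have hPQ : xA a ≤ xA a' := hAm haa.le
    have hii : i a ≤ i a' := him haa.le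
    have hkl : k ≠ l := by
      rcases hF with ⟨h1, h2, h3, h4⟩ | ⟨h1, h2, h3⟩ | ⟨h1, h2, h3, h4⟩ | ⟨h1, h2, h3, h4⟩ |
        ⟨h1, h2, h3⟩ | ⟨h1, h2, h3⟩
      · exact h2.ne'
      · exact h2.ne
      · exact h2.ne'
      · exact h2.ne'
      · exact h1.ne
      · rintro rfl
        (clear * - hii h2 h1; omega)
    refine ⟨hkl, ?_⟩
    by_contra hemp
    rw [Set.not_nonempty_iff_eq_empty] at hemp
    have hdis : ∀ s ∈ Set.Icc (0 : ℝ) 1, ∀ t ∈ Set.Icc (0 : ℝ) 1, E a k s ≠ E a' l t := by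
      intro s hs t ht heq
      have h1 := hEm a k s hs
      have h2 := hEm a' l t ht
      rw [← heq] at h2
      have : ((E a k s).re, (E a k s).im) ∈ (∅ : Set Plane) := hemp ▸ ⟨h1, h2⟩
      exact this.elim
    have hdis' : ∀ s ∈ Set.Icc (0 : ℝ) 1, ∀ t ∈ Set.Icc (0 : ℝ) 1, E a' l s ≠ E a k t :=
      fun s hs t ht h => hdis t ht s hs h.symm
    rcases hF with ⟨h1, h2, h3, h4⟩ | ⟨h1, h2, h3⟩ | ⟨h1, h2, h3, h4⟩ | ⟨h1, h2, h3, h4⟩ |
      ⟨h1, h2, h3⟩ | ⟨h1, h2, h3⟩
    · -- `P < l < k`, `Q < k`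
      rw [hoR a k l h1 h2] at h4
      have pl := hi' a l h1
      have qk := hi' a' k h3
      have pk := hi' a k (h1.trans (le_of_lt h2))
      have lk : X l ≤ X k := hBm h2.le
      have e0 := (hERr a k pk).1
      have e1 := (hERr a k pk).2
      have hN := nested (hEc a k) (hEc a' l) hdis (by
          intro t ht
          have := hlo a' l t ht
          rw [e0]
          exact (le_min hPQ pl.le).trans this) (by
          intro t ht
          have := hhi a' l t ht
          rw [e1]
          exact this.trans (max_le qk.le lk)) (by rw [e0, e1]; exact pk)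
      rcases lt_or_gt_of_ne (hsep a' l) with ql | lq
      · rw [(hERr a' l ql).1, (hERr a' l ql).2] at hN
        (clear * - h4 hN; tauto)
      · rw [(hELl a' l lq).1, (hELl a' l lq).2] at hN
        (clear * - h4 hN; tauto)
    · -- `P ≤ Q < k < l`
      rw [hoR a' l k h1 h2] at h3
      have qk := hi' a' k h1
      have ql := hi' a' l (h1.trans (le_of_lt h2))
      have pk := hPQ.trans_lt qk
      have kl : X k ≤ X l := hBm h2.le
      have e0 := (hERr a k pk).1
      have e1 := (hERr a k pk).2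
      have f0 := (hERr a' l ql).1
      have f1 := (hERr a' l ql).2
      have hN := staggered (hEc a k) (hEc a' l) hdis (by
          intro t ht
          have := hlo a' l t ht
          rw [min_eq_left ql.le] at this
          rw [e0]
          exact hPQ.trans this) (by
          intro s hs
          have := hhi a k s hs
          rw [max_eq_right pk.le] at this
          rw [f1]
          exact this.trans kl) (by rw [e0, e1]; exact pk) (by rw [f0, f1]; exact ql)
          (by rw [f0, e1]; exact qk.le)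
      rw [f0, e1] at hN
      (clear * - h3 hN; tauto)
    · -- `P < l < k < Q`
      rw [hoR a k l h1 h2, hoL a' k l h3 h2] at h4
      have pl := hi' a l h1
      have pk := hi' a k (h1.trans (le_of_lt h2))
      have kq := (hi a' k).1 h3
      have lk : X l ≤ X k := hBm h2.le
      have lq := lk.trans_lt kq
      have e0 := (hERr a k pk).1
      have e1 := (hERr a k pk).2
      have f0 := (hELl a' l lq).1
      have f1 := (hELl a' l lq).2
      have hN := staggered (hEc a k) (hEc a' l) hdis (by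
          intro t ht
          have := hlo a' l t ht
          rw [min_eq_right lq.le] at this
          rw [e0]
          exact pl.le.trans this) (by
          intro s hs
          have := hhi a k s hs
          rw [max_eq_right pk.le] at this
          rw [f1]
          exact this.trans kq.le) (by rw [e0, e1]; exact pk) (by rw [f0, f1]; exact lq)
          (by rw [f0, e1]; exact lk)
      rw [f0, e1] at hN
      (clear * - h4 hN; tauto)
    · -- `l < P`, `l < k < Q`
      rw [hoL a' k l h3 h2] at h4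
      have lp := (hi a l).1 h1
      have kq := (hi a' k).1 h3
      have lk : X l ≤ X k := hBm h2.le
      have lq := lk.trans_lt kq
      have f0 := (hELl a' l lq).1
      have f1 := (hELl a' l lq).2
      have hN := nested (hEc a' l) (hEc a k) hdis' (by
          intro t ht
          have := hlo a k t ht
          rw [f0]
          exact (le_min lp.le lk).trans this) (by
          intro t ht
          have := hhi a k t ht
          rw [f1]
          exact this.trans (max_le hPQ kq.le)) (by rw [f0, f1]; exact lq)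
      rcases lt_or_gt_of_ne (hsep a k) with pk | kp
      · rw [(hERr a k pk).1, (hERr a k pk).2] at hN
        (clear * - h4 hN; tauto)
      · rw [(hELl a k kp).1, (hELl a k kp).2] at hN
        (clear * - h4 hN; tauto)
    · -- `k < l < P ≤ Q`
      rw [hoL a l k h2 h1] at h3
      have lp := (hi a l).1 h2
      have kl : X k ≤ X l := hBm h1.le
      have kp := kl.trans_lt lp
      have lq := lp.trans_le hPQ
      have e0 := (hELl a k kp).1
      have e1 := (hELl a k kp).2
      have f0 := (hELl a' l lq).1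
      have f1 := (hELl a' l lq).2
      have hN := staggered (hEc a k) (hEc a' l) hdis (by
          intro t ht
          have := hlo a' l t ht
          rw [min_eq_right lq.le] at this
          rw [e0]
          exact kl.trans this) (by
          intro s hs
          have := hhi a k s hs
          rw [max_eq_left kp.le] at this
          rw [f1]
          exact this.trans hPQ) (by rw [e0, e1]; exact kp) (by rw [f0, f1]; exact lq)
          (by rw [f0, e1]; exact lp.le)
      rw [f0, e1] at hN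
      (clear * - h3 hN; tauto)
    · -- `l < P ≤ Q < k`
      have lp := (hi a l).1 h1
      have qk := hi' a' k h2
      have pk := hPQ.trans_lt qk
      have lq := lp.trans_le hPQ
      have e0 := (hERr a k pk).1
      have e1 := (hERr a k pk).2
      have f0 := (hELl a' l lq).1
      have f1 := (hELl a' l lq).2
      have hN := staggered (hEc a' l) (hEc a k) hdis' (by
          intro t ht
          have := hlo a k t ht
          rw [min_eq_left pk.le] at this
          rw [f0]
          exact lp.le.trans this) (by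
          intro s hs
          have := hhi a' l s hs
          rw [max_eq_left lq.le] at this
          rw [e1]
          exact this.trans qk.le) (by rw [f0, f1]; exact lq) (by rw [e0, e1]; exact pk)
          (by rw [e0, f1]; exact hPQ)
      rw [f1, e0] at hN
      (clear * - h3 hN; tauto))
  exact (Mono.core i κ (fun a a' b => Above (E a b) (zA a')) him hκi hκb).trans hmain

end Vale.Agent.P040
end

section

/-!
# The inequality obtained by averaging over many periods
-/

namespace Vale.Agent.P040.Zar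

namespace Sweep

variable {B : Type*} (S : Sweep B) {blue : B → Prop}

theorem g_per (g : B → B → ℕ) (hg : ∀ a b, g a b = g b a) (s N : ℕ) :
    g (S.e1 (s + N * S.H)) (S.e2 (s + N * S.H)) = g (S.e1 s) (S.e2 s) := by
  induction N with
  | zero => simp
  | succ N ih =>
    obtain ⟨a1, a2⟩ := S.e_anti (s + N * S.H)
    rw [show s + (N + 1) * S.H = s + N * S.H + S.H by ring, a1, a2, hg, ih]

theorem csum_one_le (l : List B) : csum (fun _ _ => 1) l ≤ l.length := by
  unfold csum conseq
  rw [List.map_const', List.sum_replicate, List.length_zip]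
  simp only [List.length_tail, tsub_le_iff_right, le_add_iff_nonneg_right, zero_le, inf_of_le_right, smul_eq_mul, mul_one]

theorem ssum_one (l : List B) : ssum (fun _ _ => 1) l = l.length := by
  unfold ssum sides
  rw [List.map_const', List.sum_replicate, List.length_zip]
  simp

variable [Fintype B]

/-- the contribution of the low flips -/
noncomputable def lw (blue : B → Prop) (g : B → B → ℕ) (s : ℕ) : ℕ := by
  classical exact if S.Low blue s then g (S.e1 s) (S.e2 s) else 0

theorem lw_add (hcnt : cnt (fun y => ¬ blue y) = cnt blue + 1) (g : B → B → ℕ)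
    (hg : ∀ a b, g a b = g b a) (s : ℕ) :
    S.lw blue g s + S.lw blue g (s + S.H) = g (S.e1 s) (S.e2 s) := by
  classical
  obtain ⟨a1, a2⟩ := S.e_anti s
  unfold lw
  rw [a1, a2]
  by_cases hl : S.Low blue s
  · simp [hl, S.low_anti hcnt]
  · simp [hl, S.low_anti hcnt, hg (S.e2 s)]

theorem sum_lw (hcnt : cnt (fun y => ¬ blue y) = cnt blue + 1) (g : B → B → ℕ)
    (hg : ∀ a b, g a b = g b a) (N : ℕ) :
    ∑ s ∈ Finset.range (N * (2 * S.H)), S.lw blue g s =
      N * ∑ s ∈ Finset.range S.H, g (S.e1 s) (S.e2 s) := by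
  induction N with
  | zero => simp
  | succ N ih =>
    rw [show (N + 1) * (2 * S.H) = N * (2 * S.H) + S.H + S.H by ring, Finset.sum_range_add,
      Finset.sum_range_add, ih, add_assoc, ← Finset.sum_add_distrib, Nat.add_mul, one_mul]
    congr 1
    apply Finset.sum_congr rfl
    intro s _
    have h1 := S.lw_add hcnt g hg (N * (2 * S.H) + s)
    rw [show N * (2 * S.H) + S.H + s = N * (2 * S.H) + s + S.H by ring, h1]
    have h2 := S.g_per g hg s (2 * N)
    rw [show s + 2 * N * S.H = N * (2 * S.H) + s by ring] at h2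
    exact h2

/-- The main inequality. -/
theorem main_ineq (hH : 0 < S.H) (hcnt : cnt (fun y => ¬ blue y) = cnt blue + 1)
    (f : B → B → ℕ) (hf : ∀ a b, f a b = f b a) (d : ℕ)
    (hpoly : ∀ L, S.PolyGood blue L → (L.length - 2) * d ≤ ssum f L) :
    d * S.H ≤ ∑ s ∈ Finset.range S.H, f (S.e1 s) (S.e2 s) +
      d * ∑ s ∈ Finset.range S.H, (by
        classical exact if ¬ (blue (S.e1 s) ↔ blue (S.e2 s)) then 1 else 0) := by
  classical
  have hcnt' : cnt blue < cnt (fun y => ¬ blue y) := by omega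
  set F := ∑ s ∈ Finset.range S.H, f (S.e1 s) (S.e2 s) with hF
  set Mx := ∑ s ∈ Finset.range S.H, (if ¬ (blue (S.e1 s) ↔ blue (S.e2 s)) then 1 else 0) with hMx
  -- constants
  set K1 := ∑ P, (S.hist0 blue P).elim 0 (Tok.val f) with hK1
  set K2 := ∑ P, (S.hist0 blue P).elim 0 (fun _ => 1) with hK2
  set K3 := ((S.finG blue S.H).map (ssum (fun _ _ => 1))).sum with hK3
  set K4 := Fintype.card (B × B) * (2 * Fintype.card B) with hK4
  have key : ∀ N, 1 ≤ N → N * (d * S.H) ≤ N * (F + d * Mx) + (K1 + d * (K2 + K3 + K4)) := by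
    intro N hN
    have hge : S.H ≤ N * (2 * S.H) := by nlinarith only [hN]
    obtain ⟨k, hk⟩ := Nat.exists_eq_add_of_le hge
    obtain ⟨Ls, hL1, hL2⟩ := S.fin_good hH hcnt' k
    rw [← hk] at hL1
    have hst := S.state2 hH hcnt' (N * (2 * S.H))
    have e1 := hst.sum f hf
    have e2 := hst.sum (fun _ _ => 1) (fun _ _ => rfl)
    have e3 := hst.count
    have l1 := S.sum_lw hcnt f hf N
    have l2 := S.sum_lw hcnt (fun _ _ => 1) (fun _ _ => rfl) N
    have l3 := S.sum_lw hcnt (fun a b => if ¬ (blue a ↔ blue b) then 1 else 0)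
      (fun a b => by simp only [iff_comm]) N
    unfold lw at l1 l2 l3
    rw [hL1] at e1 e2 e3
    simp only [List.map_append, List.sum_append] at e1 e2
    rw [l1, ← hF] at e1
    rw [l2] at e2
    have l3' : (∑ s ∈ Finset.range (N * (2 * S.H)),
        if S.Low blue s ∧ ¬ (blue (S.e1 s) ↔ blue (S.e2 s)) then 1 else 0) = N * Mx := by
      rw [hMx, ← l3]
      apply Finset.sum_congr rfl
      intro s _
      by_cases c1 : S.Low blue s
      · simp [c1]
      · simp [c1]
    rw [l3'] at e3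
    simp only [List.length_append] at e3
    simp only [Finset.sum_const, Finset.card_range, smul_eq_mul, mul_one] at e2
    -- the alive tokens
    have hal : ∑ P, (S.histG blue (N * (2 * S.H)) P).elim 0 (Tok.val (fun _ _ => 1)) ≤ K4 := by
      rw [hK4, ← smul_eq_mul (a := Fintype.card (B × B))]
      apply Finset.sum_le_card_nsmul
      intro P _
      cases hT : S.histG blue (N * (2 * S.H)) P with
      | none => simp only [Option.elim_none, zero_le]
      | some T =>
        obtain ⟨tb, hI⟩ := S.real_of_ge hH hcnt' hge hT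
        simp only [Option.elim_none, Option.elim_some, Tok.val]
        have h1 : csum (fun _ _ => 1) T.ys ≤ T.ys.length := csum_one_le _
        have h2 : csum (fun _ _ => 1) T.xs ≤ T.xs.length := csum_one_le _
        have h3 : T.ys.length ≤ Fintype.card B := hI.nodup_y.length_le_card
        have h4 : T.xs.length ≤ Fintype.card B := hI.nodup_x.length_le_card
        obtain ⟨l, hl⟩ := hI.hdy
        have h5 : csum (fun _ _ => 1) T.ys + 1 ≤ T.ys.length := by
          rw [hl]
          unfold csum conseq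
          rw [List.map_const', List.sum_replicate, List.length_zip]
          simp only [List.length_cons, List.tail_cons, le_add_iff_nonneg_right, zero_le, inf_of_le_right, smul_eq_mul, mul_one, Std.le_refl]
        omega
    have hsum1 : (Ls.map (ssum (fun _ _ => 1))).sum = (Ls.map List.length).sum := by
      congr 1
      apply List.map_congr_left
      intro L _
      exact ssum_one L
    have hlen : (Ls.map (fun L => (L.length - 2))).sum + 2 * Ls.length =
        (Ls.map List.length).sum := by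
      have h3 : ∀ L ∈ Ls, 2 ≤ L.length := fun L hL => by
        obtain ⟨_, hlen, _⟩ := hL2 L hL; omega
      clear e1 e2 e3 hL1 hL2 hsum1
      induction Ls with
      | nil => simp only [List.map_nil, List.sum_nil, List.length_nil, mul_zero, add_zero]
      | cons L Ls ih =>
        simp only [List.map_cons, List.sum_cons, List.length_cons]
        have := ih (fun L' hL' => h3 L' (by simp [hL']))
        have := h3 L (by simp)
        omega
    have hsum : (Ls.map (fun L => (L.length - 2) * d)).sum ≤ (Ls.map (ssum f)).sum :=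
      List.sum_le_sum (fun L hL => hpoly L (hL2 L hL))
    rw [List.sum_map_mul_right] at hsum
    rw [hsum1] at e2
    have q1 : N * S.H ≤ (Ls.map (fun L => (L.length - 2))).sum + (K2 + N * Mx) + K3 + K4 := by
      have := hK3
      omega
    have q2 : d * (N * S.H) ≤ d * ((Ls.map (fun L => (L.length - 2))).sum + (K2 + N * Mx) + K3 + K4) :=
      Nat.mul_le_mul_left d q1
    have q3 : (Ls.map (fun L => (L.length - 2))).sum * d ≤ K1 + N * F := by omega
    calc N * (d * S.H) = d * (N * S.H) := by ring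
      _ ≤ _ := q2
      _ = (Ls.map (fun L => (L.length - 2))).sum * d + d * (K2 + N * Mx + K3 + K4) := by ring
      _ ≤ (K1 + N * F) + d * (K2 + N * Mx + K3 + K4) := by omega
      _ = _ := by ring
  by_contra hcon
  rw [not_le] at hcon
  have h1 := key (K1 + d * (K2 + K3 + K4) + 1) (by omega)
  have h2 : (K1 + d * (K2 + K3 + K4) + 1) * (F + d * Mx + 1) ≤
      (K1 + d * (K2 + K3 + K4) + 1) * (d * S.H) := Nat.mul_le_mul_left _ hcon
  rw [Nat.mul_add, Nat.mul_one] at h2
  omega

end Sweep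

end Vale.Agent.P040.Zar
end

section

/-!
# The lower bound for an odd number of vectors in general position in space
-/

namespace Vale.Agent.P040.Zar

theorem det3_swap12' (u v w : V3) : det3 u v w = - det3 v u w := by
  simp only [det3]; ring

theorem crP_symm' {m : ℕ} (a : Fin m → V3) (u w : V3) : crP a u w = crP a w u := by
  unfold crP
  congr 1
  ext p
  simp only [Set.mem_ofPred_eq]
  rw [det3_swap12' w u (a p.1), det3_swap12' w u (a p.2), neg_mul_neg,
    mul_comm (det3 (a p.1) (a p.2) u)]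

theorem card_prs' (n : ℕ) : 2 * (prs n).card = n * (n - 1) := by
  have h := sum_sym (m := n) (fun _ _ => 1) (fun _ _ => rfl)
  simp only [Finset.sum_const, Finset.card_univ, Fintype.card_fin, smul_eq_mul, mul_one] at h
  rcases n with _ | n
  · simp at h ⊢; omega
  · simp only [Nat.add_sub_cancel]
    have : (n + 1) * (n + 1) = (n + 1) * n + (n + 1) := by ring
    omega

theorem det3_uv3 (bp bq br : V3) (h1 : bp 0 ≠ 0) (h2 : bq 0 ≠ 0) (h3 : br 0 ≠ 0) (t : ℝ) :
    det3 bp bq br = bp 0 * bq 0 * br 0 *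
      (((bq 1 / bq 0 - t * (bq 2 / bq 0)) - (bp 1 / bp 0 - t * (bp 2 / bp 0))) *
          (br 2 / br 0 - bp 2 / bp 0) -
       ((br 1 / br 0 - t * (br 2 / br 0)) - (bp 1 / bp 0 - t * (bp 2 / bp 0))) *
          (bq 2 / bq 0 - bp 2 / bp 0)) := by
  unfold det3
  field_simp
  ring

theorem core_sph {m h : ℕ} (a' : Fin m → V3) (B : Fin (2 * h + 1) → V3)
    (hp : ∀ i, B i 0 ≠ 0)
    (hhalf : (Finset.univ.filter (fun i => B i 0 < 0)).card = h)
    (hu' : Function.Injective (fun i => B i 2 / B i 0))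
    (hgp : ∀ i j k, i ≠ j → i ≠ k → j ≠ k → det3 (B i) (B j) (B k) ≠ 0)
    (hg1 : ∀ i j, i ≠ j → ∀ z, det3 (B i) (B j) (a' z) ≠ 0)
    (hg2 : ∀ z w, z ≠ w → ∀ i, det3 (a' z) (a' w) (B i) ≠ 0) :
    dz m * dz (2 * h + 1) ≤ ∑ p ∈ prs (2 * h + 1), crP a' (B p.1) (B p.2) := by
  classical
  rcases Nat.eq_zero_or_pos h with h0 | hpos
  · subst h0
    simp only [dz, mul_zero, zero_add, Nat.reduceDiv, tsub_self, Nat.zero_div, Nat.mul_zero, Nat.reduceAdd, zero_le]
  set u : Fin (2 * h + 1) → ℝ := fun i => B i 2 / B i 0 with hu_def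
  set v : Fin (2 * h + 1) → ℝ := fun i => B i 1 / B i 0 with hv_def
  have hu : Function.Injective u := hu'
  have hdet : ∀ (t : ℝ) (p q r : Fin (2 * h + 1)), det3 (B p) (B q) (B r) =
      B p 0 * B q 0 * B r 0 * (((v q - t * u q) - (v p - t * u p)) * (u r - u p) -
        ((v r - t * u r) - (v p - t * u p)) * (u q - u p)) :=
    fun t p q r => det3_uv3 (B p) (B q) (B r) (hp p) (hp q) (hp r) t
  have hGP : GP u v := by
    intro p q r hpq hpr hqr hT
    have h1 := TT_diff u v (fun hh => hpq (hu hh)) (TT u v p q)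
    have h2 := TT_diff u v (fun hh => hpr (hu hh)) (TT u v p q)
    rw [← hT, sub_self, mul_zero] at h2
    rw [sub_self, mul_zero] at h1
    have hd := hdet (TT u v p q) p q r
    have e1 : (v q - TT u v p q * u q) - (v p - TT u v p q * u p) = 0 := by (clear * - h1; linarith)
    have e2 : (v r - TT u v p q * u r) - (v p - TT u v p q * u p) = 0 := by linarith only [h2]
    rw [e1, e2] at hd
    simp only [zero_mul, sub_self, mul_zero] at hd
    exact hgp p q r hpq hpr hqr hd
  obtain ⟨H, τ, hτ⟩ := exists_tau u v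
  have hH : 0 < H := by
    have : (⟨0, by omega⟩ : Fin (2 * h + 1)) ≠ ⟨1, by omega⟩ := by simp
    exact lt_of_le_of_lt (Nat.zero_le _) (hτ.lt _ _ this)
  obtain ⟨P, Q, hPQ⟩ := exists_PQ hu hτ hH
  let S := sweepOf hu hGP hτ hH P Q hPQ
  let blue : Fin (2 * h + 1) → Prop := fun i => B i 0 < 0
  have hblue : ∀ i, blue i ↔ B i 0 < 0 := fun i => Iff.rfl
  have hred : ∀ i, ¬ blue i ↔ 0 < B i 0 := fun i => by
    rw [hblue, not_lt]
    constructor
    · intro h1; exact lt_of_le_of_ne h1 (Ne.symm (hp i))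
    · intro h1; exact h1.le
  have hcb1 : (Finset.univ.filter blue).card = h := by
    refine Eq.trans ?_ hhalf
    congr 1
  have hcb : Sweep.cnt blue = h := by
    unfold Sweep.cnt
    refine Eq.trans ?_ hcb1
    congr 1
  have hcr : Sweep.cnt (fun i => ¬ blue i) = h + 1 := by
    have h1 := Finset.card_filter_add_card_filter_not (s := (Finset.univ : Finset (Fin (2 * h + 1))))
      (p := blue)
    have h3 : (Finset.univ.filter (fun i => ¬ blue i)).card = h + 1 := by
      rw [hcb1, Finset.card_univ, Fintype.card_fin] at h1; omega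
    unfold Sweep.cnt
    refine Eq.trans ?_ h3
    congr 1
    ext i
    simp
  have hS : S.H = H := rfl
  -- the flipped pairs
  have hpairs : ∀ s, S.e1 s ≠ S.e2 s ∧ τ (S.e1 s) (S.e2 s) = s % H := by
    intro s
    have hr := Nat.mod_lt s hH
    obtain ⟨h1, h2⟩ := hPQ _ hr
    refine ⟨S.e_ne s, ?_⟩
    show τ (if Even (s / H) then P (s % H) else Q (s % H))
      (if Even (s / H) then Q (s % H) else P (s % H)) = s % H
    split_ifs
    · exact h2
    · rw [hτ.symm]; exact h2
  have hpairs' : ∀ s < H, S.e1 s ≠ S.e2 s ∧ τ (S.e1 s) (S.e2 s) = s := by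
    intro s hs
    have := hpairs s
    rw [Nat.mod_eq_of_lt hs] at this
    exact this
  have horient : ∀ s, (Even (s / H) → u (S.e2 s) < u (S.e1 s)) ∧
      (¬ Even (s / H) → u (S.e1 s) < u (S.e2 s)) := by
    intro s
    have hr := Nat.mod_lt s hH
    obtain ⟨h1, h2⟩ := hPQ _ hr
    constructor
    · intro hp
      show u (if Even (s / H) then Q (s % H) else P (s % H)) <
        u (if Even (s / H) then P (s % H) else Q (s % H))
      simp only [hp, if_true]; exact h1
    · intro hp
      show u (if Even (s / H) then P (s % H) else Q (s % H)) <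
        u (if Even (s / H) then Q (s % H) else P (s % H))
      simp only [hp, if_false]; exact h1
  -- the polygons are convex
  have hconv : ∀ L, S.PolyGood blue L → ConvexPoly B L := by
    intro L hL
    obtain ⟨g1, g2, g3⟩ := hL
    refine ⟨g1, g2, ?_⟩
    intro s hs z hz hz1 hz2
    obtain ⟨σ, hcor, hgood⟩ := g3 s hs
    have hg := hgood z hz hz1 hz2
    set a := S.e1 σ with ha_def
    set b := S.e2 σ with hb_def
    have hza : z ≠ a ∧ z ≠ b := by
      rcases hcor with ⟨_, c1, c2⟩ | ⟨_, c1, c2⟩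
      · rw [c1] at hz1; rw [c2] at hz2; exact ⟨hz2, hz1⟩
      · rw [c1] at hz1; rw [c2] at hz2; exact ⟨hz1, hz2⟩
    obtain ⟨hab, hσ⟩ := hpairs σ
    obtain ⟨ex1, ex2⟩ := ltT_exact hGP hu hτ σ hab hσ hza.1 hza.2
    obtain ⟨o1, o2⟩ := horient σ
    set t0 := TT u v a b with ht0
    have hfab := TT_diff u v (fun hh => hab (hu hh)) t0
    rw [← ht0, sub_self, mul_zero] at hfab
    -- the key sign
    have key : (u a - u b) * (B z 0 * ((v z - t0 * u z) - (v a - t0 * u a))) < 0 := by
      have hfz : (v z - t0 * u z) - (v a - t0 * u a) ≠ 0 := by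
        rw [TT_diff u v (fun hh => hza.1 (hu hh)) t0]
        apply mul_ne_zero (sub_ne_zero.2 (fun hh => hza.1 (hu hh)))
        apply sub_ne_zero.2
        rw [TT_symm u v z a]
        exact (hGP a z b hza.1.symm hab hza.2)
      by_cases hev : Even (σ / H)
      · have h1 : 0 < u a - u b := sub_pos.2 (o1 hev)
        apply mul_neg_of_pos_of_neg h1
        by_cases hbz : blue z
        · have h2 : ltT u H τ σ z a := hg.1 hbz
          rw [ex1 hev] at h2
          exact mul_neg_of_neg_of_pos ((hblue z).1 hbz) h2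
        · have h2 : ltT u H τ σ a z := hg.2 hbz
          have h3 : ¬ ltT u H τ σ z a := ltT_asymm hτ h2
          rw [ex1 hev, not_lt] at h3
          exact mul_neg_of_pos_of_neg ((hred z).1 hbz) (lt_of_le_of_ne h3 hfz)
      · have h1 : u a - u b < 0 := sub_neg.2 (o2 hev)
        apply mul_neg_of_neg_of_pos h1
        by_cases hbz : blue z
        · have h2 : ltT u H τ σ z a := hg.1 hbz
          rw [ex2 hev] at h2
          exact mul_pos_of_neg_of_neg ((hblue z).1 hbz) h2
        · have h2 : ltT u H τ σ a z := hg.2 hbz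
          have h3 : ¬ ltT u H τ σ z a := ltT_asymm hτ h2
          rw [ex2 hev, not_lt] at h3
          exact mul_pos ((hred z).1 hbz) (lt_of_le_of_ne h3 (Ne.symm hfz))
    have hd := hdet t0 a b z
    have e1 : (v b - t0 * u b) - (v a - t0 * u a) = 0 := by linarith only [hfab]
    rw [e1] at hd
    have hd2 : det3 (B a) (B b) (B z) = (B a 0 * B b 0) *
        ((u a - u b) * (B z 0 * ((v z - t0 * u z) - (v a - t0 * u a)))) := by
      rw [hd]; ring
    rcases hcor with ⟨c0, c1, c2⟩ | ⟨c0, c1, c2⟩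
    · rw [c1, c2] at c0 ⊢
      have h1 : 0 < B a 0 * B b 0 := by
        by_cases hb : blue b
        · exact mul_pos_of_neg_of_neg ((hblue a).1 (c0.1 hb)) ((hblue b).1 hb)
        · exact mul_pos ((hred a).1 (fun hh => hb (c0.2 hh))) ((hred b).1 hb)
      have h2 : det3 (B b) (B a) (B z) = - det3 (B a) (B b) (B z) := by
        simp only [det3]; ring
      show 0 < det3 (B b) (B a) (B z)
      rw [h2, hd2]
      have := mul_neg_of_pos_of_neg h1 key
      linarith only [this]
    · rw [c1, c2] at c0 ⊢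
      have h1 : B a 0 * B b 0 < 0 := by
        by_cases ha : blue a
        · have hb : ¬ blue b := fun hb => c0 (iff_of_true ha hb)
          exact mul_neg_of_neg_of_pos ((hblue a).1 ha) ((hred b).1 hb)
        · have hb : blue b := by
            by_contra hb; exact c0 (iff_of_false ha hb)
          exact mul_neg_of_pos_of_neg ((hred a).1 ha) ((hblue b).1 hb)
      show 0 < det3 (B a) (B b) (B z)
      rw [hd2]
      exact mul_pos_of_neg_of_neg h1 key
  have hsides_ne : ∀ L, S.PolyGood blue L → ∀ s ∈ sides L, s.1 ≠ s.2 := by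
    intro L hL s hs hne
    obtain ⟨hnd, hlen, _⟩ := hL
    obtain ⟨i, hi, hget⟩ := List.getElem_of_mem hs
    have hil : i < L.length := by
      simp [sides] at hi; exact hi
    have hg : s = (L[i], L[(i + 1) % L.length]'(Nat.mod_lt _ (by omega))) := by
      rw [← hget]
      simp [sides, List.getElem_zip, List.getElem_rotate]
    rw [hg] at hne
    simp only at hne
    have := (hnd.getElem_inj_iff).1 hne
    rcases Nat.lt_or_ge (i + 1) L.length with h1 | h1
    · rw [Nat.mod_eq_of_lt h1] at this; omega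
    · have h3 : i + 1 = L.length := by omega
      rw [h3, Nat.mod_self] at this; omega
  have main := S.main_ineq (blue := blue) hH (by rw [hcb, hcr])
    (fun i j => crP a' (B i) (B j)) (fun i j => crP_symm' a' _ _) (dz m) (by
      intro L hL
      exact polygon_lemma a' B L (hconv L hL)
        (fun s hs z => hg1 s.1 s.2 (hsides_ne L hL s hs) z)
        (fun z w hzw i _ => hg2 z w hzw i))
  rw [hS, hτ.sum (fun i j => crP a' (B i) (B j)) (fun i j => crP_symm' a' _ _) S.e1 S.e2
    hpairs'] at main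
  -- the number of mixed pairs
  have hmix : (∑ s ∈ Finset.range H, (if ¬ (blue (S.e1 s) ↔ blue (S.e2 s)) then 1 else 0)) =
      h * (h + 1) := by
    have h1 := hτ.sum (fun a b => if ¬ (blue a ↔ blue b) then 1 else 0)
      (fun a b => by
        by_cases g1 : blue a <;> by_cases g2 : blue b <;> simp [g1, g2]) S.e1 S.e2 hpairs'
    have h2 := mixed_count blue
    have h4 : (Finset.univ.filter (fun i => ¬ blue i)).card = h + 1 := by
      refine Eq.trans ?_ hcr
      unfold Sweep.cnt
      congr 1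
      ext i
      simp
    rw [hcb1, h4] at h2
    exact h1.trans h2
  have hHval : 2 * H = (2 * h + 1) * (2 * h) := by
    have h1 := hτ.sum (fun _ _ => 1) (fun _ _ => rfl) S.e1 S.e2 hpairs'
    simp only [Finset.sum_const, Finset.card_range, smul_eq_mul, mul_one] at h1
    have h2 := card_prs' (2 * h + 1)
    rw [Nat.add_sub_cancel] at h2
    rw [h1, ← h2]
    rfl
  have hdz : dz (2 * h + 1) = h * h := by
    unfold dz
    have h5 : (2 * h + 1) / 2 = h := by (clear * - hu hGP hτ hH hPQ hcb1 hcb hcr; omega)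
    have h6 : (2 * h + 1 - 1) / 2 = h := by (clear * - hpos hu hGP hτ hH hPQ hcb1 hcb hcr h5; omega)
    rw [h5, h6]
  have main' : dz m * H ≤ (∑ p ∈ prs (2 * h + 1), crP a' (B p.1) (B p.2)) +
      dz m * (h * (h + 1)) := by
    refine main.trans (le_of_eq ?_)
    congr 2
  have hH2 : H = h * h + h * (h + 1) := by
    have : 2 * H = 2 * (h * h + h * (h + 1)) := by rw [hHval]; ring
    omega
  rw [hdz]
  rw [hH2, Nat.mul_add] at main'
  omega

end Vale.Agent.P040.Zar
end

section

/-!
# A halving plane, and the lower bound for vectors in general position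
-/

namespace Vale.Agent.P040.Zar.Asm

open Finset

theorem divt (c : ℕ → ℕ) (N h : ℕ) (hstep : ∀ k < N, c (k + 1) ≤ c k + 1)
    (h0 : c 0 ≤ h) (hN : h ≤ c N) : ∃ k ≤ N, c k = h := by
  classical
  have hex : ∃ k, h ≤ c k := ⟨N, hN⟩
  have h1 := Nat.find_spec hex
  have h2 : Nat.find hex ≤ N := Nat.find_min' hex hN
  refine ⟨Nat.find hex, h2, le_antisymm ?_ h1⟩
  rcases Nat.eq_zero_or_pos (Nat.find hex) with h3 | h3
  · rw [h3]; exact h0
  · have h4 := Nat.find_min hex (m := Nat.find hex - 1) (by omega)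
    have h5 := hstep (Nat.find hex - 1) (by omega)
    rw [Nat.sub_add_cancel h3] at h5
    omega

theorem exists_shear {h : ℕ} (p r : Fin (2 * h + 1) → ℝ) (hr : ∀ i, r i ≠ 0)
    (hinj : Function.Injective (fun i => - p i / r i)) :
    ∃ s : ℝ, (∀ i, p i + s * r i ≠ 0) ∧
      (univ.filter (fun i => p i + s * r i < 0)).card = h := by
  classical
  set ρ : Fin (2 * h + 1) → ℝ := fun i => - p i / r i with hρ
  have hfac : ∀ i s, p i + s * r i = r i * (s - ρ i) := by
    intro i s
    have := hr i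
    simp only [hρ]
    field_simp
    ring
  set σ := Tuple.sort ρ with hσ
  have hmono : Monotone (ρ ∘ σ) := Tuple.monotone_sort ρ
  have hlt : ∀ i j, (σ.symm i) < (σ.symm j) → ρ i < ρ j := by
    intro i j hij
    have h1 := hmono hij.le
    simp only [Function.comp_apply, Equiv.apply_symm_apply] at h1
    refine lt_of_le_of_ne h1 ?_
    intro h2
    have := hinj h2
    rw [this] at hij
    exact lt_irrefl _ hij
  let St : ℕ → Finset (Fin (2 * h + 1)) := fun k =>
    univ.filter (fun i => ((σ.symm i).1 < k ∧ r i < 0) ∨ (k ≤ (σ.symm i).1 ∧ 0 < r i))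
  let c : ℕ → ℕ := fun k => (St k).card
  have hstep : ∀ k, k < 2 * h + 1 → c (k + 1) ≤ c k + 1 ∧ c k ≤ c (k + 1) + 1 := by
    intro k hk
    have hd : ∀ i, i ≠ σ ⟨k, hk⟩ → (i ∈ St (k + 1) ↔ i ∈ St k) := by
      intro i hi
      have hne : (σ.symm i).1 ≠ k := by
        intro h1
        apply hi
        have : σ.symm i = ⟨k, hk⟩ := Fin.ext h1
        rw [← this, Equiv.apply_symm_apply]
      simp only [St, mem_filter, mem_univ, true_and]
      have e1 : (σ.symm i).1 < k + 1 ↔ (σ.symm i).1 < k := by omega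
      have e2 : k + 1 ≤ (σ.symm i).1 ↔ k ≤ (σ.symm i).1 := by omega
      rw [e1, e2]
    constructor
    · have : St (k + 1) ⊆ insert (σ ⟨k, hk⟩) (St k) := by
        intro i hi
        rw [mem_insert]
        by_cases h1 : i = σ ⟨k, hk⟩
        · exact Or.inl h1
        · exact Or.inr ((hd i h1).1 hi)
      exact (card_le_card this).trans (card_insert_le _ _)
    · have : St k ⊆ insert (σ ⟨k, hk⟩) (St (k + 1)) := by
        intro i hi
        rw [mem_insert]
        by_cases h1 : i = σ ⟨k, hk⟩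
        · exact Or.inl h1
        · exact Or.inr ((hd i h1).2 hi)
      exact (card_le_card this).trans (card_insert_le _ _)
  have hends : c 0 + c (2 * h + 1) = 2 * h + 1 := by
    have e1 : St 0 = univ.filter (fun i => 0 < r i) := by
      ext i; simp only [not_lt_zero, false_and, zero_le, true_and, false_or, mem_filter, mem_univ, St]
    have e2 : St (2 * h + 1) = univ.filter (fun i => ¬ 0 < r i) := by
      ext i
      have h1 := (σ.symm i).2
      have h2 : ¬ (2 * h + 1 ≤ (σ.symm i).1) := by omega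
      simp only [St, mem_filter, mem_univ, true_and, h1, h2, false_and, or_false, not_lt]
      exact ⟨fun h3 => h3.le, fun h3 => lt_of_le_of_ne h3 (hr i)⟩
    have h3 := card_filter_add_card_filter_not (s := (univ : Finset (Fin (2 * h + 1))))
      (p := fun i => 0 < r i)
    rw [card_univ, Fintype.card_fin] at h3
    show (St 0).card + (St (2 * h + 1)).card = _
    rw [e1, e2]
    exact h3
  obtain ⟨k, hk, hck⟩ : ∃ k ≤ 2 * h + 1, c k = h := by
    rcases le_or_gt (c 0) h with h1 | h1
    · exact divt c (2 * h + 1) h (fun k hk => (hstep k hk).1) h1 (by omega)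
    · obtain ⟨k, hk, hck⟩ := divt (fun k => c (2 * h + 1 - k)) (2 * h + 1) h
        (fun k hk => by
          have := (hstep (2 * h + 1 - (k + 1)) (by (clear * - hk; omega))).2
          have e : 2 * h + 1 - (k + 1) + 1 = 2 * h + 1 - k := by omega
          rw [e] at this
          omega)
        (by simp only [Nat.sub_zero]; omega) (by simp only [Nat.sub_self]; omega)
      exact ⟨2 * h + 1 - k, by omega, hck⟩
  obtain ⟨s, hs1, hs2⟩ := Order.exists_between_finsets
    ((univ.filter (fun i => (σ.symm i).1 < k)).image ρ)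
    ((univ.filter (fun i => ¬ (σ.symm i).1 < k)).image ρ) (by
      intro x hx y hy
      simp only [mem_image, mem_filter, mem_univ, true_and] at hx hy
      obtain ⟨i, hi, rfl⟩ := hx
      obtain ⟨j, hj, rfl⟩ := hy
      apply hlt
      rw [Fin.lt_def]
      omega)
  have hs1' : ∀ i, (σ.symm i).1 < k → ρ i < s := fun i hi =>
    hs1 _ (mem_image_of_mem _ (by simp [hi]))
  have hs2' : ∀ i, ¬ (σ.symm i).1 < k → s < ρ i := fun i hi =>
    hs2 _ (mem_image_of_mem _ (by simp only [mem_filter, mem_univ, true_and]; exact hi))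
  refine ⟨s, ?_, ?_⟩
  · intro i
    rw [hfac]
    apply mul_ne_zero (hr i)
    apply sub_ne_zero.2
    by_cases hi : (σ.symm i).1 < k
    · exact (hs1' i hi).ne'
    · exact (hs2' i hi).ne
  · refine Eq.trans ?_ hck
    show _ = (St k).card
    congr 1
    ext i
    simp only [St, mem_filter, mem_univ, true_and]
    rw [hfac]
    by_cases hi : (σ.symm i).1 < k
    · have h1 : 0 < s - ρ i := sub_pos.2 (hs1' i hi)
      have h2 : ¬ (k ≤ (σ.symm i).1) := by omega
      simp only [hi, h2, true_and, false_and, or_false]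
      exact ⟨fun h3 => by
        by_contra h4
        exact absurd h3 (not_lt.2 (mul_nonneg (not_lt.1 h4) h1.le)),
        fun h3 => mul_neg_of_neg_of_pos h3 h1⟩
    · have h1 : s - ρ i < 0 := sub_neg.2 (hs2' i hi)
      have h2 : k ≤ (σ.symm i).1 := by omega
      simp only [hi, h2, true_and, false_and, false_or]
      exact ⟨fun h3 => by
        by_contra h4
        exact absurd h3 (not_lt.2 (mul_nonneg_of_nonpos_of_nonpos (not_lt.1 h4) h1.le)),
        fun h3 => mul_neg_of_pos_of_neg h3 h1⟩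

/-- a shear -/
def shear (s : ℝ) (v : V3) : V3 := ![v 0 + s * v 2, v 1, v 2]

theorem det3_shear (s : ℝ) (a b c : V3) :
    det3 (shear s a) (shear s b) (shear s c) = det3 a b c := by
  simp only [det3, shear, Fin.isValue, Matrix.cons_val_zero, Matrix.cons_val_one, Matrix.cons_val]
  ring

theorem crP_shear {m : ℕ} (s : ℝ) (a : Fin m → V3) (u w : V3) :
    crP (fun i => shear s (a i)) (shear s u) (shear s w) = crP a u w := by
  unfold crP
  simp only [det3_shear]

theorem zar_sph_odd {m h : ℕ} (a : Fin m → V3) (b : Fin (2 * h + 1) → V3)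
    (hr : ∀ i, b i 2 ≠ 0) (hpr : ∀ i j, i ≠ j → b i 0 * b j 2 ≠ b j 0 * b i 2)
    (hgp : ∀ i j k, i ≠ j → i ≠ k → j ≠ k → det3 (b i) (b j) (b k) ≠ 0)
    (h1 : ∀ i j, i ≠ j → ∀ z, det3 (b i) (b j) (a z) ≠ 0)
    (h2 : ∀ z w, z ≠ w → ∀ i, det3 (a z) (a w) (b i) ≠ 0) :
    dz m * dz (2 * h + 1) ≤ TT a b := by
  classical
  obtain ⟨s, hs1, hs2⟩ := exists_shear (fun i => b i 0) (fun i => b i 2) hr (by
    intro i j hij
    by_contra hne
    apply hpr i j hne
    simp only at hij
    rw [div_eq_div_iff (hr i) (hr j)] at hij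
    linarith)
  have key := core_sph (fun z => shear s (a z)) (fun i => shear s (b i))
    (by intro i; simpa only [shear, Fin.isValue, Matrix.cons_val_zero, ne_eq] using hs1 i)
    (by
      refine Eq.trans ?_ hs2
      congr 1)
    (by
      intro i j hij
      by_contra hne
      apply hpr i j hne
      simp only [shear, Matrix.cons_val] at hij
      have e1 := hs1 i
      have e2 := hs1 j
      rw [div_eq_div_iff e1 e2] at hij
      linarith only [hij])
    (by intro i j k hij hik hjk; rw [det3_shear]; exact hgp i j k hij hik hjk)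
    (by intro i j hij z; rw [det3_shear]; exact h1 i j hij z)
    (by intro z w hzw i; rw [det3_shear]; exact h2 z w hzw i)
  simp only [crP_shear] at key
  exact key

/-- The lower bound for vectors in general position. -/
theorem zar_sph {m n : ℕ} (a : Fin m → V3) (b : Fin n → V3)
    (hr : ∀ i, b i 2 ≠ 0) (hpr : ∀ i j, i ≠ j → b i 0 * b j 2 ≠ b j 0 * b i 2)
    (hgp : ∀ i j k, i ≠ j → i ≠ k → j ≠ k → det3 (b i) (b j) (b k) ≠ 0)
    (h1 : ∀ i j, i ≠ j → ∀ z, det3 (b i) (b j) (a z) ≠ 0)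
    (h2 : ∀ z w, z ≠ w → ∀ i, det3 (a z) (a w) (b i) ≠ 0) :
    dz m * dz n ≤ TT a b := by
  obtain ⟨h, rfl | rfl⟩ := Nat.even_or_odd' n
  · rcases Nat.eq_zero_or_pos h with rfl | hpos
    · simp only [dz, mul_zero, Nat.zero_div, zero_tsub, Nat.mul_zero, zero_le]
    · obtain ⟨r, rfl⟩ : ∃ r, h = r + 1 := ⟨h - 1, by omega⟩
      have key : ∀ j : Fin (2 * r + 1 + 1), dz m * dz (2 * r + 1) ≤
          TT a (fun i => b (j.succAbove i)) := by
        intro j
        have hinj : Function.Injective (j.succAbove) := Fin.succAbove_right_injective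
        exact zar_sph_odd a (fun i => b (j.succAbove i)) (fun i => hr _)
          (fun x y hxy => hpr _ _ (fun h => hxy (hinj h)))
          (fun x y z hxy hxz hyz => hgp _ _ _ (fun h => hxy (hinj h)) (fun h => hxz (hinj h))
            (fun h => hyz (hinj h)))
          (fun x y hxy z => h1 _ _ (fun h => hxy (hinj h)) z) (fun x y hxy i => h2 x y hxy _)
      have hs := Finset.sum_le_sum (fun (j : Fin (2 * r + 1 + 1)) (_ : j ∈ Finset.univ) => key j)
      have e1 := avg (N := 2 * r + 1) (fun i j => crP a (b i) (b j))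
      have e2 : ∑ j : Fin (2 * r + 1 + 1), TT a (fun i => b (j.succAbove i)) =
          (2 * r + 1 - 1) * TT a b := by
        unfold TT
        exact e1
      rw [e2] at hs
      simp only [Finset.sum_const, Finset.card_univ, Fintype.card_fin, smul_eq_mul] at hs
      have e3 : dz (2 * r + 1) = r * r := by
        unfold dz
        have e8 : (2 * r + 1) / 2 = r := by omega
        have e9 : (2 * r + 1 - 1) / 2 = r := by omega
        rw [e8, e9]
      have e4 : dz (2 * (r + 1)) = (r + 1) * r := by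
        unfold dz
        have e8 : (2 * (r + 1)) / 2 = r + 1 := by omega
        have e9 : (2 * (r + 1) - 1) / 2 = r := by (clear * - hpos e8; omega)
        rw [e8, e9]
      rw [e3, Nat.add_sub_cancel] at hs
      rw [e4]
      rcases Nat.eq_zero_or_pos r with hr | hr
      · simp [hr]
      · have h5 : (2 * r) * (dz m * ((r + 1) * r)) ≤ (2 * r) * TT a b := by
          calc (2 * r) * (dz m * ((r + 1) * r)) = (2 * r + 1 + 1) * (dz m * (r * r)) := by ring
            _ ≤ _ := hs
        exact Nat.le_of_mul_le_mul_left h5 (by omega)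
  · exact zar_sph_odd a b hr hpr hgp h1 h2

end Vale.Agent.P040.Zar.Asm
end

section

/-!
# Geodesic drawings on the sphere: perturbation to general position
-/

namespace Vale.Agent.P040

namespace GeodesicDrawing

variable {V : Type} {G : SimpleGraph V} (D : GeodesicDrawing G)

theorem crossingSet_finite [Finite V] : D.crossingSet.Finite := by
  have : D.crossingSet ⊆ ⋃ e ∈ G.edgeSet, ⋃ f ∈ {f | f ∈ G.edgeSet ∧ e ≠ f},
      (edgeArc D.pos e \ Set.range D.pos) ∩ (edgeArc D.pos f \ Set.range D.pos) := by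
    rintro x ⟨hx, e, he, f, hf, hef, h1, h2⟩
    simp only [Set.mem_iUnion]
    exact ⟨e, he, f, ⟨hf, hef⟩, ⟨h1, hx⟩, ⟨h2, hx⟩⟩
  apply Set.Finite.subset _ this
  apply Set.Finite.biUnion (Set.toFinite _)
  intro e he
  apply Set.Finite.biUnion (Set.toFinite _)
  rintro f ⟨hf, hef⟩
  exact D.finite e he f hf hef

/-- Two pairs of distinct edges with a common crossing point are equal. -/
theorem pair_unique {x : E3} (hx : x ∉ Set.range D.pos) {e f e' f' : Sym2 V}
    (he : e ∈ G.edgeSet) (hf : f ∈ G.edgeSet) (he' : e' ∈ G.edgeSet) (hf' : f' ∈ G.edgeSet)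
    (hef : e ≠ f) (hef' : e' ≠ f') (h1 : x ∈ edgeArc D.pos e) (h2 : x ∈ edgeArc D.pos f)
    (h3 : x ∈ edgeArc D.pos e')
    (h4 : x ∈ edgeArc D.pos f') : (e = e' ∧ f = f') ∨ (e = f' ∧ f = e') := by
  by_cases c1 : e = e'
  · left
    refine ⟨c1, ?_⟩
    by_contra c2
    subst c1
    exact D.two e he f hf f' hf' hef hef' c2 x hx h1 h2 h4
  · by_cases c2 : f = e'
    · right
      refine ⟨?_, c2⟩
      by_contra c3
      subst c2
      exact D.two f hf e he f' hf' (Ne.symm hef) hef' c3 x hx h2 h1 h4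
    · exact absurd h3 (D.two e he f hf e' he' hef c1 c2 x hx h1 h2)

/-- Two edges without common ends whose arcs meet have a crossing point. -/
theorem exists_crossing {e f : Sym2 V} (he : e ∈ G.edgeSet) (hf : f ∈ G.edgeSet)
    (hef : ∀ v, v ∈ e → v ∉ f) (h : (edgeArc D.pos e ∩ edgeArc D.pos f).Nonempty) :
    ∃ x, x ∉ Set.range D.pos ∧ x ∈ edgeArc D.pos e ∧ x ∈ edgeArc D.pos f := by
  obtain ⟨x, h1, h2⟩ := h
  refine ⟨x, ?_, h1, h2⟩
  rintro ⟨w, rfl⟩
  exact hef w (D.avoid e he w h1) (D.avoid f hf w h2)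

end GeodesicDrawing

namespace Zar.Asm

open Finset Filter Topology

/-- The two cones spanned by `p, q` and by `p', q'` meet only in the origin. -/
def ConeDisj (p q p' q' : V3) : Prop :=
  ∀ s t s' t' : ℝ, 0 ≤ s → 0 ≤ t → 0 ≤ s' → 0 ≤ t' → s • p + t • q = s' • p' + t' • q' →
    s = 0 ∧ t = 0 ∧ s' = 0 ∧ t' = 0

theorem cone_inter (A A' B B' : V3)
    (h1 : 0 < det3 B B' A * det3 B B' A')
    (h2 : 0 < det3 A A' B * det3 A A' B') :
    ¬ ConeDisj A B A' B' ∨ ¬ ConeDisj A B' A' B := by
  have e1 : det3 B B' A' • A + det3 A A' B' • B = det3 B B' A • A' + det3 A A' B • B' := by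
    ext i
    fin_cases i <;> simp [det3] <;> ring
  generalize det3 B B' A = D1 at *
  generalize det3 B B' A' = D2 at *
  generalize det3 A A' B = E1 at *
  generalize det3 A A' B' = E2 at *
  rcases (mul_pos_iff.1 h1) with ⟨d1, d2⟩ | ⟨d1, d2⟩ <;>
    rcases (mul_pos_iff.1 h2) with ⟨f1, f2⟩ | ⟨f1, f2⟩
  · left; intro h
    have := h D2 E2 D1 E1 d2.le f2.le d1.le f1.le e1
    linarith [this.1]
  · right; intro h
    have e2 : D2 • A + (-E1) • B' = D1 • A' + (-E2) • B := by
      have : D2 • A + -E1 • B' = (D2 • A + E2 • B) - E2 • B - E1 • B' := by module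
      rw [this, e1]; module
    have := h D2 (-E1) D1 (-E2) d2.le (by linarith) d1.le (by linarith) e2
    linarith [this.1]
  · right; intro h
    have e2 : (-D2) • A + E1 • B' = (-D1) • A' + E2 • B := by
      have : -D2 • A + E1 • B' = -(D2 • A + E2 • B) + E2 • B + E1 • B' := by module
      rw [this, e1]; module
    have := h (-D2) E1 (-D1) E2 (by linarith) f1.le (by linarith) f2.le e2
    linarith [this.2.1]
  · left; intro h
    have e2 : (-D2) • A + (-E2) • B = (-D1) • A' + (-E1) • B' := by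
      have : -D2 • A + -E2 • B = -(D2 • A + E2 • B) := by module
      rw [this, e1]; module
    have := h (-D2) (-E2) (-D1) (-E1) (by linarith) (by linarith) (by linarith) (by linarith) e2
    linarith [this.1]

/-- Perturbation in the direction of the moment curve. -/
noncomputable def pertS {V : Type} (pos : V → V3) (τ : V → ℝ) (ε : ℝ) (v : V) : V3 :=
  ![pos v 0 + ε, pos v 1 + ε * τ v, pos v 2 + ε * τ v ^ 2]

theorem cubic_ne {c0 c1 c2 c3 : ℝ} (h : c3 ≠ 0) :
    ∀ᶠ ε : ℝ in 𝓝[>] 0, c0 + c1 * ε + c2 * ε ^ 2 + c3 * ε ^ 3 ≠ 0 := by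
  by_cases h0 : c0 = 0
  · filter_upwards [self_mem_nhdsWithin, quad_ne (c0 := c1) (c1 := c2) h] with ε hε hc
    have : (0 : ℝ) < ε := hε
    have e : c0 + c1 * ε + c2 * ε ^ 2 + c3 * ε ^ 3 = ε * (c1 + c2 * ε + c3 * ε ^ 2) := by
      rw [h0]; ring
    rw [e]
    exact mul_ne_zero this.ne' hc
  · apply eventually_nhdsWithin_of_eventually_nhds
    have : ContinuousAt (fun ε : ℝ => c0 + c1 * ε + c2 * ε ^ 2 + c3 * ε ^ 3) 0 := by fun_prop
    apply this.eventually_ne
    simpa only [mul_zero, add_zero, ne_eq, OfNat.ofNat_ne_zero, not_false_eq_true, zero_pow] using h0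

theorem pertS_det {V : Type} (pos : V → V3) {τ : V → ℝ} (hτ : Function.Injective τ)
    {u v w : V} (huv : u ≠ v) (huw : u ≠ w) (hvw : v ≠ w) :
    ∀ᶠ ε : ℝ in 𝓝[>] 0,
      det3 (pertS pos τ ε u) (pertS pos τ ε v) (pertS pos τ ε w) ≠ 0 := by
  have hc : (τ v - τ u) * (τ w - τ u) * (τ w - τ v) ≠ 0 := by
    refine mul_ne_zero (mul_ne_zero ?_ ?_) ?_
    · exact sub_ne_zero.2 (fun h => huv (hτ h).symm)
    · exact sub_ne_zero.2 (fun h => huw (hτ h).symm)
    · exact sub_ne_zero.2 (fun h => hvw (hτ h).symm)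
  let m : V → V3 := fun v => ![1, τ v, τ v ^ 2]
  have e : ∀ ε : ℝ,
      det3 (pertS pos τ ε u) (pertS pos τ ε v) (pertS pos τ ε w) =
      det3 (pos u) (pos v) (pos w) +
      (det3 (m u) (pos v) (pos w) + det3 (pos u) (m v) (pos w) + det3 (pos u) (pos v) (m w)) * ε +
      (det3 (pos u) (m v) (m w) + det3 (m u) (pos v) (m w) + det3 (m u) (m v) (pos w)) * ε ^ 2 +
      ((τ v - τ u) * (τ w - τ u) * (τ w - τ v)) * ε ^ 3 := by
    intro ε
    simp only [det3, pertS, Fin.isValue, Matrix.cons_val_zero, Matrix.cons_val_one, Matrix.cons_val, one_mul, mul_one, m]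
    ring
  filter_upwards [cubic_ne (c0 := det3 (pos u) (pos v) (pos w))
    (c1 := det3 (m u) (pos v) (pos w) + det3 (pos u) (m v) (pos w) + det3 (pos u) (pos v) (m w))
    (c2 := det3 (pos u) (m v) (m w) + det3 (m u) (pos v) (m w) + det3 (m u) (m v) (pos w)) hc]
    with ε hε
  rw [e]
  exact hε

theorem pertS_snd {V : Type} (pos : V → V3) {τ : V → ℝ} (hτ : ∀ v, 0 < τ v) (v : V) :
    ∀ᶠ ε : ℝ in 𝓝[>] 0, pertS pos τ ε v 2 ≠ 0 := by
  have hc : τ v ^ 2 ≠ 0 := (pow_pos (hτ v) 2).ne'
  filter_upwards [lin_ne (c0 := pos v 2) hc] with ε hε h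
  apply hε
  simp only [pertS, Matrix.cons_val] at h
  linarith only [h]

theorem pertS_pair {V : Type} (pos : V → V3) {τ : V → ℝ} (hτ0 : ∀ v, 0 < τ v)
    (hτ : Function.Injective τ) {u v : V} (huv : u ≠ v) :
    ∀ᶠ ε : ℝ in 𝓝[>] 0, pertS pos τ ε u 0 * pertS pos τ ε v 2 ≠
      pertS pos τ ε v 0 * pertS pos τ ε u 2 := by
  have hc : τ v ^ 2 - τ u ^ 2 ≠ 0 := by
    have h1 : τ v - τ u ≠ 0 := sub_ne_zero.2 (fun h => huv (hτ h).symm)
    have h2 : τ v + τ u ≠ 0 := (add_pos (hτ0 v) (hτ0 u)).ne'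
    have h3 : τ v ^ 2 - τ u ^ 2 = (τ v - τ u) * (τ v + τ u) := by ring
    rw [h3]
    exact mul_ne_zero h1 h2
  filter_upwards [quad_ne (c0 := pos u 0 * pos v 2 - pos v 0 * pos u 2)
    (c1 := pos v 2 + pos u 0 * τ v ^ 2 - pos u 2 - pos v 0 * τ u ^ 2) hc] with ε hε h
  apply hε
  simp only [pertS, Matrix.cons_val] at h
  linear_combination h

theorem pertS_disj {V : Type} (pos : V → V3) (τ : V → ℝ) {u v w z : V}
    (h : ConeDisj (pos u) (pos v) (pos w) (pos z)) :
    ∀ᶠ ε : ℝ in 𝓝[>] 0, ConeDisj (pertS pos τ ε u) (pertS pos τ ε v)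
      (pertS pos τ ε w) (pertS pos τ ε z) := by
  apply eventually_nhdsWithin_of_eventually_nhds
  have hK : IsCompact (stdSimplex ℝ (Fin 4)) := isCompact_stdSimplex ℝ (Fin 4)
  have key : ∀ᶠ ε : ℝ in 𝓝 0, ∀ y ∈ stdSimplex ℝ (Fin 4),
      y 0 • pertS pos τ ε u + y 1 • pertS pos τ ε v ≠
      y 2 • pertS pos τ ε w + y 3 • pertS pos τ ε z := by
    apply hK.eventually_forall_of_forall_eventually
      (P := fun ε y => y 0 • pertS pos τ ε u + y 1 • pertS pos τ ε v ≠
      y 2 • pertS pos τ ε w + y 3 • pertS pos τ ε z)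
    intro y hy
    have hcp : ∀ v, Continuous (fun q : ℝ × (Fin 4 → ℝ) => pertS pos τ q.1 v) := by
      intro v
      unfold pertS
      apply continuous_pi
      intro i
      fin_cases i <;> simp <;> fun_prop
    have hopen : IsOpen {q : ℝ × (Fin 4 → ℝ) |
        q.2 0 • pertS pos τ q.1 u + q.2 1 • pertS pos τ q.1 v ≠
        q.2 2 • pertS pos τ q.1 w + q.2 3 • pertS pos τ q.1 z} := by
      apply isOpen_ne_fun
      · exact ((by fun_prop : Continuous (fun q : ℝ × (Fin 4 → ℝ) => q.2 0)).smul (hcp u)).add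
          ((by fun_prop : Continuous (fun q : ℝ × (Fin 4 → ℝ) => q.2 1)).smul (hcp v))
      · exact ((by fun_prop : Continuous (fun q : ℝ × (Fin 4 → ℝ) => q.2 2)).smul (hcp w)).add
          ((by fun_prop : Continuous (fun q : ℝ × (Fin 4 → ℝ) => q.2 3)).smul (hcp z))
    apply hopen.mem_nhds
    simp only [Set.mem_ofPred_eq]
    intro heq
    have p0 : ∀ v, pertS pos τ 0 v = pos v := by
      intro v
      ext i
      fin_cases i <;> simp [pertS]
    rw [p0, p0, p0, p0] at heq
    have h5 := h _ _ _ _ (hy.1 0) (hy.1 1) (hy.1 2) (hy.1 3) heq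
    have h6 := hy.2
    rw [Fin.sum_univ_four, h5.1, h5.2.1, h5.2.2.1, h5.2.2.2] at h6
    norm_num at h6
  filter_upwards [key] with ε hε
  intro s t s' t' hs ht hs' ht' heq
  by_contra hcon
  have hpos : 0 < s + t + s' + t' := by
    by_contra h1
    apply hcon
    refine ⟨?_, ?_, ?_, ?_⟩ <;> linarith
  set r := (s + t + s' + t')⁻¹ with hr
  have hr0 : 0 < r := inv_pos.2 hpos
  refine hε ![r * s, r * t, r * s', r * t'] ⟨?_, ?_⟩ ?_
  · intro i
    fin_cases i <;> simp <;> positivity
  · rw [Fin.sum_univ_four]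
    simp only [Matrix.cons_val]
    rw [← mul_add, ← mul_add, ← mul_add, hr, inv_mul_cancel₀ hpos.ne']
  · simp only [Matrix.cons_val]
    have e1 : (r * s) • pertS pos τ ε u + (r * t) • pertS pos τ ε v =
      r • (s • pertS pos τ ε u + t • pertS pos τ ε v) := by module
    have e2 : (r * s') • pertS pos τ ε w + (r * t') • pertS pos τ ε z =
      r • (s' • pertS pos τ ε w + t' • pertS pos τ ε z) := by module
    rw [e1, e2, heq]

/-- If the arcs are disjoint then the cones meet only in the origin. -/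
theorem coneDisj_of_arcs {p q p' q' : E3} (hp : ‖p‖ = 1) (hq : ‖q‖ = 1) (hp' : ‖p'‖ = 1)
    (hq' : ‖q'‖ = 1) (hpq : p ≠ -q) (hpq' : p' ≠ -q')
    (h : ¬ (geodArc p q ∩ geodArc p' q').Nonempty) :
    ConeDisj (fun i => p i) (fun i => q i) (fun i => p' i) (fun i => q' i) := by
  intro s t s' t' hs ht hs' ht' heq
  have heq' : s • p + t • q = s' • p' + t' • q' := by
    ext i
    have := congrFun heq i
    simpa only [PiLp.add_apply, PiLp.smul_apply, smul_eq_mul, Pi.add_apply, Pi.smul_apply] using this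
  have zero : ∀ {p q : E3} {s t : ℝ}, ‖p‖ = 1 → ‖q‖ = 1 → p ≠ -q → 0 ≤ s → 0 ≤ t →
      s • p + t • q = 0 → s = 0 ∧ t = 0 := by
    intro p q s t hp hq hpq hs ht h0
    have h1 : s • p = -(t • q) := eq_neg_of_add_eq_zero_left h0
    have h2 : s = t := by
      have h3 := congrArg norm h1
      rw [norm_neg, norm_smul, norm_smul, hp, hq, mul_one, mul_one, Real.norm_of_nonneg hs,
        Real.norm_of_nonneg ht] at h3
      exact h3
    by_cases h3 : s = 0
    · exact ⟨h3, h2 ▸ h3⟩
    · exfalso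
      apply hpq
      rw [← h2, ← smul_neg] at h1
      exact smul_right_injective _ h3 h1
  by_cases hx : s • p + t • q = 0
  · have h1 := zero hp hq hpq hs ht hx
    have h2 := zero hp' hq' hpq' hs' ht' (heq' ▸ hx)
    exact ⟨h1.1, h1.2, h2.1, h2.2⟩
  · exfalso
    apply h
    have hn : 0 < ‖s • p + t • q‖ := norm_pos_iff.2 hx
    set r := ‖s • p + t • q‖⁻¹ with hr
    have hr0 : 0 ≤ r := (inv_pos.2 hn).le
    refine ⟨r • (s • p + t • q), ⟨?_, r * s, r * t, mul_nonneg hr0 hs, mul_nonneg hr0 ht, ?_⟩,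
      ⟨?_, r * s', r * t', mul_nonneg hr0 hs', mul_nonneg hr0 ht', ?_⟩⟩
    · rw [norm_smul, Real.norm_of_nonneg hr0, hr, inv_mul_cancel₀ hn.ne']
    · module
    · rw [norm_smul, Real.norm_of_nonneg hr0, hr, inv_mul_cancel₀ hn.ne']
    · rw [heq']; module

end Zar.Asm

end Vale.Agent.P040
end

section

/-!
# The Zarankiewicz bound for geodesic drawings on the sphere
-/

namespace Vale.Agent.P040.Zar.Asm

open Finset Filter Topology

/-- The Zarankiewicz bound for geodesic drawings on the sphere. -/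
theorem sph_bound {m n : ℕ}
    (D : GeodesicDrawing (completeBipartiteGraph (Fin m) (Fin n))) :
    dz m * dz n ≤ D.crossings := by
  classical
  set pos : Fin m ⊕ Fin n → V3 := fun v i => D.pos v i with hpos
  -- general position
  obtain ⟨τ, hτ, hτ0⟩ : ∃ τ : Fin m ⊕ Fin n → ℝ, Function.Injective τ ∧ ∀ v, 0 < τ v := by
    refine ⟨fun v => ((Fintype.equivFin (Fin m ⊕ Fin n) v : ℕ) : ℝ) + 1, ?_, ?_⟩
    · intro u v h
      have h' : ((Fintype.equivFin (Fin m ⊕ Fin n) u : ℕ) : ℝ) =
        ((Fintype.equivFin (Fin m ⊕ Fin n) v : ℕ) : ℝ) := add_right_cancel h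
      have h2 := Nat.cast_injective h'
      exact (Fintype.equivFin (Fin m ⊕ Fin n)).injective (Fin.ext h2)
    · intro v; positivity
  have g1 : ∀ᶠ ε : ℝ in 𝓝[>] 0, ∀ u v w, u ≠ v → u ≠ w → v ≠ w →
      det3 (pertS pos τ ε u) (pertS pos τ ε v) (pertS pos τ ε w) ≠ 0 := by
    simp only [eventually_all]
    intro u v w huv huw hvw
    exact pertS_det pos hτ huv huw hvw
  have g2 : ∀ᶠ ε : ℝ in 𝓝[>] 0, ∀ v, pertS pos τ ε v 2 ≠ 0 := by
    simp only [eventually_all]
    intro v
    exact pertS_snd pos hτ0 v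
  have g3 : ∀ᶠ ε : ℝ in 𝓝[>] 0, ∀ u v, u ≠ v → pertS pos τ ε u 0 * pertS pos τ ε v 2 ≠
      pertS pos τ ε v 0 * pertS pos τ ε u 2 := by
    simp only [eventually_all]
    intro u v huv
    exact pertS_pair pos hτ0 hτ huv
  have g4 : ∀ᶠ ε : ℝ in 𝓝[>] 0, ∀ u v w z,
      ConeDisj (pos u) (pos v) (pos w) (pos z) →
      ConeDisj (pertS pos τ ε u) (pertS pos τ ε v) (pertS pos τ ε w) (pertS pos τ ε z) := by
    simp only [eventually_all]
    intro u v w z h
    exact pertS_disj pos τ h
  obtain ⟨ε, h1, h2, h3, h4⟩ := (g1.and (g2.and (g3.and g4))).exists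
  clear g1 g2 g3 g4
  have main := zar_sph (m := m) (n := n)
    (fun i => pertS pos τ ε (Sum.inl i)) (fun j => pertS pos τ ε (Sum.inr j))
    (fun i => h2 _)
    (fun i j hij => h3 _ _ (fun h => hij (Sum.inr_injective h)))
    (fun i j k hij hik hjk => h1 _ _ _ (fun h => hij (Sum.inr_injective h))
      (fun h => hik (Sum.inr_injective h)) (fun h => hjk (Sum.inr_injective h)))
    (fun i j hij x => h1 _ _ _ (fun h => hij (Sum.inr_injective h)) Sum.inr_ne_inl Sum.inr_ne_inl)
    (fun x y hxy i => h1 _ _ _ (fun h => hxy (Sum.inl_injective h)) Sum.inl_ne_inr Sum.inl_ne_inr)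
  refine main.trans ?_
  rw [TT_eq_card, cnt_eq_card]
  -- adjacency
  have hadj : ∀ (i : Fin m) (j : Fin n),
      (completeBipartiteGraph (Fin m) (Fin n)).Adj (Sum.inl i) (Sum.inr j) := by
    intro i j; simp
  have hmem : ∀ (i : Fin m) (j : Fin n),
      s(Sum.inl i, Sum.inr j) ∈ (completeBipartiteGraph (Fin m) (Fin n)).edgeSet := by
    intro i j; exact hadj i j
  have hcr : ∀ (i i' : Fin m) (j j' : Fin n), i ≠ i' → j ≠ j' →
      ¬ ConeDisj (pertS pos τ ε (Sum.inl i)) (pertS pos τ ε (Sum.inr j))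
        (pertS pos τ ε (Sum.inl i')) (pertS pos τ ε (Sum.inr j')) →
      ∃ x, x ∉ Set.range D.pos ∧ x ∈ edgeArc D.pos s(Sum.inl i, Sum.inr j) ∧
        x ∈ edgeArc D.pos s(Sum.inl i', Sum.inr j') := by
    intro i i' j j' hi hj h
    apply D.exists_crossing (hmem i j) (hmem i' j')
    · intro v hv hv'
      rw [Sym2.mem_iff] at hv hv'
      rcases hv with rfl | rfl <;> rcases hv' with h | h
      · exact hi (Sum.inl_injective h)
      · exact Sum.inl_ne_inr h
      · exact Sum.inr_ne_inl h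
      · exact hj (Sum.inr_injective h)
    · by_contra hc
      apply h
      apply h4
      apply coneDisj_of_arcs (D.norm_pos _) (D.norm_pos _) (D.norm_pos _) (D.norm_pos _)
        (D.not_antipodal _ _ (hadj i j)) (D.not_antipodal _ _ (hadj i' j'))
      rintro ⟨x, hx1, hx2⟩
      exact hc ⟨x, ⟨_, _, rfl, hx1⟩, ⟨_, _, rfl, hx2⟩⟩
  have hex : ∀ s ∈ (prs m ×ˢ prs n).filter (fun s =>
      0 < det3 (pertS pos τ ε (Sum.inr s.2.1)) (pertS pos τ ε (Sum.inr s.2.2))
          (pertS pos τ ε (Sum.inl s.1.1)) *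
        det3 (pertS pos τ ε (Sum.inr s.2.1)) (pertS pos τ ε (Sum.inr s.2.2))
          (pertS pos τ ε (Sum.inl s.1.2)) ∧
      0 < det3 (pertS pos τ ε (Sum.inl s.1.1)) (pertS pos τ ε (Sum.inl s.1.2))
          (pertS pos τ ε (Sum.inr s.2.1)) *
        det3 (pertS pos τ ε (Sum.inl s.1.1)) (pertS pos τ ε (Sum.inl s.1.2))
          (pertS pos τ ε (Sum.inr s.2.2))),
      ∃ x, x ∉ Set.range D.pos ∧
        ((x ∈ edgeArc D.pos s(Sum.inl s.1.1, Sum.inr s.2.1) ∧
          x ∈ edgeArc D.pos s(Sum.inl s.1.2, Sum.inr s.2.2)) ∨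
        (x ∈ edgeArc D.pos s(Sum.inl s.1.1, Sum.inr s.2.2) ∧
          x ∈ edgeArc D.pos s(Sum.inl s.1.2, Sum.inr s.2.1))) := by
    intro s hs
    simp only [mem_filter, mem_product, prs, mem_univ, true_and] at hs
    obtain ⟨⟨hs1, hs2⟩, c1, c2⟩ := hs
    rcases cone_inter _ _ _ _ c1 c2 with h | h
    · obtain ⟨x, hx, a1, a2⟩ := hcr _ _ _ _ (ne_of_lt hs1) (ne_of_lt hs2) h
      exact ⟨x, hx, Or.inl ⟨a1, a2⟩⟩
    · obtain ⟨x, hx, a1, a2⟩ := hcr _ _ _ _ (ne_of_lt hs1) (ne_of_lt hs2).symm h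
      exact ⟨x, hx, Or.inr ⟨a1, a2⟩⟩
  choose! F hF using hex
  have hfin := D.crossingSet_finite
  rw [GeodesicDrawing.crossings, Set.ncard_eq_toFinset_card _ hfin]
  apply Finset.card_le_card_of_injOn F
  · intro s hs
    have hs' := hs
    simp only [coe_filter, mem_product, prs, mem_filter, mem_univ, true_and,
      Set.mem_ofPred_eq] at hs'
    obtain ⟨hx, hc⟩ := hF s hs
    have q1 := ne_of_lt hs'.1.1
    have q2 := ne_of_lt hs'.1.2
    rw [Finset.mem_coe, Set.Finite.mem_toFinset]
    rcases hc with ⟨a1, a2⟩ | ⟨a1, a2⟩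
    · exact ⟨hx, _, hmem _ _, _, hmem _ _, by simp [q1], a1, a2⟩
    · exact ⟨hx, _, hmem _ _, _, hmem _ _, by simp [q1], a1, a2⟩
  · intro s hs t ht hst
    have hs' := hs
    have ht' := ht
    simp only [coe_filter, mem_product, prs, mem_filter, mem_univ, true_and,
      Set.mem_ofPred_eq] at hs' ht'
    obtain ⟨hx, hc⟩ := hF s hs
    obtain ⟨hx', hc'⟩ := hF t ht
    rw [← hst] at hc'
    have q1 := ne_of_lt hs'.1.1
    have q2 := ne_of_lt hs'.1.2
    have r1 := ne_of_lt ht'.1.1
    have r2 := ne_of_lt ht'.1.2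
    have o1 := lt_asymm hs'.1.1
    have o2 := lt_asymm hs'.1.2
    obtain ⟨⟨s1, s2⟩, ⟨s3, s4⟩⟩ := s
    obtain ⟨⟨t1, t2⟩, ⟨t3, t4⟩⟩ := t
    simp only at hs' ht' hc hc' q1 q2 r1 r2 o1 o2 ⊢
    have n1 : s(Sum.inl s1, Sum.inr s3) ≠ (s(Sum.inl s2, Sum.inr s4) : Sym2 (Fin m ⊕ Fin n)) := by
      simp [q1]
    have n2 : s(Sum.inl s1, Sum.inr s4) ≠ (s(Sum.inl s2, Sum.inr s3) : Sym2 (Fin m ⊕ Fin n)) := by
      simp [q1]
    have n3 : s(Sum.inl t1, Sum.inr t3) ≠ (s(Sum.inl t2, Sum.inr t4) : Sym2 (Fin m ⊕ Fin n)) := by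
      simp [r1]
    have n4 : s(Sum.inl t1, Sum.inr t4) ≠ (s(Sum.inl t2, Sum.inr t3) : Sym2 (Fin m ⊕ Fin n)) := by
      simp [r1]
    rcases hc with ⟨a1, a2⟩ | ⟨a1, a2⟩ <;> rcases hc' with ⟨a3, a4⟩ | ⟨a3, a4⟩
    · have := D.pair_unique hx (hmem _ _) (hmem _ _) (hmem _ _) (hmem _ _) n1 n3 a1 a2 a3 a4
      simp only [Sym2.eq, Sym2.rel_iff', Prod.mk.injEq, Sum.inl.injEq, Sum.inr.injEq, Prod.swap_prod_mk, reduceCtorEq, and_self, or_false] at this
      rcases this with ⟨⟨b1, b2⟩, b3, b4⟩ | ⟨⟨b1, b2⟩, b3, b4⟩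
      · rw [b1, b2, b3, b4]
      · exfalso
        rw [b1, b3] at o1
        exact o1 ht'.1.1
    · have := D.pair_unique hx (hmem _ _) (hmem _ _) (hmem _ _) (hmem _ _) n1 n4 a1 a2 a3 a4
      simp at this
      rcases this with ⟨⟨b1, b2⟩, b3, b4⟩ | ⟨⟨b1, b2⟩, b3, b4⟩
      · exfalso
        rw [b2, b4] at o2
        exact o2 ht'.1.2
      · exfalso
        rw [b1, b3] at o1
        exact o1 ht'.1.1
    · have := D.pair_unique hx (hmem _ _) (hmem _ _) (hmem _ _) (hmem _ _) n2 n3 a1 a2 a3 a4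
      simp at this
      rcases this with ⟨⟨b1, b2⟩, b3, b4⟩ | ⟨⟨b1, b2⟩, b3, b4⟩
      · exfalso
        rw [b2, b4] at o2
        exact o2 ht'.1.2
      · exfalso
        rw [b1, b3] at o1
        exact o1 ht'.1.1
    · have := D.pair_unique hx (hmem _ _) (hmem _ _) (hmem _ _) (hmem _ _) n2 n4 a1 a2 a3 a4
      simp at this
      rcases this with ⟨⟨b1, b2⟩, b3, b4⟩ | ⟨⟨b1, b2⟩, b3, b4⟩
      · rw [b1, b2, b3, b4]
      · exfalso
        rw [b1, b3] at o1
        exact o1 ht'.1.1

end Vale.Agent.P040.Zar.Asm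
end

section

/-!
# Zarankiewicz's drawings
-/

namespace Vale.Agent.P040.Upper

open Set

variable {m n : ℕ}

/-- The vertices: one class on the first axis, the other one on the second axis. -/
noncomputable def zpos (u : Fin m → ℝ) (v : Fin n → ℝ) : Fin m ⊕ Fin n → Plane :=
  Sum.elim (fun i => ((u i)⁻¹, 0)) (fun j => (0, (v j)⁻¹))

/-- The edges are segments. -/
noncomputable def zarc (u : Fin m → ℝ) (v : Fin n → ℝ) (e : Sym2 (Fin m ⊕ Fin n)) : Set Plane :=
  {x | ∃ i j, e = s(Sum.inl i, Sum.inr j) ∧ x ∈ segment ℝ (((u i)⁻¹, 0) : Plane) (0, (v j)⁻¹)}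

theorem zarc_eq (u : Fin m → ℝ) (v : Fin n → ℝ) (i : Fin m) (j : Fin n) :
    zarc u v s(Sum.inl i, Sum.inr j) = segment ℝ (((u i)⁻¹, 0) : Plane) (0, (v j)⁻¹) := by
  ext x
  constructor
  · rintro ⟨i', j', h, hx⟩
    simp only [Sym2.eq_iff, Sum.inl.injEq, Sum.inr.injEq, reduceCtorEq, false_and, or_false] at h
    obtain ⟨rfl, rfl⟩ := h
    exact hx
  · intro hx
    exact ⟨i, j, rfl, hx⟩

theorem edge_cases {e : Sym2 (Fin m ⊕ Fin n)}
    (he : e ∈ (completeBipartiteGraph (Fin m) (Fin n)).edgeSet) :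
    ∃ i j, e = s(Sum.inl i, Sum.inr j) := by
  induction e using Sym2.ind with
  | _ a b =>
    rw [SimpleGraph.mem_edgeSet] at he
    rcases a with i | j <;> rcases b with i' | j'
    · simp at he
    · exact ⟨i, j', rfl⟩
    · exact ⟨i', j, Sym2.eq_swap⟩
    · simp at he

theorem edge_ne {i i' : Fin m} {j j' : Fin n}
    (h : (s(Sum.inl i, Sum.inr j) : Sym2 (Fin m ⊕ Fin n)) ≠ s(Sum.inl i', Sum.inr j')) :
    i ≠ i' ∨ j ≠ j' := by
  by_contra hc
  push Not at hc
  apply h
  rw [hc.1, hc.2]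

theorem interior {u : Fin m → ℝ} {v : Fin n → ℝ} (hu : ∀ i, u i ≠ 0) (hv : ∀ j, v j ≠ 0)
    {x : Plane} (hx : x ∉ range (zpos u v)) {i : Fin m} {j : Fin n}
    (h : x ∈ segment ℝ (((u i)⁻¹, 0) : Plane) (0, (v j)⁻¹)) :
    0 < u i * x.1 ∧ 0 < v j * x.2 ∧ u i * x.1 + v j * x.2 = 1 := by
  rw [seg_iff (hu i) (hv j)] at h
  obtain ⟨h1, h2, h3⟩ := h
  refine ⟨lt_of_le_of_ne h1 ?_, lt_of_le_of_ne h2 ?_, h3⟩
  · intro h0
    apply hx
    refine ⟨Sum.inr j, ?_⟩
    have e1 : x.1 = 0 := by
      rcases mul_eq_zero.1 h0.symm with h | h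
      · exact absurd h (hu i)
      · exact h
    rw [← h0, zero_add] at h3
    apply Prod.ext
    · simp [zpos, e1]
    · simp only [zpos, Sum.elim_inr]
      exact (eq_inv_of_mul_eq_one_right h3).symm
  · intro h0
    apply hx
    refine ⟨Sum.inl i, ?_⟩
    have e1 : x.2 = 0 := by
      rcases mul_eq_zero.1 h0.symm with h | h
      · exact absurd h (hv j)
      · exact h
    rw [← h0, add_zero] at h3
    apply Prod.ext
    · simp only [zpos, Sum.elim_inl]
      exact (eq_inv_of_mul_eq_one_right h3).symm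
    · simp [zpos, e1]

theorem two_edges {u : Fin m → ℝ} {v : Fin n → ℝ} (hui : Function.Injective u)
    (hvi : Function.Injective v) {x : Plane} {i i' : Fin m} {j j' : Fin n} (hne : i ≠ i' ∨ j ≠ j')
    (h : 0 < u i * x.1 ∧ 0 < v j * x.2 ∧ u i * x.1 + v j * x.2 = 1)
    (h' : 0 < u i' * x.1 ∧ 0 < v j' * x.2 ∧ u i' * x.1 + v j' * x.2 = 1) :
    i ≠ i' ∧ j ≠ j' ∧ u i * v j' - u i' * v j ≠ 0 ∧
      (u i * v j' - u i' * v j) * x.1 = v j' - v j ∧
      (u i * v j' - u i' * v j) * x.2 = u i - u i' := by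
  obtain ⟨a1, a2, a3⟩ := h
  obtain ⟨b1, b2, b3⟩ := h'
  have x1 : x.1 ≠ 0 := by rintro h; rw [h, mul_zero] at a1; exact lt_irrefl _ a1
  have x2 : x.2 ≠ 0 := by rintro h; rw [h, mul_zero] at a2; exact lt_irrefl _ a2
  have hi : i ≠ i' := by
    rintro rfl
    have : v j * x.2 = v j' * x.2 := by linarith
    exact (hne.resolve_left (fun h => h rfl)) (hvi (mul_right_cancel₀ x2 this))
  have hj : j ≠ j' := by
    rintro rfl
    have : u i * x.1 = u i' * x.1 := by linarith only [a3, b3]
    exact hi (hui (mul_right_cancel₀ x1 this))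
  have e1 : (u i * v j' - u i' * v j) * x.1 = v j' - v j := by
    linear_combination v j' * a3 - v j * b3
  have e2 : (u i * v j' - u i' * v j) * x.2 = u i - u i' := by
    linear_combination u i * b3 - u i' * a3
  refine ⟨hi, hj, ?_, e1, e2⟩
  intro h0
  rw [h0, zero_mul] at e1
  exact hj (hvi (sub_eq_zero.1 e1.symm)).symm

/-- Zarankiewicz's drawing of the complete bipartite graph. -/
noncomputable def zdraw (u : Fin m → ℝ) (v : Fin n → ℝ) (hui : Function.Injective u)
    (hvi : Function.Injective v) (hu : ∀ i, u i ≠ 0) (hv : ∀ j, v j ≠ 0)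
    (hdet : ∀ i i' i'' j j' j'', i ≠ i' → i ≠ i'' → i' ≠ i'' → j ≠ j' → j ≠ j'' → j' ≠ j'' →
      v j * (u i'' - u i') + v j' * (u i - u i'') + v j'' * (u i' - u i) ≠ 0) :
    Drawing (completeBipartiteGraph (Fin m) (Fin n)) where
  pos := zpos u v
  pos_inj := by
    rintro (i | j) (i' | j') h
    · simp only [zpos, Sum.elim_inl, Prod.mk.injEq, and_true, inv_inj] at h
      rw [hui h]
    · simp only [zpos, Sum.elim_inl, Sum.elim_inr, Prod.mk.injEq] at h
      exact absurd h.1 (inv_ne_zero (hu i))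
    · simp only [zpos, Sum.elim_inl, Sum.elim_inr, Prod.mk.injEq] at h
      exact absurd h.2 (inv_ne_zero (hv j))
    · simp only [zpos, Sum.elim_inr, Prod.mk.injEq, true_and, inv_inj] at h
      rw [hvi h]
  arc := zarc u v
  isArc := by
    have key : ∀ i j, IsArc (zarc u v s(Sum.inl i, Sum.inr j)) (zpos u v (Sum.inl i))
        (zpos u v (Sum.inr j)) := by
      intro i j
      rw [zarc_eq]
      apply isArc_segment
      intro h
      rw [Prod.mk.injEq] at h
      exact inv_ne_zero (hu i) h.1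
    rintro (i | j) (i' | j') h
    · simp at h
    · exact key i j'
    · rw [Sym2.eq_swap]
      exact (key i' j).symm
    · simp at h
  avoid := by
    intro e he w hw
    obtain ⟨i, j, rfl⟩ := edge_cases he
    rw [zarc_eq, seg_iff (hu i) (hv j)] at hw
    obtain ⟨-, -, h3⟩ := hw
    rcases w with i' | j'
    · simp only [zpos, Sum.elim_inl, mul_zero, add_zero] at h3
      have : u i = u i' := by
        have h4 := hu i'
        field_simp at h3
        exact h3
      rw [hui this]
      simp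
    · simp only [zpos, Sum.elim_inr, mul_zero, zero_add] at h3
      have : v j = v j' := by
        have h4 := hv j'
        field_simp at h3
        exact h3
      rw [hvi this]
      simp
  finite := by
    intro e he f hf hef
    obtain ⟨i, j, rfl⟩ := edge_cases he
    obtain ⟨i', j', rfl⟩ := edge_cases hf
    apply Set.Subsingleton.finite
    rintro x ⟨⟨hx1, hx2⟩, hx3, -⟩ y ⟨⟨hy1, hy2⟩, hy3, -⟩
    rw [zarc_eq] at hx1 hx3 hy1 hy3
    obtain ⟨-, -, hd, e1, e2⟩ := two_edges hui hvi (edge_ne hef) (interior hu hv hx2 hx1)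
      (interior hu hv hx2 hx3)
    obtain ⟨-, -, -, e3, e4⟩ := two_edges hui hvi (edge_ne hef) (interior hu hv hy2 hy1)
      (interior hu hv hy2 hy3)
    apply Prod.ext
    · exact mul_left_cancel₀ hd (e1.trans e3.symm)
    · exact mul_left_cancel₀ hd (e2.trans e4.symm)
  proper := by
    intro e he f hf hef x hx
    obtain ⟨i, j, rfl⟩ := edge_cases he
    obtain ⟨i', j', rfl⟩ := edge_cases hf
    obtain ⟨⟨hx1, hx2⟩, hx3, -⟩ := hx
    rw [zarc_eq] at hx1 hx3
    have a := interior hu hv hx2 hx1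
    have b := interior hu hv hx2 hx3
    obtain ⟨-, -, hd, -, -⟩ := two_edges hui hvi (edge_ne hef) a b
    rw [zarc_eq, zarc_eq]
    exact crossAt_seg (hu i) (hv j) (hu i') (hv j') hd a.1 a.2.1 a.2.2 b.1 b.2.1 b.2.2
  two := by
    intro e he f hf g hg hef heg hfg x hx h1 h2 h3
    obtain ⟨i, j, rfl⟩ := edge_cases he
    obtain ⟨i', j', rfl⟩ := edge_cases hf
    obtain ⟨i'', j'', rfl⟩ := edge_cases hg
    rw [zarc_eq] at h1 h2 h3
    have a := interior hu hv hx h1
    have b := interior hu hv hx h2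
    have c := interior hu hv hx h3
    obtain ⟨d1, d2, -, -, -⟩ := two_edges hui hvi (edge_ne hef) a b
    obtain ⟨d3, d4, -, -, -⟩ := two_edges hui hvi (edge_ne heg) a c
    obtain ⟨d5, d6, -, -, -⟩ := two_edges hui hvi (edge_ne hfg) b c
    apply hdet i i' i'' j j' j'' d1 d3 d5 d2 d4 d6
    have x2 : x.2 ≠ 0 := by
      rintro h
      have := a.2.1
      rw [h, mul_zero] at this
      exact lt_irrefl _ this
    apply mul_right_cancel₀ x2
    rw [zero_mul]
    linear_combination (u i'' - u i') * a.2.2 + (u i - u i'') * b.2.2 + (u i' - u i) * c.2.2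

theorem zdraw_rectilinear (u : Fin m → ℝ) (v : Fin n → ℝ) (hui : Function.Injective u)
    (hvi : Function.Injective v) (hu : ∀ i, u i ≠ 0) (hv : ∀ j, v j ≠ 0) (hdet) :
    (zdraw u v hui hvi hu hv hdet).Rectilinear := by
  rintro (i | j) (i' | j') h
  · simp at h
  · exact zarc_eq u v i j'
  · show zarc u v s(Sum.inr j, Sum.inl i') = _
    rw [Sym2.eq_swap, zarc_eq, segment_symm]
    rfl
  · simp at h

end Vale.Agent.P040.Upper
end

section

/-!
# The number of crossings of Zarankiewicz's drawings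
-/

namespace Vale.Agent.P040.Upper

open Finset

/-- The pairs in the same half. -/
def same (m : ℕ) : Finset (Fin m × Fin m) :=
  (Mono.prs m).filter (fun p => (p.1.1 < m / 2 ↔ p.2.1 < m / 2))

theorem card_same (m : ℕ) : (same m).card = Mono.dz m := by
  classical
  have h := Mono.two_mul_prs m (fun i j => if (i.1 < m / 2 ↔ j.1 < m / 2) then 1 else 0)
    (fun i j => by simp only [iff_comm])
  have h1 : ∀ i j : Fin m, (if (i.1 < m / 2 ↔ j.1 < m / 2) then (1 : ℤ) else 0) =
      (if i.1 < m / 2 then 1 else 0) * (if j.1 < m / 2 then 1 else 0) +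
      (1 - if i.1 < m / 2 then 1 else 0) * (1 - if j.1 < m / 2 then 1 else 0) := by
    intro i j
    by_cases hi : i.1 < m / 2 <;> by_cases hj : j.1 < m / 2 <;> simp [hi, hj]
  have hT : ∑ i : Fin m, (if i.1 < m / 2 then (1 : ℤ) else 0) = (m / 2 : ℕ) := by
    rw [Finset.sum_boole]
    congr 1
    rw [Fin.card_filter_val_lt]
    omega
  have h2 : ∑ i : Fin m, ∑ j : Fin m, (if (i.1 < m / 2 ↔ j.1 < m / 2) then (1 : ℤ) else 0) =
      ((m / 2 : ℕ) : ℤ) * (m / 2 : ℕ) + (m - (m / 2 : ℕ)) * (m - (m / 2 : ℕ)) := by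
    simp only [h1, Finset.sum_add_distrib, ← Finset.mul_sum, ← Finset.sum_mul,
      Finset.sum_sub_distrib, Finset.sum_const, Finset.card_univ, Fintype.card_fin, nsmul_eq_mul,
      mul_one, hT]
  rw [h2] at h
  simp only [if_true, Finset.sum_const, Finset.card_univ, Fintype.card_fin, nsmul_eq_mul,
    mul_one] at h
  have h3 : ((same m).card : ℤ) =
      ∑ p ∈ Mono.prs m, if (p.1.1 < m / 2 ↔ p.2.1 < m / 2) then (1 : ℤ) else 0 := by
    rw [Finset.sum_boole]
    rfl
  rw [← h3] at h
  unfold Mono.dz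
  generalize (same m).card = S at h ⊢
  obtain ⟨r, rfl | rfl⟩ := Nat.even_or_odd' m
  · rcases Nat.eq_zero_or_pos r with rfl | hr
    · simp only [mul_zero, CharP.cast_eq_zero, add_zero, Nat.zero_div, sub_self, mul_eq_zero, OfNat.ofNat_ne_zero, Int.natCast_eq_zero, false_or, zero_tsub] at h ⊢
      omega
    · have e1 : 2 * r / 2 = r := by omega
      have e2 : (2 * r - 1) / 2 = r - 1 := by omega
      rw [e1] at h ⊢
      rw [e2]
      obtain ⟨k, rfl⟩ : ∃ k, r = k + 1 := ⟨r - 1, by omega⟩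
      push_cast at h
      rw [Nat.add_sub_cancel]
      zify
      linarith only [h]
  · have e1 : (2 * r + 1) / 2 = r := by omega
    have e2 : (2 * r + 1 - 1) / 2 = r := by (clear * -; omega)
    rw [e1] at h ⊢
    rw [e2]
    push_cast at h
    zify
    linarith only [h]

variable {m n : ℕ}

theorem same_of_sign {u : Fin m → ℝ} (hs : ∀ i, 0 < u i ↔ i.1 < m / 2) {x : ℝ} {i i' : Fin m}
    (h : 0 < u i * x) (h' : 0 < u i' * x) : (i.1 < m / 2 ↔ i'.1 < m / 2) := by
  rw [← hs, ← hs]
  constructor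
  · intro hi
    have hx := (mul_pos_iff_of_pos_left hi).1 h
    exact (mul_pos_iff_of_pos_right hx).1 h'
  · intro hi
    have hx := (mul_pos_iff_of_pos_left hi).1 h'
    exact (mul_pos_iff_of_pos_right hx).1 h

/-- The crossing point of two edges. -/
noncomputable def cpt (u : Fin m → ℝ) (v : Fin n → ℝ) (t : (Fin m × Fin m) × (Fin n × Fin n)) :
    Plane :=
  ((v t.2.1 - v t.2.2) / (u t.1.1 * v t.2.1 - u t.1.2 * v t.2.2),
    (u t.1.1 - u t.1.2) / (u t.1.1 * v t.2.1 - u t.1.2 * v t.2.2))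

theorem crossings_le (u : Fin m → ℝ) (v : Fin n → ℝ) (hui : Function.Injective u)
    (hvi : Function.Injective v) (hu : ∀ i, u i ≠ 0) (hv : ∀ j, v j ≠ 0) (hdet)
    (hum : StrictMono (fun i => |u i|)) (hvm : StrictMono (fun j => |v j|))
    (hus : ∀ i, 0 < u i ↔ i.1 < m / 2) (hvs : ∀ j, 0 < v j ↔ j.1 < n / 2) :
    (zdraw u v hui hvi hu hv hdet).crossings ≤ Mono.dz m * Mono.dz n := by
  classical
  have key : ∀ i j i' j' (x : Plane), i < i' →
      (0 < u i * x.1 ∧ 0 < v j * x.2 ∧ u i * x.1 + v j * x.2 = 1) →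
      (0 < u i' * x.1 ∧ 0 < v j' * x.2 ∧ u i' * x.1 + v j' * x.2 = 1) → j ≠ j' →
      x ∈ cpt u v '' ((same m ×ˢ same n : Finset _) : Set ((Fin m × Fin m) × (Fin n × Fin n))) := by
    intro i j i' j' x hii a b hjj
    obtain ⟨-, -, hd, e1, e2⟩ := two_edges hui hvi (Or.inl hii.ne) a b
    have x1 : 0 < |x.1| := by
      rw [abs_pos]
      intro h
      have := a.1
      rw [h, mul_zero] at this
      exact lt_irrefl _ this
    have x2 : 0 < |x.2| := by
      rw [abs_pos]
      intro h
      have := a.2.1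
      rw [h, mul_zero] at this
      exact lt_irrefl _ this
    have g1 : u i * x.1 < u i' * x.1 := by
      rw [← abs_of_pos a.1, ← abs_of_pos b.1, abs_mul, abs_mul]
      exact mul_lt_mul_of_pos_right (hum hii) x1
    have g2 : v j' * x.2 < v j * x.2 := by linarith only [a, b, g1]
    rw [← abs_of_pos a.2.1, ← abs_of_pos b.2.1, abs_mul, abs_mul] at g2
    have g3 := lt_of_mul_lt_mul_right g2 x2.le
    have g4 : j' < j := hvm.lt_iff_lt.1 g3
    refine ⟨((i, i'), (j', j)), ?_, ?_⟩
    · rw [mem_coe, mem_product]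
      constructor
      · simp only [same, Mono.prs, mem_filter, mem_univ, true_and]
        exact ⟨hii, same_of_sign hus a.1 b.1⟩
      · simp only [same, Mono.prs, mem_filter, mem_univ, true_and]
        exact ⟨g4, same_of_sign hvs b.2.1 a.2.1⟩
    · unfold cpt
      apply Prod.ext
      · simp only
        rw [div_eq_iff hd, mul_comm, e1]
      · simp only
        rw [div_eq_iff hd, mul_comm, e2]
  have hsub : (zdraw u v hui hvi hu hv hdet).crossingSet ⊆
      cpt u v '' ((same m ×ˢ same n : Finset _) : Set ((Fin m × Fin m) × (Fin n × Fin n))) := by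
    rintro x ⟨hx, e, he, f, hf, hef, h1, h2⟩
    obtain ⟨i, j, rfl⟩ := edge_cases he
    obtain ⟨i', j', rfl⟩ := edge_cases hf
    have h1' : x ∈ segment ℝ (((u i)⁻¹, 0) : Plane) (0, (v j)⁻¹) := by rw [← zarc_eq]; exact h1
    have h2' : x ∈ segment ℝ (((u i')⁻¹, 0) : Plane) (0, (v j')⁻¹) := by rw [← zarc_eq]; exact h2
    have a := interior hu hv hx h1'
    have b := interior hu hv hx h2'
    obtain ⟨hi, hj, -, -, -⟩ := two_edges hui hvi (edge_ne hef) a b
    rcases lt_or_gt_of_ne hi with h | h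
    · exact key i j i' j' x h a b hj
    · exact key i' j' i j x h b a hj.symm
  unfold Drawing.crossings
  calc _ ≤ (cpt u v '' ((same m ×ˢ same n : Finset _) :
        Set ((Fin m × Fin m) × (Fin n × Fin n)))).ncard :=
        Set.ncard_le_ncard hsub ((Finset.finite_toSet _).image _)
    _ ≤ ((same m ×ˢ same n : Finset _) : Set ((Fin m × Fin m) × (Fin n × Fin n))).ncard :=
        Set.ncard_image_le (Finset.finite_toSet _)
    _ = Mono.dz m * Mono.dz n := by
        rw [Set.ncard_coe_finset, card_product, card_same, card_same]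

/-- The reciprocals of the coordinates. -/
noncomputable def uu (m : ℕ) (i : Fin m) : ℝ := if i.1 < m / 2 then (i.1 + 1 : ℝ) else -(i.1 + 1 : ℝ)

noncomputable def vv (K : ℝ) (n : ℕ) (j : Fin n) : ℝ :=
  if j.1 < n / 2 then K ^ (j.1 + 1) else - K ^ (j.1 + 1)

theorem abs_uu (i : Fin m) : |uu m i| = i.1 + 1 := by
  unfold uu
  split_ifs
  · exact abs_of_pos (by positivity)
  · rw [abs_neg]; exact abs_of_pos (by positivity)

theorem abs_vv {K : ℝ} (hK : 0 < K) (j : Fin n) : |vv K n j| = K ^ (j.1 + 1) := by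
  unfold vv
  split_ifs
  · exact abs_of_pos (by positivity)
  · rw [abs_neg]; exact abs_of_pos (by positivity)

theorem uu_mono (m : ℕ) : StrictMono (fun i => |uu m i|) := by
  intro i j hij
  simp only [abs_uu]
  have : (i.1 : ℝ) < j.1 := by exact_mod_cast hij
  linarith

theorem vv_mono {K : ℝ} (hK : 1 < K) (n : ℕ) : StrictMono (fun j => |vv K n j|) := by
  intro i j hij
  simp only [abs_vv (by linarith : 0 < K)]
  apply pow_lt_pow_right₀ hK
  have : i.1 < j.1 := hij
  omega

theorem inj_of_abs {k : ℕ} {w : Fin k → ℝ} (h : StrictMono (fun i => |w i|)) :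
    Function.Injective w := by
  intro i j hij
  apply h.injective
  simp only [hij]

theorem uu_diff (i j : Fin m) (h : i ≠ j) : 1 ≤ |uu m i - uu m j| ∧ |uu m i - uu m j| ≤ 2 * m := by
  have hi := i.2
  have hj := j.2
  have hne : i.1 ≠ j.1 := fun h' => h (Fin.ext h')
  constructor
  · have h1 := abs_abs_sub_abs_le (uu m i) (uu m j)
    rw [abs_uu, abs_uu] at h1
    refine le_trans ?_ h1
    rcases lt_or_gt_of_ne hne with h2 | h2
    · have : (i.1 : ℝ) + 1 ≤ j.1 := by exact_mod_cast h2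
      rw [abs_sub_comm, abs_of_nonneg (by (clear * - this; linarith))]
      linarith only [this]
    · have : (j.1 : ℝ) + 1 ≤ i.1 := by exact_mod_cast h2
      rw [abs_of_nonneg (by linarith only [this])]
      linarith only [this]
  · have h1 := abs_sub (uu m i) (uu m j)
    rw [abs_uu, abs_uu] at h1
    have : (i.1 : ℝ) + 1 ≤ m := by exact_mod_cast hi
    have : (j.1 : ℝ) + 1 ≤ m := by exact_mod_cast hj
    linarith

theorem vv_dom {K : ℝ} {a b c : ℝ} {N : ℝ} (hN : 0 ≤ N) (hK : 2 * N < K) (hK1 : 1 ≤ K)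
    {p q r : Fin n} (hpq : q < p) (hpr : r < p) (ha : 1 ≤ |a|) (hb : |b| ≤ N) (hc : |c| ≤ N) :
    vv K n p * a + vv K n q * b + vv K n r * c ≠ 0 := by
  intro h0
  have hK0 : 0 < K := by linarith only [hN, hK]
  have h1 : |vv K n p * a| = |vv K n q * b + vv K n r * c| := by
    rw [show vv K n p * a = -(vv K n q * b + vv K n r * c) by linarith only [h0], abs_neg]
  have h2 := abs_add_le (vv K n q * b) (vv K n r * c)
  rw [abs_mul, abs_mul, abs_vv hK0, abs_vv hK0] at h2
  rw [abs_mul, abs_vv hK0] at h1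
  have hq : K ^ (q.1 + 1) ≤ K ^ p.1 := pow_le_pow_right₀ hK1 hpq
  have hr : K ^ (r.1 + 1) ≤ K ^ p.1 := pow_le_pow_right₀ hK1 hpr
  have hp : 0 < K ^ p.1 := by positivity
  have h3 : K ^ (q.1 + 1) * |b| ≤ K ^ p.1 * N := by
    apply mul_le_mul hq hb (abs_nonneg _) hp.le
  have h4 : K ^ (r.1 + 1) * |c| ≤ K ^ p.1 * N := by
    apply mul_le_mul hr hc (abs_nonneg _) hp.le
  have h5 : K ^ (p.1 + 1) ≤ K ^ (p.1 + 1) * |a| := le_mul_of_one_le_right (by positivity) ha
  have h6 : K ^ (p.1 + 1) = K ^ p.1 * K := pow_succ _ _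
  nlinarith only [h1, h2, h3, h4, h5, h6, hK, hp]

/-- There is a rectilinear drawing with few crossings. -/
theorem exists_drawing (m n : ℕ) : ∃ D : Drawing (completeBipartiteGraph (Fin m) (Fin n)),
    D.Rectilinear ∧ D.crossings ≤ Mono.dz m * Mono.dz n ∧ (∀ i, (D.pos (Sum.inl i)).1 ≠ 0) ∧
      (∀ j, (D.pos (Sum.inr j)).1 = 0) ∧
      (∀ a b b', b ≠ b' → ∀ p ∈ D.arc s(Sum.inl a, Sum.inr b),
        p ∈ D.arc s(Sum.inl a, Sum.inr b') → p = D.pos (Sum.inl a)) := by
  set K : ℝ := 4 * m + 2 with hKdef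
  have hm0 : (0 : ℝ) ≤ m := Nat.cast_nonneg m
  have hK1 : 1 < K := by linarith
  have hK0 : 0 < K := by linarith
  have hdet : ∀ (i i' i'' : Fin m) (j j' j'' : Fin n), i ≠ i' → i ≠ i'' → i' ≠ i'' → j ≠ j' →
      j ≠ j'' → j' ≠ j'' → vv K n j * (uu m i'' - uu m i') + vv K n j' * (uu m i - uu m i'') +
        vv K n j'' * (uu m i' - uu m i) ≠ 0 := by
    intro i i' i'' j j' j'' a b c d e f
    have hN : (0 : ℝ) ≤ 2 * m := by linarith
    have hK : 2 * (2 * (m : ℝ)) < K := by linarith only []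
    have A := uu_diff i'' i' c.symm
    have B := uu_diff i i'' b
    have C := uu_diff i' i a.symm
    rcases lt_or_gt_of_ne d with h1 | h1
    · rcases lt_or_gt_of_ne f with h2 | h2
      · -- `j'' ` is the largest
        have := vv_dom (n := n) hN hK hK1.le (h1.trans h2) h2 C.1 A.2 B.2
        intro h
        apply this
        linarith only [h]
      · have := vv_dom (n := n) hN hK hK1.le h1 h2 B.1 A.2 C.2
        intro h
        apply this
        (clear * - h; linarith)
    · rcases lt_or_gt_of_ne e with h2 | h2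
      · have := vv_dom (n := n) hN hK hK1.le h2 (h1.trans h2) C.1 A.2 B.2
        intro h
        apply this
        linarith only [h]
      · have := vv_dom (n := n) hN hK hK1.le h1 h2 A.1 B.2 C.2
        intro h
        apply this
        linarith only [h]
  have hum := uu_mono m
  have hvm := vv_mono hK1 n
  have hu0 : ∀ i, uu m i ≠ 0 := by
    intro i
    rw [← abs_pos, abs_uu]
    (clear * -; positivity)
  have hv0 : ∀ j, vv K n j ≠ 0 := by
    intro i
    rw [← abs_pos, abs_vv hK0]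
    (clear * -; positivity)
  refine ⟨zdraw (uu m) (vv K n) (inj_of_abs hum) (inj_of_abs hvm) hu0 hv0 hdet,
    zdraw_rectilinear _ _ _ _ _ _ _, crossings_le _ _ _ _ _ _ _ hum hvm ?_ ?_,
    fun i => inv_ne_zero (hu0 i), fun j => rfl, ?_⟩
  · intro i
    unfold uu
    split_ifs with h
    · exact ⟨fun _ => h, fun _ => by (clear * -; positivity)⟩
    · refine ⟨fun h' => ?_, fun h' => absurd h' h⟩
      have : (0 : ℝ) < i.1 + 1 := by (clear * -; positivity)
      linarith only [h']
  · intro i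
    unfold vv
    split_ifs with h
    · exact ⟨fun _ => h, fun _ => by (clear * -; positivity)⟩
    · refine ⟨fun h' => ?_, fun h' => absurd h' h⟩
      have : (0 : ℝ) < K ^ (i.1 + 1) := by (clear * -; positivity)
      linarith only [h', this]
  · intro a b b' hbb p hp hp'
    by_cases hr : p ∈ Set.range (zpos (uu m) (vv K n))
    · obtain ⟨w, rfl⟩ := hr
      have h1 := (zdraw (uu m) (vv K n) (inj_of_abs hum) (inj_of_abs hvm) hu0 hv0 hdet).avoid
        s(Sum.inl a, Sum.inr b) (by simp) w hp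
      have h2 := (zdraw (uu m) (vv K n) (inj_of_abs hum) (inj_of_abs hvm) hu0 hv0 hdet).avoid
        s(Sum.inl a, Sum.inr b') (by simp) w hp'
      rw [Sym2.mem_iff] at h1 h2
      rcases h1 with rfl | rfl
      · rfl
      · rcases h2 with h2 | h2
        · exact absurd h2 (by simp)
        · rw [Sum.inr.injEq] at h2
          exact absurd h2 hbb
    · have e1 : p ∈ segment ℝ (((uu m a)⁻¹, 0) : Plane) (0, (vv K n b)⁻¹) := by
        rw [← zarc_eq]; exact hp
      have e2 : p ∈ segment ℝ (((uu m a)⁻¹, 0) : Plane) (0, (vv K n b')⁻¹) := by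
        rw [← zarc_eq]; exact hp'
      exact absurd rfl (two_edges (inj_of_abs hum) (inj_of_abs hvm) (Or.inr hbb)
        (interior hu0 hv0 hr e1) (interior hu0 hv0 hr e2)).1

end Vale.Agent.P040.Upper
end

section

/-!
# Central projection of rectilinear drawings to the sphere
-/

namespace Vale.Agent.P040.Upper

open Set

/-- The norm of `(p, 1)`. -/
noncomputable def nr (p : Plane) : ℝ := Real.sqrt (p.1 ^ 2 + p.2 ^ 2 + 1)

theorem nr_pos (p : Plane) : 0 < nr p := Real.sqrt_pos.2 (by (clear * -; positivity))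

theorem nr_sq (p : Plane) : nr p ^ 2 = p.1 ^ 2 + p.2 ^ 2 + 1 := Real.sq_sqrt (by (clear * -; positivity))

/-- Central projection of the plane to the open upper half-sphere. -/
noncomputable def cp (p : Plane) : E3 := !₂[p.1 / nr p, p.2 / nr p, 1 / nr p]

theorem cp0 (p : Plane) : cp p 0 = p.1 / nr p := rfl
theorem cp1 (p : Plane) : cp p 1 = p.2 / nr p := rfl
theorem cp2 (p : Plane) : cp p 2 = 1 / nr p := rfl

theorem cp_inj : Function.Injective cp := by
  intro p q h
  have h0 := congrArg (fun z : E3 => z 0) h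
  have h1 := congrArg (fun z : E3 => z 1) h
  have h2 := congrArg (fun z : E3 => z 2) h
  simp only [cp0, cp1, cp2] at h0 h1 h2
  have hp := nr_pos p
  have hq := nr_pos q
  have hn : nr p = nr q := by
    field_simp at h2
    exact h2.symm
  rw [hn] at h0 h1
  apply Prod.ext
  · exact (div_left_inj' hq.ne').1 h0
  · exact (div_left_inj' hq.ne').1 h1

theorem norm_eq_one_iff (x : E3) : ‖x‖ = 1 ↔ x 0 ^ 2 + x 1 ^ 2 + x 2 ^ 2 = 1 := by
  rw [EuclideanSpace.norm_eq, Real.sqrt_eq_one, Fin.sum_univ_three]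
  simp only [Real.norm_eq_abs, sq_abs]

theorem norm_cp (p : Plane) : ‖cp p‖ = 1 := by
  rw [norm_eq_one_iff, cp0, cp1, cp2]
  have hp := nr_pos p
  have h := nr_sq p
  rw [div_pow, div_pow, div_pow, one_pow, ← add_div, ← add_div, h, div_self]
  rw [← h]
  positivity

theorem geodArc_cp (p q : Plane) : geodArc (cp p) (cp q) = cp '' segment ℝ p q := by
  have hp := nr_pos p
  have hq := nr_pos q
  ext x
  constructor
  · rintro ⟨hx, s, t, hs, ht, rfl⟩
    set a := s / nr p with ha
    set b := t / nr q with hb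
    have ha0 : 0 ≤ a := by (clear * - hs hp; positivity)
    have hb0 : 0 ≤ b := by (clear * - ht hq; positivity)
    have e0 : (s • cp p + t • cp q) 0 = a * p.1 + b * q.1 := by
      show s * cp p 0 + t * cp q 0 = _
      rw [cp0, cp0, ha, hb]; ring
    have e1 : (s • cp p + t • cp q) 1 = a * p.2 + b * q.2 := by
      show s * cp p 1 + t * cp q 1 = _
      rw [cp1, cp1, ha, hb]; ring
    have e2 : (s • cp p + t • cp q) 2 = a + b := by
      show s * cp p 2 + t * cp q 2 = _
      rw [cp2, cp2, ha, hb]; ring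
    rw [norm_eq_one_iff, e0, e1, e2] at hx
    have hab : 0 < a + b := by
      rcases lt_or_eq_of_le (add_nonneg ha0 hb0) with h | h
      · exact h
      · have h1 : a = 0 := by linarith only [ha0, hb0, h]
        have h2 : b = 0 := by linarith only [hb0, ha0, h]
        rw [h1, h2] at hx
        norm_num at hx
    set c := a + b with hc
    refine ⟨(a / c) • p + (b / c) • q, ⟨a / c, b / c, by (clear * - hs hp hab; positivity), by (clear * - ht hq hab; positivity), ?_, rfl⟩, ?_⟩
    · rw [← add_div, ← hc, div_self hab.ne']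
    · have f1 : ((a / c) • p + (b / c) • q).1 = (a * p.1 + b * q.1) / c := by
        simp only [Prod.fst_add, Prod.smul_fst, smul_eq_mul]; ring
      have f2 : ((a / c) • p + (b / c) • q).2 = (a * p.2 + b * q.2) / c := by
        simp only [Prod.snd_add, Prod.smul_snd, smul_eq_mul]; ring
      have f3 : nr ((a / c) • p + (b / c) • q) = 1 / c := by
        unfold nr
        rw [f1, f2, Real.sqrt_eq_iff_mul_self_eq (by (clear * -; positivity)) (by (clear * - hab; positivity))]
        field_simp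
        linarith only [hx]
      ext k
      fin_cases k
      · show cp _ 0 = (s • cp p + t • cp q) 0
        rw [cp0, f1, f3, e0]
        (clear * - hab; field_simp)
      · show cp _ 1 = (s • cp p + t • cp q) 1
        rw [cp1, f2, f3, e1]
        (clear * - hab; field_simp)
      · show cp _ 2 = (s • cp p + t • cp q) 2
        rw [cp2, f3, e2]
        field_simp
  · rintro ⟨y, ⟨a, b, ha, hb, hab, rfl⟩, rfl⟩
    refine ⟨norm_cp _, a * nr p / nr (a • p + b • q), b * nr q / nr (a • p + b • q), ?_, ?_, ?_⟩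
    · have := nr_pos (a • p + b • q)
      positivity
    · have := nr_pos (a • p + b • q)
      positivity
    · have hy := nr_pos (a • p + b • q)
      set N := nr (a • p + b • q) with hN
      ext k
      fin_cases k
      · show cp (a • p + b • q) 0 = a * nr p / N * cp p 0 + b * nr q / N * cp q 0
        rw [cp0, cp0, cp0, ← hN]
        simp only [Prod.fst_add, Prod.smul_fst, smul_eq_mul]
        field_simp
      · show cp (a • p + b • q) 1 = a * nr p / N * cp p 1 + b * nr q / N * cp q 1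
        rw [cp1, cp1, cp1, ← hN]
        simp only [Prod.snd_add, Prod.smul_snd, smul_eq_mul]
        field_simp
      · show cp (a • p + b • q) 2 = a * nr p / N * cp p 2 + b * nr q / N * cp q 2
        rw [cp2, cp2, cp2, ← hN]
        field_simp
        linarith only [hab]

variable {V : Type} {G : SimpleGraph V}

theorem edgeArc_cp (D : Drawing G) (hD : D.Rectilinear) {e : Sym2 V} (he : e ∈ G.edgeSet) :
    edgeArc (fun v => cp (D.pos v)) e = cp '' D.arc e := by
  induction e using Sym2.ind with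
  | _ u v =>
    rw [SimpleGraph.mem_edgeSet] at he
    rw [hD u v he]
    ext x
    constructor
    · rintro ⟨a, b, hab, hx⟩
      rw [geodArc_cp] at hx
      rcases Sym2.eq_iff.1 hab with ⟨rfl, rfl⟩ | ⟨rfl, rfl⟩
      · exact hx
      · rw [segment_symm]; exact hx
    · intro hx
      refine ⟨u, v, rfl, ?_⟩
      rw [geodArc_cp]
      exact hx

theorem mem_cp_arc {S : Set Plane} {p : Plane} : cp p ∈ cp '' S ↔ p ∈ S :=
  cp_inj.mem_set_image

theorem range_cp (D : Drawing G) :
    range (fun v => cp (D.pos v)) = cp '' range D.pos := by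
  rw [← range_comp]; rfl

/-- The central projection of a rectilinear drawing. -/
noncomputable def toSphere (D : Drawing G) (hD : D.Rectilinear) : GeodesicDrawing G where
  pos := fun v => cp (D.pos v)
  norm_pos := fun v => norm_cp _
  pos_inj := cp_inj.comp D.pos_inj
  not_antipodal := by
    intro u v _ h
    have h2 := congrArg (fun z : E3 => z 2) h
    have h3 : cp (D.pos u) 2 = - cp (D.pos v) 2 := h2
    rw [cp2, cp2] at h3
    have h4 : 0 < 1 / nr (D.pos u) := one_div_pos.2 (nr_pos _)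
    have h5 : 0 < 1 / nr (D.pos v) := one_div_pos.2 (nr_pos _)
    linarith
  avoid := by
    intro e he w hw
    rw [edgeArc_cp D hD he, mem_cp_arc] at hw
    exact D.avoid e he w hw
  finite := by
    intro e he f hf hef
    rw [edgeArc_cp D hD he, edgeArc_cp D hD hf, range_cp, ← image_sdiff cp_inj,
      ← image_sdiff cp_inj, ← image_inter cp_inj]
    exact (D.finite e he f hf hef).image _
  two := by
    intro e he f hf g hg hef heg hfg x hx he' hf' hg'
    rw [range_cp] at hx
    rw [edgeArc_cp D hD he] at he'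
    rw [edgeArc_cp D hD hf] at hf'
    rw [edgeArc_cp D hD hg] at hg'
    obtain ⟨y, hy, rfl⟩ := he'
    rw [mem_cp_arc] at hf' hg'
    exact D.two e he f hf g hg hef heg hfg y (fun h => hx ⟨y, h, rfl⟩) hy hf' hg'

theorem toSphere_crossings (D : Drawing G) (hD : D.Rectilinear) :
    (toSphere D hD).crossings = D.crossings := by
  have : (toSphere D hD).crossingSet = cp '' D.crossingSet := by
    ext x
    constructor
    · rintro ⟨hx, e, he, f, hf, hef, h1, h2⟩
      have h1' : x ∈ edgeArc (fun v => cp (D.pos v)) e := h1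
      have h2' : x ∈ edgeArc (fun v => cp (D.pos v)) f := h2
      rw [edgeArc_cp D hD he] at h1'
      rw [edgeArc_cp D hD hf] at h2'
      obtain ⟨y, hy, rfl⟩ := h1'
      rw [mem_cp_arc] at h2'
      refine ⟨y, ⟨?_, e, he, f, hf, hef, hy, h2'⟩, rfl⟩
      rintro ⟨v, rfl⟩
      exact hx ⟨v, rfl⟩
    · rintro ⟨y, ⟨hy, e, he, f, hf, hef, h1, h2⟩, rfl⟩
      refine ⟨?_, e, he, f, hf, hef, ?_, ?_⟩
      · rintro ⟨v, hv⟩
        exact hy ⟨v, cp_inj hv⟩
      · show cp y ∈ edgeArc (fun v => cp (D.pos v)) e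
        rw [edgeArc_cp D hD he, mem_cp_arc]
        exact h1
      · show cp y ∈ edgeArc (fun v => cp (D.pos v)) f
        rw [edgeArc_cp D hD hf, mem_cp_arc]
        exact h2
  unfold GeodesicDrawing.crossings Drawing.crossings
  rw [this, ncard_image_of_injective _ cp_inj]

end Vale.Agent.P040.Upper
end

section

/-!
# Exact minimum numbers of crossings
-/

namespace Vale.Agent.P040.Exact

theorem rect_ge {m n : ℕ} (D : Drawing (K m n)) (hD : D.Rectilinear) : zar m n ≤ D.crossings := by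
  have hdec : Zar.Asm.Decomp := by
    intro h P hx hP
    exact Zar.decomposition (fun i => (P i).1) (fun i => (P i).2) hx hP
  exact Zar.Asm.rect_bound hdec D hD

theorem mono_ge {m n : ℕ} (D : Drawing (K m n)) (hD : D.Monotone) : zar m n ≤ D.crossings := by
  obtain ⟨ψ, hψ⟩ := hD
  have hD : (D.map ψ).XMonotone := by
    rintro u v huv _ ⟨p, hp, rfl⟩ _ ⟨q, hq, rfl⟩ h
    rw [hψ u v huv p hp q hq h]
  obtain ⟨i, k, U, hi, hk, hb, hs⟩ := Mono.exists_data (D.map ψ) hD
  rw [← D.map_crossings ψ]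
  exact (Mono.core i k U hi hk hb).trans hs

theorem xBounded_ge {m n : ℕ} (D : Drawing (K m n)) (hD : D.XBounded) (hdj : D.Uncrossed) :
    zar m n ≤ D.crossings := by
  obtain ⟨ψ, hψ⟩ := hD
  rw [← D.map_crossings ψ]
  apply xBounded_bound (D.map ψ)
  · intro a b
    exact (hψ (Sum.inl a) (Sum.inr b) (by simp)).1
  · rintro a b _ ⟨p, hp, rfl⟩
    exact (hψ (Sum.inl a) (Sum.inr b) (by simp)).2 p hp
  · rintro a b b' hbb _ ⟨p, hp, rfl⟩ ⟨q, hq, hqp⟩
    rw [ψ.injective hqp] at hq
    exact congrArg ψ (hdj a b b' hbb p hp hq)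

theorem twoPage_ge {m n : ℕ} (D : Drawing (K m n)) (hD : D.TwoPage) : zar m n ≤ D.crossings := by
  obtain ⟨ψ, h1, h2⟩ := hD
  rw [← D.map_crossings ψ]
  apply twoPage_bound (D.map ψ)
  · exact h1
  · intro u v huv
    rcases h2 u v huv with h | h
    · left
      rintro _ ⟨p, hp, rfl⟩
      exact h p hp
    · right
      rintro _ ⟨p, hp, rfl⟩
      exact h p hp

theorem sph_ge {m n : ℕ} (D : GeodesicDrawing (K m n)) : zar m n ≤ D.crossings :=
  Zar.Asm.sph_bound D

theorem seg_fst {p q x : Plane} (hx : x ∈ segment ℝ p q) :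
    min p.1 q.1 ≤ x.1 ∧ x.1 ≤ max p.1 q.1 := by
  obtain ⟨a, b, ha, hb, hab, rfl⟩ := hx
  simp only [Prod.fst_add, Prod.smul_fst, smul_eq_mul]
  have h1 : a * min p.1 q.1 ≤ a * p.1 := mul_le_mul_of_nonneg_left (min_le_left _ _) ha
  have h2 : b * min p.1 q.1 ≤ b * q.1 := mul_le_mul_of_nonneg_left (min_le_right _ _) hb
  have h3 : a * p.1 ≤ a * max p.1 q.1 := mul_le_mul_of_nonneg_left (le_max_left _ _) ha
  have h4 : b * q.1 ≤ b * max p.1 q.1 := mul_le_mul_of_nonneg_left (le_max_right _ _) hb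
  have h5 : a * min p.1 q.1 + b * min p.1 q.1 = min p.1 q.1 := by rw [← add_mul, hab, one_mul]
  have h6 : a * max p.1 q.1 + b * max p.1 q.1 = max p.1 q.1 := by rw [← add_mul, hab, one_mul]
  constructor <;> linarith only [h1, h2, h5, h3, h4, h6]

theorem seg_inj {p q x y : Plane} (h : p.1 ≠ q.1) (hx : x ∈ segment ℝ p q)
    (hy : y ∈ segment ℝ p q) (hxy : x.1 = y.1) : x = y := by
  obtain ⟨a, b, -, -, hab, rfl⟩ := hx
  obtain ⟨c, d, -, -, hcd, rfl⟩ := hy
  simp only [Prod.fst_add, Prod.smul_fst, smul_eq_mul] at hxy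
  have e1 : a = 1 - b := by linarith only [hab]
  have e2 : c = 1 - d := by linarith
  rw [e1, e2] at hxy
  have h1 : (b - d) * (q.1 - p.1) = 0 := by linarith
  have h2 : b = d := by
    rcases mul_eq_zero.1 h1 with h3 | h3
    · linarith
    · exact absurd (by linarith : p.1 = q.1) h
  rw [e1, e2, h2]

theorem exists_rect (m n : ℕ) : ∃ D : Drawing (K m n), D.Rectilinear ∧ D.Monotone ∧ D.XBounded ∧
    D.Uncrossed ∧ D.crossings = zar m n := by
  obtain ⟨D, h1, h2, h3, h4, h5⟩ := Upper.exists_drawing m n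
  have hsep : ∀ u v, (K m n).Adj u v → (D.pos u).1 ≠ (D.pos v).1 := by
    rintro (i | j) (i' | j') h
    · simp at h
    · rw [h4 j']; exact h3 i
    · rw [h4 j]; exact (h3 i').symm
    · simp at h
  refine ⟨D, h1, ⟨Homeomorph.refl _, ?_⟩, ⟨Homeomorph.refl _, ?_⟩, h5,
    le_antisymm h2 (rect_ge D h1)⟩
  · intro u v huv p hp q hq hpq
    rw [h1 u v huv] at hp hq
    exact seg_inj (hsep u v huv) hp hq hpq
  · intro u v huv
    refine ⟨hsep u v huv, ?_⟩
    intro p hp
    rw [h1 u v huv] at hp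
    exact seg_fst hp

theorem rect_least (m n : ℕ) :
    IsLeast {c | ∃ D : Drawing (K m n), D.Rectilinear ∧ D.crossings = c} (zar m n) := by
  obtain ⟨D, h1, h2, h3, h4, h5⟩ := exists_rect m n
  refine ⟨⟨D, h1, h5⟩, ?_⟩
  rintro _ ⟨D, hD, rfl⟩
  exact rect_ge D hD

theorem mono_least (m n : ℕ) :
    IsLeast {c | ∃ D : Drawing (K m n), D.Monotone ∧ D.crossings = c} (zar m n) := by
  obtain ⟨D, h1, h2, h3, h4, h5⟩ := exists_rect m n
  refine ⟨⟨D, h2, h5⟩, ?_⟩
  rintro _ ⟨D, hD, rfl⟩
  exact mono_ge D hD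

theorem xBounded_least (m n : ℕ) :
    IsLeast {c | ∃ D : Drawing (K m n), D.XBounded ∧ D.Uncrossed ∧ D.crossings = c} (zar m n) := by
  obtain ⟨D, h1, h2, h3, h4, h5⟩ := exists_rect m n
  refine ⟨⟨D, h3, h4, h5⟩, ?_⟩
  rintro _ ⟨D, hD, hD', rfl⟩
  exact xBounded_ge D hD hD'

theorem sph_least (m n : ℕ) :
    IsLeast {c | ∃ D : GeodesicDrawing (K m n), D.crossings = c} (zar m n) := by
  obtain ⟨D, h1, h2, h3, h4, h5⟩ := exists_rect m n
  refine ⟨⟨Upper.toSphere D h1, by rw [Upper.toSphere_crossings, h5]⟩, ?_⟩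
  rintro _ ⟨D, rfl⟩
  exact sph_ge D

end Vale.Agent.P040.Exact
end
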